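import Vale.Agent.P229.Basic
import Vale.Agent.P229.Gauss

/-! P229, module I: alignment of the zero set of `P` with the axis, and the sign of `N κ`. -/

namespace Vale.Agent.P229

open MeasureTheory Set
open scoped ContDiff

namespace AlignAux

open BasicAux

variable {f : ℝ × ℝ → ℝ} {z : ℝ × ℝ}

theorem hasDerivAt_line {U : Set (ℝ × ℝ)} (hU : IsOpen U) (hf : Sm U f) (p v : ℝ × ℝ) (t : ℝ)
    (ht : p + t • v ∈ U) :
    HasDerivAt (fun t : ℝ => f (p + t • v))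
      (dx f (p + t • v) * v.1 + dy f (p + t • v) * v.2) t := by
  have h1 := (hf.diff hU ht).hasFDerivAt
  have h2 : HasDerivAt (fun t : ℝ => p + t • v) v t := by
    simpa using ((hasDerivAt_id t).smul_const v).const_add p
  have h3 := h1.comp_hasDerivAt t h2
  refine h3.congr_deriv ?_
  have e2 : v = v.1 • ((1 : ℝ), (0 : ℝ)) + v.2 • ((0 : ℝ), (1 : ℝ)) := by
    ext <;> simp
  nth_rewrite 2 [e2]
  rw [map_add, map_smul, map_smul]
  simp only [dx, dy, smul_eq_mul]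
  ring

/-- mean value theorem on a segment from `p` to `p + v` -/
theorem mvt {U : Set (ℝ × ℝ)} (hU : IsOpen U) (hf : Sm U f) (p v : ℝ × ℝ)
    (hs : ∀ t ∈ Icc (0 : ℝ) 1, p + t • v ∈ U) :
    ∃ t ∈ Icc (0 : ℝ) 1, f (p + v) - f p =
      dx f (p + t • v) * v.1 + dy f (p + t • v) * v.2 := by
  obtain ⟨c, hc, h⟩ := exists_hasDerivAt_eq_slope (fun t : ℝ => f (p + t • v))
    (fun t => dx f (p + t • v) * v.1 + dy f (p + t • v) * v.2) zero_lt_one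
    (fun t ht => (hasDerivAt_line hU hf p v t (hs t ht)).continuousAt.continuousWithinAt)
    (fun t ht => hasDerivAt_line hU hf p v t (hs t ⟨ht.1.le, ht.2.le⟩))
  refine ⟨c, ⟨hc.1.le, hc.2.le⟩, ?_⟩
  rw [h]
  simp

/-- vertical mean value theorem in `disc 2` -/
theorem vmv (hf : Sm (disc 2) f) (hz : z ∈ disc 2) :
    ∃ w ∈ disc 2, f z - f (z.1, 0) = dy f w * z.2 := by
  have hs : ∀ t ∈ Icc (0 : ℝ) 1, ((z.1, 0) : ℝ × ℝ) + t • ((0 : ℝ), z.2) ∈ disc 2 := by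
    intro t ht
    rw [mem_disc] at *
    simp only [Prod.smul_mk, smul_eq_mul, mul_zero, Prod.mk_add_mk, add_zero, zero_add]
    have h1 : (t * z.2) ^ 2 ≤ z.2 ^ 2 := by
      rw [mul_pow]
      have : t ^ 2 ≤ 1 := pow_le_one₀ ht.1 ht.2
      nlinarith [sq_nonneg z.2]
    linarith
  obtain ⟨t, ht, h⟩ := mvt (isOpen_disc 2) hf (z.1, 0) (0, z.2) hs
  refine ⟨_, hs t ht, ?_⟩
  simpa using h

/-- horizontal mean value theorem on the axis -/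
theorem hmv (hf : Sm (disc 2) f) {x : ℝ} (hx : |x| < 2) :
    ∃ ξ : ℝ, |ξ| ≤ |x| ∧ f (x, 0) - f 0 = dx f (ξ, 0) * x := by
  have hs : ∀ t ∈ Icc (0 : ℝ) 1, (0 : ℝ × ℝ) + t • ((x, 0) : ℝ × ℝ) ∈ disc 2 := by
    intro t ht
    rw [mem_disc]
    simp only [Prod.smul_mk, smul_eq_mul, mul_zero, zero_add]
    have h1 : |t * x| < 2 := by
      rw [abs_mul, abs_of_nonneg ht.1]
      have := abs_nonneg x
      nlinarith [ht.2, ht.1]
    have h2 := sq_lt_sq' (by linarith [(abs_lt.1 h1).1]) (abs_lt.1 h1).2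
    linarith
  obtain ⟨t, ht, h⟩ := mvt (isOpen_disc 2) hf 0 (x, 0) hs
  refine ⟨t * x, ?_, ?_⟩
  · rw [abs_mul, abs_of_nonneg ht.1]
    have := abs_nonneg x
    nlinarith [ht.2]
  · simpa using h

theorem axis_mem {x : ℝ} (hx : |x| < 2) : ((x, 0) : ℝ × ℝ) ∈ disc 2 := by
  rw [mem_disc]
  have h2 := sq_lt_sq' (by linarith [(abs_lt.1 hx).1]) (abs_lt.1 hx).2
  simp only
  linarith

/-- Gronwall on the axis -/
theorem gron_right {G δ : ℝ} (hG : 0 < G) (hf : Sm (disc 2) f) (h0 : f 0 = 0)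
    (hb : ∀ w ∈ disc 2, |dx f w| ≤ G * (|f w| + δ)) (hδ : 0 ≤ δ) (s : ℝ) (hs : s = 1 ∨ s = -1)
    {x : ℝ} (hx0 : 0 ≤ x) (hx : x < 2) : |f (s * x, 0)| ≤ Real.exp (2 * G) * δ := by
  have hmem : ∀ t ∈ Icc (0 : ℝ) x, (0 : ℝ × ℝ) + t • ((s, 0) : ℝ × ℝ) ∈ disc 2 := by
    intro t ht
    have e : (0 : ℝ × ℝ) + t • ((s, 0) : ℝ × ℝ) = (t * s, 0) := by simp
    rw [e]
    apply axis_mem
    rw [abs_mul]
    have : |s| = 1 := by rcases hs with h | h <;> simp [h]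
    rw [this, mul_one, abs_of_nonneg ht.1]
    linarith [ht.2]
  have h := norm_le_gronwallBound_of_norm_deriv_right_le
    (f := fun t : ℝ => f ((0 : ℝ × ℝ) + t • ((s, 0) : ℝ × ℝ)))
    (f' := fun t : ℝ => dx f ((0 : ℝ × ℝ) + t • ((s, 0) : ℝ × ℝ)) * s +
      dy f ((0 : ℝ × ℝ) + t • ((s, 0) : ℝ × ℝ)) * 0)
    (δ := 0) (K := G) (ε := G * δ) (a := 0) (b := x)
    (fun t ht => (hasDerivAt_line (isOpen_disc 2) hf 0 (s, 0) t
      (hmem t ht)).continuousAt.continuousWithinAt)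
    (fun t ht => (hasDerivAt_line (isOpen_disc 2) hf 0 (s, 0) t
      (hmem t ⟨ht.1, ht.2.le⟩)).hasDerivWithinAt)
    (by simp [h0])
    (fun t ht => by
      have h1 := hb _ (hmem t ⟨ht.1, ht.2.le⟩)
      rw [mul_zero, add_zero, Real.norm_eq_abs, Real.norm_eq_abs, abs_mul]
      have : |s| = 1 := by rcases hs with h | h <;> simp [h]
      rw [this, mul_one]
      linarith)
    x ⟨hx0, le_rfl⟩
  have e : (0 : ℝ × ℝ) + x • ((s, 0) : ℝ × ℝ) = (s * x, 0) := by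
    simp [mul_comm]
  simp only [e, sub_zero, Real.norm_eq_abs] at h
  refine h.trans ?_
  rw [gronwallBound_of_K_ne_0 hG.ne']
  simp only [zero_mul, zero_add]
  have e2 : G * δ / G = δ := by field_simp
  rw [e2, mul_comm]
  apply mul_le_mul_of_nonneg_right _ hδ
  have : Real.exp (G * x) ≤ Real.exp (2 * G) := Real.exp_le_exp.2 (by nlinarith)
  linarith

theorem gron {G δ : ℝ} (hG : 0 < G) (hf : Sm (disc 2) f) (h0 : f 0 = 0)
    (hb : ∀ w ∈ disc 2, |dx f w| ≤ G * (|f w| + δ)) (hδ : 0 ≤ δ) {x : ℝ} (hx : |x| < 2) :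
    |f (x, 0)| ≤ Real.exp (2 * G) * δ := by
  rcases le_total 0 x with h | h
  · have := gron_right hG hf h0 hb hδ 1 (Or.inl rfl) h (by rwa [abs_of_nonneg h] at hx)
    rwa [one_mul] at this
  · have := gron_right hG hf h0 hb hδ (-1) (Or.inr rfl) (x := -x) (by linarith)
      (by rwa [abs_of_nonpos h] at hx)
    rwa [neg_one_mul, neg_neg] at this

/-- size relations for small `ε` -/
theorem sizes {M ε : ℝ} (hM : 1 ≤ M) (hε : 0 < ε) (hε1 : ε < 1 / (1000 * M ^ 3)) :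
    M * ε ≤ 1 / 1000 ∧ (M * ε) ^ 2 ≤ ε / M / 1000 ∧ M * ε ^ 2 ≤ ε / M / 1000 := by
  have hM0 : 0 < M := by linarith
  have ht : M ^ 3 * ε ≤ 1 / 1000 := by
    rw [lt_div_iff₀ (by positivity)] at hε1
    nlinarith
  have hM2 : 1 ≤ M ^ 2 := one_le_pow₀ hM
  have hη0 : 0 < ε / M := by positivity
  have hE2 : (M * ε) ^ 2 ≤ ε / M / 1000 := by
    have : (M * ε) ^ 2 = M ^ 3 * ε * (ε / M) := by field_simp
    rw [this]
    nlinarith
  refine ⟨?_, hE2, ?_⟩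
  · have : M * ε ≤ M ^ 3 * ε := by
      have : M * 1 ≤ M * M ^ 2 := mul_le_mul_of_nonneg_left hM2 hM0.le
      nlinarith
    linarith
  · have : M * ε ^ 2 ≤ (M * ε) ^ 2 := by
      rw [mul_pow]
      have : M ≤ M ^ 2 := by nlinarith
      nlinarith [sq_nonneg ε]
    linarith

theorem first_small {M ε e0 : ℝ} {T : Tri} (hT : Nrm M ε e0 T) (hz : z ∈ disc 2) :
    |dx T.b z| ≤ 4 * (M * ε) ∧ |dy T.a z| ≤ 4 * (M * ε) ∧ |dx T.h z| ≤ 4 * (M * ε) ∧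
      |dy T.h z| ≤ 4 * (M * ε) := by
  have k1 := mv4 (contDiff_dx T.hb) (fun z hz => (ob2 hT.ob hz).1)
    (fun z hz => (ob2 hT.ob hz).2.2.1) hz
  have k2 := mv4 (contDiff_dy T.ha) (fun z hz => (ob2 hT.oa hz).2.1)
    (fun z hz => (ob2 hT.oa hz).2.2.2) hz
  have k3 := mv4 (contDiff_dx T.hh) (fun z hz => (ob2 hT.oh hz).1)
    (fun z hz => (ob2 hT.oh hz).2.2.1) hz
  have k4 := mv4 (contDiff_dy T.hh) (fun z hz => (ob2 hT.oh hz).2.1)
    (fun z hz => (ob2 hT.oh hz).2.2.2) hz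
  rw [hT.bx, sub_zero] at k1
  rw [hT.ay, sub_zero] at k2
  rw [hT.hx, sub_zero] at k3
  rw [hT.hy, sub_zero] at k4
  exact ⟨k1, k2, k3, k4⟩

theorem abs_le_of_sub_one {x : ℝ} (h : |x - 1| ≤ 1 / 50) : |x| ≤ 102 / 100 := by
  rw [abs_le] at *; constructor <;> linarith

theorem lyy_lower {M ε e0 C0 j0 : ℝ} {T : Tri} (hM : 1 ≤ M) (hε : 0 < ε)
    (hε1 : ε < 1 / (1000 * M ^ 3)) (hT : Nrm M ε e0 T) (hB : Basic M ε C0 j0 T)
    (hz : z ∈ disc 2) : ε / (2 * M) ≤ lyy T z := by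
  obtain ⟨s1, s2, s3⟩ := sizes hM hε hε1
  obtain ⟨bx, ay, hx, hy⟩ := first_small hT hz
  have hyyF : |dy (dy T.h) z - dy (dy T.h) 0| ≤ 4 * (M * ε ^ 2) :=
    mv4 (contDiff_dy (contDiff_dy T.hh)) (fun z hz => ob3 hT.oh hz true false false)
      (fun z hz => ob3 hT.oh hz false false false) hz
  have hyy0 := hT.hyy
  have a1 := (ob2 hT.oa hz).2.2.2
  have b1 := (ob2 hT.ob hz).2.2.2
  have ax := abs_le_of_sub_one (hB.ax z hz)
  have by' := abs_le_of_sub_one (hB.by' z hz)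
  have jl := hB.J0l z hz
  have hM0 : 0 < M := by linarith
  have e : ε / (2 * M) = ε / M / 2 := by field_simp
  rw [e]
  have hη0 : 0 < ε / M := by positivity
  set E := M * ε with hE
  have hE0 : 0 < E := by positivity
  generalize ε / M = η at *
  have hyyL : 996 / 1000 * η ≤ dy (dy T.h) z := by
    have := (abs_le.1 hyyF).1
    linarith
  have n1b : |n1 T z| ≤ 42 / 10 * E := by
    have q1 := mul_le' bx hy
    have q2 := mul_le' hx by'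
    have q3 : |n1 T z| ≤ 4 * E * (4 * E) + 4 * E * (102 / 100) := by
      show |dx T.b z * dy T.h z - dx T.h z * dy T.b z| ≤ _
      rw [abs_le] at *
      constructor <;> linarith
    nlinarith
  have n2b : |n2 T z| ≤ 42 / 10 * E := by
    have q1 := mul_le' hx ay
    have q2 := mul_le' ax hy
    have q3 : |n2 T z| ≤ 4 * E * (4 * E) + 102 / 100 * (4 * E) := by
      show |dx T.h z * dy T.a z - dx T.a z * dy T.h z| ≤ _
      rw [abs_le] at *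
      constructor <;> linarith
    nlinarith
  have n3b : 9 / 10 ≤ n3 T z := by
    have : n3 T z = br T.a T.b z := by simp only [n3, br]; ring
    rw [this]; exact jl
  have p1 := (abs_le.1 (mul_le' a1 n1b)).1
  have p2 := (abs_le.1 (mul_le' b1 n2b)).1
  have p3 : 996 / 1000 * η * (9 / 10) ≤ dy (dy T.h) z * n3 T z :=
    mul_le_mul hyyL n3b (by norm_num) (by linarith)
  show η / 2 ≤ dy (dy T.a) z * n1 T z + dy (dy T.b) z * n2 T z + dy (dy T.h) z * n3 T z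
  have p4 : E * (42 / 10 * E) = 42 / 10 * E ^ 2 := by ring
  rw [p4] at p1 p2
  linarith

theorem n_bd {M ε C0 j0 : ℝ} {T : Tri} (hB : Basic M ε C0 j0 T) :
    Bd (disc 2) 1 (8 * C0 * C0) (n1 T) ∧ Bd (disc 2) 1 (8 * C0 * C0) (n2 T) ∧
      Bd (disc 2) 1 (8 * C0 * C0) (n3 T) := by
  have hU := isOpen_disc 2
  have sa : Sm (disc 2) T.a := Sm.of_contDiff T.ha
  have sb : Sm (disc 2) T.b := Sm.of_contDiff T.hb
  have sh : Sm (disc 2) T.h := Sm.of_contDiff T.hh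
  have e : 8 * C0 * C0 = 2 ^ 2 * C0 * C0 + 2 ^ 2 * C0 * C0 := by ring
  rw [e]
  refine ⟨?_, ?_, ?_⟩
  · exact (Bd.sub hU ((sb.dx hU).mul (sh.dy hU)) ((sh.dx hU).mul (sb.dy hU))
      (Bd.mul hU (sb.dx hU) (sh.dy hU) hB.bdb.dx hB.bdh.dy)
      (Bd.mul hU (sh.dx hU) (sb.dy hU) hB.bdh.dx hB.bdb.dy)).of_le one_le_two
  · exact (Bd.sub hU ((sh.dx hU).mul (sa.dy hU)) ((sa.dx hU).mul (sh.dy hU))
      (Bd.mul hU (sh.dx hU) (sa.dy hU) hB.bdh.dx hB.bda.dy)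
      (Bd.mul hU (sa.dx hU) (sh.dy hU) hB.bda.dx hB.bdh.dy)).of_le one_le_two
  · exact (Bd.sub hU ((sa.dx hU).mul (sb.dy hU)) ((sb.dx hU).mul (sa.dy hU))
      (Bd.mul hU (sa.dx hU) (sb.dy hU) hB.bda.dx hB.bdb.dy)
      (Bd.mul hU (sb.dx hU) (sa.dy hU) hB.bdb.dx hB.bda.dy)).of_le one_le_two

theorem sm_n (T : Tri) : Sm (disc 2) (n1 T) ∧ Sm (disc 2) (n2 T) ∧ Sm (disc 2) (n3 T) := by
  have hU := isOpen_disc 2
  have sa : Sm (disc 2) T.a := Sm.of_contDiff T.ha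
  have sb : Sm (disc 2) T.b := Sm.of_contDiff T.hb
  have sh : Sm (disc 2) T.h := Sm.of_contDiff T.hh
  exact ⟨((sb.dx hU).mul (sh.dy hU)).sub ((sh.dx hU).mul (sb.dy hU)),
    ((sh.dx hU).mul (sa.dy hU)).sub ((sa.dx hU).mul (sh.dy hU)),
    ((sa.dx hU).mul (sb.dy hU)).sub ((sb.dx hU).mul (sa.dy hU))⟩

theorem three_bd {C D : ℝ} {f1 f2 f3 g1 g2 g3 : ℝ × ℝ → ℝ} (s1 : Sm (disc 2) f1)
    (s2 : Sm (disc 2) f2) (s3 : Sm (disc 2) f3) (t1 : Sm (disc 2) g1) (t2 : Sm (disc 2) g2)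
    (t3 : Sm (disc 2) g3) (b1 : Bd (disc 2) 1 C f1) (b2 : Bd (disc 2) 1 C f2)
    (b3 : Bd (disc 2) 1 C f3) (c1 : Bd (disc 2) 1 D g1) (c2 : Bd (disc 2) 1 D g2)
    (c3 : Bd (disc 2) 1 D g3) :
    Bd (disc 2) 1 (6 * C * D) (fun z => f1 z * g1 z + f2 z * g2 z + f3 z * g3 z) ∧
      Sm (disc 2) (fun z => f1 z * g1 z + f2 z * g2 z + f3 z * g3 z) := by
  have hU := isOpen_disc 2
  refine ⟨?_, ((s1.mul t1).add (s2.mul t2)).add (s3.mul t3)⟩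
  have e : 6 * C * D = 2 ^ 1 * C * D + 2 ^ 1 * C * D + 2 ^ 1 * C * D := by ring
  rw [e]
  exact Bd.add hU ((s1.mul t1).add (s2.mul t2)) (s3.mul t3)
    (Bd.add hU (s1.mul t1) (s2.mul t2) (Bd.mul hU s1 t1 b1 c1) (Bd.mul hU s2 t2 b2 c2))
    (Bd.mul hU s3 t3 b3 c3)

theorem l_bd {M ε C0 j0 : ℝ} {T : Tri} (hB : Basic M ε C0 j0 T) :
    (Bd (disc 2) 1 (48 * C0 ^ 3) (lxx T) ∧ Sm (disc 2) (lxx T)) ∧
    (Bd (disc 2) 1 (48 * C0 ^ 3) (lxy T) ∧ Sm (disc 2) (lxy T)) ∧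
    (Bd (disc 2) 1 (48 * C0 ^ 3) (lyy T) ∧ Sm (disc 2) (lyy T)) := by
  have hU := isOpen_disc 2
  have sa : Sm (disc 2) T.a := Sm.of_contDiff T.ha
  have sb : Sm (disc 2) T.b := Sm.of_contDiff T.hb
  have sh : Sm (disc 2) T.h := Sm.of_contDiff T.hh
  obtain ⟨t1, t2, t3⟩ := sm_n T
  obtain ⟨c1, c2, c3⟩ := n_bd hB
  have e : 48 * C0 ^ 3 = 6 * C0 * (8 * C0 * C0) := by ring
  rw [e]
  exact ⟨three_bd ((sa.dx hU).dx hU) ((sb.dx hU).dx hU) ((sh.dx hU).dx hU) t1 t2 t3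
      hB.bda.dx.dx hB.bdb.dx.dx hB.bdh.dx.dx c1 c2 c3,
    three_bd ((sa.dy hU).dx hU) ((sb.dy hU).dx hU) ((sh.dy hU).dx hU) t1 t2 t3
      hB.bda.dy.dx hB.bdb.dy.dx hB.bdh.dy.dx c1 c2 c3,
    three_bd ((sa.dy hU).dy hU) ((sb.dy hU).dy hU) ((sh.dy hU).dy hU) t1 t2 t3
      hB.bda.dy.dy hB.bdb.dy.dy hB.bdh.dy.dy c1 c2 c3⟩

theorem disc23 (hz : z ∈ disc 2) : z ∈ disc 3 := disc_mono (by norm_num) (by norm_num) hz

/-- the right side of the Gauss equation -/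
noncomputable def DD (ψ : ℝ × ℝ → ℝ) : ℝ × ℝ → ℝ := fun z =>
  - Real.exp (6 * ψ z) * (dx (dx ψ) z + dy (dy ψ) z)

theorem DD_bd {Cs δ b : ℝ} {ψ : ℝ × ℝ → ℝ} (hCs : 0 < Cs) (hδ : 0 < δ) (hδ1 : δ ≤ 1)
    (hI : Isl Cs δ b ψ) (z : ℝ × ℝ) :
    |DD ψ z| ≤ 2 * Cs * δ ∧ |dy (DD ψ) z| ≤ (12 * Cs ^ 2 + 2 * Cs) * δ := by
  have he : Real.exp (6 * ψ z) ≤ 1 := Real.exp_le_one_iff.2 (by linarith [hI.le0 z])
  have he0 := Real.exp_pos (6 * ψ z)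
  have hea : |Real.exp (6 * ψ z)| ≤ 1 := by rw [abs_of_pos he0]; exact he
  have bxx := hI.bd.dx.dx.bound (mem_univ z)
  have byy := hI.bd.dy.dy.bound (mem_univ z)
  have by' := hI.bd.dy.bound (mem_univ z)
  have bxxy := hI.bd.dx.dx.dy.bound (mem_univ z)
  have byyy := hI.bd.dy.dy.dy.bound (mem_univ z)
  have hs : |dx (dx ψ) z + dy (dy ψ) z| ≤ 2 * (Cs * δ) := (abs_add_le _ _).trans (by linarith)
  have hs2 : |dy (dx (dx ψ)) z + dy (dy (dy ψ)) z| ≤ 2 * (Cs * δ) :=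
    (abs_add_le _ _).trans (by linarith)
  have hc : 0 < Cs * δ := by positivity
  constructor
  · have h1 := mul_le' hea hs
    show |- Real.exp (6 * ψ z) * (dx (dx ψ) z + dy (dy ψ) z)| ≤ _
    rw [neg_mul, abs_neg]
    linarith
  · have sψ := hI.sm
    have d0 : DifferentiableAt ℝ ψ z := (sψ.differentiable (by simp)) z
    have d1 : DifferentiableAt ℝ (dx (dx ψ)) z :=
      ((contDiff_dx (contDiff_dx sψ)).differentiable (by simp)) z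
    have d2 : DifferentiableAt ℝ (dy (dy ψ)) z :=
      ((contDiff_dy (contDiff_dy sψ)).differentiable (by simp)) z
    have d3 : DifferentiableAt ℝ (fun w => 6 * ψ w) z := d0.const_mul 6
    have d4 : DifferentiableAt ℝ (fun w => Real.exp (6 * ψ w)) z := d3.exp
    have d5 : DifferentiableAt ℝ (fun w => dx (dx ψ) w + dy (dy ψ) w) z := d1.add d2
    have e1 : DD ψ = fun w => - (Real.exp (6 * ψ w) * (dx (dx ψ) w + dy (dy ψ) w)) := by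
      funext w; simp only [DD]; ring
    have e2 : dy (fun w => Real.exp (6 * ψ w)) z = Real.exp (6 * ψ z) * (6 * dy ψ z) := by
      rw [dy_comp (φ := Real.exp) (Real.hasDerivAt_exp (6 * ψ z)) d3, dy_const_mul 6 d0]
    rw [e1, dy_neg, dy_mul d4 d5, e2, dy_add d1 d2, abs_neg]
    have h1 := mul_le' hea (mul_le' by' hs)
    have h2 := mul_le' hea hs2
    have h3 : Cs * δ * (2 * (Cs * δ)) ≤ 2 * Cs ^ 2 * δ := by
      have : Cs * δ * (2 * (Cs * δ)) = 2 * Cs ^ 2 * δ * δ := by ring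
      rw [this]
      have h4 : 0 ≤ 2 * Cs ^ 2 * δ := by positivity
      nlinarith
    have e3 : Real.exp (6 * ψ z) * (6 * dy ψ z) * (dx (dx ψ) z + dy (dy ψ) z) +
        Real.exp (6 * ψ z) * (dy (dx (dx ψ)) z + dy (dy (dy ψ)) z) =
        6 * (Real.exp (6 * ψ z) * (dy ψ z * (dx (dx ψ) z + dy (dy ψ) z))) +
        Real.exp (6 * ψ z) * (dy (dx (dx ψ)) z + dy (dy (dy ψ)) z) := by ring
    rw [e3]
    rw [abs_le] at h1 h2 ⊢
    constructor <;> nlinarith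

theorem second_forms {Cs M ε e0 δ b C0 j0 : ℝ} {ψ : ℝ × ℝ → ℝ} {T : Tri} (hM : 1 ≤ M)
    (hε : 0 < ε) (hε1 : ε < 1 / (1000 * M ^ 3)) (hCs : 0 < Cs) (hC0 : 0 < C0) (hδ : 0 < δ)
    (hδ1 : δ ≤ 1) (hI : Isl Cs δ b ψ) (hT : Nrm M ε e0 T) (hB : Basic M ε C0 j0 T)
    (hm : IsImm ψ T) (K η G1 G2 G : ℝ) (hK : K = 48 * C0 ^ 3) (hη : η = ε / (2 * M))
    (hG1 : G1 = (2 * Cs + K) / η) (hG2 : G2 = (12 * Cs ^ 2 + 2 * Cs + K * G1 + 2 * K) / η)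
    (hG : G = G2 + 6 * Cs * K) :
    ∀ z ∈ disc 2, |lxx T z| ≤ G1 * (|lxy T z| + δ) ∧
      |dx (lxy T) z| ≤ G * (|lxy T z| + δ) := by
  intro z hz
  have hU := isOpen_disc 2
  obtain ⟨⟨bx, sx⟩, ⟨bm, sm⟩, ⟨by', sy⟩⟩ := l_bd hB
  rw [← hK] at bx bm by'
  have hM0 : 0 < M := by linarith
  have hK0 : 0 < K := by rw [hK]; positivity
  have hη0 : 0 < η := by rw [hη]; positivity
  have hly : η ≤ lyy T z := by rw [hη]; exact lyy_lower hM hε hε1 hT hB hz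
  obtain ⟨D1, D2⟩ := DD_bd hCs hδ hδ1 hI z
  have hg : ∀ w ∈ disc 2, lxx T w * lyy T w - lxy T w * lxy T w = DD ψ w := fun w hw => by
    rw [← sq]; exact gauss T ψ hI.sm hm w (disc23 hw)
  have hgy := dy_congr hU hg hz
  have hgz := hg z hz
  have dxx := sx.diff hU hz
  have dxy := sm.diff hU hz
  have dyy := sy.diff hU hz
  have m1 : DifferentiableAt ℝ (fun w => lxx T w * lyy T w) z := dxx.mul dyy
  have m2 : DifferentiableAt ℝ (fun w => lxy T w * lxy T w) z := dxy.mul dxy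
  rw [dy_sub m1 m2, dy_mul dxx dyy, dy_mul dxy dxy] at hgy
  have cod := codazzi T ψ hI.sm hm z (disc23 hz)
  have px := hI.bd.dx.bound (mem_univ z)
  have py := hI.bd.dy.bound (mem_univ z)
  have c1 := bx.bound hz
  have c2 := bm.bound hz
  have c3 := by'.bound hz
  have c4 := by'.dy.bound hz
  have c5 := bm.dy.bound hz
  set m := |lxy T z| + δ with hm'
  have hL0 := abs_nonneg (lxy T z)
  have hm0 : 0 < m := by positivity
  have hLm : |lxy T z| ≤ m := by linarith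
  have hδm : δ ≤ m := by linarith
  -- bound for `lxx`
  have b1 : |lxx T z| ≤ G1 * m := by
    have e1 : |lxx T z| * lyy T z = |DD ψ z + lxy T z * lxy T z| := by
      rw [← hgz, sub_add_cancel, abs_mul, abs_of_pos (show 0 < lyy T z by linarith)]
    have e2 : |lxx T z| * η ≤ (2 * Cs + K) * m := by
      calc |lxx T z| * η ≤ |lxx T z| * lyy T z := mul_le_mul_of_nonneg_left hly (abs_nonneg _)
        _ = |DD ψ z + lxy T z * lxy T z| := e1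
        _ ≤ |DD ψ z| + |lxy T z * lxy T z| := abs_add_le _ _
        _ ≤ 2 * Cs * δ + K * m := by
          rw [abs_mul]
          have : |lxy T z| * |lxy T z| ≤ K * m := mul_le_mul c2 hLm hL0 hK0.le
          linarith
        _ ≤ (2 * Cs + K) * m := by nlinarith
    rw [hG1, div_mul_eq_mul_div, le_div_iff₀ hη0]
    exact e2
  have hG10 : 0 < G1 := by rw [hG1]; positivity
  have b2 : |dy (lxx T) z| ≤ G2 * m := by
    have e1 : |dy (lxx T) z| * lyy T z =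
        |dy (DD ψ) z - lxx T z * dy (lyy T) z + 2 * (lxy T z * dy (lxy T) z)| := by
      rw [← hgy, ← abs_of_pos (show 0 < lyy T z by linarith), ← abs_mul,
        abs_of_pos (show 0 < lyy T z by linarith)]
      congr 1; ring
    have f1 : |lxx T z * dy (lyy T) z| ≤ G1 * m * K := mul_le' b1 c4
    have f2 : |lxy T z * dy (lxy T) z| ≤ m * K := mul_le' hLm c5
    have e2 : |dy (lxx T) z| * η ≤ (12 * Cs ^ 2 + 2 * Cs + K * G1 + 2 * K) * m := by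
      calc |dy (lxx T) z| * η ≤ |dy (lxx T) z| * lyy T z :=
            mul_le_mul_of_nonneg_left hly (abs_nonneg _)
        _ = _ := e1
        _ ≤ (12 * Cs ^ 2 + 2 * Cs) * δ + G1 * m * K + 2 * (m * K) := by
          rw [abs_le] at D2 f1 f2 ⊢
          constructor <;> linarith
        _ ≤ (12 * Cs ^ 2 + 2 * Cs) * m + G1 * m * K + 2 * (m * K) := by
          have : (12 * Cs ^ 2 + 2 * Cs) * δ ≤ (12 * Cs ^ 2 + 2 * Cs) * m :=
            mul_le_mul_of_nonneg_left hδm (by positivity)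
          linarith
        _ = (12 * Cs ^ 2 + 2 * Cs + K * G1 + 2 * K) * m := by ring
    rw [hG2, div_mul_eq_mul_div, le_div_iff₀ hη0]
    exact e2
  refine ⟨b1, ?_⟩
  have e1 : dx (lxy T) z = dy (lxx T) z - (2 * (dy ψ z * lxx T z) - 2 * (dx ψ z * lxy T z)
      + (dy ψ z * lxx T z + dy ψ z * lyy T z)) := by linear_combination -cod
  have g1 := mul_le' py c1
  have g2 := mul_le' px c2
  have g3 := mul_le' py c3
  rw [e1, hG]
  have hp : 0 < Cs * K := by positivity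
  have g4 : Cs * K * δ ≤ Cs * K * m := mul_le_mul_of_nonneg_left hδm hp.le
  have g5 : Cs * δ * K = Cs * K * δ := by ring
  have g6 : (G2 + 6 * Cs * K) * m = G2 * m + 6 * (Cs * K * m) := by ring
  rw [g5] at g1 g2 g3
  rw [g6]
  clear_value m
  clear e1 cod c1 c2 c3 c4 c5 px py hgz hgy m1 m2 dxx dxy dyy hg D1 D2 hly by' sy bm sm bx sx
  rw [abs_le] at b2 g1 g2 g3 ⊢
  constructor <;> linarith

theorem axis_bounds (Cs M ε C0 : ℝ) (hM : 1 ≤ M) (hε : 0 < ε) (hε1 : ε < 1 / (1000 * M ^ 3))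
    (hCs : 0 < Cs) (hC0 : 0 < C0) : ∃ B : ℝ, 0 < B ∧ ∀ (δ b e0 j0 : ℝ) (ψ : ℝ × ℝ → ℝ) (T : Tri),
      0 < δ → δ ≤ 1 → Isl Cs δ b ψ → Nrm M ε e0 T → Basic M ε C0 j0 T → IsImm ψ T →
      ∀ x : ℝ, |x| < 2 → |dy T.a (x, 0)| ≤ B * δ ∧ |pf T (x, 0)| ≤ B * δ ∧
        |Pf T (x, 0)| ≤ B * δ := by
  have hM0 : 0 < M := by linarith
  obtain ⟨K, hK⟩ : ∃ K : ℝ, K = 48 * C0 ^ 3 := ⟨_, rfl⟩
  obtain ⟨η, hη⟩ : ∃ η : ℝ, η = ε / (2 * M) := ⟨_, rfl⟩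
  obtain ⟨G1, hG1⟩ : ∃ G1 : ℝ, G1 = (2 * Cs + K) / η := ⟨_, rfl⟩
  obtain ⟨G2, hG2⟩ : ∃ G2 : ℝ, G2 = (12 * Cs ^ 2 + 2 * Cs + K * G1 + 2 * K) / η := ⟨_, rfl⟩
  obtain ⟨G, hG⟩ : ∃ G : ℝ, G = G2 + 6 * Cs * K := ⟨_, rfl⟩
  obtain ⟨X, hX⟩ : ∃ X : ℝ, X = Real.exp (2 * G) := ⟨_, rfl⟩
  obtain ⟨W, hW⟩ : ∃ W : ℝ, W = Real.exp (4 * Cs) := ⟨_, rfl⟩
  have pK : 0 < K := by rw [hK]; positivity
  have pη : 0 < η := by rw [hη]; positivity
  have pG1 : 0 < G1 := by rw [hG1]; positivity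
  have pG2 : 0 < G2 := by rw [hG2]; positivity
  have pG : 0 < G := by rw [hG]; positivity
  have pX : 0 < X := by rw [hX]; positivity
  have pW : 0 < W := by rw [hW]; positivity
  obtain ⟨B2, hB2⟩ : ∃ B2 : ℝ, B2 = 2 * Cs * C0 + (G1 + 1) * (X + 1) * (8 * C0 * C0) * W :=
    ⟨_, rfl⟩
  have pB2 : 0 < B2 := by rw [hB2]; positivity
  refine ⟨3 * B2, by positivity, fun δ b e0 j0 ψ T hδ hδ1 hI hT hB hm x hx => ?_⟩
  have hU := isOpen_disc 2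
  have sf := second_forms hM hε hε1 hCs hC0 hδ hδ1 hI hT hB hm K η G1 G2 G hK hη hG1 hG2 hG
  obtain ⟨⟨bx, sx⟩, ⟨bm, sm⟩, ⟨by', sy⟩⟩ := l_bd hB
  have l0 : lxy T 0 = 0 := by
    simp only [lxy, n1, n2, n3, hT.hx, hT.hy, hT.hxy, hT.bx, hT.ay]
    ring
  -- bounds on the axis for the second derivatives
  have second : ∀ ξ : ℝ, |ξ| < 2 → |dx (dy T.a) (ξ, 0)| ≤ B2 * δ ∧
      |dx (dx T.h) (ξ, 0)| ≤ B2 * δ ∧ |dx (dy T.h) (ξ, 0)| ≤ B2 * δ := by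
    intro ξ hξ
    have hz := axis_mem hξ
    have h1 : |lxy T (ξ, 0)| ≤ X * δ := by
      rw [hX]
      exact gron pG sm l0 (fun w hw => (sf w hw).2) hδ.le hξ
    have h2 : |lxx T (ξ, 0)| ≤ (G1 + 1) * (X + 1) * δ := by
      have := (sf _ hz).1
      have e1 : G1 * (|lxy T (ξ, 0)| + δ) ≤ G1 * ((X + 1) * δ) :=
        mul_le_mul_of_nonneg_left (by linarith) pG1.le
      have e2 : 0 ≤ (X + 1) * δ := by positivity
      nlinarith
    have h1' : |lxy T (ξ, 0)| ≤ (G1 + 1) * (X + 1) * δ := by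
      have e2 : 0 ≤ (X + 1) * δ := by positivity
      nlinarith
    obtain ⟨N1, N2, N3⟩ := n_bd hB
    have k1 := N1.bound hz
    have k3 := N3.bound hz
    have hψ0 := hI.bd.bound (mem_univ ((ξ, 0) : ℝ × ℝ))
    have hψx := hI.bd.dx.bound (mem_univ ((ξ, 0) : ℝ × ℝ))
    have hψy := hI.bd.dy.bound (mem_univ ((ξ, 0) : ℝ × ℝ))
    have eW : |(Real.exp (4 * ψ (ξ, 0)))⁻¹| ≤ W := by
      rw [← Real.exp_neg, abs_of_pos (Real.exp_pos _), hW]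
      apply Real.exp_le_exp.2
      have := (abs_le.1 hψ0).1
      nlinarith
    have a1 := hB.bda.dx.bound hz
    have a2 := hB.bda.dy.bound hz
    have q1 := hB.bdh.dx.bound hz
    have q2 := hB.bdh.dy.bound hz
    obtain ⟨f1, f2, f3, f4⟩ := frame T ψ hI.sm hm _ (disc23 hz)
    have big : ∀ u v r s l n e : ℝ, |u| ≤ Cs * δ → |v| ≤ C0 → |r| ≤ Cs * δ → |s| ≤ C0 →
        |l| ≤ (G1 + 1) * (X + 1) * δ → |n| ≤ 8 * C0 * C0 → |e| ≤ W →
        |u * v| + |r * s| + |l * n * e| ≤ B2 * δ := by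
      intro u v r s l n e hu hv hr hs hl hn he
      have g1 := mul_le' hu hv
      have g2 := mul_le' hr hs
      have g3 := mul_le' (mul_le' hl hn) he
      rw [hB2]
      calc _ ≤ Cs * δ * C0 + Cs * δ * C0 + (G1 + 1) * (X + 1) * δ * (8 * C0 * C0) * W := by
            linarith
        _ = _ := by ring
    refine ⟨?_, ?_, ?_⟩
    · rw [f3, div_eq_mul_inv]
      refine ((abs_add_le _ _).trans (add_le_add (abs_add_le _ _) le_rfl)).trans ?_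
      exact big _ _ _ _ _ _ _ hψy a1 hψx a2 h1' k1 eW
    · rw [f2, div_eq_mul_inv]
      refine ((abs_add_le _ _).trans (add_le_add (abs_sub _ _) le_rfl)).trans ?_
      exact big _ _ _ _ _ _ _ hψx q1 hψy q2 h2 k3 eW
    · rw [f4, div_eq_mul_inv]
      refine ((abs_add_le _ _).trans (add_le_add (abs_add_le _ _) le_rfl)).trans ?_
      exact big _ _ _ _ _ _ _ hψy q1 hψx q2 h1' k3 eW
  -- first derivatives
  have first : ∀ {g : ℝ × ℝ → ℝ}, Sm (disc 2) g → g 0 = 0 →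
      (∀ ξ : ℝ, |ξ| < 2 → |dx g (ξ, 0)| ≤ B2 * δ) → |g (x, 0)| ≤ 2 * B2 * δ := by
    intro g sg g0 hg
    obtain ⟨ξ, hξ, h⟩ := hmv sg hx
    rw [g0, sub_zero] at h
    rw [h, abs_mul]
    have h1 := hg ξ (hξ.trans_lt hx)
    have h2 : |dx g (ξ, 0)| * |x| ≤ B2 * δ * 2 :=
      mul_le_mul h1 hx.le (abs_nonneg _) (by positivity)
    linarith
  have sa : Sm (disc 2) T.a := Sm.of_contDiff T.ha
  have sh : Sm (disc 2) T.h := Sm.of_contDiff T.hh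
  have ay := first (sa.dy hU) hT.ay (fun ξ hξ => (second ξ hξ).1)
  have hx' := first (sh.dx hU) hT.hx (fun ξ hξ => (second ξ hξ).2.1)
  have hy' := first (sh.dy hU) hT.hy (fun ξ hξ => (second ξ hξ).2.2)
  have hz := axis_mem hx
  have J := hB.J0l _ hz
  have pδ : 0 < B2 * δ := by positivity
  have quot : ∀ u v r s J : ℝ, |u * v| ≤ 2 * B2 * δ * (102 / 100) →
      |r * s| ≤ 2 * B2 * δ * (1 / 50) → 9 / 10 ≤ J → |(u * v - r * s) / J| ≤ 3 * B2 * δ := by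
    intro u v r s J h1 h2 hJ
    rw [abs_div, abs_of_pos (show 0 < J by linarith), div_le_iff₀ (by linarith)]
    have h3 := (abs_sub (u * v) (r * s))
    have h4 : 3 * (B2 * δ) * (9 / 10) ≤ 3 * (B2 * δ) * J :=
      mul_le_mul_of_nonneg_left hJ (by linarith)
    linarith
  refine ⟨by linarith, ?_, ?_⟩
  · refine quot _ _ _ _ _ (mul_le' hx' (abs_le_of_sub_one (hB.by' _ hz)))
      (mul_le' hy' (hB.bx _ hz)) J
  · refine quot _ _ _ _ _ ?_ ?_ J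
    · rw [mul_comm (dx T.a (x, 0))]
      exact mul_le' hy' (abs_le_of_sub_one (hB.ax _ hz))
    · rw [mul_comm (dy T.a (x, 0))]
      exact mul_le' hx' (hB.ay _ hz)

theorem br_deriv_bd {E : ℝ} {g : ℝ × ℝ → ℝ} (hf : ContDiff ℝ ∞ f) (hg : ContDiff ℝ ∞ g)
    (f1 : |dx f z| ≤ 102 / 100) (f2 : |dy f z| ≤ 102 / 100) (g1 : |dx g z| ≤ 102 / 100)
    (g2 : |dy g z| ≤ 102 / 100)
    (hf2 : |dx (dx f) z| ≤ E ∧ |dx (dy f) z| ≤ E ∧ |dy (dx f) z| ≤ E ∧ |dy (dy f) z| ≤ E)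
    (hg2 : |dx (dx g) z| ≤ E ∧ |dx (dy g) z| ≤ E ∧ |dy (dx g) z| ≤ E ∧ |dy (dy g) z| ≤ E) :
    |dx (br f g) z| ≤ 408 / 100 * E ∧ |dy (br f g) z| ≤ 408 / 100 * E := by
  have d1 : DifferentiableAt ℝ (dx f) z := ((contDiff_dx hf).differentiable (by simp)) z
  have d2 : DifferentiableAt ℝ (dy f) z := ((contDiff_dy hf).differentiable (by simp)) z
  have d3 : DifferentiableAt ℝ (dx g) z := ((contDiff_dx hg).differentiable (by simp)) z
  have d4 : DifferentiableAt ℝ (dy g) z := ((contDiff_dy hg).differentiable (by simp)) z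
  rw [dx_br d1 d2 d3 d4, dy_br d1 d2 d3 d4]
  constructor
  · exact (four (mul_le' hf2.1 g2) (mul_le' f1 hg2.2.1) (mul_le' hf2.2.1 g1)
      (mul_le' f2 hg2.1)).trans (by linarith)
  · exact (four (mul_le' hf2.2.2.1 g2) (mul_le' f1 hg2.2.2.2) (mul_le' hf2.2.2.2 g1)
      (mul_le' f2 hg2.2.2.1)).trans (by linarith)

theorem quot_bd {E N J dN dJ : ℝ} (hE : 0 ≤ E) (hN : |N| ≤ 21 / 1000) (hJ1 : 9 / 10 ≤ J)
    (hJ2 : J ≤ 11 / 10) (hdN : |dN| ≤ 408 / 100 * E) (hdJ : |dJ| ≤ 408 / 100 * E) :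
    |(dN * J - N * dJ) / J ^ 2| ≤ 6 * E := by
  have hJ0 : 0 < J := by linarith
  have hJ3 : 81 / 100 ≤ J ^ 2 := by nlinarith
  rw [abs_div, abs_of_pos (show 0 < J ^ 2 by positivity), div_le_iff₀ (by positivity)]
  have e1 : |dN * J| ≤ 408 / 100 * E * (11 / 10) :=
    mul_le' hdN (by rw [abs_of_pos hJ0]; exact hJ2)
  have e2 := mul_le' hN hdJ
  have e3 : 6 * E * (81 / 100) ≤ 6 * E * J ^ 2 := mul_le_mul_of_nonneg_left hJ3 (by linarith)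
  rw [abs_le] at e1 e2 ⊢
  constructor <;> linarith

theorem pP_deriv {M ε e0 C0 j0 : ℝ} {T : Tri} (hM : 1 ≤ M) (hε : 0 < ε)
    (hT : Nrm M ε e0 T) (hB : Basic M ε C0 j0 T) (hz : z ∈ disc 2) :
    (|dx (pf T) z| ≤ 6 * (M * ε) ∧ |dy (pf T) z| ≤ 6 * (M * ε)) ∧
    (|dx (Pf T) z| ≤ 6 * (M * ε) ∧ |dy (Pf T) z| ≤ 6 * (M * ε)) := by
  have hE : 0 ≤ M * ε := by positivity
  have hU := isOpen_disc 2
  have sa : Sm (disc 2) T.a := Sm.of_contDiff T.ha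
  have sb : Sm (disc 2) T.b := Sm.of_contDiff T.hb
  have sh : Sm (disc 2) T.h := Sm.of_contDiff T.hh
  have ax := abs_le_of_sub_one (hB.ax z hz)
  have by' := abs_le_of_sub_one (hB.by' z hz)
  have ay := hB.ay z hz
  have bx := hB.bx z hz
  have hx := hB.hx z hz
  have hy := hB.hy z hz
  have w : ∀ {x : ℝ}, |x| ≤ 1 / 50 → |x| ≤ 102 / 100 := fun h => h.trans (by norm_num)
  have j1 := hB.J0l z hz
  have j2 := hB.J0u z hz
  have Dab := br_deriv_bd T.ha T.hb ax (w ay) (w bx) by' (ob2 hT.oa hz) (ob2 hT.ob hz)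
  have Dah := br_deriv_bd T.ha T.hh ax (w ay) (w hx) (w hy) (ob2 hT.oa hz) (ob2 hT.oh hz)
  have Dhb := br_deriv_bd T.hh T.hb (w hx) (w hy) (w bx) by' (ob2 hT.oh hz) (ob2 hT.ob hz)
  have Nah : |br T.a T.h z| ≤ 21 / 1000 := by
    have g1 := mul_le' ax hy
    have g2 := mul_le' ay hx
    show |dx T.a z * dy T.h z - dy T.a z * dx T.h z| ≤ _
    rw [abs_le] at g1 g2 ⊢
    constructor <;> linarith
  have Nhb : |br T.h T.b z| ≤ 21 / 1000 := by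
    have g1 := mul_le' hx by'
    have g2 := mul_le' hy bx
    show |dx T.h z * dy T.b z - dy T.h z * dx T.b z| ≤ _
    rw [abs_le] at g1 g2 ⊢
    constructor <;> linarith
  have hJz : br T.a T.b z ≠ 0 := by positivity
  have dab : DifferentiableAt ℝ (br T.a T.b) z := (Sm.br hU sa sb).diff hU hz
  have dah : DifferentiableAt ℝ (br T.a T.h) z := (Sm.br hU sa sh).diff hU hz
  have dhb : DifferentiableAt ℝ (br T.h T.b) z := (Sm.br hU sh sb).diff hU hz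
  have eP : Pf T = fun w => br T.a T.h w / br T.a T.b w := rfl
  have ep : pf T = fun w => br T.h T.b w / br T.a T.b w := rfl
  rw [eP, ep, dx_div dhb dab hJz, dy_div dhb dab hJz, dx_div dah dab hJz, dy_div dah dab hJz]
  exact ⟨⟨quot_bd hE Nhb j1 j2 Dhb.1 Dab.1, quot_bd hE Nhb j1 j2 Dhb.2 Dab.2⟩,
    ⟨quot_bd hE Nah j1 j2 Dah.1 Dab.1, quot_bd hE Nah j1 j2 Dah.2 Dab.2⟩⟩

theorem dx_R (w : ℝ × ℝ) : dx (fun v : ℝ × ℝ => v.1 ^ 2 + v.2 ^ 2) w = 2 * w.1 := by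
  have h1 : DifferentiableAt ℝ (fun v : ℝ × ℝ => v.1 ^ 2) w := by fun_prop
  have h2 : DifferentiableAt ℝ (fun v : ℝ × ℝ => v.2 ^ 2) w := by fun_prop
  rw [dx_add h1 h2, dx_pow (f := fun v : ℝ × ℝ => v.1) 2 (by fun_prop),
    dx_pow (f := fun v : ℝ × ℝ => v.2) 2 (by fun_prop), dx_fst, dx_snd]
  push_cast; ring

theorem dy_R (w : ℝ × ℝ) : dy (fun v : ℝ × ℝ => v.1 ^ 2 + v.2 ^ 2) w = 2 * w.2 := by
  have h1 : DifferentiableAt ℝ (fun v : ℝ × ℝ => v.1 ^ 2) w := by fun_prop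
  have h2 : DifferentiableAt ℝ (fun v : ℝ × ℝ => v.2 ^ 2) w := by fun_prop
  rw [dy_add h1 h2, dy_pow (f := fun v : ℝ × ℝ => v.1) 2 (by fun_prop),
    dy_pow (f := fun v : ℝ × ℝ => v.2) 2 (by fun_prop), dy_fst, dy_snd]
  push_cast; ring

theorem diff_R (w : ℝ × ℝ) : DifferentiableAt ℝ (fun v : ℝ × ℝ => v.1 ^ 2 + v.2 ^ 2) w := by
  fun_prop

/-- the annular region where `ψ` is explicit -/
def Wreg (b : ℝ) : Set (ℝ × ℝ) := {w | b ^ 2 < w.1 ^ 2 + w.2 ^ 2 ∧ w.1 ^ 2 + w.2 ^ 2 < 9 / 4}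

theorem isOpen_Wreg (b : ℝ) : IsOpen (Wreg b) := by
  have h1 : IsOpen {w : ℝ × ℝ | b ^ 2 < w.1 ^ 2 + w.2 ^ 2} :=
    isOpen_lt (by fun_prop) (by fun_prop)
  have h2 : IsOpen {w : ℝ × ℝ | w.1 ^ 2 + w.2 ^ 2 < 9 / 4} :=
    isOpen_lt (by fun_prop) (by fun_prop)
  have e : Wreg b = {w : ℝ × ℝ | b ^ 2 < w.1 ^ 2 + w.2 ^ 2} ∩
      {w : ℝ × ℝ | w.1 ^ 2 + w.2 ^ 2 < 9 / 4} := by
    ext w; exact Iff.rfl
  rw [e]
  exact h1.inter h2

theorem lap_out {Cs δ b : ℝ} {ψ : ℝ × ℝ → ℝ} (hI : Isl Cs δ b ψ) (hz : z ∈ Wreg b) :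
    dx (dx ψ) z + dy (dy ψ) z = δ * (1 - (z.1 ^ 2 + z.2 ^ 2)) := by
  have hW := isOpen_Wreg b
  have hψ : ∀ w ∈ Wreg b, ψ w =
      (fun t : ℝ => δ * (-t ^ 2 / 16 + t / 4 - 1)) (w.1 ^ 2 + w.2 ^ 2) :=
    fun w hw => hI.out w hw.1.le hw.2
  have hφ : ∀ t : ℝ, HasDerivAt (fun t : ℝ => δ * (-t ^ 2 / 16 + t / 4 - 1))
      (δ * (-t / 8 + 1 / 4)) t := by
    intro t
    have h1 := ((((hasDerivAt_pow 2 t).neg.div_const 16).add
      ((hasDerivAt_id t).div_const 4)).sub_const 1).const_mul δ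
    refine (h1.congr_deriv ?_).congr_of_eventuallyEq (Filter.Eventually.of_forall fun y => ?_)
    · push_cast; ring
    · simp
  have hg : ∀ t : ℝ, HasDerivAt (fun t : ℝ => δ * (-t / 8 + 1 / 4) * 2) (-δ / 4) t := by
    intro t
    have h1 := (((((hasDerivAt_id t).neg).div_const 8).add_const (1 / 4)).const_mul δ).mul_const 2
    refine (h1.congr_deriv ?_).congr_of_eventuallyEq (Filter.Eventually.of_forall fun y => ?_)
    · ring
    · simp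
  have e1 : ∀ w ∈ Wreg b, dx ψ w =
      (fun t : ℝ => δ * (-t / 8 + 1 / 4) * 2) (w.1 ^ 2 + w.2 ^ 2) * w.1 := by
    intro w hw
    rw [dx_congr hW hψ hw,
      dx_comp (f := fun v : ℝ × ℝ => v.1 ^ 2 + v.2 ^ 2) (hφ _) (diff_R w), dx_R]
    ring
  have e2 : ∀ w ∈ Wreg b, dy ψ w =
      (fun t : ℝ => δ * (-t / 8 + 1 / 4) * 2) (w.1 ^ 2 + w.2 ^ 2) * w.2 := by
    intro w hw
    rw [dy_congr hW hψ hw,
      dy_comp (f := fun v : ℝ × ℝ => v.1 ^ 2 + v.2 ^ 2) (hφ _) (diff_R w), dy_R]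
    ring
  have d1 : DifferentiableAt ℝ (fun w : ℝ × ℝ => (fun t : ℝ => δ * (-t / 8 + 1 / 4) * 2)
      (w.1 ^ 2 + w.2 ^ 2)) z := by fun_prop
  rw [dx_congr hW e1 hz, dy_congr hW e2 hz, dx_mul d1 (by fun_prop), dy_mul d1 (by fun_prop),
    dx_comp (f := fun v : ℝ × ℝ => v.1 ^ 2 + v.2 ^ 2) (hg _) (diff_R z),
    dy_comp (f := fun v : ℝ × ℝ => v.1 ^ 2 + v.2 ^ 2) (hg _) (diff_R z), dx_R, dy_R, dx_fst,
    dy_snd]
  ring

theorem bracket {E e c Y q p P A B ax ay x Ψ R σ y : ℝ} (hσ : σ = 1 ∨ σ = -1) (hY : σ * y = Y)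
    (hY0 : 0 < Y) (hE : 0 ≤ E) (hE1 : E ≤ 1 / 1000) (he : 0 ≤ e) (hc : 0 ≤ c)
    (hr : |R - 1| ≤ 5 / 4) (hp : |p| ≤ e + 6 * E * Y) (hP : |P| ≤ e + 6 * E * Y)
    (hA : |A| ≤ 7 * E) (hB : |B| ≤ 7 * E) (hq1 : 1 ≤ q) (hq2 : q ≤ 2) (hax : 98 / 100 ≤ ax)
    (hay : |ay| ≤ e + E * Y) (hx : |x| ≤ 3 / 2) (hΨ : |Ψ| ≤ 2 * c)
    (small : 20 * e + 20 * c ≤ Y) :
    Y ≤ σ * (4 * ((R - 1) * (p * A + P * B)) + q * (2 * (ax * y - ay * x))
      - 2 * (q * ((R - 1) * Ψ))) := by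
  have hσ1 : |σ| ≤ 1 := by rcases hσ with h | h <;> simp [h]
  have k1 : |p * A + P * B| ≤ 2 * ((e + 6 * E * Y) * (7 * E)) :=
    (abs_add_le _ _).trans (by have := mul_le' hp hA; have := mul_le' hP hB; linarith)
  have k2 := mul_le' hσ1 (mul_le' hr k1)
  have k3 := mul_le' hσ1 (mul_le' (show |q| ≤ 2 by rw [abs_of_nonneg (by linarith)]; exact hq2)
    (mul_le' hr hΨ))
  have k4 := mul_le' hσ1 (mul_le' hay hx)
  have k5 : 98 / 100 * Y ≤ ax * Y := mul_le_mul_of_nonneg_right hax hY0.le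
  have hEY : E * Y ≤ 1 / 1000 * Y := mul_le_mul_of_nonneg_right hE1 hY0.le
  have k6 : 97 / 100 * Y - 3 / 2 * e ≤ ax * Y - σ * (ay * x) := by
    have := (abs_le.1 k4).2
    linarith
  have k7 : 0 ≤ 97 / 100 * Y - 3 / 2 * e := by linarith
  have k8 : 97 / 100 * Y - 3 / 2 * e ≤ q * (ax * Y - σ * (ay * x)) := by
    have : 1 * (97 / 100 * Y - 3 / 2 * e) ≤ q * (ax * Y - σ * (ay * x)) :=
      mul_le_mul hq1 k6 k7 (by linarith)
    linarith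
  have k9 : (e + 6 * E * Y) * (7 * E) ≤ 7 / 1000 * (e + 6 / 1000 * Y) := by
    have h1 : e + 6 * E * Y ≤ e + 6 / 1000 * Y := by linarith
    have h2 : (e + 6 * E * Y) * (7 * E) ≤ (e + 6 / 1000 * Y) * (7 / 1000) :=
      mul_le_mul h1 (by linarith) (by positivity) (by positivity)
    linarith
  have expand : σ * (4 * ((R - 1) * (p * A + P * B)) + q * (2 * (ax * y - ay * x))
      - 2 * (q * ((R - 1) * Ψ))) = 4 * (σ * ((R - 1) * (p * A + P * B)))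
      + 2 * (q * (ax * Y - σ * (ay * x))) - 2 * (σ * (q * ((R - 1) * Ψ))) := by
    rw [← hY]; ring
  rw [expand]
  have m1 := (abs_le.1 k2).1
  have m2 := (abs_le.1 k3).2
  linarith

theorem wreg_disc {b : ℝ} (hz : z ∈ Wreg b) : z ∈ disc 2 := by
  rw [mem_disc]
  have := hz.2
  linarith

/-- the bracket `{a, κ}` in the explicit region -/
theorem br_kf {Cs M ε δ b C0 j0 : ℝ} {ψ : ℝ × ℝ → ℝ} {T : Tri} (hI : Isl Cs δ b ψ)
    (hB : Basic M ε C0 j0 T) (hm : IsImm ψ T) (hz : z ∈ Wreg b) :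
    br T.a (kf T) z = Real.exp (-2 * ψ z) * (1 + pf T z ^ 2 + Pf T z ^ 2) * δ *
      (4 * ((z.1 ^ 2 + z.2 ^ 2 - 1) * (pf T z * br T.a (pf T) z + Pf T z * br T.a (Pf T) z))
        + (1 + pf T z ^ 2 + Pf T z ^ 2) * (2 * (dx T.a z * z.2 - dy T.a z * z.1))
        - 2 * ((1 + pf T z ^ 2 + Pf T z ^ 2) * ((z.1 ^ 2 + z.2 ^ 2 - 1) * br T.a ψ z))) := by
  have hW := isOpen_Wreg b
  have hU := isOpen_disc 2
  have hz2 := wreg_disc hz
  have dp : DifferentiableAt ℝ (pf T) z := hB.sp.diff hU hz2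
  have dP : DifferentiableAt ℝ (Pf T) z := hB.reg.sP.diff hU hz2
  have dψ : DifferentiableAt ℝ ψ z := (hI.sm.differentiable (by simp)) z
  have hk : ∀ w ∈ Wreg b, kf T w =
      ((1 + pf T w ^ 2 + Pf T w ^ 2) * (1 + pf T w ^ 2 + Pf T w ^ 2)) *
        ((fun t : ℝ => δ * (t - 1)) (w.1 ^ 2 + w.2 ^ 2) * Real.exp (-2 * ψ w)) := by
    intro w hw
    rw [kf_eq T ψ hI.sm hm (fun v hv => by have := hB.J0l v hv; linarith) w (wreg_disc hw),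
      lap_out hI hw]
    ring
  have dp2 : DifferentiableAt ℝ (fun w => pf T w ^ 2) z := dp.pow 2
  have dP2 : DifferentiableAt ℝ (fun w => Pf T w ^ 2) z := dP.pow 2
  have dq1 : DifferentiableAt ℝ (fun w => 1 + pf T w ^ 2) z :=
    (differentiableAt_const (1 : ℝ)).add dp2
  have dq : DifferentiableAt ℝ (fun w => 1 + pf T w ^ 2 + Pf T w ^ 2) z := dq1.add dP2
  have dqq : DifferentiableAt ℝ (fun w => (1 + pf T w ^ 2 + Pf T w ^ 2) *
      (1 + pf T w ^ 2 + Pf T w ^ 2)) z := dq.mul dq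
  have dG : DifferentiableAt ℝ (fun w : ℝ × ℝ =>
      (fun t : ℝ => δ * (t - 1)) (w.1 ^ 2 + w.2 ^ 2)) z := by fun_prop
  have d2 : DifferentiableAt ℝ (fun w => -2 * ψ w) z := dψ.const_mul (-2)
  have dX : DifferentiableAt ℝ (fun w => Real.exp (-2 * ψ w)) z := d2.exp
  have dGX : DifferentiableAt ℝ (fun w : ℝ × ℝ =>
      (fun t : ℝ => δ * (t - 1)) (w.1 ^ 2 + w.2 ^ 2) * Real.exp (-2 * ψ w)) z := dG.mul dX
  have hφ : ∀ t : ℝ, HasDerivAt (fun t : ℝ => δ * (t - 1)) δ t := by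
    intro t
    simpa using ((hasDerivAt_id t).sub_const 1).const_mul δ
  have e1 : br T.a (fun w => 1 + pf T w ^ 2 + Pf T w ^ 2) z =
      2 * (pf T z * br T.a (pf T) z + Pf T z * br T.a (Pf T) z) := by
    simp only [br]
    rw [dx_add dq1 dP2, dy_add dq1 dP2, dx_add (differentiableAt_const (1 : ℝ)) dp2,
      dy_add (differentiableAt_const (1 : ℝ)) dp2, dx_const, dy_const, dx_pow 2 dp, dy_pow 2 dp,
      dx_pow 2 dP, dy_pow 2 dP]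
    push_cast
    ring
  have e2 : br T.a (fun w : ℝ × ℝ => (fun t : ℝ => δ * (t - 1)) (w.1 ^ 2 + w.2 ^ 2)) z =
      δ * (2 * (dx T.a z * z.2 - dy T.a z * z.1)) := by
    simp only [br]
    rw [dx_comp (f := fun v : ℝ × ℝ => v.1 ^ 2 + v.2 ^ 2) (hφ _) (diff_R z),
      dy_comp (f := fun v : ℝ × ℝ => v.1 ^ 2 + v.2 ^ 2) (hφ _) (diff_R z), dx_R, dy_R]
    ring
  have e3 : br T.a (fun w => Real.exp (-2 * ψ w)) z =
      -2 * Real.exp (-2 * ψ z) * br T.a ψ z := by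
    simp only [br]
    rw [dx_comp (φ := Real.exp) (Real.hasDerivAt_exp (-2 * ψ z)) d2,
      dy_comp (φ := Real.exp) (Real.hasDerivAt_exp (-2 * ψ z)) d2, dx_const_mul _ dψ,
      dy_const_mul _ dψ]
    ring
  rw [br_congr hW (fun w _ => rfl) hk hz, br_mul_right dqq dGX, br_mul_right dq dq,
    br_mul_right dG dX, e1, e2, e3]
  ring

theorem abs_sign {σ : ℝ} (hσ : σ = 1 ∨ σ = -1) : |σ| = 1 := by
  rcases hσ with h | h <;> simp [h]

theorem key_Y {M ε e0 C0 j0 e t0 σ : ℝ} {T : Tri} (hM : 1 ≤ M)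
    (hε : 0 < ε) (hε1 : ε < 1 / (1000 * M ^ 3)) (hT : Nrm M ε e0 T)
    (hB : Basic M ε C0 j0 T) (ht0 : 0 < t0)
    (hax : |Pf T (z.1, 0)| ≤ e) (small : 20 * e ≤ t0) (hσ : σ = 1 ∨ σ = -1)
    (hz2 : z ∈ disc 2) (hP : t0 ≤ σ * Pf T z) : t0 ≤ σ * z.2 := by
  have hM0 : 0 < M := by linarith
  obtain ⟨s1, s2, s3⟩ := sizes hM hε hε1
  obtain ⟨w, hw, h⟩ := vmv hB.reg.sP hz2
  have k1 := hB.Py w hw
  have k2 := (abs_le.1 (pP_deriv hM hε hT hB hw).2.2).2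
  have k3 := (abs_le.1 (mul_le' (abs_sign hσ).le hax)).2
  have h2M : 0 < ε / (2 * M) := by positivity
  set E := M * ε with hE
  have k4 : σ * Pf T z = σ * Pf T (z.1, 0) + dy (Pf T) w * (σ * z.2) := by
    linear_combination σ * h
  generalize σ * z.2 = Y at *
  have k5 : 19 / 20 * t0 ≤ dy (Pf T) w * Y := by linarith
  have k6 : 0 < dy (Pf T) w := by linarith
  have k7 : 0 < Y := by
    by_contra hn
    have : dy (Pf T) w * Y ≤ 0 := mul_nonpos_of_nonneg_of_nonpos k6.le (by linarith)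
    linarith
  have k8 : dy (Pf T) w * Y ≤ 6 * E * Y := mul_le_mul_of_nonneg_right k2 k7.le
  have k9 : E * Y ≤ 1 / 1000 * Y := mul_le_mul_of_nonneg_right s1 k7.le
  linarith

theorem key_off {g : ℝ × ℝ → ℝ} {D e Y : ℝ} (sg : Sm (disc 2) g) (g0 : |g (z.1, 0)| ≤ e)
    (hg : ∀ w ∈ disc 2, |dy g w| ≤ D) (hz2 : z ∈ disc 2) (hY : |z.2| = Y) :
    |g z| ≤ e + D * Y := by
  obtain ⟨w, hw, h⟩ := vmv sg hz2
  have h1 := mul_le' (hg w hw) hY.le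
  have h2 : g z = g (z.1, 0) + dy g w * z.2 := by linarith
  rw [h2]
  exact (abs_add_le _ _).trans (add_le_add g0 h1)

theorem key_br {M ε C0 j0 D : ℝ} {T : Tri} {g : ℝ × ℝ → ℝ} (hB : Basic M ε C0 j0 T)
    (hz2 : z ∈ disc 2) (p1 : |dx g z| ≤ D) (p2 : |dy g z| ≤ D) :
    |br T.a g z| ≤ 104 / 100 * D := by
  have g1 := mul_le' (abs_le_of_sub_one (hB.ax z hz2)) p2
  have g2 := mul_le' (hB.ay z hz2) p1
  show |dx T.a z * dy g z - dy T.a z * dx g z| ≤ _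
  rw [abs_le] at g1 g2 ⊢
  constructor <;> linarith

theorem key_q {e E Y p P : ℝ} (hY0 : 0 < Y) (hY : Y ≤ 3 / 2) (hE1 : E ≤ 1 / 1000)
    (small : 20 * e ≤ Y) (hp : |p| ≤ e + 6 * E * Y) (hP : |P| ≤ e + 6 * E * Y) :
    1 ≤ 1 + p ^ 2 + P ^ 2 ∧ 1 + p ^ 2 + P ^ 2 ≤ 2 := by
  have hEY : E * Y ≤ 1 / 1000 * Y := mul_le_mul_of_nonneg_right hE1 hY0.le
  have sq1 : ∀ {x : ℝ}, |x| ≤ e + 6 * E * Y → x ^ 2 ≤ 1 / 2 := by
    intro x hx
    have h1 : |x| ≤ 1 / 2 := by linarith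
    have h2 := pow_le_pow_left₀ (abs_nonneg x) h1 2
    rw [sq_abs] at h2
    linarith
  have h1 := sq1 hp
  have h2 := sq1 hP
  have h3 := sq_nonneg p
  have h4 := sq_nonneg P
  constructor <;> linarith

theorem key_final {σ δ t0 Y X q Br J K : ℝ} (hδ : 0 < δ) (ht0 : 0 < t0) (hYt : t0 ≤ Y)
    (key : Y ≤ σ * Br) (hX : 1 ≤ X) (hq : 1 ≤ q) (hbr : K = X * q * δ * Br) (J0 : 0 < J)
    (J1 : J ≤ 1) : δ * t0 ≤ σ * (K / J) := by
  have h1 : δ * t0 ≤ δ * (σ * Br) := mul_le_mul_of_nonneg_left (hYt.trans key) hδ.le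
  have h2 : 1 ≤ X * q := one_le_mul_of_one_le_of_one_le hX hq
  have h3 : 0 < δ * t0 := by positivity
  have h4 : 1 * (δ * (σ * Br)) ≤ X * q * (δ * (σ * Br)) :=
    mul_le_mul_of_nonneg_right h2 (by linarith)
  have h5 : δ * t0 * J ≤ δ * t0 := mul_le_of_le_one_right h3.le J1
  rw [mul_div_assoc', le_div_iff₀ J0, hbr]
  have e1 : σ * (X * q * δ * Br) = X * q * (δ * (σ * Br)) := by ring
  rw [e1]
  linarith

theorem key_sign {Cs M ε e0 δ b C0 j0 e t0 σ : ℝ} {ψ : ℝ × ℝ → ℝ} {T : Tri} (hM : 1 ≤ M)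
    (hε : 0 < ε) (hε1 : ε < 1 / (1000 * M ^ 3)) (hCs : 0 < Cs) (hδ : 0 < δ) (hj : 0 < j0)
    (hb : 0 < b) (hbt : b < t0) (hI : Isl Cs δ b ψ) (hT : Nrm M ε e0 T)
    (hB : Basic M ε C0 j0 T) (hm : IsImm ψ T) (he : 0 ≤ e)
    (hax : ∀ x : ℝ, |x| < 2 → |dy T.a (x, 0)| ≤ e ∧ |pf T (x, 0)| ≤ e ∧ |Pf T (x, 0)| ≤ e)
    (small : 20 * e + 20 * (Cs * δ) ≤ t0) (hσ : σ = 1 ∨ σ = -1)
    (hz : z ∈ disc (3 / 2)) (hP : t0 ≤ σ * Pf T z) :
    δ * t0 ≤ σ * No T.a (Pf T) (kf T) z := by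
  have hM0 : 0 < M := by linarith
  obtain ⟨s1, s2, s3⟩ := sizes hM hε hε1
  have hz2 : z ∈ disc 2 := disc_mono (by norm_num) (by norm_num) hz
  have hzm : z.1 ^ 2 + z.2 ^ 2 < 9 / 4 := by
    have := mem_disc.1 hz; linarith
  have sq1 := sq_nonneg z.1
  have sq2 := sq_nonneg z.2
  have hx1 : |z.1| ≤ 3 / 2 := abs_le_of_sq_le_sq (by linarith) (by norm_num)
  obtain ⟨x1, x2, x3⟩ := hax z.1 (by linarith)
  have hc0 : 0 < Cs * δ := by positivity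
  have ht0 : 0 < t0 := by linarith
  have hYt := key_Y hM hε hε1 hT hB ht0 x3 (by linarith) hσ hz2 hP
  obtain ⟨Y, hY⟩ : ∃ Y : ℝ, σ * z.2 = Y := ⟨_, rfl⟩
  rw [hY] at hYt
  have hY0 : 0 < Y := by linarith
  have hYa : |z.2| = Y := by
    rw [← abs_of_pos hY0, ← hY, abs_mul, abs_sign hσ, one_mul]
  have hYle : Y ≤ 3 / 2 := by
    rw [← hYa]
    exact abs_le_of_sq_le_sq (by linarith) (by norm_num)
  have hzW : z ∈ Wreg b := by
    refine ⟨?_, hzm⟩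
    have h1 : b ^ 2 < Y ^ 2 := pow_lt_pow_left₀ (by linarith) hb.le two_ne_zero
    have e2 : Y ^ 2 = z.2 ^ 2 := by rw [← hYa, sq_abs]
    linarith
  have hU := isOpen_disc 2
  have sa : Sm (disc 2) T.a := Sm.of_contDiff T.ha
  have ay := key_off (sa.dy hU) x1 (fun w hw => (ob2 hT.oa hw).2.2.2) hz2 hYa
  have pz := key_off hB.sp x2 (fun w hw => (pP_deriv hM hε hT hB hw).1.2) hz2 hYa
  have Pz := key_off hB.reg.sP x3 (fun w hw => (pP_deriv hM hε hT hB hw).2.2) hz2 hYa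
  obtain ⟨⟨p1, p2⟩, ⟨P1, P2⟩⟩ := pP_deriv hM hε hT hB hz2
  have A1 := key_br hB hz2 p1 p2
  have B1 := key_br hB hz2 P1 P2
  have Ψ1 := key_br hB hz2 (hI.bd.dx.bound (mem_univ z)) (hI.bd.dy.bound (mem_univ z))
  have hE0 : 0 < M * ε := by positivity
  obtain ⟨q1, q2⟩ := key_q hY0 hYle s1 (by linarith) pz Pz
  have hR : |z.1 ^ 2 + z.2 ^ 2 - 1| ≤ 5 / 4 := by
    rw [abs_le]
    constructor <;> linarith
  have hax0 : 98 / 100 ≤ dx T.a z := by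
    have := (abs_le.1 (hB.ax z hz2)).1
    linarith
  have key := bracket (x := z.1) (y := z.2) (c := Cs * δ) hσ hY hY0 hE0.le s1 he hc0.le hR pz Pz
    (A1.trans (by linarith)) (B1.trans (by linarith)) q1 q2
    hax0 ay hx1 (Ψ1.trans (by linarith)) (by linarith)
  have J1 : br T.a (Pf T) z ≤ 1 := by
    have := (abs_le.1 B1).2
    linarith
  exact key_final hδ ht0 hYt key (Real.one_le_exp (by linarith [hI.le0 z])) q1
    (br_kf hI hB hm hzW) (hj.trans_le (hB.reg.J z hz2)) J1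

end AlignAux

open AlignAux BasicAux in
theorem align (Cs M : ℝ) (hCs : 0 < Cs) (hM : 1 ≤ M) : ∃ ε0 : ℝ, 0 < ε0 ∧ ∀ ε, 0 < ε → ε < ε0 →
    ∀ C0 j0 : ℝ, 0 < C0 → 0 < j0 → ∃ δ0 : ℝ, 0 < δ0 ∧ ∀ δ, 0 < δ → δ < δ0 →
    ∃ n0 b0 : ℝ, 0 < n0 ∧ 0 < b0 ∧ ∀ (b : ℝ) (ψ : ℝ × ℝ → ℝ) (T : Tri), 0 < b → b < b0 →
      Isl Cs δ b ψ → Nrm M ε (Real.exp (-δ)) T → Basic M ε C0 j0 T → IsImm ψ T →
      (∀ x : ℝ, |x| < 3 / 2 → |Pf T (x, 0)| ≤ Real.sqrt (δ / 2) / 3000) ∧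
      (∀ z ∈ disc (3 / 5), kf T z ≤ -(3 / 5) * δ) ∧
      (∀ z ∈ disc (3 / 2), z ∉ disc (11 / 10) → δ / 5 ≤ kf T z) ∧
      (∀ z ∈ disc (3 / 2), Real.sqrt (δ / 2) / 150 ≤ Pf T z → n0 ≤ No T.a (Pf T) (kf T) z) ∧
      (∀ z ∈ disc (3 / 2), Pf T z ≤ -(Real.sqrt (δ / 2) / 150) →
        No T.a (Pf T) (kf T) z ≤ -n0) := by
  have hM0 : 0 < M := by linarith
  refine ⟨1 / (1000 * M ^ 3), by positivity, fun ε hε hε1 C0 j0 hC0 hj0 => ?_⟩
  obtain ⟨B, hB0, hax⟩ := axis_bounds Cs M ε C0 hM hε hε1 hCs hC0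
  have hC8 : 0 < 20 * B + 20 * Cs := by positivity
  refine ⟨min 1 (1 / (2 * (150 * (20 * B + 20 * Cs)) ^ 2)), by positivity, fun δ hδ hδ0 => ?_⟩
  have hδ1 : δ ≤ 1 := (hδ0.trans_le (min_le_left _ _)).le
  have hδ2 : δ ≤ 1 / (2 * (150 * (20 * B + 20 * Cs)) ^ 2) := (hδ0.trans_le (min_le_right _ _)).le
  have hs : 150 * (20 * B + 20 * Cs) * δ ≤ Real.sqrt (δ / 2) := by
    apply Real.le_sqrt_of_sq_le
    rw [le_div_iff₀ (by positivity)] at hδ2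
    have : (150 * (20 * B + 20 * Cs) * δ) ^ 2 =
        (δ * (2 * (150 * (20 * B + 20 * Cs)) ^ 2)) * (δ / 2) := by ring
    rw [this]
    nlinarith
  obtain ⟨t0, ht⟩ : ∃ t0 : ℝ, Real.sqrt (δ / 2) / 150 = t0 := ⟨_, rfl⟩
  have ht0 : 0 < t0 := by
    rw [← ht]
    have : 0 < Real.sqrt (δ / 2) := Real.sqrt_pos.2 (by positivity)
    positivity
  have hsm : 20 * (B * δ) + 20 * (Cs * δ) ≤ t0 := by rw [← ht]; linarith
  rw [ht]
  refine ⟨δ * t0, min (1 / 10) t0, by positivity, by positivity, fun b ψ T hb hb0 hI hT hB hm =>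
    ?_⟩
  have hb1 : b < 1 / 10 := hb0.trans_le (min_le_left _ _)
  have hbt : b < t0 := hb0.trans_le (min_le_right _ _)
  have hax' := hax δ b _ j0 ψ T hδ hδ1 hI hT hB hm
  have hBd : 0 < B * δ := by positivity
  have hcd : 0 < Cs * δ := by positivity
  have hJ : ∀ z ∈ disc 2, 0 < br T.a T.b z := fun z hz => by
    have := hB.J0l z hz; linarith
  have hk := kf_eq T ψ hI.sm hm hJ
  have hX : ∀ z, 1 ≤ Real.exp (-2 * ψ z) := fun z => Real.one_le_exp (by linarith [hI.le0 z])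
  have hq : ∀ z, 1 ≤ (1 + pf T z ^ 2 + Pf T z ^ 2) ^ 2 := fun z =>
    one_le_pow₀ (by nlinarith [sq_nonneg (pf T z), sq_nonneg (Pf T z)])
  have hk2 : ∀ z ∈ disc 2, ∃ c : ℝ, 1 ≤ c ∧ kf T z = c * (-(dx (dx ψ) z + dy (dy ψ) z)) :=
    fun z hz => ⟨(1 + pf T z ^ 2 + Pf T z ^ 2) ^ 2 * Real.exp (-2 * ψ z),
      one_le_mul_of_one_le_of_one_le (hq z) (hX z), by rw [hk z hz]; ring⟩
  refine ⟨?_, ?_, ?_, ?_, ?_⟩
  · intro x hx
    have h1 := (hax' x (by linarith)).2.2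
    have h2 : Real.sqrt (δ / 2) / 3000 = t0 / 20 := by rw [← ht]; ring
    rw [h2]
    linarith
  · intro z hz
    have hzm := mem_disc.1 hz
    obtain ⟨c, hc, h⟩ := hk2 z (disc_mono (by norm_num) (by norm_num) hz)
    have hL : -(dx (dx ψ) z + dy (dy ψ) z) ≤ -(3 / 5) * δ := by
      rcases le_or_gt (z.1 ^ 2 + z.2 ^ 2) (b ^ 2) with h1 | h1
      · have h2 := (abs_le.1 (hI.inn z h1)).1
        have h3 : b ^ 2 ≤ 1 / 100 := by nlinarith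
        nlinarith
      · rw [lap_out hI ⟨h1, by linarith⟩]
        nlinarith
    rw [h]
    nlinarith
  · intro z hz hz'
    have hzm := mem_disc.1 hz
    have hzm' : (11 / 10 : ℝ) ^ 2 ≤ z.1 ^ 2 + z.2 ^ 2 := not_lt.1 (fun h => hz' (mem_disc.2 h))
    obtain ⟨c, hc, h⟩ := hk2 z (disc_mono (by norm_num) (by norm_num) hz)
    have hL : δ / 5 ≤ -(dx (dx ψ) z + dy (dy ψ) z) := by
      have h3 : b ^ 2 ≤ 1 / 100 := by nlinarith
      rw [lap_out hI ⟨by linarith, by linarith⟩]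
      nlinarith
    rw [h]
    nlinarith
  · intro z hz hP
    have := key_sign (σ := 1) hM hε hε1 hCs hδ hj0 hb hbt hI hT hB hm hBd.le hax' hsm
      (Or.inl rfl) hz (by linarith)
    linarith
  · intro z hz hP
    have := key_sign (σ := -1) hM hε hε1 hCs hδ hj0 hb hbt hI hT hB hm hBd.le hax' hsm
      (Or.inr rfl) hz (by linarith)
    linarith

end Vale.Agent.P229
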