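import Vale.Agent.P229.BdAlg

/-! P229, module E: basic facts about normalized triples. -/

namespace Vale.Agent.P229

open MeasureTheory Set
open scoped ContDiff

namespace BasicAux

variable {f g : ℝ × ℝ → ℝ} {z : ℝ × ℝ} {M ε C D E : ℝ}

theorem zero_mem {R : ℝ} (hR : 0 < R) : (0 : ℝ × ℝ) ∈ disc R := by
  show (0 : ℝ × ℝ).1 ^ 2 + (0 : ℝ × ℝ).2 ^ 2 < R ^ 2
  simp only [Prod.fst_zero, Prod.snd_zero]
  nlinarith

theorem mem_disc {R : ℝ} : z ∈ disc R ↔ z.1 ^ 2 + z.2 ^ 2 < R ^ 2 := Iff.rfl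

theorem disc_mono {R R' : ℝ} (h0 : 0 ≤ R) (h : R ≤ R') : disc R ⊆ disc R' := by
  intro z hz
  rw [mem_disc] at *
  exact hz.trans_le (pow_le_pow_left₀ h0 h 2)

theorem abs_fst_le (hz : z ∈ disc 2) : |z.1| ≤ 2 := by
  rw [mem_disc] at hz
  apply abs_le_of_sq_le_sq _ (by norm_num)
  nlinarith [sq_nonneg z.2]

theorem abs_snd_le (hz : z ∈ disc 2) : |z.2| ≤ 2 := by
  rw [mem_disc] at hz
  apply abs_le_of_sq_le_sq _ (by norm_num)
  nlinarith [sq_nonneg z.1]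

theorem mv (hf : ContDiff ℝ ∞ f) (hx : ∀ z ∈ disc 2, |dx f z| ≤ E)
    (hy : ∀ z ∈ disc 2, |dy f z| ≤ E) (hz : z ∈ disc 2) :
    |f z - f 0| ≤ E * (|z.1| + |z.2|) := by
  have h := abs_sub_le_disc (Sm.of_contDiff (U := disc 2) hf) hx hy z hz 0 (zero_mem two_pos)
  simp only [Prod.fst_zero, Prod.snd_zero, sub_zero] at h
  linarith

theorem mv4 (hf : ContDiff ℝ ∞ f) (hx : ∀ z ∈ disc 2, |dx f z| ≤ E)
    (hy : ∀ z ∈ disc 2, |dy f z| ≤ E) (hz : z ∈ disc 2) :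
    |f z - f 0| ≤ 4 * E := by
  have h := mv hf hx hy hz
  have h1 := abs_fst_le hz
  have h2 := abs_snd_le hz
  have h3 : 0 ≤ E := (abs_nonneg _).trans (hx z hz)
  nlinarith

theorem mul_le' {x y A B : ℝ} (hx : |x| ≤ A) (hy : |y| ≤ B) : |x * y| ≤ A * B := by
  rw [abs_mul]
  exact mul_le_mul hx hy (abs_nonneg _) ((abs_nonneg _).trans hx)

/-- second derivatives -/
theorem ob2 (h : OB M ε f) (hz : z ∈ disc 2) :
    |dx (dx f) z| ≤ M * ε ∧ |dx (dy f) z| ≤ M * ε ∧ |dy (dx f) z| ≤ M * ε ∧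
      |dy (dy f) z| ≤ M * ε := by
  have hz' := disc_mono (by norm_num) (by norm_num : (2 : ℝ) ≤ 3) hz
  exact ⟨h.1 [true, true] rfl z hz', h.1 [true, false] rfl z hz', h.1 [false, true] rfl z hz',
    h.1 [false, false] rfl z hz'⟩

theorem ob3 (h : OB M ε f) (hz : z ∈ disc 2) (a b c : Bool) :
    |Dw [a, b, c] f z| ≤ M * ε ^ 2 := by
  have hz' := disc_mono (by norm_num) (by norm_num : (2 : ℝ) ≤ 3) hz
  exact h.2.1 [a, b, c] rfl z hz'

/-- `Bd` of order three for a normalized component -/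
theorem bd3 {K : ℝ} (h : OB M ε f) (h0 : ∀ z ∈ disc 2, |f z| ≤ K)
    (h1 : ∀ z ∈ disc 2, |dx f z| ≤ K) (h2 : ∀ z ∈ disc 2, |dy f z| ≤ K)
    (h3 : M * ε ≤ K) (h4 : M * ε ^ 2 ≤ K) : Bd (disc 2) 3 K f := by
  rw [Bd_iff_Dw]
  intro w hw z hz
  have hz' := disc_mono (by norm_num) (by norm_num : (2 : ℝ) ≤ 3) hz
  rcases w with _ | ⟨a, _ | ⟨b, _ | ⟨c, _ | ⟨d, w⟩⟩⟩⟩
  · exact h0 z hz
  · cases a
    · exact h2 z hz
    · exact h1 z hz
  · exact (h.1 [a, b] rfl z hz').trans h3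
  · exact (h.2.1 [a, b, c] rfl z hz').trans h4
  · simp only [List.length_cons] at hw; omega

/-- `|x y + u v - (p q + r s)|` -/
theorem four {x y u v p q r s A B C D : ℝ} (h1 : |x * y| ≤ A) (h2 : |u * v| ≤ B)
    (h3 : |p * q| ≤ C) (h4 : |r * s| ≤ D) : |x * y + u * v - (p * q + r * s)| ≤ A + B + C + D := by
  rw [abs_le] at *
  constructor <;> linarith

theorem alg2 {E η P N J Q P2 Q2 : ℝ} (hη0 : 0 < η) (hE2 : E ^ 2 ≤ η / 1000)
    (hJl : 9 / 10 ≤ J) (hJu : J ≤ 11 / 10) (hN : |N| ≤ 42 / 10 * E) (hQ : |Q| ≤ 21 / 10 * E)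
    (hQ2 : |Q2| ≤ 21 / 10 * E) (hP : 95 / 100 * η ≤ P) (hP2 : |P2| ≤ 17 / 1000 * η) :
    η / 2 ≤ (P * J - N * Q) / J ^ 2 ∧ |(P2 * J - N * Q2) / J ^ 2| ≤ η / 2 := by
  have hJ0 : 0 < J := by linarith
  have hJ2 : J ^ 2 ≤ 121 / 100 := by nlinarith
  have hJ3 : 81 / 100 ≤ J ^ 2 := by nlinarith
  have e0 : 42 / 10 * E * (21 / 10 * E) ≤ 9 / 1000 * η := by
    have : 42 / 10 * E * (21 / 10 * E) = 882 / 100 * E ^ 2 := by ring
    linarith
  constructor
  · rw [le_div_iff₀ (by positivity)]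
    have e1 : 95 / 100 * η * (9 / 10) ≤ P * J :=
      mul_le_mul hP hJl (by norm_num) (by linarith)
    have e2 := (abs_le.1 (mul_le' hN hQ)).2
    have e3 : η / 2 * J ^ 2 ≤ η / 2 * (121 / 100) :=
      mul_le_mul_of_nonneg_left hJ2 (by linarith)
    linarith
  · rw [abs_div, abs_of_pos (show 0 < J ^ 2 by positivity), div_le_iff₀ (by positivity)]
    have e1 : |P2 * J| ≤ 17 / 1000 * η * (11 / 10) :=
      mul_le' hP2 (by rw [abs_of_pos hJ0]; exact hJu)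
    have e2 := mul_le' hN hQ2
    have e3 : η / 2 * (81 / 100) ≤ η / 2 * J ^ 2 :=
      mul_le_mul_of_nonneg_left hJ3 (by linarith)
    rw [abs_le] at e1 e2 ⊢
    constructor <;> linarith

theorem alg {E η F ax ay bx by' hx hy axx axy ayx ayy bxx bxy byx byy hxx hxy hyx hyy : ℝ}
    (hη0 : 0 < η) (hE0 : 0 < E) (hE1 : E ≤ 1 / 1000) (hE2 : E ^ 2 ≤ η / 1000)
    (hF : F ≤ η / 1000)
    (Hax : |ax - 1| ≤ 1 / 50) (Hby : |by' - 1| ≤ 1 / 50) (Hay : |ay| ≤ 1 / 50)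
    (Hbx : |bx| ≤ 1 / 50) (Hay' : |ay| ≤ 4 * E) (Hhx : |hx| ≤ 4 * E) (Hhy : |hy| ≤ 4 * E)
    (axx' : |axx| ≤ E) (axy' : |axy| ≤ E) (ayx' : |ayx| ≤ E) (ayy' : |ayy| ≤ E)
    (bxx' : |bxx| ≤ E) (bxy' : |bxy| ≤ E) (byx' : |byx| ≤ E) (byy' : |byy| ≤ E)
    (hxx' : |hxx| ≤ E) (hxy' : |hxy| ≤ 4 * F) (hyx' : |hyx| ≤ E)
    (hyy' : 996 / 1000 * η ≤ hyy)
    (hJl : 9 / 10 ≤ ax * by' - ay * bx) (hJu : ax * by' - ay * bx ≤ 11 / 10) :
    η / 2 ≤ ((ayx * hy + ax * hyy - (ayy * hx + ay * hyx)) * (ax * by' - ay * bx)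
        - (ax * hy - ay * hx) * (ayx * by' + ax * byy - (ayy * bx + ay * byx)))
        / (ax * by' - ay * bx) ^ 2 ∧
    |((axx * hy + ax * hxy - (axy * hx + ay * hxx)) * (ax * by' - ay * bx)
        - (ax * hy - ay * hx) * (axx * by' + ax * bxy - (axy * bx + ay * bxx)))
        / (ax * by' - ay * bx) ^ 2| ≤ η / 2 := by
  have Hax' : |ax| ≤ 102 / 100 := by rw [abs_le] at *; constructor <;> linarith
  have Hby' : |by'| ≤ 102 / 100 := by rw [abs_le] at *; constructor <;> linarith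
  have hax0 : 98 / 100 ≤ ax := by have := (abs_le.1 Hax).1; linarith
  have N1 : |ax * hy - ay * hx| ≤ 42 / 10 * E := by
    have b1 := mul_le' Hax' Hhy
    have b2 := mul_le' Hay Hhx
    rw [abs_le] at b1 b2 ⊢
    constructor <;> linarith
  have J1 : |ayx * by' + ax * byy - (ayy * bx + ay * byx)| ≤ 21 / 10 * E :=
    (four (mul_le' ayx' Hby') (mul_le' Hax' byy') (mul_le' ayy' Hbx) (mul_le' Hay byx')).trans
      (by linarith)
  have J2 : |axx * by' + ax * bxy - (axy * bx + ay * bxx)| ≤ 21 / 10 * E :=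
    (four (mul_le' axx' Hby') (mul_le' Hax' bxy') (mul_le' axy' Hbx) (mul_le' Hay bxx')).trans
      (by linarith)
  have D1 : 95 / 100 * η ≤ ayx * hy + ax * hyy - (ayy * hx + ay * hyx) := by
    have c1 := abs_le.1 (mul_le' ayx' Hhy)
    have c2 := abs_le.1 (mul_le' ayy' Hhx)
    have c3 := abs_le.1 (mul_le' Hay' hyx')
    have c4 : 98 / 100 * (996 / 1000 * η) ≤ ax * hyy :=
      mul_le_mul hax0 hyy' (by positivity) (by linarith)
    nlinarith
  have D2 : |axx * hy + ax * hxy - (axy * hx + ay * hxx)| ≤ 17 / 1000 * η :=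
    (four (mul_le' axx' Hhy) (mul_le' Hax' hxy') (mul_le' axy' Hhx) (mul_le' Hay' hxx')).trans
      (by nlinarith)
  exact alg2 hη0 hE2 hJl hJu N1 J1 J2 D1 D2

end BasicAux

open BasicAux in
theorem basic_facts (M : ℝ) (hM : 1 ≤ M) : ∃ ε0 : ℝ, 0 < ε0 ∧ ∀ ε, 0 < ε → ε < ε0 →
    ∃ C0 j0 : ℝ, 0 < C0 ∧ 0 < j0 ∧ ∀ (e0 : ℝ) (T : Tri), 99 / 100 ≤ e0 → e0 ≤ 1 →
      Nrm M ε e0 T → Basic M ε C0 j0 T := by
  have hM0 : 0 < M := by linarith
  refine ⟨1 / (1000 * M ^ 3), by positivity, fun ε hε hε1 => ?_⟩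
  have ht : M ^ 3 * ε ≤ 1 / 1000 := by
    rw [lt_div_iff₀ (by positivity)] at hε1
    nlinarith
  have hM2 : 1 ≤ M ^ 2 := one_le_pow₀ hM
  have hM3 : 1 ≤ M ^ 3 := one_le_pow₀ hM
  set E : ℝ := M * ε with hE
  set η : ℝ := ε / M with hη
  have hη0 : 0 < η := by positivity
  have hE0 : 0 < E := by positivity
  have hεη : ε = M * η := by rw [hη]; field_simp
  have hE1 : E ≤ 1 / 1000 := by
    have : M * ε ≤ M ^ 3 * ε := by
      have : M * 1 ≤ M * M ^ 2 := mul_le_mul_of_nonneg_left hM2 hM0.le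
      nlinarith
    linarith
  have hE2 : E ^ 2 ≤ η / 1000 := by
    have : E ^ 2 = M ^ 3 * ε * η := by rw [hE, hη]; field_simp
    rw [this]
    nlinarith
  have hF : M * ε ^ 2 ≤ η / 1000 := by
    have : M * ε ^ 2 ≤ E ^ 2 := by
      rw [hE, mul_pow]
      have : M ≤ M ^ 2 := by nlinarith
      nlinarith [sq_nonneg ε]
    linarith
  have hηE : η ≤ E := by
    have : E = M ^ 2 * η := by rw [hE, hη]; field_simp
    rw [this]; nlinarith
  have hF1 : M * ε ^ 2 ≤ 1 := by linarith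
  obtain ⟨D, hD, hdiv⟩ := Bd.div 2 (2 * (2 ^ 2 * 9 * 9)) (9 / 10) (by norm_num)
  obtain ⟨D', hD', hdiv'⟩ := Bd.div 1 (max (2 * (2 ^ 1 * D * D)) (2 * (2 ^ 2 * 9 * 9))) (9 / 10)
    (by norm_num)
  refine ⟨9 + D + D', ε / (4 * M), by positivity, by positivity, fun e0 T h1 h2 hT => ?_⟩
  -- first derivatives
  have oa := hT.oa
  have ob := hT.ob
  have oh := hT.oh
  have key : ∀ {f : ℝ × ℝ → ℝ}, ContDiff ℝ ∞ f → OB M ε f → ∀ z ∈ disc 2,
      |dx f z - dx f 0| ≤ 4 * E ∧ |dy f z - dy f 0| ≤ 4 * E := by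
    intro f hf o z hz
    exact ⟨mv4 (contDiff_dx hf) (fun z hz => (ob2 o hz).1) (fun z hz => (ob2 o hz).2.2.1) hz,
      mv4 (contDiff_dy hf) (fun z hz => (ob2 o hz).2.1) (fun z hz => (ob2 o hz).2.2.2) hz⟩
  have ka := key T.ha oa
  have kb := key T.hb ob
  have kh := key T.hh oh
  rw [hT.ax, hT.ay] at ka
  rw [hT.bx, hT.by'] at kb
  rw [hT.hx, hT.hy] at kh
  simp only [sub_zero] at ka kb kh
  have Hax : ∀ z ∈ disc 2, |dx T.a z - 1| ≤ 1 / 50 := fun z hz => by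
    have := (ka z hz).1
    rw [abs_le] at *
    constructor <;> linarith
  have Hby : ∀ z ∈ disc 2, |dy T.b z - 1| ≤ 1 / 50 := fun z hz => by
    have := (kb z hz).2
    rw [abs_le] at *
    constructor <;> linarith
  have Hay : ∀ z ∈ disc 2, |dy T.a z| ≤ 1 / 50 := fun z hz => (ka z hz).2.trans (by linarith)
  have Hbx : ∀ z ∈ disc 2, |dx T.b z| ≤ 1 / 50 := fun z hz => (kb z hz).1.trans (by linarith)
  have Hhx : ∀ z ∈ disc 2, |dx T.h z| ≤ 1 / 50 := fun z hz => (kh z hz).1.trans (by linarith)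
  have Hhy : ∀ z ∈ disc 2, |dy T.h z| ≤ 1 / 50 := fun z hz => (kh z hz).2.trans (by linarith)
  have HJl : ∀ z ∈ disc 2, 9 / 10 ≤ br T.a T.b z := fun z hz => by
    have a1 := abs_le.1 (Hax z hz)
    have a2 := abs_le.1 (Hby z hz)
    have a3 := abs_le.1 (mul_le' (Hay z hz) (Hbx z hz))
    show 9 / 10 ≤ dx T.a z * dy T.b z - dy T.a z * dx T.b z
    nlinarith [mul_nonneg (sub_nonneg.2 a1.1) (sub_nonneg.2 a2.1)]
  have HJu : ∀ z ∈ disc 2, br T.a T.b z ≤ 11 / 10 := fun z hz => by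
    have a1 := abs_le.1 (Hax z hz)
    have a2 := abs_le.1 (Hby z hz)
    have a3 := abs_le.1 (mul_le' (Hay z hz) (Hbx z hz))
    show dx T.a z * dy T.b z - dy T.a z * dx T.b z ≤ 11 / 10
    nlinarith [mul_nonneg (sub_nonneg.2 a1.2) (sub_nonneg.2 a2.1)]
  have hU := isOpen_disc 2
  have sa : Sm (disc 2) T.a := Sm.of_contDiff T.ha
  have sb : Sm (disc 2) T.b := Sm.of_contDiff T.hb
  have sh : Sm (disc 2) T.h := Sm.of_contDiff T.hh
  have hJ0 : ∀ z ∈ disc 2, br T.a T.b z ≠ 0 := fun z hz => by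
    have := HJl z hz
    positivity
  have sp : Sm (disc 2) (pf T) := Sm.Lo hU sa sb sh hJ0
  have sP : Sm (disc 2) (Pf T) := Sm.No hU sa sb sh hJ0
  have sk : Sm (disc 2) (kf T) := (Sm.br hU sp sP).div (Sm.br hU sa sb) hJ0
  -- the numerator and its derivatives
  have Hau : ∀ z ∈ disc 2, |T.a z - z.1| ≤ (|z.1| + |z.2|) / 50 := fun z hz => by
    have hd : ∀ w : ℝ × ℝ, DifferentiableAt ℝ T.a w := fun w =>
      (T.ha.differentiable (by simp)) w
    have e := mv (f := fun w => T.a w - w.1) (E := 1 / 50) (T.ha.sub contDiff_fst)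
      (fun w hw => by
        rw [dx_sub (hd w) differentiableAt_fst, dx_fst]; exact Hax w hw)
      (fun w hw => by
        rw [dy_sub (hd w) differentiableAt_fst, dy_fst, sub_zero]; exact Hay w hw) hz
    simp only [hT.a0, Prod.fst_zero, sub_zero] at e
    linarith
  have bound0 : ∀ {f : ℝ × ℝ → ℝ}, ContDiff ℝ ∞ f → f 0 = 0 → (∀ z ∈ disc 2, |dx f z| ≤ 2) →
      (∀ z ∈ disc 2, |dy f z| ≤ 2) → ∀ z ∈ disc 2, |f z| ≤ 9 := by
    intro f hf h0 hx hy z hz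
    have := mv4 hf hx hy hz
    rw [h0, sub_zero] at this
    linarith
  have two_of : ∀ {x : ℝ}, |x - 1| ≤ 1 / 50 → |x| ≤ 2 := fun {x} h => by
    rw [abs_le] at *; constructor <;> linarith
  have Bda : Bd (disc 2) 3 9 T.a := bd3 oa
    (bound0 T.ha hT.a0 (fun z hz => two_of (Hax z hz)) (fun z hz => (Hay z hz).trans (by norm_num)))
    (fun z hz => (two_of (Hax z hz)).trans (by norm_num))
    (fun z hz => (Hay z hz).trans (by norm_num)) (by linarith) (by linarith)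
  have Bdb : Bd (disc 2) 3 9 T.b := bd3 ob
    (bound0 T.hb hT.b0 (fun z hz => (Hbx z hz).trans (by norm_num)) (fun z hz => two_of (Hby z hz)))
    (fun z hz => (Hbx z hz).trans (by norm_num))
    (fun z hz => (two_of (Hby z hz)).trans (by norm_num)) (by linarith) (by linarith)
  have Bdh : Bd (disc 2) 3 9 T.h := bd3 oh
    (bound0 T.hh hT.h0 (fun z hz => (Hhx z hz).trans (by norm_num))
      (fun z hz => (Hhy z hz).trans (by norm_num)))
    (fun z hz => (Hhx z hz).trans (by norm_num))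
    (fun z hz => (Hhy z hz).trans (by norm_num)) (by linarith) (by linarith)
  have BJ : Bd (disc 2) 2 (2 * (2 ^ 2 * 9 * 9)) (br T.a T.b) := Bd.br hU sa sb Bda Bdb
  have Bdp : Bd (disc 2) 2 D (pf T) := hdiv _ _ _ hU (Sm.br hU sh sb) (Sm.br hU sa sb)
    (Bd.br hU sh sb Bdh Bdb) BJ HJl
  have BdP : Bd (disc 2) 2 D (Pf T) := hdiv _ _ _ hU (Sm.br hU sa sh) (Sm.br hU sa sb)
    (Bd.br hU sa sh Bda Bdh) BJ HJl
  have Bdk : Bd (disc 2) 1 D' (kf T) := hdiv' _ _ _ hU (Sm.br hU sp sP) (Sm.br hU sa sb)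
    ((Bd.br hU sp sP Bdp BdP).mono subset_rfl (le_max_left _ _))
    ((BJ.of_le one_le_two).mono subset_rfl (le_max_right _ _)) HJl
  -- derivatives of `P`
  have HP : ∀ z ∈ disc 2, ε / (2 * M) ≤ dy (Pf T) z ∧ |dx (Pf T) z| ≤ ε / (2 * M) := by
    intro z hz
    have dax := (sa.dx hU).diff hU hz
    have day := (sa.dy hU).diff hU hz
    have dbx := (sb.dx hU).diff hU hz
    have dby := (sb.dy hU).diff hU hz
    have dhx := (sh.dx hU).diff hU hz
    have dhy := (sh.dy hU).diff hU hz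
    have dN : DifferentiableAt ℝ (br T.a T.h) z := (Sm.br hU sa sh).diff hU hz
    have dJ : DifferentiableAt ℝ (br T.a T.b) z := (Sm.br hU sa sb).diff hU hz
    have eP : Pf T = fun w => br T.a T.h w / br T.a T.b w := rfl
    have hJz := hJ0 z hz
    rw [eP, dy_div dN dJ hJz, dx_div dN dJ hJz, dy_br dax day dhx dhy, dy_br dax day dbx dby,
      dx_br dax day dhx dhy, dx_br dax day dbx dby]
    obtain ⟨axx, axy, ayx, ayy⟩ := ob2 oa hz
    obtain ⟨bxx, bxy, byx, byy⟩ := ob2 ob hz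
    obtain ⟨hxx, hxy', hyx', hyy'⟩ := ob2 oh hz
    have hxyF : |dx (dy T.h) z| ≤ 4 * (M * ε ^ 2) := by
      have := mv4 (contDiff_dx (contDiff_dy T.hh)) (fun z hz => ob3 oh hz true true false)
        (fun z hz => ob3 oh hz false true false) hz
      rwa [hT.hxy, sub_zero] at this
    have hyyF : |dy (dy T.h) z - dy (dy T.h) 0| ≤ 4 * (M * ε ^ 2) :=
      mv4 (contDiff_dy (contDiff_dy T.hh)) (fun z hz => ob3 oh hz true false false)
        (fun z hz => ob3 oh hz false false false) hz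
    have hyy0 := hT.hyy
    have hyyL : 996 / 1000 * η ≤ dy (dy T.h) z := by
      have := (abs_le.1 hyyF).1
      linarith
    rw [← hE] at axx axy ayx ayy bxx bxy byx byy hxx hxy' hyx' hyy'
    have e : ε / (2 * M) = η / 2 := by rw [hη]; field_simp
    rw [e]
    exact alg hη0 hE0 hE1 hE2 hF (Hax z hz) (Hby z hz) (Hay z hz) (Hbx z hz) (ka z hz).2
      (kh z hz).1 (kh z hz).2 axx axy ayx ayy bxx bxy byx byy hxx hxyF hyx' hyyL (HJl z hz)
      (HJu z hz)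
  have le1 : 9 ≤ 9 + D + D' := by linarith
  have le2 : D ≤ 9 + D + D' := by linarith
  have le3 : D' ≤ 9 + D + D' := by linarith
  refine ⟨Hax, Hay, Hbx, Hby, Hhx, Hhy, HJl, HJu, Hau, fun z hz => (HP z hz).1,
    fun z hz => (HP z hz).2, ⟨sa, sP, sk, ?_, ?_, ?_, ?_⟩, sp, Bda.mono subset_rfl le1,
    Bdb.mono subset_rfl le1, Bdh.mono subset_rfl le1, Bdp.mono subset_rfl le2,
    BdP.mono subset_rfl le2, Bdk.mono subset_rfl le3⟩
  · exact fun z hz => ⟨(Bda.bound hz).trans le1, (Bda.dx.bound hz).trans le1,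
      (Bda.dy.bound hz).trans le1⟩
  · exact fun z hz => ⟨(BdP.bound hz).trans le2, (BdP.dx.bound hz).trans le2,
      (BdP.dy.bound hz).trans le2⟩
  · exact fun z hz => ⟨(Bdk.bound hz).trans le3, (Bdk.dx.bound hz).trans le3,
      (Bdk.dy.bound hz).trans le3⟩
  · intro z hz
    have p1 := (HP z hz).1
    have p2 := (HP z hz).2
    have a1 := (abs_le.1 (Hax z hz)).1
    have e1 : ε / (2 * M) = η / 2 := by rw [hη]; field_simp
    have e2 : ε / (4 * M) = η / 4 := by rw [hη]; field_simp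
    rw [e1] at p1 p2
    rw [e2]
    have q1 := (abs_le.1 (mul_le' (Hay z hz) p2)).2
    have q2 : 98 / 100 * (η / 2) ≤ dx T.a z * dy (Pf T) z :=
      mul_le_mul (by linarith) p1 (by positivity) (by linarith)
    show η / 4 ≤ dx T.a z * dy (Pf T) z - dy T.a z * dx (Pf T) z
    linarith

end Vale.Agent.P229
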