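import Vale.Agent.P229.Surf

/-! P229, module S: closure properties of `Bd`. -/

namespace Vale.Agent.P229

open MeasureTheory Set
open scoped ContDiff

section S
variable {U V : Set (ℝ × ℝ)} {f g f' g' : ℝ × ℝ → ℝ} {k m : ℕ} {C D c R : ℝ} {z : ℝ × ℝ}

theorem Bd.bound (h : Bd U k C f) (hz : z ∈ U) : |f z| ≤ C := by
  cases k with
  | zero => exact h z hz
  | succ k => exact h.1 z hz

theorem Bd.dx (h : Bd U (k + 1) C f) : Bd U k C (P229.dx f) := h.2.1

theorem Bd.dy (h : Bd U (k + 1) C f) : Bd U k C (P229.dy f) := h.2.2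

theorem Bd.mono (h : Bd U k C f) (hV : V ⊆ U) (hCD : C ≤ D) : Bd V k D f := by
  induction k generalizing f with
  | zero => exact fun z hz => (h z (hV hz)).trans hCD
  | succ k ih =>
    exact ⟨fun z hz => (h.1 z (hV hz)).trans hCD, ih h.2.1, ih h.2.2⟩

theorem Bd.of_le (h : Bd U k C f) (hm : m ≤ k) : Bd U m C f := by
  induction m generalizing k f with
  | zero => exact fun z hz => h.bound hz
  | succ m ih =>
    obtain ⟨k, rfl⟩ : ∃ k', k = k' + 1 := ⟨k - 1, by omega⟩
    exact ⟨h.1, ih h.2.1 (by omega), ih h.2.2 (by omega)⟩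

theorem Bd.congr (hU : IsOpen U) (h : ∀ z ∈ U, f z = g z) (hf : Bd U k C f) : Bd U k C g := by
  induction k generalizing f g with
  | zero => exact fun z hz => by rw [← h z hz]; exact hf z hz
  | succ k ih =>
    refine ⟨fun z hz => by rw [← h z hz]; exact hf.1 z hz, ih ?_ hf.2.1, ih ?_ hf.2.2⟩
    · exact fun z hz => dx_congr hU h hz
    · exact fun z hz => dy_congr hU h hz

theorem Bd.const (h : |c| ≤ C) : Bd U k C (fun _ => c) := by
  induction k generalizing c with
  | zero => exact fun z hz => h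
  | succ k ih =>
    have h0 : |(0 : ℝ)| ≤ C := by rw [abs_zero]; exact (abs_nonneg c).trans h
    have e1 : P229.dx (fun _ : ℝ × ℝ => c) = fun _ => 0 := by funext z; exact dx_const c
    have e2 : P229.dy (fun _ : ℝ × ℝ => c) = fun _ => 0 := by funext z; exact dy_const c
    refine ⟨fun z hz => h, ?_, ?_⟩
    · rw [e1]; exact ih h0
    · rw [e2]; exact ih h0

theorem Bd.neg (hf : Bd U k C f) : Bd U k C (fun z => - f z) := by
  induction k generalizing f with
  | zero => exact fun z hz => by rw [abs_neg]; exact hf z hz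
  | succ k ih =>
    have e1 : P229.dx (fun z => - f z) = fun z => - P229.dx f z := by funext z; exact dx_neg
    have e2 : P229.dy (fun z => - f z) = fun z => - P229.dy f z := by funext z; exact dy_neg
    refine ⟨fun z hz => by rw [abs_neg]; exact hf.1 z hz, ?_, ?_⟩
    · rw [e1]; exact ih hf.2.1
    · rw [e2]; exact ih hf.2.2

theorem Bd.add (hU : IsOpen U) (sf : Sm U f) (sg : Sm U g) (hf : Bd U k C f) (hg : Bd U k D g) :
    Bd U k (C + D) (fun z => f z + g z) := by
  induction k generalizing f g with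
  | zero => exact fun z hz => (abs_add_le _ _).trans (add_le_add (hf z hz) (hg z hz))
  | succ k ih =>
    refine ⟨fun z hz => (abs_add_le _ _).trans (add_le_add (hf.1 z hz) (hg.1 z hz)), ?_, ?_⟩
    · refine Bd.congr hU (fun z hz => ?_) (ih (sf.dx hU) (sg.dx hU) hf.2.1 hg.2.1)
      exact (dx_add (sf.diff hU hz) (sg.diff hU hz)).symm
    · refine Bd.congr hU (fun z hz => ?_) (ih (sf.dy hU) (sg.dy hU) hf.2.2 hg.2.2)
      exact (dy_add (sf.diff hU hz) (sg.diff hU hz)).symm

theorem Bd.sub (hU : IsOpen U) (sf : Sm U f) (sg : Sm U g) (hf : Bd U k C f) (hg : Bd U k D g) :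
    Bd U k (C + D) (fun z => f z - g z) := by
  refine Bd.congr hU (fun z hz => ?_) (Bd.add hU sf sg.neg hf hg.neg)
  ring

theorem Bd.mul (hU : IsOpen U) (sf : Sm U f) (sg : Sm U g) (hf : Bd U k C f) (hg : Bd U k D g) :
    Bd U k (2 ^ k * C * D) (fun z => f z * g z) := by
  induction k generalizing f g with
  | zero =>
    intro z hz
    have h1 := hf z hz
    have h2 := hg z hz
    rw [abs_mul, pow_zero, one_mul]
    exact mul_le_mul h1 h2 (abs_nonneg _) ((abs_nonneg _).trans h1)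
  | succ k ih =>
    have e0 : (2 : ℝ) ^ (k + 1) * C * D = 2 ^ k * C * D + 2 ^ k * C * D := by
      rw [pow_succ]; ring
    refine ⟨fun z hz => ?_, ?_, ?_⟩
    · have h1 := hf.1 z hz
      have h2 := hg.1 z hz
      have hC := (abs_nonneg _).trans h1
      have hD := (abs_nonneg _).trans h2
      have h3 : |f z * g z| ≤ C * D := by
        rw [abs_mul]; exact mul_le_mul h1 h2 (abs_nonneg _) hC
      have h4 : (1 : ℝ) ≤ 2 ^ (k + 1) := one_le_pow₀ (by norm_num)
      calc |f z * g z| ≤ 1 * (C * D) := by rw [one_mul]; exact h3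
        _ ≤ 2 ^ (k + 1) * (C * D) := by gcongr
        _ = _ := by ring
    · rw [e0]
      refine Bd.congr hU (fun z hz => ?_)
        (Bd.add hU ((sf.dx hU).mul sg) (sf.mul (sg.dx hU)) (ih (sf.dx hU) sg hf.2.1
          (hg.of_le (Nat.le_succ k))) (ih sf (sg.dx hU) (hf.of_le (Nat.le_succ k)) hg.2.1))
      exact (dx_mul (sf.diff hU hz) (sg.diff hU hz)).symm
    · rw [e0]
      refine Bd.congr hU (fun z hz => ?_)
        (Bd.add hU ((sf.dy hU).mul sg) (sf.mul (sg.dy hU)) (ih (sf.dy hU) sg hf.2.2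
          (hg.of_le (Nat.le_succ k))) (ih sf (sg.dy hU) (hf.of_le (Nat.le_succ k)) hg.2.2))
      exact (dy_mul (sf.diff hU hz) (sg.diff hU hz)).symm

theorem Bd.br (hU : IsOpen U) (sf : Sm U f) (sg : Sm U g) (hf : Bd U (k + 1) C f)
    (hg : Bd U (k + 1) D g) : Bd U k (2 * (2 ^ k * C * D)) (P229.br f g) := by
  rw [two_mul]
  exact Bd.sub hU ((sf.dx hU).mul (sg.dy hU)) ((sf.dy hU).mul (sg.dx hU))
    (Bd.mul hU (sf.dx hU) (sg.dy hU) hf.dx hg.dy) (Bd.mul hU (sf.dy hU) (sg.dx hU) hf.dy hg.dx)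

namespace BdAux

theorem recip (k : ℕ) (C c : ℝ) (hc : 0 < c) : ∃ D : ℝ, 0 < D ∧ ∀ (U : Set (ℝ × ℝ))
    (g : ℝ × ℝ → ℝ), IsOpen U → Sm U g → Bd U k C g →
    (∀ z ∈ U, c ≤ g z) → Bd U k D (fun z => 1 / g z) := by
  induction k with
  | zero =>
    refine ⟨1 / c, by positivity, fun U g hU sg hg h z hz => ?_⟩
    have h1 := h z hz
    rw [abs_of_pos (by have := hc.trans_le h1; positivity)]
    exact one_div_le_one_div_of_le hc h1
  | succ k ih =>
    obtain ⟨D, hD, ih⟩ := ih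
    refine ⟨max (1 / c) (2 ^ k * |C| * (2 ^ k * D * D)), lt_max_of_lt_left (by positivity),
      fun U g hU sg hg h => ?_⟩
    have h0 : ∀ z ∈ U, g z ≠ 0 := fun z hz => (hc.trans_le (h z hz)).ne'
    have si : Sm U (fun z => 1 / g z) := (Sm.const 1).div sg h0
    have hi := ih U g hU sg (hg.of_le (Nat.le_succ k)) h
    refine ⟨fun z hz => ?_, ?_, ?_⟩
    · have h1 := h z hz
      refine le_max_of_le_left ?_
      rw [abs_of_pos (by have := hc.trans_le h1; positivity)]
      exact one_div_le_one_div_of_le hc h1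
    · have h2 := (Bd.mul hU (sg.dx hU) (si.mul si) (hg.dx.mono subset_rfl (le_abs_self C))
        (Bd.mul hU si si hi hi)).neg
      refine Bd.congr hU (fun z hz => ?_) (h2.mono subset_rfl (le_max_right _ _))
      have e1 : (fun w => 1 / g w) = fun w => (g w)⁻¹ := by funext w; rw [one_div]
      rw [e1, dx_inv (sg.diff hU hz) (h0 z hz)]
      have := h0 z hz
      field_simp
    · have h2 := (Bd.mul hU (sg.dy hU) (si.mul si) (hg.dy.mono subset_rfl (le_abs_self C))
        (Bd.mul hU si si hi hi)).neg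
      refine Bd.congr hU (fun z hz => ?_) (h2.mono subset_rfl (le_max_right _ _))
      have e1 : (fun w => 1 / g w) = fun w => (g w)⁻¹ := by funext w; rw [one_div]
      rw [e1, dy_inv (sg.diff hU hz) (h0 z hz)]
      have := h0 z hz
      field_simp

/-- quotient with a small numerator -/
theorem div' (k : ℕ) (C c : ℝ) (hc : 0 < c) : ∃ D : ℝ, 0 < D ∧ ∀ (U : Set (ℝ × ℝ))
    (f g : ℝ × ℝ → ℝ) (E : ℝ), IsOpen U → Sm U f → Sm U g → Bd U k E f → Bd U k C g →
    (∀ z ∈ U, c ≤ g z) → Bd U k (D * E) (fun z => f z / g z) := by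
  obtain ⟨D, hD, h⟩ := recip k C c hc
  refine ⟨2 ^ k * D, by positivity, fun U f g E hU sf sg hf hg h0 => ?_⟩
  have h1 := h U g hU sg hg h0
  have si : Sm U (fun z => 1 / g z) :=
    (Sm.const 1).div sg (fun z hz => (hc.trans_le (h0 z hz)).ne')
  have h2 := Bd.mul hU si sf h1 hf
  refine Bd.congr hU (fun z hz => ?_) h2
  rw [one_div, div_eq_inv_mul]

end BdAux

open BdAux in
theorem Bd.div (k : ℕ) (C c : ℝ) (hc : 0 < c) : ∃ D : ℝ, 0 < D ∧ ∀ (U : Set (ℝ × ℝ))
    (f g : ℝ × ℝ → ℝ), IsOpen U → Sm U f → Sm U g → Bd U k C f → Bd U k C g →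
    (∀ z ∈ U, c ≤ g z) → Bd U k D (fun z => f z / g z) := by
  obtain ⟨D, hD, h⟩ := div' k C c hc
  refine ⟨D * (|C| + 1), by positivity, fun U f g hU sf sg hf hg h0 => ?_⟩
  exact h U f g _ hU sf sg (hf.mono subset_rfl ((le_abs_self C).trans (by linarith))) hg h0

open BdAux in
/-- closeness of quotients: `e` is the (small) size of the differences -/
theorem Bd.div_sub (k : ℕ) (C c : ℝ) (hc : 0 < c) : ∃ D : ℝ, 0 < D ∧ ∀ (U : Set (ℝ × ℝ))
    (f g f' g' : ℝ × ℝ → ℝ) (e : ℝ), IsOpen U → Sm U f → Sm U g → Sm U f' → Sm U g' → 0 ≤ e →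
    Bd U k C f → Bd U k C g → Bd U k C f' → Bd U k C g' →
    (∀ z ∈ U, c ≤ g z) → (∀ z ∈ U, c ≤ g' z) →
    Bd U k e (fun z => f z - f' z) → Bd U k e (fun z => g z - g' z) →
    Bd U k (D * e) (fun z => f z / g z - f' z / g' z) := by
  obtain ⟨D, hD, h⟩ := div' k (2 ^ k * |C| * |C|) (c * c) (by positivity)
  refine ⟨D * (2 * (2 ^ k * |C|)) + 1, by positivity,
    fun U f g f' g' e hU sf sg sf' sg' he hf hg hf' hg' h0 h0' h1 h2 => ?_⟩
  have aC := le_abs_self C
  have e1 := Bd.mul hU (sf.sub sf') sg' h1 (hg'.mono subset_rfl aC)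
  have e2 := Bd.mul hU (sg.sub sg') sf' h2 (hf'.mono subset_rfl aC)
  have e3 := Bd.sub hU ((sf.sub sf').mul sg') ((sg.sub sg').mul sf') e1 e2
  have e4 := Bd.mul hU sg sg' (hg.mono subset_rfl aC) (hg'.mono subset_rfl aC)
  have e5 := h U _ _ _ hU (((sf.sub sf').mul sg').sub ((sg.sub sg').mul sf')) (sg.mul sg') e3 e4
    (fun z hz => mul_le_mul (h0 z hz) (h0' z hz) hc.le (hc.le.trans (h0 z hz)))
  have e6 : D * (2 ^ k * e * |C| + 2 ^ k * e * |C|) ≤ (D * (2 * (2 ^ k * |C|)) + 1) * e := by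
    nlinarith
  refine Bd.congr hU (fun z hz => ?_) (e5.mono subset_rfl e6)
  have n1 : g z ≠ 0 := (hc.trans_le (h0 z hz)).ne'
  have n2 : g' z ≠ 0 := (hc.trans_le (h0' z hz)).ne'
  field_simp
  ring

/-- closeness of brackets -/
theorem Bd.br_sub (k : ℕ) (C : ℝ) : ∃ D : ℝ, 0 < D ∧ ∀ (U : Set (ℝ × ℝ))
    (f g f' g' : ℝ × ℝ → ℝ) (e : ℝ), IsOpen U → Sm U f → Sm U g → Sm U f' → Sm U g' → 0 ≤ e →
    Bd U (k + 1) C f → Bd U (k + 1) C g → Bd U (k + 1) C f' → Bd U (k + 1) C g' →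
    Bd U (k + 1) e (fun z => f z - f' z) → Bd U (k + 1) e (fun z => g z - g' z) →
    Bd U k (D * e) (fun z => P229.br f g z - P229.br f' g' z) := by
  refine ⟨4 * (2 ^ k * |C|) + 1, by positivity,
    fun U f g f' g' e hU sf sg sf' sg' he hf hg hf' hg' h1 h2 => ?_⟩
  have aC := le_abs_self C
  have e1 := Bd.br hU (sf.sub sf') sg h1 (hg.mono subset_rfl aC)
  have e2 := Bd.br hU sf' (sg.sub sg') (hf'.mono subset_rfl aC) h2
  have e3 := Bd.add hU (Sm.br hU (sf.sub sf') sg) (Sm.br hU sf' (sg.sub sg')) e1 e2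
  have e6 : 2 * (2 ^ k * e * |C|) + 2 * (2 ^ k * |C| * e) ≤ (4 * (2 ^ k * |C|) + 1) * e := by
    nlinarith
  refine Bd.congr hU (fun z hz => ?_) (e3.mono subset_rfl e6)
  simp only [P229.br, dx_sub (sf.diff hU hz) (sf'.diff hU hz),
    dy_sub (sf.diff hU hz) (sf'.diff hU hz), dx_sub (sg.diff hU hz) (sg'.diff hU hz),
    dy_sub (sg.diff hU hz) (sg'.diff hU hz)]
  ring

theorem Dw_append_true (w : List Bool) (f : ℝ × ℝ → ℝ) :
    Dw (w ++ [true]) f = Dw w (P229.dx f) := by
  induction w with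
  | nil => rfl
  | cons b w ih => cases b <;> simp only [List.cons_append, Dw, ih]

theorem Dw_append_false (w : List Bool) (f : ℝ × ℝ → ℝ) :
    Dw (w ++ [false]) f = Dw w (P229.dy f) := by
  induction w with
  | nil => rfl
  | cons b w ih => cases b <;> simp only [List.cons_append, Dw, ih]

theorem Bd_iff_Dw : Bd U k C f ↔ ∀ w : List Bool, w.length ≤ k → ∀ z ∈ U, |Dw w f z| ≤ C := by
  induction k generalizing f with
  | zero =>
    constructor
    · intro h w hw z hz
      have : w = [] := List.length_eq_zero_iff.mp (Nat.le_zero.mp hw)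
      rw [this]; exact h z hz
    · intro h z hz
      exact h [] le_rfl z hz
  | succ k ih =>
    constructor
    · intro h w hw z hz
      rcases List.eq_nil_or_concat w with rfl | ⟨w', b, rfl⟩
      · exact h.1 z hz
      · rw [List.concat_eq_append] at hw ⊢
        rw [List.length_append, List.length_singleton] at hw
        cases b
        · rw [Dw_append_false]; exact ih.mp h.2.2 w' (by omega) z hz
        · rw [Dw_append_true]; exact ih.mp h.2.1 w' (by omega) z hz
    · intro h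
      refine ⟨fun z hz => h [] (by simp) z hz, ih.mpr ?_, ih.mpr ?_⟩
      · intro w hw z hz
        rw [← Dw_append_true]
        exact h _ (by rw [List.length_append, List.length_singleton]; omega) z hz
      · intro w hw z hz
        rw [← Dw_append_false]
        exact h _ (by rw [List.length_append, List.length_singleton]; omega) z hz

/-- mean value inequality on a disc -/
theorem abs_sub_le_disc (hf : Sm (disc R) f) (hx : ∀ z ∈ disc R, |dx f z| ≤ C)
    (hy : ∀ z ∈ disc R, |dy f z| ≤ D) :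
    ∀ z ∈ disc R, ∀ w ∈ disc R, |f z - f w| ≤ C * |z.1 - w.1| + D * |z.2 - w.2| := by
  intro z hz w hw
  have hseg : ∀ t ∈ Icc (0 : ℝ) 1, (w.1 + t * (z.1 - w.1), w.2 + t * (z.2 - w.2)) ∈ disc R := by
    rintro t ⟨h0, h1⟩
    unfold disc at *
    simp only [Set.mem_ofPred_eq] at *
    have e1 : 0 ≤ t * (1 - t) * (z.1 - w.1) ^ 2 := by
      have : 0 ≤ 1 - t := by linarith
      positivity
    have e2 : 0 ≤ t * (1 - t) * (z.2 - w.2) ^ 2 := by
      have : 0 ≤ 1 - t := by linarith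
      positivity
    rcases eq_or_lt_of_le h0 with h | h
    · rw [← h]; simpa using hw
    · nlinarith
  have hd : ∀ t ∈ Icc (0 : ℝ) 1, HasDerivWithinAt
      (fun t : ℝ => f (w.1 + t * (z.1 - w.1), w.2 + t * (z.2 - w.2)))
      (dx f (w.1 + t * (z.1 - w.1), w.2 + t * (z.2 - w.2)) * (z.1 - w.1) +
        dy f (w.1 + t * (z.1 - w.1), w.2 + t * (z.2 - w.2)) * (z.2 - w.2)) (Icc 0 1) t := by
    intro t ht
    have h1 := (hf.diff (isOpen_disc R) (hseg t ht)).hasFDerivAt
    have h2 : HasDerivAt (fun t : ℝ => (w.1 + t * (z.1 - w.1), w.2 + t * (z.2 - w.2)))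
        (z.1 - w.1, z.2 - w.2) t := by
      have a1 : HasDerivAt (fun t : ℝ => w.1 + t * (z.1 - w.1)) (z.1 - w.1) t := by
        simpa using ((hasDerivAt_id t).mul_const (z.1 - w.1)).const_add w.1
      have a2 : HasDerivAt (fun t : ℝ => w.2 + t * (z.2 - w.2)) (z.2 - w.2) t := by
        simpa using ((hasDerivAt_id t).mul_const (z.2 - w.2)).const_add w.2
      exact a1.prodMk a2
    have h3 := h1.comp_hasDerivAt t h2
    have e1 : (fderiv ℝ f (w.1 + t * (z.1 - w.1), w.2 + t * (z.2 - w.2)))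
        (z.1 - w.1, z.2 - w.2) =
        dx f (w.1 + t * (z.1 - w.1), w.2 + t * (z.2 - w.2)) * (z.1 - w.1) +
        dy f (w.1 + t * (z.1 - w.1), w.2 + t * (z.2 - w.2)) * (z.2 - w.2) := by
      have e2 : ((z.1 - w.1, z.2 - w.2) : ℝ × ℝ) =
          (z.1 - w.1) • ((1 : ℝ), (0 : ℝ)) + (z.2 - w.2) • ((0 : ℝ), (1 : ℝ)) := by
        ext <;> simp
      rw [e2, map_add, map_smul, map_smul]
      simp only [dx, dy, smul_eq_mul]
      ring
    rw [e1] at h3
    exact h3.hasDerivWithinAt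
  have hb : ∀ t ∈ Ico (0 : ℝ) 1,
      ‖dx f (w.1 + t * (z.1 - w.1), w.2 + t * (z.2 - w.2)) * (z.1 - w.1) +
        dy f (w.1 + t * (z.1 - w.1), w.2 + t * (z.2 - w.2)) * (z.2 - w.2)‖ ≤
        C * |z.1 - w.1| + D * |z.2 - w.2| := by
    intro t ht
    have h1 := hx _ (hseg t ⟨ht.1, ht.2.le⟩)
    have h2 := hy _ (hseg t ⟨ht.1, ht.2.le⟩)
    rw [Real.norm_eq_abs]
    refine (abs_add_le _ _).trans ?_
    rw [abs_mul, abs_mul]
    gcongr
  have h := norm_image_sub_le_of_norm_deriv_le_segment_01' hd hb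
  simp only [one_mul, zero_mul, add_zero, add_sub_cancel] at h
  rw [Real.norm_eq_abs] at h
  exact h

end S

end Vale.Agent.P229
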