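import Vale.Agent.P229.Defs

/-!
# P229 [M]: the greedy family of discs
-/

namespace Vale.Agent.P229

open Set

/-- closed Euclidean disc -/
def cdisc (p : ℝ × ℝ) (R : ℝ) : Set (ℝ × ℝ) := {z | (z.1 - p.1) ^ 2 + (z.2 - p.2) ^ 2 ≤ R ^ 2}

namespace DiscsAux

lemma isClosed_cdisc (p : ℝ × ℝ) (R : ℝ) : IsClosed (cdisc p R) := by
  apply isClosed_le
  · fun_prop
  · fun_prop

lemma cdisc_subset_ball {p : ℝ × ℝ} {R δ : ℝ} (hR : 0 ≤ R) (h : R < δ) :
    cdisc p R ⊆ Metric.ball p δ := by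
  intro z hz
  simp only [cdisc, mem_ofPred_eq] at hz
  rw [Metric.mem_ball, Prod.dist_eq, max_lt_iff, Real.dist_eq, Real.dist_eq]
  constructor
  · have : |z.1 - p.1| ≤ R := by
      apply abs_le_of_sq_le_sq _ hR
      nlinarith [sq_nonneg (z.2 - p.2)]
    linarith
  · have : |z.2 - p.2| ≤ R := by
      apply abs_le_of_sq_le_sq _ hR
      nlinarith [sq_nonneg (z.1 - p.1)]
    linarith

lemma isCompact_cdisc (p : ℝ × ℝ) {R : ℝ} (hR : 0 ≤ R) : IsCompact (cdisc p R) := by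
  apply Metric.isCompact_of_isClosed_isBounded (isClosed_cdisc p R)
  exact (Metric.isBounded_ball (x := p) (r := R + 1)).subset
    (cdisc_subset_ball hR (by linarith))

/-- in a nonempty open set there is a small closed disc -/
lemma exists_small {O : Set (ℝ × ℝ)} (hO : IsOpen O) (hne : O.Nonempty) {e : ℝ} (he : 0 < e) :
    ∃ x : (ℝ × ℝ) × ℝ, (0 < x.2 ∧ x.2 < e ∧ x.2 ≤ 1) ∧ cdisc x.1 (3 * x.2) ⊆ O := by
  obtain ⟨q, hq⟩ := hne
  obtain ⟨δ, hδ, hball⟩ := Metric.isOpen_iff.1 hO q hq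
  refine ⟨(q, min (min (e / 2) 1) (δ / 4)), ⟨by positivity, ?_, ?_⟩, ?_⟩
  · have : min (min (e / 2) 1) (δ / 4) ≤ e / 2 := (min_le_left _ _).trans (min_le_left _ _)
    simp only
    linarith
  · exact (min_le_left _ _).trans (min_le_right _ _)
  · refine (cdisc_subset_ball (by positivity) ?_).trans hball
    have : min (min (e / 2) 1) (δ / 4) ≤ δ / 4 := min_le_right _ _
    simp only
    linarith

/-- one greedy step -/
lemma step (K : {K : Set (ℝ × ℝ) // IsCompact K ∧ (0 : ℝ × ℝ) ∉ K}) (B : Set (ℝ × ℝ))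
    (hB : IsOpen B) {e : ℝ} (he : 0 < e) :
    ∃ x : (ℝ × ℝ) × ℝ, (0 < x.2 ∧ x.2 < e ∧ x.2 ≤ 1) ∧
      Disjoint (cdisc x.1 (3 * x.2)) (K.1 ∪ {0}) ∧
      ((B \ (K.1 ∪ {0})).Nonempty → cdisc x.1 (3 * x.2) ⊆ B) := by
  have hcl : IsClosed (K.1 ∪ {0}) := K.2.1.isClosed.union isClosed_singleton
  by_cases h : (B \ (K.1 ∪ {0})).Nonempty
  · obtain ⟨x, hx, hsub⟩ := exists_small (hB.sdiff hcl) h he
    refine ⟨x, hx, ?_, fun _ => hsub.trans sdiff_subset⟩
    exact disjoint_sdiff_left.mono_left hsub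
  · have hne : ((K.1 ∪ {0})ᶜ : Set (ℝ × ℝ)).Nonempty := by
      by_contra hcon
      rw [not_nonempty_iff_eq_empty, compl_empty_iff] at hcon
      have hc : IsCompact (K.1 ∪ {0} : Set (ℝ × ℝ)) := K.2.1.union isCompact_singleton
      rw [hcon] at hc
      exact noncompact_univ (ℝ × ℝ) hc
    obtain ⟨x, hx, hsub⟩ := exists_small hcl.isOpen_compl hne he
    refine ⟨x, hx, ?_, fun h' => absurd h' h⟩
    exact (disjoint_compl_left).mono_left hsub

end DiscsAux

open DiscsAux in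
theorem discs_exist (e : ℕ → ℝ) (he : ∀ j, 0 < e j) :
    ∃ (p : ℕ → ℝ × ℝ) (r : ℕ → ℝ), (∀ j, 0 < r j ∧ r j < e j ∧ r j ≤ 1) ∧
      (∀ i j, i ≠ j → Disjoint (cdisc (p i) (3 * r i)) (cdisc (p j) (3 * r j))) ∧
      (∀ s : ℝ, 0 < s → ∃ j, cdisc (p j) (3 * r j) ⊆ cdisc 0 s) ∧
      (∀ i, ∀ x : ℝ × ℝ, (x.1 - (p i).1) ^ 2 + (x.2 - (p i).2) ^ 2 = (3 * r i) ^ 2 →
        ∀ s : ℝ, 0 < s → ∀ J : ℕ, ∃ j ≥ J, cdisc (p j) (3 * r j) ⊆ cdisc x s) := by
  classical
  -- enumeration of the targets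
  let E : ℕ → (ℚ × ℚ × ℕ) × ℕ := fun j => (Denumerable.eqv ((ℚ × ℚ × ℕ) × ℕ)).symm j
  let c : ℕ → ℝ × ℝ := fun j => (((E j).1.1 : ℝ), ((E j).1.2.1 : ℝ))
  let ρ : ℕ → ℝ := fun j => 1 / ((E j).1.2.2 + 1 : ℝ)
  have hE : ∀ a : ℚ × ℚ × ℕ, ∀ J : ℕ, ∃ j ≥ J, (E j).1 = a := by
    intro a J
    have hinf : (range fun n : ℕ => Denumerable.eqv ((ℚ × ℚ × ℕ) × ℕ) (a, n)).Infinite := by
      apply infinite_range_of_injective
      intro n m h
      simpa using h
    obtain ⟨j, ⟨n, rfl⟩, hj⟩ := hinf.exists_gt J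
    refine ⟨_, hj.le, ?_⟩
    simp [E]
  let B : ℕ → Set (ℝ × ℝ) := fun j => Metric.ball (c j) (ρ j)
  have hB : ∀ j, IsOpen (B j) := fun j => Metric.isOpen_ball
  choose f hf1 hf2 hf3 using fun (j : ℕ) (K : {K : Set (ℝ × ℝ) // IsCompact K ∧ (0 : ℝ × ℝ) ∉ K}) =>
    step K (B j) (hB j) (he j)
  -- the state
  let nxt : (j : ℕ) → {K : Set (ℝ × ℝ) // IsCompact K ∧ (0 : ℝ × ℝ) ∉ K} →
      {K : Set (ℝ × ℝ) // IsCompact K ∧ (0 : ℝ × ℝ) ∉ K} := fun j K =>
    ⟨K.1 ∪ cdisc (f j K).1 (3 * (f j K).2),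
      K.2.1.union (isCompact_cdisc _ (by have := (hf1 j K).1; positivity)), by
        rintro (h | h)
        · exact K.2.2 h
        · exact (disjoint_left.1 (hf2 j K)) h (Or.inr rfl)⟩
  let S : ℕ → {K : Set (ℝ × ℝ) // IsCompact K ∧ (0 : ℝ × ℝ) ∉ K} := fun j =>
    Nat.rec ⟨∅, isCompact_empty, by simp⟩ (fun j K => nxt j K) j
  let D : ℕ → Set (ℝ × ℝ) := fun j => cdisc (f j (S j)).1 (3 * (f j (S j)).2)
  have hS : ∀ j, (S (j + 1)).1 = (S j).1 ∪ D j := fun j => rfl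
  have hS' : ∀ j, (S j).1 = ⋃ i ∈ Finset.range j, D i := by
    intro j
    induction j with
    | zero => simp [S]
    | succ j ih =>
      rw [hS, ih, Finset.range_add_one, Finset.set_biUnion_insert, union_comm]
  have hD0 : ∀ j, (0 : ℝ × ℝ) ∉ D j := by
    intro j h
    exact (disjoint_left.1 (hf2 j (S j))) h (Or.inr rfl)
  have hDcl : ∀ j, IsClosed (D j) := fun j => isClosed_cdisc _ _
  have hdisj : ∀ i j, i < j → Disjoint (D i) (D j) := by
    intro i j hij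
    have h1 : D i ⊆ (S j).1 := by
      rw [hS']
      exact subset_biUnion_of_mem (u := D) (Finset.mem_coe.2 (Finset.mem_range.2 hij))
    exact ((hf2 j (S j)).mono_right subset_union_left).symm.mono_left h1
  have hdisj' : ∀ i j, i ≠ j → Disjoint (D i) (D j) := by
    intro i j hij
    rcases lt_or_gt_of_ne hij with h | h
    · exact hdisj i j h
    · exact (hdisj j i h).symm
  -- choice of a rational ball
  have hrat : ∀ x : ℝ × ℝ, ∀ s : ℝ, 0 < s → ∀ J : ℕ, ∃ j ≥ J, x ∈ B j ∧ B j ⊆ cdisc x s := by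
    intro x s hs J
    obtain ⟨n, hn⟩ := exists_nat_one_div_lt (show (0 : ℝ) < s / 3 by positivity)
    have hn0 : (0 : ℝ) < 1 / ((n : ℝ) + 1) := by positivity
    obtain ⟨a, ha1, ha2⟩ := exists_rat_btwn (show x.1 < x.1 + 1 / ((n : ℝ) + 1) by linarith)
    obtain ⟨b, hb1, hb2⟩ := exists_rat_btwn (show x.2 < x.2 + 1 / ((n : ℝ) + 1) by linarith)
    obtain ⟨j, hj, hja⟩ := hE (a, b, n) J
    have hcj : c j = ((a : ℝ), (b : ℝ)) := by simp only [c, hja]
    have hρj : ρ j = 1 / ((n : ℝ) + 1) := by simp only [ρ, hja]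
    refine ⟨j, hj, ?_, ?_⟩
    · simp only [B, hcj, hρj]
      rw [Metric.mem_ball, Prod.dist_eq, max_lt_iff, Real.dist_eq, Real.dist_eq]
      constructor
      · rw [abs_lt]; constructor <;> simp only <;> linarith
      · rw [abs_lt]; constructor <;> simp only <;> linarith
    · intro z hz
      simp only [B, hcj, hρj] at hz
      rw [Metric.mem_ball, Prod.dist_eq, max_lt_iff, Real.dist_eq, Real.dist_eq, abs_lt,
        abs_lt] at hz
      simp only at hz
      obtain ⟨⟨h1, h2⟩, h3, h4⟩ := hz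
      simp only [cdisc, mem_ofPred_eq]
      have k1 : |z.1 - x.1| ≤ 2 * (s / 3) := by rw [abs_le]; constructor <;> linarith
      have k2 : |z.2 - x.2| ≤ 2 * (s / 3) := by rw [abs_le]; constructor <;> linarith
      have k3 : (z.1 - x.1) ^ 2 ≤ (2 * (s / 3)) ^ 2 := sq_le_sq' (abs_le.1 k1).1 (abs_le.1 k1).2
      have k4 : (z.2 - x.2) ^ 2 ≤ (2 * (s / 3)) ^ 2 := sq_le_sq' (abs_le.1 k2).1 (abs_le.1 k2).2
      nlinarith
  refine ⟨fun j => (f j (S j)).1, fun j => (f j (S j)).2, fun j => hf1 j (S j), hdisj', ?_, ?_⟩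
  · intro s hs
    obtain ⟨j, -, hj1, hj2⟩ := hrat 0 s hs 0
    refine ⟨j, (hf3 j (S j) ?_).trans hj2⟩
    -- a point of `B j` near `0`, outside `S j ∪ {0}`
    have hopen : IsOpen (B j \ (S j).1) := (hB j).sdiff (S j).2.1.isClosed
    have hmem : (0 : ℝ × ℝ) ∈ B j \ (S j).1 := ⟨hj1, (S j).2.2⟩
    obtain ⟨δ, hδ, hball⟩ := Metric.isOpen_iff.1 hopen _ hmem
    refine ⟨(δ / 2, 0), ?_, ?_⟩
    · apply (hball _).1
      rw [Metric.mem_ball, Prod.dist_eq, max_lt_iff, Real.dist_eq, Real.dist_eq]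
      simp only [Prod.fst_zero, Prod.snd_zero, sub_zero, abs_zero]
      rw [abs_of_pos (by positivity)]
      constructor <;> linarith
    · rintro (h | h)
      · refine (hball ?_).2 h
        rw [Metric.mem_ball, Prod.dist_eq, max_lt_iff, Real.dist_eq, Real.dist_eq]
        simp only [Prod.fst_zero, Prod.snd_zero, sub_zero, abs_zero]
        rw [abs_of_pos (by positivity)]
        constructor <;> linarith
      · have : δ / 2 = 0 := congrArg Prod.fst h
        linarith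
  · intro i x hx s hs J
    obtain ⟨j, hjJ, hj1, hj2⟩ := hrat x s hs (max J (i + 1))
    have hJ : J ≤ j := le_trans (le_max_left _ _) hjJ
    have hij : i < j := lt_of_lt_of_le (Nat.lt_succ_self i) (le_trans (le_max_right _ _) hjJ)
    refine ⟨j, hJ, (hf3 j (S j) ?_).trans hj2⟩
    set q := (f i (S i)).1 with hq
    set R := (f i (S i)).2 with hR
    have hRpos : 0 < R := (hf1 i (S i)).1
    have hxD : x ∈ D i := by
      simp only [D, cdisc, mem_ofPred_eq]
      exact hx.le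
    -- closed set of the other discs
    have hFcl : IsClosed (⋃ k ∈ (Finset.range j).erase i, D k) :=
      Set.Finite.isClosed_biUnion (Finset.finite_toSet _) fun k _ => hDcl k
    have hxF : x ∉ ⋃ k ∈ (Finset.range j).erase i, D k := by
      intro h
      simp only [mem_iUnion] at h
      obtain ⟨k, hk, hxk⟩ := h
      exact (disjoint_left.1 (hdisj' i k (Finset.ne_of_mem_erase hk).symm)) hxD hxk
    have hx0 : x ≠ 0 := by rintro rfl; exact hD0 i hxD
    have hopen : IsOpen ((B j \ ⋃ k ∈ (Finset.range j).erase i, D k) \ {0}) :=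
      ((hB j).sdiff hFcl).sdiff isClosed_singleton
    have hmem : x ∈ (B j \ ⋃ k ∈ (Finset.range j).erase i, D k) \ {0} := ⟨⟨hj1, hxF⟩, hx0⟩
    obtain ⟨δ, hδ, hball⟩ := Metric.isOpen_iff.1 hopen _ hmem
    -- the point just outside `D i`
    set t : ℝ := δ / (2 * (3 * R)) with ht
    have ht0 : 0 < t := by positivity
    have htR : t * (3 * R) = δ / 2 := by rw [ht]; field_simp
    have hx1 : |x.1 - q.1| ≤ 3 * R := by
      apply abs_le_of_sq_le_sq _ (by positivity)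
      nlinarith [sq_nonneg (x.2 - q.2)]
    have hx2 : |x.2 - q.2| ≤ 3 * R := by
      apply abs_le_of_sq_le_sq _ (by positivity)
      nlinarith [sq_nonneg (x.1 - q.1)]
    set y : ℝ × ℝ := (x.1 + t * (x.1 - q.1), x.2 + t * (x.2 - q.2)) with hy
    have hyball : y ∈ Metric.ball x δ := by
      rw [Metric.mem_ball, Prod.dist_eq, max_lt_iff, Real.dist_eq, Real.dist_eq]
      simp only [hy, add_sub_cancel_left, abs_mul, abs_of_pos ht0]
      constructor
      · calc t * |x.1 - q.1| ≤ t * (3 * R) := by gcongr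
          _ < δ := by linarith
      · calc t * |x.2 - q.2| ≤ t * (3 * R) := by gcongr
          _ < δ := by linarith
    have hy' := hball hyball
    have hyD : y ∉ D i := by
      simp only [D, cdisc, mem_ofPred_eq, not_le]
      have e1 : (y.1 - q.1) ^ 2 + (y.2 - q.2) ^ 2 = (1 + t) ^ 2 * (3 * R) ^ 2 := by
        rw [← hx]; simp only [hy]; ring
      rw [e1]
      have : 0 < (3 * R) ^ 2 := by positivity
      nlinarith [mul_pos ht0 this, mul_pos (mul_pos ht0 ht0) this]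
    refine ⟨y, hy'.1.1, ?_⟩
    rintro (h | h)
    · rw [hS'] at h
      simp only [mem_iUnion] at h
      obtain ⟨k, hk, hyk⟩ := h
      by_cases hki : k = i
      · subst hki; exact hyD hyk
      · apply hy'.1.2
        simp only [mem_iUnion]
        exact ⟨k, Finset.mem_erase.2 ⟨hki, hk⟩, hyk⟩
    · exact hy'.2 h

end Vale.Agent.P229
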