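import Vale.Agent.P229.BdAlg

/-! P229, module K: the contradiction at the bump. -/

namespace Vale.Agent.P229

open MeasureTheory Set
open scoped ContDiff

namespace ContraAux

variable {f g h P u : ℝ × ℝ → ℝ} {z : ℝ × ℝ} {U : Set (ℝ × ℝ)}

/-! ### the one-variable functions `(max t 0)^n` -/

theorem hasDerivAt_mp (n : ℕ) (hn : 1 ≤ n) (t : ℝ) :
    HasDerivAt (fun t : ℝ => (max t 0) ^ (n + 1)) ((n + 1) * (max t 0) ^ n) t := by
  rcases lt_trichotomy t 0 with ht | ht | ht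
  · have h1 : (fun t : ℝ => (max t 0) ^ (n + 1)) =ᶠ[nhds t] fun _ => 0 := by
      filter_upwards [Iio_mem_nhds ht] with s hs
      rw [max_eq_right (le_of_lt hs)]; simp
    have h2 : ((n : ℝ) + 1) * (max t 0) ^ n = 0 := by
      rw [max_eq_right ht.le, zero_pow (by omega)]; ring
    rw [h2]
    exact (hasDerivAt_const t (0 : ℝ)).congr_of_eventuallyEq h1
  · subst ht
    have h2 : ((n : ℝ) + 1) * (max (0 : ℝ) 0) ^ n = 0 := by
      rw [max_self, zero_pow (by omega)]; ring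
    rw [h2]
    have hl : HasDerivWithinAt (fun t : ℝ => (max t 0) ^ (n + 1)) 0 (Iic 0) 0 := by
      refine (hasDerivWithinAt_const (0 : ℝ) (Iic 0) (0 : ℝ)).congr ?_ ?_
      · intro x hx
        rw [max_eq_right hx]; simp
      · simp
    have hr : HasDerivWithinAt (fun t : ℝ => (max t 0) ^ (n + 1)) 0 (Ici 0) 0 := by
      have h3 : HasDerivAt (fun t : ℝ => t ^ (n + 1)) (((n + 1 : ℕ) : ℝ) * (0 : ℝ) ^ n) 0 := by
        simpa using hasDerivAt_pow (n + 1) (0 : ℝ)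
      rw [zero_pow (by omega), mul_zero] at h3
      refine h3.hasDerivWithinAt.congr ?_ ?_
      · intro x hx
        rw [max_eq_left hx]
      · simp
    have hu := hl.union hr
    rw [Iic_union_Ici, hasDerivWithinAt_univ] at hu
    exact hu
  · have h1 : (fun t : ℝ => (max t 0) ^ (n + 1)) =ᶠ[nhds t] fun t => t ^ (n + 1) := by
      filter_upwards [Ioi_mem_nhds ht] with s hs
      rw [max_eq_left (le_of_lt hs)]
    have h2 : HasDerivAt (fun t : ℝ => t ^ (n + 1)) (((n : ℝ) + 1) * t ^ n) t := by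
      simpa using hasDerivAt_pow (n + 1) t
    rw [max_eq_left ht.le]
    exact h2.congr_of_eventuallyEq h1

/-- `(t_+)^3` and its two derivatives -/
noncomputable def F0 (t : ℝ) : ℝ := (max t 0) ^ 3
noncomputable def F1 (t : ℝ) : ℝ := 3 * (max t 0) ^ 2
noncomputable def F2 (t : ℝ) : ℝ := 6 * max t 0

theorem hasDerivAt_F0 (t : ℝ) : HasDerivAt F0 (F1 t) t := by
  have h := hasDerivAt_mp 2 (by norm_num) t
  have e : F1 t = ((2 : ℕ) + 1 : ℝ) * (max t 0) ^ 2 := by unfold F1; push_cast; ring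
  rw [e]; exact h

theorem hasDerivAt_F1 (t : ℝ) : HasDerivAt F1 (F2 t) t := by
  have h := (hasDerivAt_mp 1 (by norm_num) t).const_mul 3
  have e : F2 t = 3 * (((1 : ℕ) + 1 : ℝ) * (max t 0) ^ 1) := by unfold F2; push_cast; ring
  rw [e]; exact h

theorem continuous_F2 : Continuous F2 := by unfold F2; fun_prop

theorem contDiff_F0 : ContDiff ℝ 2 F0 := by
  have d0 : deriv F0 = F1 := funext fun t => (hasDerivAt_F0 t).deriv
  have d1 : deriv F1 = F2 := funext fun t => (hasDerivAt_F1 t).deriv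
  have h1 : ContDiff ℝ 1 F1 := by
    have : ContDiff ℝ (0 + 1) F1 := by
      rw [contDiff_succ_iff_deriv]
      refine ⟨fun t => (hasDerivAt_F1 t).differentiableAt, by simp, ?_⟩
      rw [d1]; exact contDiff_zero.2 continuous_F2
    simpa using this
  have : ContDiff ℝ (1 + 1) F0 := by
    rw [contDiff_succ_iff_deriv]
    refine ⟨fun t => (hasDerivAt_F0 t).differentiableAt, by simp, ?_⟩
    rw [d0]; exact h1
  have e : (2 : WithTop ℕ∞) = 1 + 1 := by norm_num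
  rw [e]; exact this

theorem F0_nonneg (t : ℝ) : 0 ≤ F0 t := by unfold F0; positivity
theorem F1_nonneg (t : ℝ) : 0 ≤ F1 t := by unfold F1; positivity
theorem F2_nonneg (t : ℝ) : 0 ≤ F2 t := by unfold F2; positivity

/-! ### operators on open sets -/

theorem Lo_congr (hU : IsOpen U) (h : ∀ w ∈ U, f w = g w) (hz : z ∈ U) :
    Lo u P f z = Lo u P g z := by
  simp only [Lo, br, dx_congr hU h hz, dy_congr hU h hz]

theorem No_congr (hU : IsOpen U) (h : ∀ w ∈ U, f w = g w) (hz : z ∈ U) :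
    No u P f z = No u P g z := by
  simp only [No, br, dx_congr hU h hz, dy_congr hU h hz]

theorem Lo_const (c : ℝ) : Lo u P (fun _ => c) z = 0 := by
  simp [Lo, br, dx_const, dy_const]

theorem No_const (c : ℝ) : No u P (fun _ => c) z = 0 := by
  simp [No, br, dx_const, dy_const]

theorem Lo_eq_zero (hU : IsOpen U) {c : ℝ} (h : ∀ w ∈ U, f w = c) (hz : z ∈ U) :
    Lo u P f z = 0 := by
  rw [Lo_congr hU (g := fun _ => c) h hz, Lo_const]

theorem No_eq_zero (hU : IsOpen U) {c : ℝ} (h : ∀ w ∈ U, f w = c) (hz : z ∈ U) :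
    No u P f z = 0 := by
  rw [No_congr hU (g := fun _ => c) h hz, No_const]

/-! ### the function `w = Θ (s - s0)_+^3` -/

section W

variable {a b Θ : ℝ × ℝ → ℝ} {α s0 : ℝ}

/-- the linear function -/
noncomputable def sf (a b : ℝ × ℝ → ℝ) (α : ℝ) : ℝ × ℝ → ℝ := fun z => α * a z + b z

/-- the test function -/
noncomputable def wf (Θ a b : ℝ × ℝ → ℝ) (α s0 : ℝ) : ℝ × ℝ → ℝ :=
  fun z => Θ z * F0 (sf a b α z - s0)

theorem contDiff_sf (ha : ContDiff ℝ ∞ a) (hb : ContDiff ℝ ∞ b) : ContDiff ℝ ∞ (sf a b α) :=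
  (contDiff_const.mul ha).add hb

theorem Lo_sf (ha : DifferentiableAt ℝ a z) (hb : DifferentiableAt ℝ b z) (h0 : br a b z ≠ 0) :
    Lo a b (fun w => sf a b α w - s0) z = α := by
  have h1 : DifferentiableAt ℝ (fun w => α * a w) z := ha.const_mul α
  have h2 : DifferentiableAt ℝ (fun w => α * a w + b w) z := h1.add hb
  have e : Lo a b (fun w => sf a b α w - s0) z = Lo a b (fun w => α * a w + b w) z
      - Lo a b (fun _ => s0) z := Lo_sub h2 (differentiableAt_const s0)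
  rw [e, Lo_const, Lo_add h1 hb, Lo_const_mul α ha, Lo_u h0, Lo_P]
  ring

theorem No_sf (ha : DifferentiableAt ℝ a z) (hb : DifferentiableAt ℝ b z) (h0 : br a b z ≠ 0) :
    No a b (fun w => sf a b α w - s0) z = 1 := by
  have h1 : DifferentiableAt ℝ (fun w => α * a w) z := ha.const_mul α
  have h2 : DifferentiableAt ℝ (fun w => α * a w + b w) z := h1.add hb
  have e : No a b (fun w => sf a b α w - s0) z = No a b (fun w => α * a w + b w) z
      - No a b (fun _ => s0) z := No_sub h2 (differentiableAt_const s0)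
  rw [e, No_const, No_add h1 hb, No_const_mul α ha, No_u, No_P h0]
  ring

/-- the composed functions -/
noncomputable def G (F : ℝ → ℝ) (a b : ℝ × ℝ → ℝ) (α s0 : ℝ) : ℝ × ℝ → ℝ :=
  fun z => F (sf a b α z - s0)

theorem Lo_G {F F' : ℝ → ℝ} (hF : ∀ t, HasDerivAt F (F' t) t) (ha : ContDiff ℝ ∞ a)
    (hb : ContDiff ℝ ∞ b) (h0 : br a b z ≠ 0) :
    Lo a b (G F a b α s0) z = G F' a b α s0 z * α := by
  have hs : DifferentiableAt ℝ (fun w => sf a b α w - s0) z :=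
    (((contDiff_sf ha hb).differentiable (by simp)) z).sub_const s0
  have e := Lo_comp (u := a) (P := b) (f := fun w => sf a b α w - s0) (z := z)
    (φ := F) (hF (sf a b α z - s0)) hs
  rw [Lo_sf (ha.differentiable (by simp) z) (hb.differentiable (by simp) z) h0] at e
  exact e

theorem No_G {F F' : ℝ → ℝ} (hF : ∀ t, HasDerivAt F (F' t) t) (ha : ContDiff ℝ ∞ a)
    (hb : ContDiff ℝ ∞ b) (h0 : br a b z ≠ 0) :
    No a b (G F a b α s0) z = G F' a b α s0 z := by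
  have hs : DifferentiableAt ℝ (fun w => sf a b α w - s0) z :=
    (((contDiff_sf ha hb).differentiable (by simp)) z).sub_const s0
  have e := No_comp (u := a) (P := b) (f := fun w => sf a b α w - s0) (z := z)
    (φ := F) (hF (sf a b α z - s0)) hs
  rw [No_sf (ha.differentiable (by simp) z) (hb.differentiable (by simp) z) h0, mul_one] at e
  exact e

theorem diff_G {F F' : ℝ → ℝ} (hF : ∀ t, HasDerivAt F (F' t) t) (ha : ContDiff ℝ ∞ a)
    (hb : ContDiff ℝ ∞ b) (z : ℝ × ℝ) : DifferentiableAt ℝ (G F a b α s0) z := by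
  have hs : DifferentiableAt ℝ (fun w => sf a b α w - s0) z :=
    (((contDiff_sf ha hb).differentiable (by simp)) z).sub_const s0
  exact (hF (sf a b α z - s0)).differentiableAt.comp z hs

variable (hU : IsOpen U) (ha : ContDiff ℝ ∞ a) (hb : ContDiff ℝ ∞ b) (hΘ : ContDiff ℝ ∞ Θ)
  (h0 : ∀ z ∈ U, br a b z ≠ 0)

include ha hb hΘ h0

theorem Lo_wf (hz : z ∈ U) : Lo a b (wf Θ a b α s0) z =
    Lo a b Θ z * G F0 a b α s0 z + Θ z * (G F1 a b α s0 z * α) := by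
  have h1 := Lo_mul (u := a) (P := b) (hΘ.differentiable (by simp) z)
    (diff_G (α := α) (s0 := s0) hasDerivAt_F0 ha hb z)
  rw [Lo_G hasDerivAt_F0 ha hb (h0 z hz)] at h1
  exact h1

theorem No_wf (hz : z ∈ U) : No a b (wf Θ a b α s0) z =
    No a b Θ z * G F0 a b α s0 z + Θ z * G F1 a b α s0 z := by
  have h1 := No_mul (u := a) (P := b) (hΘ.differentiable (by simp) z)
    (diff_G (α := α) (s0 := s0) hasDerivAt_F0 ha hb z)
  rw [No_G hasDerivAt_F0 ha hb (h0 z hz)] at h1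
  exact h1

include hU

theorem diff_LoΘ (hz : z ∈ U) : DifferentiableAt ℝ (Lo a b Θ) z :=
  (Sm.Lo hU (Sm.of_contDiff ha) (Sm.of_contDiff hb) (Sm.of_contDiff hΘ) h0).diff hU hz

theorem diff_NoΘ (hz : z ∈ U) : DifferentiableAt ℝ (No a b Θ) z :=
  (Sm.No hU (Sm.of_contDiff ha) (Sm.of_contDiff hb) (Sm.of_contDiff hΘ) h0).diff hU hz

theorem LoLo_wf (hz : z ∈ U) : Lo a b (Lo a b (wf Θ a b α s0)) z =
    Lo a b (Lo a b Θ) z * G F0 a b α s0 z + Lo a b Θ z * (G F1 a b α s0 z * α)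
      + (Lo a b Θ z * (G F1 a b α s0 z * α) + Θ z * (G F2 a b α s0 z * α * α)) := by
  have d0 := diff_G (α := α) (s0 := s0) hasDerivAt_F0 ha hb z
  have d1 := diff_G (α := α) (s0 := s0) hasDerivAt_F1 ha hb z
  have dL := diff_LoΘ hU ha hb hΘ h0 hz
  have dΘ := hΘ.differentiable (by simp) z
  have d1' : DifferentiableAt ℝ (fun w => α * G F1 a b α s0 w) z := d1.const_mul α
  rw [Lo_congr hU (g := fun z => Lo a b Θ z * G F0 a b α s0 z + Θ z * (α * G F1 a b α s0 z))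
      (fun w hw => by rw [Lo_wf ha hb hΘ h0 hw]; ring) hz,
    Lo_add (dL.fun_mul d0) (dΘ.fun_mul d1'), Lo_mul dL d0, Lo_mul dΘ d1', Lo_const_mul α d1,
    Lo_G hasDerivAt_F0 ha hb (h0 z hz), Lo_G hasDerivAt_F1 ha hb (h0 z hz)]
  ring

theorem LoNo_wf (hz : z ∈ U) : Lo a b (No a b (wf Θ a b α s0)) z =
    Lo a b (No a b Θ) z * G F0 a b α s0 z + No a b Θ z * (G F1 a b α s0 z * α)
      + (Lo a b Θ z * G F1 a b α s0 z + Θ z * (G F2 a b α s0 z * α)) := by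
  have d0 := diff_G (α := α) (s0 := s0) hasDerivAt_F0 ha hb z
  have d1 := diff_G (α := α) (s0 := s0) hasDerivAt_F1 ha hb z
  have dL := diff_NoΘ hU ha hb hΘ h0 hz
  have dΘ := hΘ.differentiable (by simp) z
  rw [Lo_congr hU (fun w hw => No_wf (α := α) (s0 := s0) ha hb hΘ h0 hw) hz,
    Lo_add (dL.fun_mul d0) (dΘ.fun_mul d1), Lo_mul dL d0, Lo_mul dΘ d1,
    Lo_G hasDerivAt_F0 ha hb (h0 z hz), Lo_G hasDerivAt_F1 ha hb (h0 z hz)]

theorem NoNo_wf (hz : z ∈ U) : No a b (No a b (wf Θ a b α s0)) z =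
    No a b (No a b Θ) z * G F0 a b α s0 z + No a b Θ z * G F1 a b α s0 z
      + (No a b Θ z * G F1 a b α s0 z + Θ z * G F2 a b α s0 z) := by
  have d0 := diff_G (α := α) (s0 := s0) hasDerivAt_F0 ha hb z
  have d1 := diff_G (α := α) (s0 := s0) hasDerivAt_F1 ha hb z
  have dL := diff_NoΘ hU ha hb hΘ h0 hz
  have dΘ := hΘ.differentiable (by simp) z
  rw [No_congr hU (fun w hw => No_wf (α := α) (s0 := s0) ha hb hΘ h0 hw) hz,
    No_add (dL.fun_mul d0) (dΘ.fun_mul d1), No_mul dL d0, No_mul dΘ d1,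
    No_G hasDerivAt_F0 ha hb (h0 z hz), No_G hasDerivAt_F1 ha hb (h0 z hz)]

end W


/-! ### the cutoff -/

/-- cutoff: `1` on `disc (1/20)`, `0` outside `disc (1/10)` -/
noncomputable def cut : ContDiffBump (0 : ℝ × ℝ) :=
  ⟨1 / 20, 7 / 100, by norm_num, by norm_num⟩

theorem cut_contDiff : ContDiff ℝ ∞ (cut : ℝ × ℝ → ℝ) := cut.contDiff

theorem abs_le_of_disc {R : ℝ} (hR : 0 ≤ R) (hz : z ∈ disc R) : |z.1| < R ∧ |z.2| < R := by
  have h : z.1 ^ 2 + z.2 ^ 2 < R ^ 2 := hz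
  constructor
  · exact abs_lt_of_sq_lt_sq (by nlinarith [sq_nonneg z.2]) hR
  · exact abs_lt_of_sq_lt_sq (by nlinarith [sq_nonneg z.1]) hR

theorem cut_one (hz : z ∈ disc (1 / 20)) : cut z = 1 := by
  apply cut.one_of_mem_closedBall
  have h := abs_le_of_disc (by norm_num) hz
  rw [Metric.mem_closedBall, dist_zero_right, Prod.norm_def]
  exact max_le (by rw [Real.norm_eq_abs]; exact h.1.le) (by rw [Real.norm_eq_abs]; exact h.2.le)

theorem tsupport_cut : tsupport (cut : ℝ × ℝ → ℝ) = Metric.closedBall 0 (7 / 100) :=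
  cut.tsupport_eq

theorem ball_subset : Metric.closedBall (0 : ℝ × ℝ) (7 / 100) ⊆ disc (1 / 10) := by
  intro z hz
  rw [Metric.mem_closedBall, dist_zero_right, Prod.norm_def] at hz
  have h1 : |z.1| ≤ 7 / 100 := (le_max_left _ _).trans hz
  have h2 : |z.2| ≤ 7 / 100 := (le_max_right _ _).trans hz
  show z.1 ^ 2 + z.2 ^ 2 < (1 / 10) ^ 2
  have e1 : z.1 ^ 2 ≤ (7 / 100) ^ 2 := sq_le_sq' (by linarith [(abs_le.1 h1).1]) (abs_le.1 h1).2
  have e2 : z.2 ^ 2 ≤ (7 / 100) ^ 2 := sq_le_sq' (by linarith [(abs_le.1 h2).1]) (abs_le.1 h2).2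
  norm_num at e1 e2 ⊢
  linarith

theorem disc_mono {R S : ℝ} (hR : 0 ≤ R) (h : R ≤ S) : disc R ⊆ disc S := by
  intro z hz
  have h1 : z.1 ^ 2 + z.2 ^ 2 < R ^ 2 := hz
  exact lt_of_lt_of_le h1 (pow_le_pow_left₀ hR h 2)

theorem exists_bd_of_compact (k : ℕ) : ∀ f : ℝ × ℝ → ℝ, ContDiff ℝ ∞ f → HasCompactSupport f →
    ∃ K : ℝ, 0 < K ∧ Bd univ k K f := by
  induction k with
  | zero =>
    intro f hf hc
    obtain ⟨C, hC⟩ := hc.exists_bound_of_continuous hf.continuous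
    exact ⟨max C 1, by positivity, fun z _ => by
      rw [← Real.norm_eq_abs]; exact (hC z).trans (le_max_left _ _)⟩
  | succ k ih =>
    intro f hf hc
    obtain ⟨C, hC⟩ := hc.exists_bound_of_continuous hf.continuous
    obtain ⟨K1, hK1, h1⟩ := ih (dx f) (contDiff_dx hf) (hasCompactSupport_dx hc)
    obtain ⟨K2, hK2, h2⟩ := ih (dy f) (contDiff_dy hf) (hasCompactSupport_dy hc)
    refine ⟨max C (max K1 K2), lt_max_of_lt_right (lt_max_of_lt_left hK1), ?_, ?_, ?_⟩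
    · exact fun z _ => by
        rw [← Real.norm_eq_abs]; exact (hC z).trans (le_max_left _ _)
    · exact h1.mono subset_rfl ((le_max_left _ _).trans (le_max_right _ _))
    · exact h2.mono subset_rfl ((le_max_right _ _).trans (le_max_right _ _))

theorem exists_bd_cut (k : ℕ) : ∃ K : ℝ, 0 < K ∧ Bd univ k K (cut : ℝ × ℝ → ℝ) :=
  exists_bd_of_compact k _ cut_contDiff cut.hasCompactSupport

/-! ### uniform bounds for `Lo`, `No` -/

theorem Lo_No_bd (k : ℕ) (C K : ℝ) : ∃ D : ℝ, 0 < D ∧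
    ∀ a b f : ℝ × ℝ → ℝ, Sm (disc 2) a → Sm (disc 2) b → Sm (disc 2) f →
      Bd (disc 2) (k + 1) C a → Bd (disc 2) (k + 1) C b → Bd (disc 2) (k + 1) K f →
      (∀ z ∈ disc 2, 9 / 10 ≤ br a b z) →
      Bd (disc 2) k D (Lo a b f) ∧ Bd (disc 2) k D (No a b f) := by
  set E : ℝ := max (2 * (2 ^ k * C * C)) (max (2 * (2 ^ k * K * C)) (2 * (2 ^ k * C * K))) with hE
  obtain ⟨D, hD, h⟩ := Bd.div k E (9 / 10) (by norm_num)
  refine ⟨D, hD, fun a b f ha hb hf Ba Bb Bf hJ => ⟨?_, ?_⟩⟩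
  · exact h (disc 2) (br f b) (br a b) (isOpen_disc 2) (hf.br (isOpen_disc 2) hb)
      (ha.br (isOpen_disc 2) hb)
      ((Bd.br (isOpen_disc 2) hf hb Bf Bb).mono subset_rfl
        ((le_max_left _ _).trans (le_max_right _ _)))
      ((Bd.br (isOpen_disc 2) ha hb Ba Bb).mono subset_rfl (le_max_left _ _)) hJ
  · exact h (disc 2) (br a f) (br a b) (isOpen_disc 2) (ha.br (isOpen_disc 2) hf)
      (ha.br (isOpen_disc 2) hb)
      ((Bd.br (isOpen_disc 2) ha hf Ba Bf).mono subset_rfl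
        ((le_max_right _ _).trans (le_max_right _ _)))
      ((Bd.br (isOpen_disc 2) ha hb Ba Bb).mono subset_rfl (le_max_left _ _)) hJ


/-! ### the operator on the test function -/

/-- the coefficient of `F''` in `M[w]` -/
noncomputable def Bf (T : Tri) (α : ℝ) : ℝ × ℝ → ℝ := fun z =>
  No T.a T.b (Pf T) z * α ^ 2 - 2 * Lo T.a T.b (Pf T) z * α + Lo T.a T.b (pf T) z

/-- the coefficient of `F''` on the other side -/
noncomputable def Qf (T : Tri) (α : ℝ) : ℝ × ℝ → ℝ := fun z =>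
  g11 T z - 2 * g12 T z * α + g22 T z * α ^ 2

section Mo
variable {T : Tri} {α s0 : ℝ}

theorem near_zero {a b : ℝ × ℝ → ℝ} (hz : z ∈ disc (1 / 20)) :
    Lo a b (cut : ℝ × ℝ → ℝ) z = 0 ∧ No a b (cut : ℝ × ℝ → ℝ) z = 0 ∧
      Lo a b (Lo a b (cut : ℝ × ℝ → ℝ)) z = 0 ∧ Lo a b (No a b (cut : ℝ × ℝ → ℝ)) z = 0 ∧
      No a b (No a b (cut : ℝ × ℝ → ℝ)) z = 0 := by
  have hO := isOpen_disc (1 / 20)
  have h1 : ∀ w ∈ disc (1 / 20), Lo a b (cut : ℝ × ℝ → ℝ) w = 0 := fun w hw =>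
    Lo_eq_zero hO (fun v hv => cut_one hv) hw
  have h2 : ∀ w ∈ disc (1 / 20), No a b (cut : ℝ × ℝ → ℝ) w = 0 := fun w hw =>
    No_eq_zero hO (fun v hv => cut_one hv) hw
  exact ⟨h1 z hz, h2 z hz, Lo_eq_zero hO h1 hz, Lo_eq_zero hO h2 hz, No_eq_zero hO h2 hz⟩

theorem sub12 : disc (1 / 20) ⊆ disc 2 := disc_mono (by norm_num) (by norm_num)

theorem seconds_in (h0 : ∀ z ∈ disc 2, br T.a T.b z ≠ 0) (hz : z ∈ disc (1 / 20)) :
    Lo T.a T.b (Lo T.a T.b (wf cut T.a T.b α s0)) z = G F2 T.a T.b α s0 z * α ^ 2 ∧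
    Lo T.a T.b (No T.a T.b (wf cut T.a T.b α s0)) z = G F2 T.a T.b α s0 z * α ∧
    No T.a T.b (No T.a T.b (wf cut T.a T.b α s0)) z = G F2 T.a T.b α s0 z := by
  have hz2 : z ∈ disc 2 := sub12 hz
  obtain ⟨e1, e2, e3, e4, e5⟩ := near_zero (a := T.a) (b := T.b) hz
  rw [LoLo_wf (isOpen_disc 2) T.ha T.hb cut_contDiff h0 hz2,
    LoNo_wf (isOpen_disc 2) T.ha T.hb cut_contDiff h0 hz2,
    NoNo_wf (isOpen_disc 2) T.ha T.hb cut_contDiff h0 hz2, e1, e2, e3, e4, e5, cut_one hz]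
  refine ⟨?_, ?_, ?_⟩ <;> ring

theorem Mo_in (h0 : ∀ z ∈ disc 2, br T.a T.b z ≠ 0) (hz : z ∈ disc (1 / 20)) :
    Mo T (wf cut T.a T.b α s0) z = G F2 T.a T.b α s0 z * Bf T α z := by
  obtain ⟨e1, e2, e3⟩ := seconds_in (α := α) (s0 := s0) h0 hz
  simp only [Mo, Bf, e1, e2, e3]
  ring

theorem Q_in (h0 : ∀ z ∈ disc 2, br T.a T.b z ≠ 0) (hz : z ∈ disc (1 / 20)) :
    g11 T z * No T.a T.b (No T.a T.b (wf cut T.a T.b α s0)) z
      - 2 * g12 T z * Lo T.a T.b (No T.a T.b (wf cut T.a T.b α s0)) z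
      + g22 T z * Lo T.a T.b (Lo T.a T.b (wf cut T.a T.b α s0)) z
      = G F2 T.a T.b α s0 z * Qf T α z := by
  obtain ⟨e1, e2, e3⟩ := seconds_in (α := α) (s0 := s0) h0 hz
  simp only [Qf, e1, e2, e3]
  ring

theorem wf_zero (hz : z ∉ tsupport (cut : ℝ × ℝ → ℝ)) : wf cut T.a T.b α s0 z = 0 := by
  simp only [wf, image_eq_zero_of_notMem_tsupport hz, zero_mul]

theorem Mo_out (hz : z ∉ disc (1 / 10)) : Mo T (wf cut T.a T.b α s0) z = 0 := by
  have hO : IsOpen (tsupport (cut : ℝ × ℝ → ℝ))ᶜ := (isClosed_tsupport _).isOpen_compl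
  have hz' : z ∈ (tsupport (cut : ℝ × ℝ → ℝ))ᶜ := by
    intro h
    rw [tsupport_cut] at h
    exact hz (ball_subset h)
  have h1 : ∀ w ∈ (tsupport (cut : ℝ × ℝ → ℝ))ᶜ, Lo T.a T.b (wf cut T.a T.b α s0) w = 0 :=
    fun w hw => Lo_eq_zero hO (fun v hv => wf_zero hv) hw
  have h2 : ∀ w ∈ (tsupport (cut : ℝ × ℝ → ℝ))ᶜ, No T.a T.b (wf cut T.a T.b α s0) w = 0 :=
    fun w hw => No_eq_zero hO (fun v hv => wf_zero hv) hw
  simp only [Mo, Lo_eq_zero hO h1 hz', Lo_eq_zero hO h2 hz', No_eq_zero hO h2 hz']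
  ring

theorem contDiff_wf : ContDiff ℝ 2 (wf cut T.a T.b α s0) := by
  have h1 : ContDiff ℝ 2 (cut : ℝ × ℝ → ℝ) := cut.contDiff
  have h2 : ContDiff ℝ 2 (fun z => sf T.a T.b α z - s0) :=
    ((contDiff_sf T.ha T.hb).sub contDiff_const).of_le (by norm_cast)
  exact h1.mul (contDiff_F0.comp h2)

theorem tsupport_wf : tsupport (wf cut T.a T.b α s0) ⊆ tsupport (cut : ℝ × ℝ → ℝ) :=
  tsupport_mul_subset_left

theorem hasCompactSupport_wf : HasCompactSupport (wf cut T.a T.b α s0) :=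
  cut.hasCompactSupport.mul_right

theorem tsupport_wf_subset : tsupport (wf cut T.a T.b α s0) ⊆ disc 2 := by
  refine tsupport_wf.trans ?_
  rw [tsupport_cut]
  exact ball_subset.trans (disc_mono (by norm_num) (by norm_num))

end Mo

/-! ### facts about normalized triples -/

section Facts
variable {T : Tri} {M ε C0 j0 e0 : ℝ}

theorem br0 (hN : Nrm M ε e0 T) : br T.a T.b 0 = e0 ^ 2 := by
  simp only [br, hN.ax, hN.ay, hN.bx, hN.by']; ring

theorem dxP0 (hN : Nrm M ε e0 T) (he : 0 < e0) : dx (Pf T) 0 = 0 := by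
  have hO : IsOpen (univ : Set (ℝ × ℝ)) := isOpen_univ
  have sa : Sm univ T.a := Sm.of_contDiff T.ha
  have sb : Sm univ T.b := Sm.of_contDiff T.hb
  have sh : Sm univ T.h := Sm.of_contDiff T.hh
  have d1 : DifferentiableAt ℝ (br T.a T.h) 0 := (sa.br hO sh).diff hO (mem_univ _)
  have d2 : DifferentiableAt ℝ (br T.a T.b) 0 := (sa.br hO sb).diff hO (mem_univ _)
  have h0 : br T.a T.b 0 ≠ 0 := by rw [br0 hN]; positivity
  have e : Pf T = fun z => br T.a T.h z / br T.a T.b z := rfl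
  have e1 : br T.a T.h 0 = 0 := by simp only [br, hN.hx, hN.hy]; ring
  have e2 : dx (br T.a T.h) 0 = 0 := by
    rw [dx_br ((sa.dx hO).diff hO (mem_univ _)) ((sa.dy hO).diff hO (mem_univ _))
      ((sh.dx hO).diff hO (mem_univ _)) ((sh.dy hO).diff hO (mem_univ _)), hN.hx, hN.hy, hN.hxy,
      hN.ay]
    ring
  rw [e, dx_div d1 d2 h0, e1, e2]
  simp

theorem at0 (hN : Nrm M ε e0 T) (he : 0 < e0) :
    No T.a T.b (Pf T) 0 = dy (Pf T) 0 / e0 ∧ Lo T.a T.b (Pf T) 0 = 0 ∧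
      kf T 0 = Lo T.a T.b (pf T) 0 * No T.a T.b (Pf T) 0 := by
  have hP := dxP0 hN he
  have hb := br0 hN
  refine ⟨?_, ?_, ?_⟩
  · simp only [No]
    rw [hb]
    simp only [br, hN.ax, hN.ay]
    field_simp
    ring
  · simp only [Lo]
    rw [hb]
    simp only [br, hN.bx, hP]
    simp
  · simp only [kf, No, Lo]
    rw [hb]
    simp only [br, hN.ax, hN.ay, hN.bx, hN.by', hP]
    field_simp
    ring

/-- existence of `α` -/
theorem exists_alpha (hM : 1 ≤ M) (hε : 0 < ε) (hC : 0 < C0) (hB : Basic M ε C0 j0 T)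
    (hN : Nrm M ε e0 T) (he : 99 / 100 ≤ e0) (he1 : e0 ≤ 1) (hk : kf T 0 ≤ 0) :
    ∃ α : ℝ, 0 ≤ α ∧ α ≤ Real.sqrt C0 * (2 * M / ε) ∧ Bf T α 0 = 0 := by
  have he0 : 0 < e0 := by linarith
  obtain ⟨h1, h2, h3⟩ := at0 hN he0
  have hm : (0 : ℝ × ℝ) ∈ disc 2 := by simp [disc]
  have hPy := hB.Py 0 hm
  have hεM : 0 < ε / (2 * M) := by positivity
  have h22 : ε / (2 * M) ≤ No T.a T.b (Pf T) 0 := by
    rw [h1, le_div_iff₀ he0]
    nlinarith
  have h22p : 0 < No T.a T.b (Pf T) 0 := lt_of_lt_of_le hεM h22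
  have hkC : |kf T 0| ≤ C0 := (hB.reg.bk 0 hm).1
  set k := kf T 0 with hkdef
  set q := No T.a T.b (Pf T) 0 with hq
  refine ⟨Real.sqrt (-k) / q, by positivity, ?_, ?_⟩
  · have e1 : Real.sqrt (-k) ≤ Real.sqrt C0 :=
      Real.sqrt_le_sqrt (by linarith [(abs_le.1 hkC).1])
    have e2 : 1 / q ≤ 2 * M / ε := by
      rw [div_le_div_iff₀ h22p hε]
      rw [div_le_iff₀ (by positivity)] at h22
      linarith
    rw [div_eq_mul_one_div]
    exact mul_le_mul e1 e2 (by positivity) (by positivity)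
  · have hs : Real.sqrt (-k) ^ 2 = -k := Real.sq_sqrt (by linarith)
    simp only [Bf]
    rw [h2, ← hq]
    have e3 : Lo T.a T.b (pf T) 0 = k / q := by
      rw [h3]; field_simp
    rw [e3, div_pow, hs]
    field_simp
    ring

end Facts


/-! ### Taylor estimates -/

section Taylor
variable {T : Tri} {M ε C0 j0 e0 : ℝ}

/-- if `f 0 = 0`, `∇f 0 = (p, q)` and the second derivatives are bounded by `C` -/
theorem taylor {f : ℝ × ℝ → ℝ} {C p q ρ : ℝ} (hf : ContDiff ℝ ∞ f) (hB : Bd (disc 2) 2 C f)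
    (hC : 0 ≤ C) (h0 : f 0 = 0) (hp : dx f 0 = p) (hq : dy f 0 = q) (hρ : 0 < ρ) (hρ2 : ρ ≤ 2)
    (hz : z ∈ disc ρ) : |f z - (p * z.1 + q * z.2)| ≤ 4 * C * ρ ^ 2 := by
  have hsub : disc ρ ⊆ disc 2 := disc_mono hρ.le hρ2
  have h0m : (0 : ℝ × ℝ) ∈ disc ρ := by
    show (0 : ℝ × ℝ).1 ^ 2 + (0 : ℝ × ℝ).2 ^ 2 < ρ ^ 2
    simp; positivity
  -- first derivatives
  have gx : ∀ w ∈ disc ρ, |dx f w - p| ≤ 2 * C * ρ := by
    intro w hw
    have h := abs_sub_le_disc (f := dx f) (R := ρ) (C := C) (D := C) (Sm.of_contDiff (contDiff_dx hf))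
      (fun v hv => hB.dx.dx v (hsub hv)) (fun v hv => hB.dx.dy v (hsub hv)) w hw 0 h0m
    rw [hp] at h
    simp only [Prod.fst_zero, Prod.snd_zero, sub_zero] at h
    obtain ⟨w1, w2⟩ := abs_le_of_disc hρ.le hw
    calc |dx f w - p| ≤ C * |w.1| + C * |w.2| := h
      _ ≤ C * ρ + C * ρ := by gcongr
      _ = 2 * C * ρ := by ring
  have gy : ∀ w ∈ disc ρ, |dy f w - q| ≤ 2 * C * ρ := by
    intro w hw
    have h := abs_sub_le_disc (f := dy f) (R := ρ) (C := C) (D := C) (Sm.of_contDiff (contDiff_dy hf))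
      (fun v hv => hB.dy.dx v (hsub hv)) (fun v hv => hB.dy.dy v (hsub hv)) w hw 0 h0m
    rw [hq] at h
    simp only [Prod.fst_zero, Prod.snd_zero, sub_zero] at h
    obtain ⟨w1, w2⟩ := abs_le_of_disc hρ.le hw
    calc |dy f w - q| ≤ C * |w.1| + C * |w.2| := h
      _ ≤ C * ρ + C * ρ := by gcongr
      _ = 2 * C * ρ := by ring
  have dl : ∀ w : ℝ × ℝ, DifferentiableAt ℝ (fun w : ℝ × ℝ => p * w.1) w := fun w => by fun_prop
  have dr : ∀ w : ℝ × ℝ, DifferentiableAt ℝ (fun w : ℝ × ℝ => q * w.2) w := fun w => by fun_prop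
  have dfst : ∀ w : ℝ × ℝ, DifferentiableAt ℝ (fun w : ℝ × ℝ => w.1) w := fun w => by fun_prop
  have dsnd : ∀ w : ℝ × ℝ, DifferentiableAt ℝ (fun w : ℝ × ℝ => w.2) w := fun w => by fun_prop
  have hfd : ∀ w : ℝ × ℝ, DifferentiableAt ℝ f w := fun w => hf.differentiable (by simp) w
  have ex : ∀ w : ℝ × ℝ, dx (fun w => f w - (p * w.1 + q * w.2)) w = dx f w - p := by
    intro w
    rw [dx_sub (hfd w) ((dl w).fun_add (dr w)), dx_add (dl w) (dr w), dx_const_mul p (dfst w),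
      dx_const_mul q (dsnd w), dx_fst, dx_snd]
    ring
  have ey : ∀ w : ℝ × ℝ, dy (fun w => f w - (p * w.1 + q * w.2)) w = dy f w - q := by
    intro w
    rw [dy_sub (hfd w) ((dl w).fun_add (dr w)), dy_add (dl w) (dr w), dy_const_mul p (dfst w),
      dy_const_mul q (dsnd w), dy_fst, dy_snd]
    ring
  have sF : Sm (disc ρ) (fun w => f w - (p * w.1 + q * w.2)) := by
    refine Sm.sub (Sm.of_contDiff hf) (Sm.of_contDiff ?_)
    fun_prop
  have h := abs_sub_le_disc (f := fun w => f w - (p * w.1 + q * w.2)) (R := ρ) (C := 2 * C * ρ)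
    (D := 2 * C * ρ) sF (fun w hw => by rw [ex w]; exact gx w hw)
    (fun w hw => by rw [ey w]; exact gy w hw) z hz 0 h0m
  simp only [Prod.fst_zero, Prod.snd_zero, sub_zero, mul_zero, add_zero, h0] at h
  obtain ⟨w1, w2⟩ := abs_le_of_disc hρ.le hz
  calc |f z - (p * z.1 + q * z.2)| ≤ 2 * C * ρ * |z.1| + 2 * C * ρ * |z.2| := h
    _ ≤ 2 * C * ρ * ρ + 2 * C * ρ * ρ := by gcongr
    _ = 4 * C * ρ ^ 2 := by ring

/-- size of `s` -/
theorem sf_taylor {α ρ : ℝ} (hB : Basic M ε C0 j0 T) (hN : Nrm M ε e0 T) (hC : 0 ≤ C0)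
    (hα : 0 ≤ α) (hρ : 0 < ρ) (hρ2 : ρ ≤ 2) (hz : z ∈ disc ρ) :
    |sf T.a T.b α z - e0 * (α * z.1 + z.2)| ≤ (α + 1) * (4 * C0 * ρ ^ 2) := by
  have h1 := taylor T.ha (hB.bda.of_le (by norm_num)) hC hN.a0 hN.ax hN.ay hρ hρ2 hz
  have h2 := taylor T.hb (hB.bdb.of_le (by norm_num)) hC hN.b0 hN.bx hN.by' hρ hρ2 hz
  have e : sf T.a T.b α z - e0 * (α * z.1 + z.2)
      = α * (T.a z - (e0 * z.1 + 0 * z.2)) + (T.b z - (0 * z.1 + e0 * z.2)) := by
    simp only [sf]; ring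
  rw [e]
  calc |α * (T.a z - (e0 * z.1 + 0 * z.2)) + (T.b z - (0 * z.1 + e0 * z.2))|
      ≤ |α * (T.a z - (e0 * z.1 + 0 * z.2))| + |T.b z - (0 * z.1 + e0 * z.2)| := abs_add_le _ _
    _ ≤ α * (4 * C0 * ρ ^ 2) + 4 * C0 * ρ ^ 2 := by
        rw [abs_mul, abs_of_nonneg hα]
        gcongr
    _ = (α + 1) * (4 * C0 * ρ ^ 2) := by ring

theorem sf_size {α ρ : ℝ} (hB : Basic M ε C0 j0 T) (hN : Nrm M ε e0 T)
    (hα : 0 ≤ α) (hρ : 0 < ρ) (hρ2 : ρ ≤ 2) (hz : z ∈ disc ρ) :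
    |sf T.a T.b α z| ≤ 2 * (α + 1) * ρ := by
  have hsub : disc ρ ⊆ disc 2 := disc_mono hρ.le hρ2
  have h0m : (0 : ℝ × ℝ) ∈ disc ρ := by
    show (0 : ℝ × ℝ).1 ^ 2 + (0 : ℝ × ℝ).2 ^ 2 < ρ ^ 2
    simp; positivity
  obtain ⟨w1, w2⟩ := abs_le_of_disc hρ.le hz
  have ha := hB.au z (hsub hz)
  have hb := abs_sub_le_disc (f := T.b) (R := ρ) (C := 1 / 50) (D := 51 / 50)
    (Sm.of_contDiff T.hb) (fun v hv => hB.bx v (hsub hv)) (fun v hv => by
      have := abs_le.1 (hB.by' v (hsub hv))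
      rw [abs_le]; constructor <;> linarith [this.1, this.2]) z hz 0 h0m
  simp only [Prod.fst_zero, Prod.snd_zero, sub_zero, hN.b0] at hb
  have ha2 : |T.a z| ≤ 2 * ρ := by
    have : |T.a z| ≤ |T.a z - z.1| + |z.1| := by
      have := abs_add_le (T.a z - z.1) z.1
      simpa using this
    linarith
  have hb2 : |T.b z| ≤ 2 * ρ := by
    linarith
  calc |sf T.a T.b α z| ≤ |α * T.a z| + |T.b z| := abs_add_le _ _
    _ ≤ α * (2 * ρ) + 2 * ρ := by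
        rw [abs_mul, abs_of_nonneg hα]; gcongr
    _ = 2 * (α + 1) * ρ := by ring

/-- positivity of the other side -/
theorem Qf_lower {α : ℝ} (hB : Basic M ε C0 j0 T) (hα : 0 ≤ α) (hz : z ∈ disc 2) :
    1 / 2 ≤ Qf T α z := by
  have j1 := hB.J0l z hz
  have j2 := hB.J0u z hz
  have ax := abs_le.1 (hB.ax z hz)
  have ay := abs_le.1 (hB.ay z hz)
  have bx := abs_le.1 (hB.bx z hz)
  have by' := abs_le.1 (hB.by' z hz)
  have e : Qf T α z = ((dy T.b z + α * dy T.a z) ^ 2 + (dx T.b z + α * dx T.a z) ^ 2)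
      / br T.a T.b z ^ 2 := by
    simp only [Qf, g11, g12, g22]
    have : br T.a T.b z ≠ 0 := by linarith
    field_simp
    ring
  have hJ : br T.a T.b z ^ 2 ≤ 121 / 100 := by nlinarith
  have hJp : 0 < br T.a T.b z ^ 2 := by positivity
  rw [e, le_div_iff₀ hJp]
  set A := dx T.a z
  set B := dy T.a z
  set C := dx T.b z
  set D := dy T.b z
  have hD : 96 / 100 ≤ D ^ 2 := by nlinarith [by'.1]
  have hA : 96 / 100 ≤ A ^ 2 := by nlinarith [ax.1]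
  have hcross : |D * B + C * A| ≤ 41 / 1000 := by
    have hDa : |D| ≤ 51 / 50 := abs_le.2 ⟨by linarith [by'.1], by linarith [by'.2]⟩
    have hAa : |A| ≤ 51 / 50 := abs_le.2 ⟨by linarith [ax.1], by linarith [ax.2]⟩
    have hBa : |B| ≤ 1 / 50 := abs_le.2 ay
    have hCa : |C| ≤ 1 / 50 := abs_le.2 bx
    calc |D * B + C * A| ≤ |D * B| + |C * A| := abs_add_le _ _
      _ = |D| * |B| + |C| * |A| := by rw [abs_mul, abs_mul]
      _ ≤ 51 / 50 * (1 / 50) + 1 / 50 * (51 / 50) := by gcongr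
      _ ≤ 41 / 1000 := by norm_num
  have hcl := (abs_le.1 hcross).1
  have h1 : (D + α * B) ^ 2 + (C + α * A) ^ 2
      = D ^ 2 + C ^ 2 + α ^ 2 * (A ^ 2 + B ^ 2) + 2 * α * (D * B + C * A) := by ring
  rw [h1]
  have h2 : -(41 / 1000) * (2 * α) ≤ 2 * α * (D * B + C * A) := by nlinarith
  have h3 : 96 / 100 * α ^ 2 ≤ α ^ 2 * (A ^ 2 + B ^ 2) := by nlinarith [sq_nonneg B, sq_nonneg α]
  nlinarith [sq_nonneg (α - 1), sq_nonneg C]

end Taylor


/-! ### bounds for the coefficients -/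

section Coef

theorem coef_bounds (C0 : ℝ) : ∃ D : ℝ, 0 < D ∧ ∀ (M ε j0 : ℝ) (T : Tri), Basic M ε C0 j0 T →
    Bd (disc 2) 1 D (Lo T.a T.b (pf T)) ∧ Bd (disc 2) 1 D (Lo T.a T.b (Pf T)) ∧
    Bd (disc 2) 1 D (No T.a T.b (Pf T)) ∧
    ∀ z ∈ disc 2, |Lo T.a T.b (cut : ℝ × ℝ → ℝ) z| ≤ D ∧ |No T.a T.b (cut : ℝ × ℝ → ℝ) z| ≤ D ∧
      |Lo T.a T.b (Lo T.a T.b (cut : ℝ × ℝ → ℝ)) z| ≤ D ∧
      |Lo T.a T.b (No T.a T.b (cut : ℝ × ℝ → ℝ)) z| ≤ D ∧
      |No T.a T.b (No T.a T.b (cut : ℝ × ℝ → ℝ)) z| ≤ D := by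
  obtain ⟨K, hK, hcut⟩ := exists_bd_cut 2
  obtain ⟨D1, hD1, h1⟩ := Lo_No_bd 1 C0 C0
  obtain ⟨D2, hD2, h2⟩ := Lo_No_bd 1 C0 K
  obtain ⟨D3, hD3, h3⟩ := Lo_No_bd 0 C0 D2
  refine ⟨max D1 (max D2 D3), lt_max_of_lt_left hD1, fun M ε j0 T hB => ?_⟩
  have hO := isOpen_disc 2
  have sa : Sm (disc 2) T.a := Sm.of_contDiff T.ha
  have sb : Sm (disc 2) T.b := Sm.of_contDiff T.hb
  have sc : Sm (disc 2) (cut : ℝ × ℝ → ℝ) := Sm.of_contDiff cut_contDiff
  have hJ := hB.J0l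
  have hJ0 : ∀ z ∈ disc 2, br T.a T.b z ≠ 0 := fun z hz => by linarith [hJ z hz]
  have a2 : Bd (disc 2) (1 + 1) C0 T.a := hB.bda.of_le (by norm_num)
  have b2 : Bd (disc 2) (1 + 1) C0 T.b := hB.bdb.of_le (by norm_num)
  have a1 : Bd (disc 2) (0 + 1) C0 T.a := hB.bda.of_le (by norm_num)
  have b1 : Bd (disc 2) (0 + 1) C0 T.b := hB.bdb.of_le (by norm_num)
  have le1 : D1 ≤ max D1 (max D2 D3) := le_max_left _ _
  have le2 : D2 ≤ max D1 (max D2 D3) := (le_max_left _ _).trans (le_max_right _ _)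
  have le3 : D3 ≤ max D1 (max D2 D3) := (le_max_right _ _).trans (le_max_right _ _)
  have p1 := h1 T.a T.b (pf T) sa sb hB.sp a2 b2 hB.bdp hJ
  have p2 := h1 T.a T.b (Pf T) sa sb hB.reg.sP a2 b2 hB.bdP hJ
  have c1 := h2 T.a T.b cut sa sb sc a2 b2 (hcut.mono (subset_univ _) le_rfl) hJ
  have sL : Sm (disc 2) (Lo T.a T.b (cut : ℝ × ℝ → ℝ)) := Sm.Lo hO sa sb sc hJ0
  have sN : Sm (disc 2) (No T.a T.b (cut : ℝ × ℝ → ℝ)) := Sm.No hO sa sb sc hJ0
  have c2 := h3 T.a T.b _ sa sb sL a1 b1 c1.1 hJ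
  have c3 := h3 T.a T.b _ sa sb sN a1 b1 c1.2 hJ
  refine ⟨p1.1.mono subset_rfl le1, p2.1.mono subset_rfl le1, p2.2.mono subset_rfl le1,
    fun z hz => ⟨?_, ?_, ?_, ?_, ?_⟩⟩
  · exact (c1.1.bound hz).trans le2
  · exact (c1.2.bound hz).trans le2
  · exact (c2.1.bound hz).trans le3
  · exact (c3.1.bound hz).trans le3
  · exact (c3.2.bound hz).trans le3

theorem lip_of_bd {f : ℝ × ℝ → ℝ} {D : ℝ} (hf : Sm (disc 2) f) (h : Bd (disc 2) 1 D f)
    (hz : z ∈ disc 2) : |f z - f 0| ≤ D * (|z.1| + |z.2|) := by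
  have h0 : (0 : ℝ × ℝ) ∈ disc 2 := by simp [disc]
  have := abs_sub_le_disc hf (fun v hv => h.2.1 v hv) (fun v hv => h.2.2 v hv) z hz 0 h0
  simp only [Prod.fst_zero, Prod.snd_zero, sub_zero] at this
  linarith

variable {T : Tri} {M ε C0 j0 e0 D α : ℝ}

theorem Bf_lip (hB : Basic M ε C0 j0 T) (hα : 0 ≤ α)
    (h1 : Bd (disc 2) 1 D (Lo T.a T.b (pf T))) (h2 : Bd (disc 2) 1 D (Lo T.a T.b (Pf T)))
    (h3 : Bd (disc 2) 1 D (No T.a T.b (Pf T))) (h0 : Bf T α 0 = 0) (hz : z ∈ disc 2) :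
    |Bf T α z| ≤ (α + 1) ^ 2 * (D * (|z.1| + |z.2|)) := by
  have hO := isOpen_disc 2
  have sa : Sm (disc 2) T.a := Sm.of_contDiff T.ha
  have sb : Sm (disc 2) T.b := Sm.of_contDiff T.hb
  have hJ0 : ∀ z ∈ disc 2, br T.a T.b z ≠ 0 := fun z hz => by linarith [hB.J0l z hz]
  have l1 := lip_of_bd (Sm.Lo hO sa sb hB.sp hJ0) h1 hz
  have l2 := lip_of_bd (Sm.Lo hO sa sb hB.reg.sP hJ0) h2 hz
  have l3 := lip_of_bd (Sm.No hO sa sb hB.reg.sP hJ0) h3 hz
  have e : Bf T α z = (No T.a T.b (Pf T) z - No T.a T.b (Pf T) 0) * α ^ 2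
      - 2 * (Lo T.a T.b (Pf T) z - Lo T.a T.b (Pf T) 0) * α
      + (Lo T.a T.b (pf T) z - Lo T.a T.b (pf T) 0) := by
    have : Bf T α z = Bf T α z - Bf T α 0 := by rw [h0, sub_zero]
    rw [this]; simp only [Bf]; ring
  rw [e]
  set X := No T.a T.b (Pf T) z - No T.a T.b (Pf T) 0
  set Y := Lo T.a T.b (Pf T) z - Lo T.a T.b (Pf T) 0
  set Z := Lo T.a T.b (pf T) z - Lo T.a T.b (pf T) 0
  set E := D * (|z.1| + |z.2|)
  calc |X * α ^ 2 - 2 * Y * α + Z| ≤ |X * α ^ 2 - 2 * Y * α| + |Z| := abs_add_le _ _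
    _ ≤ |X * α ^ 2| + |2 * Y * α| + |Z| := by gcongr; exact abs_sub _ _
    _ = |X| * α ^ 2 + 2 * |Y| * α + |Z| := by
        rw [abs_mul, abs_mul, abs_mul, abs_of_nonneg (sq_nonneg α), abs_of_nonneg hα,
          abs_of_pos (by norm_num : (0 : ℝ) < 2)]
    _ ≤ E * α ^ 2 + 2 * E * α + E := by gcongr
    _ = (α + 1) ^ 2 * E := by ring

theorem mp_le {t s0 S : ℝ} (hS : 0 ≤ S) (h0 : 0 ≤ s0) (h : |t| ≤ S) : max (t - s0) 0 ≤ S :=
  max_le (by linarith [(abs_le.1 h).2]) hS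

theorem Mo_bd {A s0 : ℝ} (hB : Basic M ε C0 j0 T) (hN : Nrm M ε e0 T) (hα : 0 ≤ α) (hA : α ≤ A)
    (hs0 : 0 ≤ s0) (hD : 0 < D)
    (h1 : Bd (disc 2) 1 D (Lo T.a T.b (pf T))) (h2 : Bd (disc 2) 1 D (Lo T.a T.b (Pf T)))
    (h3 : Bd (disc 2) 1 D (No T.a T.b (Pf T)))
    (h4 : ∀ z ∈ disc 2, |Lo T.a T.b (cut : ℝ × ℝ → ℝ) z| ≤ D ∧
      |No T.a T.b (cut : ℝ × ℝ → ℝ) z| ≤ D ∧
      |Lo T.a T.b (Lo T.a T.b (cut : ℝ × ℝ → ℝ)) z| ≤ D ∧
      |Lo T.a T.b (No T.a T.b (cut : ℝ × ℝ → ℝ)) z| ≤ D ∧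
      |No T.a T.b (No T.a T.b (cut : ℝ × ℝ → ℝ)) z| ≤ D)
    (hz : z ∈ disc (1 / 10)) :
    |Mo T (wf cut T.a T.b α s0) z| ≤ 4 * D * ((7 * D + 6) * (A + 1) ^ 3) := by
  have hz2 : z ∈ disc 2 := disc_mono (by norm_num) (by norm_num) hz
  have hJ0 : ∀ z ∈ disc 2, br T.a T.b z ≠ 0 := fun z hz => by linarith [hB.J0l z hz]
  have hA0 : 0 ≤ A := hα.trans hA
  have hsz : |sf T.a T.b α z| ≤ A + 1 := by
    have := sf_size hB hN hα (by norm_num) (by norm_num) hz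
    linarith
  obtain ⟨c1, c2, c3, c4, c5⟩ := h4 z hz2
  have m0 : 0 ≤ max (sf T.a T.b α z - s0) 0 := le_max_right _ _
  have m1 : max (sf T.a T.b α z - s0) 0 ≤ A + 1 := mp_le (by linarith) hs0 hsz
  have hcut0 : 0 ≤ cut z := cut.nonneg
  have hcut1 : cut z ≤ 1 := cut.le_one
  have g0 : |G F0 T.a T.b α s0 z| ≤ (A + 1) ^ 3 := by
    show |F0 (sf T.a T.b α z - s0)| ≤ _
    rw [abs_of_nonneg (F0_nonneg _)]
    exact pow_le_pow_left₀ m0 m1 3
  have g1 : |G F1 T.a T.b α s0 z| ≤ 3 * (A + 1) ^ 2 := by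
    show |F1 (sf T.a T.b α z - s0)| ≤ _
    rw [abs_of_nonneg (F1_nonneg _)]
    exact mul_le_mul_of_nonneg_left (pow_le_pow_left₀ m0 m1 2) (by norm_num)
  have g2 : |G F2 T.a T.b α s0 z| ≤ 6 * (A + 1) := by
    show |F2 (sf T.a T.b α z - s0)| ≤ _
    rw [abs_of_nonneg (F2_nonneg _)]
    exact mul_le_mul_of_nonneg_left m1 (by norm_num)
  have hαA : α ≤ A + 1 := by linarith
  have hA1 : 1 ≤ A + 1 := by linarith
  have hct : |cut z| ≤ 1 := by rw [abs_of_nonneg hcut0]; exact hcut1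
  set S := A + 1 with hS
  have hS0 : 0 ≤ S := by linarith
  have t1 : |Lo T.a T.b (Lo T.a T.b (wf cut T.a T.b α s0)) z| ≤ (7 * D + 6) * S ^ 3 := by
    rw [LoLo_wf (isOpen_disc 2) T.ha T.hb cut_contDiff hJ0 hz2]
    refine (abs_add_le _ _).trans ((add_le_add (abs_add_le _ _) (abs_add_le _ _)).trans ?_)
    simp only [abs_mul]
    rw [abs_of_nonneg hα]
    calc _ ≤ D * S ^ 3 + D * (3 * S ^ 2 * S) + (D * (3 * S ^ 2 * S) + 1 * (6 * S * S * S)) := by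
          gcongr
      _ = (7 * D + 6) * S ^ 3 := by ring
  have hSS : S ^ 2 ≤ S ^ 3 := pow_le_pow_right₀ hA1 (by norm_num)
  have hSS1 : S ≤ S ^ 3 := by
    calc S = S ^ 1 := (pow_one S).symm
      _ ≤ S ^ 3 := pow_le_pow_right₀ hA1 (by norm_num)
  have t2 : |Lo T.a T.b (No T.a T.b (wf cut T.a T.b α s0)) z| ≤ (7 * D + 6) * S ^ 3 := by
    rw [LoNo_wf (isOpen_disc 2) T.ha T.hb cut_contDiff hJ0 hz2]
    refine (abs_add_le _ _).trans ((add_le_add (abs_add_le _ _) (abs_add_le _ _)).trans ?_)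
    simp only [abs_mul]
    rw [abs_of_nonneg hα]
    calc _ ≤ D * S ^ 3 + D * (3 * S ^ 2 * S) + (D * (3 * S ^ 2) + 1 * (6 * S * S)) := by
          gcongr
      _ ≤ D * S ^ 3 + D * (3 * S ^ 2 * S) + (D * (3 * S ^ 3) + 6 * S ^ 3) := by
          have : 6 * S * S ≤ 6 * S ^ 3 := by nlinarith
          have : D * (3 * S ^ 2) ≤ D * (3 * S ^ 3) := by gcongr
          linarith
      _ = (7 * D + 6) * S ^ 3 := by ring
  have t3 : |No T.a T.b (No T.a T.b (wf cut T.a T.b α s0)) z| ≤ (7 * D + 6) * S ^ 3 := by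
    rw [NoNo_wf (isOpen_disc 2) T.ha T.hb cut_contDiff hJ0 hz2]
    refine (abs_add_le _ _).trans ((add_le_add (abs_add_le _ _) (abs_add_le _ _)).trans ?_)
    simp only [abs_mul]
    calc _ ≤ D * S ^ 3 + D * (3 * S ^ 2) + (D * (3 * S ^ 2) + 1 * (6 * S)) := by
          gcongr
      _ ≤ D * S ^ 3 + D * (3 * S ^ 3) + (D * (3 * S ^ 3) + 6 * S ^ 3) := by
          have : D * (3 * S ^ 2) ≤ D * (3 * S ^ 3) := by gcongr
          linarith
      _ = (7 * D + 6) * S ^ 3 := by ring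
  have b1 := h1.bound hz2
  have b2 := h2.bound hz2
  have b3 := h3.bound hz2
  simp only [Mo]
  refine (abs_add_le _ _).trans ((add_le_add_left (abs_sub _ _) _).trans ?_)
  simp only [abs_mul]
  rw [abs_of_pos (by norm_num : (0 : ℝ) < 2)]
  calc _ ≤ D * ((7 * D + 6) * S ^ 3) + 2 * D * ((7 * D + 6) * S ^ 3)
        + D * ((7 * D + 6) * S ^ 3) := by gcongr
    _ = 4 * D * ((7 * D + 6) * S ^ 3) := by ring

end Coef

/-! ### geometry of the bump -/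

theorem geo_square {α b β a q ρ η n1 n2 : ℝ} (hb : 0 < b) (hβ : 0 < β) (ha : b ^ 2 / 4 ≤ a)
    (hab : a + β ≤ b ^ 2) (hα : 0 ≤ α) (hq : q = Real.sqrt (1 + α ^ 2))
    (hρ : ρ = Real.sqrt (a + β / 2)) (hη : η = β / (64 * b)) (hn1 : n1 = α / q) (hn2 : n2 = 1 / q)
    (h1 : |z.1 - ρ * n1| ≤ η) (h2 : |z.2 - ρ * n2| ≤ η) :
    |z.1 ^ 2 + z.2 ^ 2 - (a + β / 2)| ≤ β / 4 ∧
      q * (Real.sqrt a + 7 * β / (32 * b)) ≤ α * z.1 + z.2 := by
  have ha0 : 0 < a := lt_of_lt_of_le (by positivity) ha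
  have hq1 : 1 ≤ q := by
    rw [hq]
    exact Real.one_le_sqrt.2 (by nlinarith)
  have hq0 : 0 < q := by linarith
  have hqq : q ^ 2 = 1 + α ^ 2 := by rw [hq]; exact Real.sq_sqrt (by positivity)
  have hρ0 : 0 < ρ := by rw [hρ]; positivity
  have hρρ : ρ ^ 2 = a + β / 2 := by rw [hρ]; exact Real.sq_sqrt (by positivity)
  have hρb : ρ ≤ b := by
    apply le_of_sq_le_sq _ hb.le
    rw [hρρ]; linarith
  have hη0 : 0 < η := by rw [hη]; positivity
  have hηb : η * (64 * b) = β := by rw [hη]; field_simp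
  have n1q : n1 * q = α := by rw [hn1]; field_simp
  have n2q : n2 * q = 1 := by rw [hn2]; field_simp
  have hn10 : 0 ≤ n1 := by rw [hn1]; positivity
  have hn20 : 0 ≤ n2 := by rw [hn2]; positivity
  have hnn : n1 ^ 2 + n2 ^ 2 = 1 := by
    have : (n1 ^ 2 + n2 ^ 2) * q ^ 2 = q ^ 2 := by
      calc (n1 ^ 2 + n2 ^ 2) * q ^ 2 = (n1 * q) ^ 2 + (n2 * q) ^ 2 := by ring
        _ = q ^ 2 := by rw [n1q, n2q, hqq]; ring
    have hq2 : q ^ 2 ≠ 0 := by positivity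
    exact mul_right_cancel₀ hq2 (by rw [this, one_mul])
  have hn11 : n1 ≤ 1 := by nlinarith
  have hn21 : n2 ≤ 1 := by nlinarith
  obtain ⟨ξ1, hξ1⟩ : ∃ ξ, ξ = z.1 - ρ * n1 := ⟨_, rfl⟩
  obtain ⟨ξ2, hξ2⟩ : ∃ ξ, ξ = z.2 - ρ * n2 := ⟨_, rfl⟩
  rw [← hξ1] at h1
  rw [← hξ2] at h2
  have hz1 : z.1 = ρ * n1 + ξ1 := by rw [hξ1]; ring
  have hz2 : z.2 = ρ * n2 + ξ2 := by rw [hξ2]; ring
  have hlin : |n1 * ξ1 + n2 * ξ2| ≤ 2 * η := by
    calc |n1 * ξ1 + n2 * ξ2| ≤ |n1 * ξ1| + |n2 * ξ2| := abs_add_le _ _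
      _ = n1 * |ξ1| + n2 * |ξ2| := by
          rw [abs_mul, abs_mul, abs_of_nonneg hn10, abs_of_nonneg hn20]
      _ ≤ 1 * η + 1 * η := by gcongr
      _ = 2 * η := by ring
  constructor
  · have e : z.1 ^ 2 + z.2 ^ 2 - (a + β / 2) = 2 * ρ * (n1 * ξ1 + n2 * ξ2) + (ξ1 ^ 2 + ξ2 ^ 2) := by
      rw [hz1, hz2, ← hρρ]
      linear_combination ρ ^ 2 * hnn
    rw [e]
    have s1 : |2 * ρ * (n1 * ξ1 + n2 * ξ2)| ≤ β / 16 := by
      rw [abs_mul, abs_of_pos (by positivity : (0 : ℝ) < 2 * ρ)]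
      calc 2 * ρ * |n1 * ξ1 + n2 * ξ2| ≤ 2 * b * (2 * η) := by gcongr
        _ = β / 16 := by linarith
    have s2 : ξ1 ^ 2 + ξ2 ^ 2 ≤ β / 16 := by
      have t1 : ξ1 ^ 2 ≤ η ^ 2 := sq_le_sq' (by linarith [(abs_le.1 h1).1]) (abs_le.1 h1).2
      have t2 : ξ2 ^ 2 ≤ η ^ 2 := sq_le_sq' (by linarith [(abs_le.1 h2).1]) (abs_le.1 h2).2
      have t3 : η ≤ b := by
        have hle : η * (64 * b) ≤ b * (64 * b) := by
          rw [hηb]; nlinarith only [hab, ha0, hb]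
        exact le_of_mul_le_mul_right hle (by positivity)
      have t4 : η ^ 2 ≤ η * b := by
        rw [sq]; exact mul_le_mul_of_nonneg_left t3 hη0.le
      linarith
    have s3 : 0 ≤ ξ1 ^ 2 + ξ2 ^ 2 := by positivity
    rw [abs_le] at s1 ⊢
    constructor <;> linarith [s1.1, s1.2]
  · have ha1 : Real.sqrt a ≤ b := by
      rw [Real.sqrt_le_left hb.le]
      linarith
    have haa : Real.sqrt a ^ 2 = a := Real.sq_sqrt ha0.le
    have hsa : 0 < Real.sqrt a := Real.sqrt_pos.2 ha0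
    have hgap : β / (4 * b) ≤ ρ - Real.sqrt a := by
      rw [div_le_iff₀ (by positivity)]
      have h3 : (ρ - Real.sqrt a) * (ρ + Real.sqrt a) = β / 2 := by
        have : (ρ - Real.sqrt a) * (ρ + Real.sqrt a) = ρ ^ 2 - Real.sqrt a ^ 2 := by ring
        rw [this, hρρ, haa]; ring
      have h4 : 0 < ρ - Real.sqrt a := by
        by_contra hcon
        push Not at hcon
        have : (ρ - Real.sqrt a) * (ρ + Real.sqrt a) ≤ 0 :=
          mul_nonpos_of_nonpos_of_nonneg hcon (by positivity)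
        linarith
      nlinarith
    have e : α * z.1 + z.2 = q * (ρ + (n1 * ξ1 + n2 * ξ2)) := by
      rw [hz1, hz2]
      calc α * (ρ * n1 + ξ1) + (ρ * n2 + ξ2)
          = (n1 * q) * (ρ * n1 + ξ1) + (n2 * q) * (ρ * n2 + ξ2) := by rw [n1q, n2q]; ring
        _ = q * (ρ * (n1 ^ 2 + n2 ^ 2) + (n1 * ξ1 + n2 * ξ2)) := by ring
        _ = q * (ρ + (n1 * ξ1 + n2 * ξ2)) := by rw [hnn]; ring
    rw [e]
    apply mul_le_mul_of_nonneg_left _ hq0.le
    have h5 := (abs_le.1 hlin).1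
    have e2 : 7 * β / (32 * b) = β / (4 * b) - 2 * η := by
      rw [hη]; field_simp; ring
    linarith

/-- Cauchy-Schwarz in the plane -/
theorem cs_le {α z1 z2 : ℝ} : α * z1 + z2 ≤ Real.sqrt (1 + α ^ 2) * Real.sqrt (z1 ^ 2 + z2 ^ 2) := by
  rw [← Real.sqrt_mul (by positivity)]
  apply Real.le_sqrt_of_sq_le
  nlinarith [sq_nonneg (α * z2 - z1)]

/-! ### integrals -/

theorem volume_box (x y η : ℝ) (hη : 0 ≤ η) :
    (volume : Measure (ℝ × ℝ)).real (Icc (x - η) (x + η) ×ˢ Icc (y - η) (y + η)) = (2 * η) ^ 2 := by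
  rw [Measure.real, Measure.volume_eq_prod, Measure.prod_prod, Real.volume_Icc, Real.volume_Icc,
    ← ENNReal.ofReal_mul (by linarith), ENNReal.toReal_ofReal]
  · ring
  · have : 0 ≤ x + η - (x - η) := by linarith
    have : 0 ≤ y + η - (y - η) := by linarith
    positivity

theorem disc_subset_box {R : ℝ} (hR : 0 ≤ R) :
    disc R ⊆ Icc (0 - R) (0 + R) ×ˢ Icc (0 - R) (0 + R) := by
  intro z hz
  have h : z.1 ^ 2 + z.2 ^ 2 < R ^ 2 := hz
  have h1 : |z.1| < R := abs_lt_of_sq_lt_sq (by nlinarith [sq_nonneg z.2]) hR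
  have h2 : |z.2| < R := abs_lt_of_sq_lt_sq (by nlinarith [sq_nonneg z.1]) hR
  rw [abs_lt] at h1 h2
  refine ⟨⟨?_, ?_⟩, ⟨?_, ?_⟩⟩ <;> linarith [h1.1, h1.2, h2.1, h2.2]

theorem isCompact_box (x y η : ℝ) :
    IsCompact (Icc (x - η) (x + η) ×ˢ Icc (y - η) (y + η) : Set (ℝ × ℝ)) :=
  isCompact_Icc.prod isCompact_Icc

theorem integrableOn_of_cont {A : Set (ℝ × ℝ)} {R : ℝ} (hR : 0 ≤ R) (hA : A ⊆ disc R)
    {f : ℝ × ℝ → ℝ} (hf : Continuous f) : IntegrableOn f A :=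
  (hf.continuousOn.integrableOn_compact (isCompact_box 0 0 R)).mono_set
    (hA.trans (disc_subset_box hR))

theorem measure_lt_top {A : Set (ℝ × ℝ)} {R : ℝ} (hR : 0 ≤ R) (hA : A ⊆ disc R) :
    volume A < ⊤ :=
  lt_of_le_of_lt (measure_mono (hA.trans (disc_subset_box hR)))
    (isCompact_box 0 0 R).measure_lt_top

theorem measure_le {A : Set (ℝ × ℝ)} {R : ℝ} (hR : 0 ≤ R) (hA : A ⊆ disc R) :
    (volume : Measure (ℝ × ℝ)).real A ≤ (2 * R) ^ 2 := by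
  rw [← volume_box 0 0 R hR]
  exact measureReal_mono (hA.trans (disc_subset_box hR)) (isCompact_box 0 0 R).measure_lt_top.ne

theorem cs_bound {A : Set (ℝ × ℝ)} {R V : ℝ} (hR : 0 ≤ R) (hA : A ⊆ disc R)
    {v : ℝ × ℝ → ℝ} (hv : Continuous v) (hV : 0 ≤ V)
    (h : ∫ z in A, v z ^ 2 ≤ V ^ 2) : ∫ z in A, |v z| ≤ 2 * R * V := by
  have hm := measure_le hR hA
  have hfin := measure_lt_top hR hA
  set m : ℝ := (volume : Measure (ℝ × ℝ)).real A with hmdef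
  have hm0 : 0 ≤ m := measureReal_nonneg
  set I : ℝ := ∫ z in A, |v z| with hI
  have hI0 : 0 ≤ I := integral_nonneg fun z => abs_nonneg _
  have i1 : IntegrableOn (fun z => |v z|) A := integrableOn_of_cont hR hA hv.abs
  have i2 : IntegrableOn (fun z => v z ^ 2) A := integrableOn_of_cont hR hA (hv.pow 2)
  have key : 0 ≤ m * (m * (∫ z in A, v z ^ 2) - I ^ 2) := by
    have h0 : 0 ≤ ∫ z in A, (m * |v z| - I) ^ 2 := integral_nonneg fun z => sq_nonneg _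
    have e : ∫ z in A, (m * |v z| - I) ^ 2
        = m ^ 2 * (∫ z in A, v z ^ 2) - 2 * m * I * I + I ^ 2 * m := by
      have e1 : ∀ z, (m * |v z| - I) ^ 2 = (m ^ 2 * v z ^ 2 - 2 * m * I * |v z|) + I ^ 2 := by
        intro z
        have := sq_abs (v z)
        calc (m * |v z| - I) ^ 2 = m ^ 2 * |v z| ^ 2 - 2 * m * I * |v z| + I ^ 2 := by ring
          _ = _ := by rw [this]
      simp_rw [e1]
      have ic : IntegrableOn (fun _ : ℝ × ℝ => I ^ 2) A := integrableOn_const hfin.ne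
      have j1 : IntegrableOn (fun z => m ^ 2 * v z ^ 2 - 2 * m * I * |v z|) A :=
        (i2.const_mul _).sub (i1.const_mul _)
      rw [integral_add j1 ic,
        integral_sub (i2.const_mul _) (i1.const_mul _), integral_const_mul, integral_const_mul,
        setIntegral_const, smul_eq_mul, ← hI, ← hmdef]
      ring
    rw [e] at h0
    calc (0 : ℝ) ≤ m ^ 2 * (∫ z in A, v z ^ 2) - 2 * m * I * I + I ^ 2 * m := h0
      _ = m * (m * (∫ z in A, v z ^ 2) - I ^ 2) := by ring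
  rcases eq_or_lt_of_le hm0 with hz | hp
  · have hvol : volume A = 0 := by
      rw [hmdef, Measure.real] at hz
      exact ((ENNReal.toReal_eq_zero_iff _).1 hz.symm).resolve_right hfin.ne
    have : I = 0 := by
      rw [hI, Measure.restrict_eq_zero.2 hvol, integral_zero_measure]
    rw [this]; positivity
  · have h1 : I ^ 2 ≤ m * ∫ z in A, v z ^ 2 := by
      have := nonneg_of_mul_nonneg_right key hp
      linarith
    have h2 : I ^ 2 ≤ (2 * R * V) ^ 2 := by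
      calc I ^ 2 ≤ m * ∫ z in A, v z ^ 2 := h1
        _ ≤ (2 * R) ^ 2 * V ^ 2 := by
            apply mul_le_mul hm h _ (by positivity)
            exact integral_nonneg fun z => sq_nonneg _
        _ = (2 * R * V) ^ 2 := by ring
    exact le_of_sq_le_sq h2 (by positivity)


/-! ### the two sides of the weak form -/

theorem cont_br {f g : ℝ × ℝ → ℝ} (hf : ContDiff ℝ ∞ f) (hg : ContDiff ℝ ∞ g) :
    Continuous (br f g) := by
  have h1 := (contDiff_dx hf).continuous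
  have h2 := (contDiff_dy hf).continuous
  have h3 := (contDiff_dx hg).continuous
  have h4 := (contDiff_dy hg).continuous
  exact (h1.mul h4).sub (h2.mul h3)

/-- the left side -/
theorem lhs_bound {F v : ℝ × ℝ → ℝ} {r K1 K2 V1 V2 : ℝ} (hv : Continuous v)
    (hr : 0 ≤ r) (hK1 : 0 ≤ K1) (hK2 : 0 ≤ K2) (hV1 : 0 ≤ V1) (hV2 : 0 ≤ V2)
    (h1 : ∀ z ∈ disc r, |F z| ≤ K1 * |v z|)
    (h2 : ∀ z ∈ disc (1 / 10), z ∉ disc r → |F z| ≤ K2 * |v z|)
    (h3 : ∀ z, z ∉ disc (1 / 10) → F z = 0)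
    (i1 : ∫ z in disc r, v z ^ 2 ≤ V1 ^ 2)
    (i2 : ∫ z in {z | z ∈ disc (1 / 10) ∧ z ∉ disc r}, v z ^ 2 ≤ V2 ^ 2) :
    |∫ z, F z| ≤ K1 * (2 * r * V1) + K2 * (2 * (1 / 10) * V2) := by
  set A2 : Set (ℝ × ℝ) := {z | z ∈ disc (1 / 10) ∧ z ∉ disc r} with hA2
  have hA2s : A2 ⊆ disc (1 / 10) := fun z hz => hz.1
  have m1 : MeasurableSet (disc r) := (isOpen_disc r).measurableSet
  have m2 : MeasurableSet A2 :=
    (isOpen_disc (1 / 10)).measurableSet.inter (isOpen_disc r).measurableSet.compl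
  have c1 := cs_bound hr subset_rfl hv hV1 i1
  have c2 := cs_bound (by norm_num) hA2s hv hV2 i2
  have j1 : IntegrableOn (fun z => K1 * |v z|) (disc r) :=
    integrableOn_of_cont hr subset_rfl (continuous_const.mul hv.abs)
  have j2 : IntegrableOn (fun z => K2 * |v z|) A2 :=
    integrableOn_of_cont (by norm_num) hA2s (continuous_const.mul hv.abs)
  have hg1 : Integrable ((disc r).indicator fun z => K1 * |v z|) := (integrable_indicator_iff m1).2 j1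
  have hg2 : Integrable (A2.indicator fun z => K2 * |v z|) := (integrable_indicator_iff m2).2 j2
  have hb : ∀ z, ‖F z‖ ≤ (disc r).indicator (fun z => K1 * |v z|) z
      + A2.indicator (fun z => K2 * |v z|) z := by
    intro z
    have n1 : 0 ≤ (disc r).indicator (fun z => K1 * |v z|) z :=
      indicator_nonneg (fun z _ => by positivity) z
    have n2 : 0 ≤ A2.indicator (fun z => K2 * |v z|) z :=
      indicator_nonneg (fun z _ => by positivity) z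
    rw [Real.norm_eq_abs]
    by_cases hz : z ∈ disc (1 / 10)
    · by_cases hz1 : z ∈ disc r
      · have := h1 z hz1
        rw [indicator_of_mem hz1]
        linarith
      · have := h2 z hz hz1
        rw [indicator_of_mem (show z ∈ A2 from ⟨hz, hz1⟩)]
        linarith
    · rw [h3 z hz, abs_zero]
      linarith
  have key := norm_integral_le_of_norm_le (hg1.add hg2) (Filter.Eventually.of_forall hb)
  rw [Real.norm_eq_abs] at key
  refine key.trans ?_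
  have e : ∫ z, ((disc r).indicator (fun z => K1 * |v z|) + A2.indicator (fun z => K2 * |v z|)) z
      = K1 * (∫ z in disc r, |v z|) + K2 * ∫ z in A2, |v z| := by
    have : ∀ z, ((disc r).indicator (fun z => K1 * |v z|) + A2.indicator (fun z => K2 * |v z|)) z
        = (disc r).indicator (fun z => K1 * |v z|) z + A2.indicator (fun z => K2 * |v z|) z :=
      fun z => rfl
    simp_rw [this]
    rw [integral_add hg1 hg2, integral_indicator m1, integral_indicator m2,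
      integral_const_mul, integral_const_mul]
  rw [e]
  gcongr

/-- the right side -/
theorem rhs_bound {T : Tri} {M ε C0 j0 α s0 b amp sg x y η m : ℝ} {w0 : ℝ × ℝ → ℝ}
    (hB : Basic M ε C0 j0 T) (hα : 0 ≤ α) (hb : 0 < b) (hb1 : b ≤ 1 / 20)
    (hw : ContDiff ℝ ∞ w0) (hout : ∀ z, z ∉ disc b → w0 z = 0)
    (hm : 0 ≤ m) (hamp : 0 ≤ amp)
    (hsgn : ∀ z ∈ disc b, 0 ≤ sg * w0 z * F2 (sf T.a T.b α z - s0))
    (hη : 0 ≤ η)
    (hsq : ∀ z ∈ Icc (x - η) (x + η) ×ˢ Icc (y - η) (y + η), z ∈ disc b ∧ amp ≤ sg * w0 z ∧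
      m ≤ F2 (sf T.a T.b α z - s0)) :
    9 / 20 * (amp * m) * (2 * η) ^ 2 ≤ sg * ∫ z, br T.a T.b z * (w0 z *
            (g11 T z * No T.a T.b (No T.a T.b (wf cut T.a T.b α s0)) z
              - 2 * g12 T z * Lo T.a T.b (No T.a T.b (wf cut T.a T.b α s0)) z
              + g22 T z * Lo T.a T.b (Lo T.a T.b (wf cut T.a T.b α s0)) z)) := by
  have hJ0 : ∀ z ∈ disc 2, br T.a T.b z ≠ 0 := fun z hz => by linarith [hB.J0l z hz]
  have hb20 : disc b ⊆ disc (1 / 20) := disc_mono hb.le hb1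
  have hb2 : disc b ⊆ disc 2 := hb20.trans sub12
  have e : ∀ z, br T.a T.b z * (w0 z *
            (g11 T z * No T.a T.b (No T.a T.b (wf cut T.a T.b α s0)) z
              - 2 * g12 T z * Lo T.a T.b (No T.a T.b (wf cut T.a T.b α s0)) z
              + g22 T z * Lo T.a T.b (Lo T.a T.b (wf cut T.a T.b α s0)) z))
      = w0 z * (br T.a T.b z * (F2 (sf T.a T.b α z - s0) * Qf T α z)) := by
    intro z
    by_cases hz : z ∈ disc b
    · rw [Q_in hJ0 (hb20 hz)]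
      simp only [G]
      ring
    · rw [hout z hz]; ring
  simp_rw [e]
  rw [← integral_const_mul]
  -- integrability
  have hK : disc b ⊆ Metric.closedBall (0 : ℝ × ℝ) b := by
    intro z hz
    obtain ⟨h1, h2⟩ := abs_le_of_disc hb.le hz
    rw [Metric.mem_closedBall, dist_zero_right, Prod.norm_def]
    exact max_le (by rw [Real.norm_eq_abs]; exact h1.le) (by rw [Real.norm_eq_abs]; exact h2.le)
  have hK2 : Metric.closedBall (0 : ℝ × ℝ) b ⊆ disc 2 := by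
    refine (Metric.closedBall_subset_closedBall (by linarith : b ≤ 7 / 100)).trans ?_
    exact ball_subset.trans (disc_mono (by norm_num) (by norm_num))
  have hc : HasCompactSupport w0 := by
    refine HasCompactSupport.intro (isCompact_closedBall (0 : ℝ × ℝ) b) ?_
    intro z hz
    exact hout z fun h => hz (hK h)
  have hts : tsupport w0 ⊆ disc 2 := by
    refine (closure_minimal ?_ Metric.isClosed_closedBall).trans hK2
    intro z hz
    by_contra hcon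
    exact hz (hout z fun h => hcon (hK h))
  have cF : Continuous fun z => F2 (sf T.a T.b α z - s0) :=
    continuous_F2.comp ((contDiff_sf T.ha T.hb).continuous.sub continuous_const)
  have cdxa := (contDiff_dx T.ha).continuous
  have cdya := (contDiff_dy T.ha).continuous
  have cdxb := (contDiff_dx T.hb).continuous
  have cdyb := (contDiff_dy T.hb).continuous
  have cJ := cont_br T.ha T.hb
  have cQ : ContinuousOn (Qf T α) (disc 2) := by
    have hJ2 : ∀ z ∈ disc 2, br T.a T.b z ^ 2 ≠ 0 := fun z hz => pow_ne_zero 2 (hJ0 z hz)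
    have q1 : ContinuousOn (g11 T) (disc 2) :=
      ContinuousOn.div ((cdyb.pow 2).add (cdxb.pow 2)).continuousOn (cJ.pow 2).continuousOn hJ2
    have q2 : ContinuousOn (g12 T) (disc 2) :=
      ContinuousOn.div ((cdyb.mul cdya).add (cdxb.mul cdxa)).neg.continuousOn
        (cJ.pow 2).continuousOn hJ2
    have q3 : ContinuousOn (g22 T) (disc 2) :=
      ContinuousOn.div ((cdya.pow 2).add (cdxa.pow 2)).continuousOn (cJ.pow 2).continuousOn hJ2
    exact (q1.sub ((continuousOn_const.mul q2).mul continuousOn_const)).add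
      (q3.mul continuousOn_const)
  have ck : ContinuousOn (fun z => br T.a T.b z * (F2 (sf T.a T.b α z - s0) * Qf T α z)) (disc 2) :=
    cJ.continuousOn.mul (cF.continuousOn.mul cQ)
  have cont : Continuous fun z =>
      w0 z * (br T.a T.b z * (F2 (sf T.a T.b α z - s0) * Qf T α z)) := by
    have := contDiff_mul_of_tsupport (n := 0) (isOpen_disc 2) (f := w0)
      (hw.of_le (by simp)) hts (contDiffOn_zero.2 ck)
    exact this.continuous
  have hint : Integrable fun z =>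
      sg * (w0 z * (br T.a T.b z * (F2 (sf T.a T.b α z - s0) * Qf T α z))) :=
    (cont.integrable_of_hasCompactSupport hc.mul_right).const_mul sg
  set Sq : Set (ℝ × ℝ) := Icc (x - η) (x + η) ×ˢ Icc (y - η) (y + η) with hSq
  have mS : MeasurableSet Sq := measurableSet_Icc.prod measurableSet_Icc
  have e2 : 9 / 20 * (amp * m) * (2 * η) ^ 2 = ∫ z, Sq.indicator (fun _ => 9 / 20 * (amp * m)) z := by
    rw [integral_indicator mS, setIntegral_const, volume_box x y η hη, smul_eq_mul]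
    ring
  rw [e2]
  refine integral_mono_of_nonneg (Filter.Eventually.of_forall fun z =>
    indicator_nonneg (fun _ _ => by positivity) z) hint (Filter.Eventually.of_forall fun z => ?_)
  by_cases hz : z ∈ Sq
  · obtain ⟨z1, z2, z3⟩ := hsq z hz
    show Sq.indicator (fun _ => 9 / 20 * (amp * m)) z ≤ _
    rw [indicator_of_mem hz]
    have hJ := hB.J0l z (hb2 z1)
    have hQ := Qf_lower hB hα (hb2 z1)
    have hp : 0 ≤ sg * w0 z := hamp.trans z2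
    have hF : 0 ≤ F2 (sf T.a T.b α z - s0) := hm.trans z3
    calc 9 / 20 * (amp * m) = amp * (9 / 10 * (m * (1 / 2))) := by ring
      _ ≤ (sg * w0 z) * (br T.a T.b z * (F2 (sf T.a T.b α z - s0) * Qf T α z)) := by
          gcongr
      _ = _ := by ring
  · show Sq.indicator (fun _ => 9 / 20 * (amp * m)) z ≤ _
    rw [indicator_of_notMem hz]
    by_cases hzb : z ∈ disc b
    · have hJ := hB.J0l z (hb2 hzb)
      have hQ := Qf_lower hB hα (hb2 hzb)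
      have hs := hsgn z hzb
      have : sg * (w0 z * (br T.a T.b z * (F2 (sf T.a T.b α z - s0) * Qf T α z)))
          = (sg * w0 z * F2 (sf T.a T.b α z - s0)) * (br T.a T.b z * Qf T α z) := by ring
      show 0 ≤ sg * (w0 z * (br T.a T.b z * (F2 (sf T.a T.b α z - s0) * Qf T α z)))
      rw [this]
      exact mul_nonneg hs (mul_nonneg (by linarith) (by linarith))
    · show 0 ≤ sg * (w0 z * (br T.a T.b z * (F2 (sf T.a T.b α z - s0) * Qf T α z)))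
      rw [hout z hzb]; simp


/-- pointwise bound of the left side near the bump -/
theorem F_in {T : Tri} {M ε C0 j0 e0 D α A s0 b C1 : ℝ} {v : ℝ × ℝ → ℝ}
    (hB : Basic M ε C0 j0 T) (hN : Nrm M ε e0 T) (hα : 0 ≤ α) (hA : α ≤ A)
    (hs0 : 0 ≤ s0) (hD : 0 < D)
    (h1 : Bd (disc 2) 1 D (Lo T.a T.b (pf T))) (h2 : Bd (disc 2) 1 D (Lo T.a T.b (Pf T)))
    (h3 : Bd (disc 2) 1 D (No T.a T.b (Pf T))) (hBf0 : Bf T α 0 = 0)
    (hC1b : 0 < C1 * b) (hC1b' : C1 * b ≤ 1 / 20) (hz : z ∈ disc (C1 * b)) :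
    |br T.a T.b z * (v z * Mo T (wf cut T.a T.b α s0) z)|
      ≤ 11 / 10 * (24 * (A + 1) ^ 3 * D * C1 ^ 2) * b ^ 2 * |v z| := by
  have hJ0 : ∀ z ∈ disc 2, br T.a T.b z ≠ 0 := fun z hz => by linarith [hB.J0l z hz]
  have hz20 : z ∈ disc (1 / 20) := disc_mono hC1b.le hC1b' hz
  have hz2 : z ∈ disc 2 := sub12 hz20
  rw [Mo_in hJ0 hz20]
  have j1 := hB.J0l z hz2
  have j2 := hB.J0u z hz2
  have hA0 : 0 ≤ A := hα.trans hA
  have hsz := sf_size hB hN hα hC1b (by linarith) hz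
  have hmp : max (sf T.a T.b α z - s0) 0 ≤ 2 * (α + 1) * (C1 * b) :=
    mp_le (by positivity) hs0 hsz
  have hG : |G F2 T.a T.b α s0 z| ≤ 12 * (A + 1) * (C1 * b) := by
    show |F2 (sf T.a T.b α z - s0)| ≤ _
    rw [abs_of_nonneg (F2_nonneg _)]
    have h5 : F2 (sf T.a T.b α z - s0) ≤ 6 * (2 * (α + 1) * (C1 * b)) :=
      mul_le_mul_of_nonneg_left hmp (by norm_num)
    refine h5.trans ?_
    have h6 : α * (C1 * b) ≤ A * (C1 * b) := mul_le_mul_of_nonneg_right hA hC1b.le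
    linarith
  have hBfz := Bf_lip hB hα h1 h2 h3 hBf0 hz2
  obtain ⟨w1, w2⟩ := abs_le_of_disc hC1b.le hz
  have hBf2 : |Bf T α z| ≤ (A + 1) ^ 2 * (D * (2 * (C1 * b))) := by
    refine hBfz.trans ?_
    have h5 : |z.1| + |z.2| ≤ 2 * (C1 * b) := by linarith
    have h6 : (α + 1) ^ 2 ≤ (A + 1) ^ 2 := pow_le_pow_left₀ (by linarith) (by linarith) 2
    exact mul_le_mul h6 (mul_le_mul_of_nonneg_left h5 hD.le) (by positivity) (by positivity)
  rw [abs_mul, abs_mul, abs_mul, abs_of_pos (by linarith : 0 < br T.a T.b z)]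
  have h7 : |G F2 T.a T.b α s0 z| * |Bf T α z|
      ≤ 12 * (A + 1) * (C1 * b) * ((A + 1) ^ 2 * (D * (2 * (C1 * b)))) :=
    mul_le_mul hG hBf2 (abs_nonneg _) (by positivity)
  calc br T.a T.b z * (|v z| * (|G F2 T.a T.b α s0 z| * |Bf T α z|))
      ≤ 11 / 10 * (|v z| * (12 * (A + 1) * (C1 * b) * ((A + 1) ^ 2 * (D * (2 * (C1 * b)))))) :=
        mul_le_mul j2 (mul_le_mul_of_nonneg_left h7 (abs_nonneg _)) (by positivity) (by norm_num)
    _ = 11 / 10 * (24 * (A + 1) ^ 3 * D * C1 ^ 2) * b ^ 2 * |v z| := by ring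

/-- Taylor on the small disc -/
theorem tay {T : Tri} {M ε C0 j0 e0 α A b : ℝ} (hB : Basic M ε C0 j0 T) (hN : Nrm M ε e0 T)
    (hC : 0 ≤ C0) (hα : 0 ≤ α) (hA : α ≤ A) (hb : 0 < b) (hb2 : b ≤ 2) (hz : z ∈ disc b) :
    |sf T.a T.b α z - e0 * (α * z.1 + z.2)| ≤ (A + 1) * (4 * C0) * b ^ 2 := by
  refine (sf_taylor hB hN hC hα hb hb2 hz).trans ?_
  have h : (α + 1) * (4 * C0 * b ^ 2) ≤ (A + 1) * (4 * C0 * b ^ 2) :=
    mul_le_mul_of_nonneg_right (by linarith) (by positivity)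
  calc (α + 1) * (4 * C0 * b ^ 2) ≤ (A + 1) * (4 * C0 * b ^ 2) := h
    _ = (A + 1) * (4 * C0) * b ^ 2 := by ring

/-- beyond the level `s0` the radius is large -/
theorem radius_of_lt {e0 α q a X K s0 : ℝ} (he0 : 0 < e0) (hq : q = Real.sqrt (1 + α ^ 2))
    (ha : 0 ≤ a) (hs0 : s0 = e0 * q * Real.sqrt a + K)
    (hX : |X - e0 * (α * z.1 + z.2)| ≤ K) (h : s0 < X) : a < z.1 ^ 2 + z.2 ^ 2 := by
  have hq1 : 1 ≤ q := by rw [hq]; exact Real.one_le_sqrt.2 (by nlinarith)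
  have h1 := (abs_le.1 hX).2
  have h2 : α * z.1 + z.2 ≤ q * Real.sqrt (z.1 ^ 2 + z.2 ^ 2) := by rw [hq]; exact cs_le
  have h4 : e0 * (α * z.1 + z.2) ≤ e0 * (q * Real.sqrt (z.1 ^ 2 + z.2 ^ 2)) :=
    mul_le_mul_of_nonneg_left h2 he0.le
  have h3 : e0 * q * Real.sqrt a < e0 * q * Real.sqrt (z.1 ^ 2 + z.2 ^ 2) := by
    rw [hs0] at h
    linarith
  have h5 : Real.sqrt a < Real.sqrt (z.1 ^ 2 + z.2 ^ 2) :=
    lt_of_mul_lt_mul_left h3 (by positivity)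
  exact (Real.sqrt_lt_sqrt_iff ha).1 h5

/-- on the square the function exceeds the level by a definite amount -/
theorem gap_on_square {e0 α q a X K s0 b β : ℝ} (he : 99 / 100 ≤ e0)
    (hq1 : 1 ≤ q) (hb : 0 < b) (hβ : 0 < β)
    (hs0 : s0 = e0 * q * Real.sqrt a + K) (hK : 40 * K ≤ β / b)
    (hX : |X - e0 * (α * z.1 + z.2)| ≤ K)
    (hg : q * (Real.sqrt a + 7 * β / (32 * b)) ≤ α * z.1 + z.2) : β / (8 * b) ≤ X - s0 := by
  have he0 : 0 < e0 := by linarith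
  have h1 := (abs_le.1 hX).1
  have h2 : e0 * (q * (Real.sqrt a + 7 * β / (32 * b))) ≤ e0 * (α * z.1 + z.2) :=
    mul_le_mul_of_nonneg_left hg he0.le
  have hbb : 0 < β / b := by positivity
  have e1 : 7 * β / (32 * b) = 7 / 32 * (β / b) := by field_simp
  have e2 : β / (8 * b) = 1 / 8 * (β / b) := by field_simp
  have hq2 : 99 / 100 ≤ e0 * q := by nlinarith
  have h4 : 99 / 100 * (7 / 32 * (β / b)) ≤ e0 * q * (7 / 32 * (β / b)) :=
    mul_le_mul_of_nonneg_right hq2 (by positivity)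
  have h6 : e0 * (q * (Real.sqrt a + 7 * β / (32 * b)))
      = e0 * q * Real.sqrt a + e0 * q * (7 / 32 * (β / b)) := by rw [e1]; ring
  rw [h6] at h2
  rw [e2, hs0]
  linarith

/-- the right side, estimated -/
theorem rhs_final {T : Tri} {M ε C0 j0 e0 α A s0 b β amp sg a q : ℝ} {w0 : ℝ × ℝ → ℝ}
    (hB : Basic M ε C0 j0 T) (hN : Nrm M ε e0 T) (hC : 0 ≤ C0) (he : 99 / 100 ≤ e0)
    (hα : 0 ≤ α) (hA : α ≤ A) (hb : 0 < b) (hb1 : b ≤ 1 / 20) (hβ : 0 < β)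
    (hw : ContDiff ℝ ∞ w0) (hout : ∀ z, z ∉ disc b → w0 z = 0) (hamp : 0 ≤ amp)
    (hq : q = Real.sqrt (1 + α ^ 2)) (ha : b ^ 2 / 4 ≤ a) (hab : a + β ≤ b ^ 2)
    (hs0 : s0 = e0 * q * Real.sqrt a + (A + 1) * (4 * C0) * b ^ 2)
    (hK : 40 * ((A + 1) * (4 * C0) * b ^ 2) ≤ β / b)
    (hsign : ∀ z : ℝ × ℝ, a ≤ z.1 ^ 2 + z.2 ^ 2 → 0 ≤ sg * w0 z)
    (hbig : ∀ z : ℝ × ℝ, a + β / 4 ≤ z.1 ^ 2 + z.2 ^ 2 → z.1 ^ 2 + z.2 ^ 2 ≤ a + 3 * β / 4 →
      amp ≤ sg * w0 z) :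
    2 * (27 / 163840 * amp * (β / b) ^ 3) ≤ sg * ∫ z, br T.a T.b z * (w0 z *
            (g11 T z * No T.a T.b (No T.a T.b (wf cut T.a T.b α s0)) z
              - 2 * g12 T z * Lo T.a T.b (No T.a T.b (wf cut T.a T.b α s0)) z
              + g22 T z * Lo T.a T.b (Lo T.a T.b (wf cut T.a T.b α s0)) z)) := by
  have he0 : 0 < e0 := by linarith
  have ha0 : 0 < a := lt_of_lt_of_le (by positivity) ha
  have hq1 : 1 ≤ q := by rw [hq]; exact Real.one_le_sqrt.2 (by nlinarith)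
  obtain ⟨ρ, hρ⟩ : ∃ ρ, ρ = Real.sqrt (a + β / 2) := ⟨_, rfl⟩
  obtain ⟨η, hη⟩ : ∃ η, η = β / (64 * b) := ⟨_, rfl⟩
  have hη0 : 0 ≤ η := by rw [hη]; positivity
  have e3 : 9 / 20 * (amp * (6 * (β / (8 * b)))) * (2 * η) ^ 2
      = 2 * (27 / 163840 * amp * (β / b) ^ 3) := by
    rw [hη]; field_simp; ring
  rw [← e3]
  refine rhs_bound (T := T) (α := α) (s0 := s0) (b := b) (amp := amp) (sg := sg)
    (x := ρ * (α / q)) (y := ρ * (1 / q)) (η := η) (m := 6 * (β / (8 * b))) (w0 := w0) hB hα hb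
    hb1 hw hout (by positivity) hamp ?_ hη0 ?_
  · intro z hz
    by_cases hsz : sf T.a T.b α z ≤ s0
    · have : F2 (sf T.a T.b α z - s0) = 0 := by
        unfold F2
        rw [max_eq_right (by linarith), mul_zero]
      rw [this, mul_zero]
    · push Not at hsz
      have h6 := radius_of_lt he0 hq ha0.le hs0 (tay hB hN hC hα hA hb (by linarith) hz) hsz
      exact mul_nonneg (hsign z h6.le) (F2_nonneg _)
  · intro z hz
    have hz1 : |z.1 - ρ * (α / q)| ≤ η := abs_le.2 ⟨by linarith [hz.1.1], by linarith [hz.1.2]⟩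
    have hz2 : |z.2 - ρ * (1 / q)| ≤ η := abs_le.2 ⟨by linarith [hz.2.1], by linarith [hz.2.2]⟩
    obtain ⟨g1, g2⟩ := geo_square hb hβ ha hab hα hq hρ hη rfl rfl hz1 hz2
    obtain ⟨g3, g4⟩ := abs_le.1 g1
    have hzb : z ∈ disc b := by
      show z.1 ^ 2 + z.2 ^ 2 < b ^ 2
      linarith
    refine ⟨hzb, hbig z (by linarith) (by linarith), ?_⟩
    have h5 := gap_on_square he hq1 hb hβ hs0 hK (tay hB hN hC hα hA hb (by linarith) hzb) g2
    show 6 * (β / (8 * b)) ≤ F2 (sf T.a T.b α z - s0)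
    unfold F2
    exact mul_le_mul_of_nonneg_left (h5.trans (le_max_left _ _)) (by norm_num)

/-- the left side, estimated -/
theorem lhs_final {T : Tri} {M ε C0 j0 e0 D α A s0 b C1 V1 V2 : ℝ} {v : ℝ × ℝ → ℝ}
    (hB : Basic M ε C0 j0 T) (hN : Nrm M ε e0 T) (hα : 0 ≤ α) (hA : α ≤ A)
    (hs0 : 0 ≤ s0) (hD : 0 < D)
    (h1 : Bd (disc 2) 1 D (Lo T.a T.b (pf T))) (h2 : Bd (disc 2) 1 D (Lo T.a T.b (Pf T)))
    (h3 : Bd (disc 2) 1 D (No T.a T.b (Pf T)))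
    (h4 : ∀ z ∈ disc 2, |Lo T.a T.b (cut : ℝ × ℝ → ℝ) z| ≤ D ∧
      |No T.a T.b (cut : ℝ × ℝ → ℝ) z| ≤ D ∧
      |Lo T.a T.b (Lo T.a T.b (cut : ℝ × ℝ → ℝ)) z| ≤ D ∧
      |Lo T.a T.b (No T.a T.b (cut : ℝ × ℝ → ℝ)) z| ≤ D ∧
      |No T.a T.b (No T.a T.b (cut : ℝ × ℝ → ℝ)) z| ≤ D) (hBf0 : Bf T α 0 = 0)
    (hC1b : 0 < C1 * b) (hC1b' : C1 * b ≤ 1 / 20) (hv : Continuous v)
    (hV1 : 0 ≤ V1) (hV2 : 0 ≤ V2)
    (i1 : ∫ z in disc (C1 * b), v z ^ 2 ≤ V1 ^ 2)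
    (i2 : ∫ z in {z | z ∈ disc (1 / 10) ∧ z ∉ disc (C1 * b)}, v z ^ 2 ≤ V2 ^ 2) :
    |∫ z, br T.a T.b z * (v z * Mo T (wf cut T.a T.b α s0) z)|
      ≤ 11 / 10 * (24 * (A + 1) ^ 3 * D * C1 ^ 2) * b ^ 2 * (2 * (C1 * b) * V1)
        + 11 / 10 * (4 * D * ((7 * D + 6) * (A + 1) ^ 3)) * (2 * (1 / 10) * V2) := by
  have hA0 : 0 ≤ A := hα.trans hA
  refine lhs_bound hv hC1b.le (by positivity) (by positivity) hV1 hV2 ?_ ?_ ?_ i1 i2
  · intro z hz
    exact F_in hB hN hα hA hs0 hD h1 h2 h3 hBf0 hC1b hC1b' hz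
  · intro z hz _
    have hz2 : z ∈ disc 2 := disc_mono (by norm_num) (by norm_num) hz
    have j1 := hB.J0l z hz2
    have j2 := hB.J0u z hz2
    have hM1 := Mo_bd hB hN hα hA hs0 hD h1 h2 h3 h4 hz
    rw [abs_mul, abs_mul, abs_of_pos (by linarith : 0 < br T.a T.b z)]
    calc br T.a T.b z * (|v z| * |Mo T (wf cut T.a T.b α s0) z|)
        ≤ 11 / 10 * (|v z| * (4 * D * ((7 * D + 6) * (A + 1) ^ 3))) :=
          mul_le_mul j2 (mul_le_mul_of_nonneg_left hM1 (abs_nonneg _)) (by positivity)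
            (by norm_num)
      _ = 11 / 10 * (4 * D * ((7 * D + 6) * (A + 1) ^ 3)) * |v z| := by ring
  · intro z hz
    rw [Mo_out hz]; ring

/-- final arithmetic -/
theorem final_step {R L sg X K1 K2 K3 b C1 V1 V2 : ℝ} (hsg : sg = 1 ∨ sg = -1)
    (hLR : L = -(1 / 2) * R) (hR : 2 * X ≤ sg * R)
    (hL : |L| ≤ K1 * b ^ 2 * (2 * (C1 * b) * V1) + K2 * (2 * (1 / 10) * V2))
    (hb : 0 ≤ b) (hC1 : 0 ≤ C1) (hK1 : 0 ≤ K1) (hK2 : 0 ≤ K2) (hK3 : 0 ≤ K3)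
    (hV1 : 0 ≤ V1) (hV2 : 0 ≤ V2) :
    X ≤ (2 * C1 * K1 + K2 / 5 + 40 * K3 + 1) * (b ^ 3 * V1 + V2) := by
  have hR2 : sg * R ≤ |R| := by
    rcases hsg with h | h <;> rw [h]
    · linarith [le_abs_self R]
    · linarith [neg_abs_le R]
  have hL2 : |L| = 1 / 2 * |R| := by
    rw [hLR, abs_mul]; norm_num
  rw [hL2] at hL
  have p1 : 0 ≤ b ^ 3 * V1 := by positivity
  have p2 : 0 ≤ (K2 / 5 + 40 * K3 + 1) * (b ^ 3 * V1) := by positivity
  have p3 : 0 ≤ (2 * C1 * K1 + 40 * K3 + 1) * V2 := by positivity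
  linarith

end ContraAux

open ContraAux in
theorem bump_contra (M ε C0 j0 κ0 C1 : ℝ) (hM : 1 ≤ M) (hε : 0 < ε) (hC : 0 < C0) (hj : 0 < j0)
    (hκ : 0 < κ0) (hC1 : 1 ≤ C1) :
    ∃ c C b0 : ℝ, 0 < c ∧ 0 < C ∧ 0 < b0 ∧ ∀ (T : Tri) (e0 : ℝ) (v w0 : ℝ × ℝ → ℝ)
      (b β amp S0 V1 V2 : ℝ), Basic M ε C0 j0 T → Nrm M ε e0 T → 99 / 100 ≤ e0 → e0 ≤ 1 →
      kf T 0 ≤ -κ0 ^ 2 → ContDiff ℝ ∞ v → BumpDiff amp S0 b β w0 →
      (∀ w : ℝ × ℝ → ℝ, ContDiff ℝ 2 w → HasCompactSupport w → tsupport w ⊆ disc 2 →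
        ∫ z, br T.a T.b z * (v z * Mo T w z) =
          -(1 / 2) * ∫ z, br T.a T.b z * (w0 z *
            (g11 T z * No T.a T.b (No T.a T.b w) z - 2 * g12 T z * Lo T.a T.b (No T.a T.b w) z
              + g22 T z * Lo T.a T.b (Lo T.a T.b w) z))) →
      0 < b → b < b0 → 0 < β → C * b ^ 2 ≤ β / b → 0 ≤ amp → 0 ≤ V1 → 0 ≤ V2 →
      (∫ z in disc (C1 * b), v z ^ 2 ≤ V1 ^ 2) →
      (∫ z in {z | z ∈ disc (1 / 10) ∧ z ∉ disc (C1 * b)}, v z ^ 2 ≤ V2 ^ 2) →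
      c * amp * (β / b) ^ 3 ≤ C * (b ^ 3 * V1 + V2) := by
  obtain ⟨D, hD, hcoef⟩ := coef_bounds C0
  obtain ⟨A, hA⟩ : ∃ A : ℝ, A = Real.sqrt C0 * (2 * M / ε) := ⟨_, rfl⟩
  have hA0 : 0 ≤ A := by rw [hA]; positivity
  obtain ⟨K3, hK3⟩ : ∃ K3 : ℝ, K3 = (A + 1) * (4 * C0) := ⟨_, rfl⟩
  have hK30 : 0 ≤ K3 := by rw [hK3]; positivity
  obtain ⟨K1, hK1⟩ : ∃ K1 : ℝ, K1 = 11 / 10 * (24 * (A + 1) ^ 3 * D * C1 ^ 2) := ⟨_, rfl⟩
  have hK10 : 0 ≤ K1 := by rw [hK1]; positivity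
  obtain ⟨K2, hK2⟩ : ∃ K2 : ℝ, K2 = 11 / 10 * (4 * D * ((7 * D + 6) * (A + 1) ^ 3)) := ⟨_, rfl⟩
  have hK20 : 0 ≤ K2 := by rw [hK2]; positivity
  refine ⟨27 / 163840, 2 * C1 * K1 + K2 / 5 + 40 * K3 + 1, 1 / (20 * C1), by norm_num,
    by positivity, by positivity, ?_⟩
  intro T e0 v w0 b β amp S0 V1 V2 hB hN he he1 hk hv hbump hweak hb hbb0 hβ hCb hamp hV1 hV2
    hI1 hI2
  obtain ⟨a, sg, hsg, ha, hab, hsign, hbig⟩ := hbump.low
  have hk0 : kf T 0 ≤ 0 := hk.trans (by nlinarith [sq_nonneg κ0])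
  obtain ⟨α, hα, hαA, hBf0⟩ := exists_alpha hM hε hC hB hN he he1 hk0
  rw [← hA] at hαA
  obtain ⟨d1, d2, d3, d4⟩ := hcoef M ε j0 T hB
  have he0 : 0 < e0 := by linarith
  have hC1b0 : 0 < C1 * b := by positivity
  have hC1b : C1 * b ≤ 1 / 20 := by
    rw [lt_div_iff₀ (by positivity)] at hbb0
    linarith
  have hbC : b ≤ C1 * b := by nlinarith
  have hb20 : b ≤ 1 / 20 := hbC.trans hC1b
  obtain ⟨q, hq⟩ : ∃ q, q = Real.sqrt (1 + α ^ 2) := ⟨_, rfl⟩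
  have hq1 : 1 ≤ q := by rw [hq]; exact Real.one_le_sqrt.2 (by nlinarith)
  obtain ⟨s0, hs0⟩ : ∃ s0, s0 = e0 * q * Real.sqrt a + K3 * b ^ 2 := ⟨_, rfl⟩
  have hs00 : 0 ≤ s0 := by rw [hs0]; positivity
  have h3 : 40 * (K3 * b ^ 2) ≤ β / b := by
    refine le_trans ?_ hCb
    have p1 : 0 ≤ (2 * C1 * K1 + K2 / 5 + 1) * b ^ 2 := by positivity
    linarith
  -- the weak form
  have hW := hweak (wf cut T.a T.b α s0) contDiff_wf hasCompactSupport_wf tsupport_wf_subset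
  -- left side
  have hL := lhs_final hB hN hα hαA hs00 hD d1 d2 d3 d4 hBf0 hC1b0 hC1b hv.continuous hV1 hV2
    hI1 hI2
  rw [← hK1, ← hK2] at hL
  -- right side
  have hR := rhs_final (A := A) (s0 := s0) (q := q) hB hN hC.le he hα hαA hb hb20 hβ hbump.sm
    hbump.out hamp hq ha hab (by rw [hs0, hK3]) (by rw [hK3] at h3; exact h3) hsign hbig
  exact final_step hsg hW hR hL hb.le (by linarith) hK10 hK20 hK30 hV1 hV2

end Vale.Agent.P229
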