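import Vale.Agent.P229.Surf
import Vale.Agent.P229.BdAlg
import Vale.Agent.P229.Chord

/-!
# P229 [P]: normalisation of an isometric immersion near a point with `∇ψ = 0`
-/

namespace Vale.Agent.P229

open Set
open scoped ContDiff

namespace NormalizeAux

variable {U : Set (ℝ × ℝ)} {f g : ℝ × ℝ → ℝ}

theorem sm_Dw (hU : IsOpen U) (hf : Sm U f) (u : List Bool) : Sm U (Dw u f) := by
  induction u with
  | nil => exact hf
  | cons b u ih =>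
    cases b
    · exact ih.dy hU
    · exact ih.dx hU

theorem Dw_congr (hU : IsOpen U) (h : ∀ z ∈ U, f z = g z) (u : List Bool) :
    ∀ z ∈ U, Dw u f z = Dw u g z := by
  induction u with
  | nil => exact h
  | cons b u ih =>
    intro z hz
    cases b
    · exact dy_congr hU ih hz
    · exact dx_congr hU ih hz

theorem Dw_lin2 (hU : IsOpen U) (hf : Sm U f) (hg : Sm U g) (a b : ℝ) (u : List Bool) :
    ∀ z ∈ U, Dw u (fun z => a * f z + b * g z) z = a * Dw u f z + b * Dw u g z := by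
  induction u with
  | nil => exact fun z _ => rfl
  | cons c u ih =>
    intro z hz
    have h1 := (sm_Dw hU hf u).diff hU hz
    have h2 := (sm_Dw hU hg u).diff hU hz
    cases c
    · have e := dy_congr hU ih hz
      change dy (Dw u _) z = a * dy (Dw u f) z + b * dy (Dw u g) z
      rw [e, dy_add (h1.const_mul a) (h2.const_mul b), dy_const_mul a h1, dy_const_mul b h2]
    · have e := dx_congr hU ih hz
      change dx (Dw u _) z = a * dx (Dw u f) z + b * dx (Dw u g) z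
      rw [e, dx_add (h1.const_mul a) (h2.const_mul b), dx_const_mul a h1, dx_const_mul b h2]

/-- linear combination of the three components -/
def cmb (a1 a2 a3 : ℝ) (F1 F2 F3 : ℝ × ℝ → ℝ) : ℝ × ℝ → ℝ :=
  fun z => a1 * F1 z + a2 * F2 z + a3 * F3 z

theorem sm_cmb {F1 F2 F3 : ℝ × ℝ → ℝ} (h1 : Sm U F1) (h2 : Sm U F2) (h3 : Sm U F3) (a1 a2 a3 : ℝ) :
    Sm U (cmb a1 a2 a3 F1 F2 F3) :=
  (((Sm.const a1).mul h1).add ((Sm.const a2).mul h2)).add ((Sm.const a3).mul h3)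

theorem Dw_cmb (hU : IsOpen U) {F1 F2 F3 : ℝ × ℝ → ℝ} (h1 : Sm U F1) (h2 : Sm U F2) (h3 : Sm U F3)
    (a1 a2 a3 : ℝ) (u : List Bool) :
    ∀ z ∈ U, Dw u (cmb a1 a2 a3 F1 F2 F3) z = a1 * Dw u F1 z + a2 * Dw u F2 z + a3 * Dw u F3 z := by
  intro z hz
  have e1 : ∀ z ∈ U, cmb a1 a2 a3 F1 F2 F3 z = 1 * (a1 * F1 z + a2 * F2 z) + a3 * F3 z := by
    intro z _; simp [cmb]
  rw [Dw_congr hU e1 u z hz, Dw_lin2 hU (((Sm.const a1).mul h1).add ((Sm.const a2).mul h2)) h3 1 a3 u z hz,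
    Dw_lin2 hU h1 h2 a1 a2 u z hz]
  ring

theorem Dw_const_cons (c : ℝ) (b : Bool) (u : List Bool) : Dw (b :: u) (fun _ => c) = fun _ => 0 := by
  induction u generalizing b with
  | nil => cases b <;> (funext z; simp [Dw, dx, dy])
  | cons b' u ih =>
    have e := ih b'
    cases b
    · change dy (Dw (b' :: u) _) = _
      rw [e]; funext z; simp [dy]
    · change dx (Dw (b' :: u) _) = _
      rw [e]; funext z; simp [dx]

theorem Dw_const (c : ℝ) {u : List Bool} (hu : 1 ≤ u.length) (z : ℝ × ℝ) :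
    Dw u (fun _ => c) z = 0 := by
  cases u with
  | nil => simp at hu
  | cons b u => rw [Dw_const_cons]

/-- the affine similarity `w ↦ p + r R w` -/
def aff (p : ℝ × ℝ) (r c s : ℝ) (w : ℝ × ℝ) : ℝ × ℝ :=
  (p.1 + r * (c * w.1 - s * w.2), p.2 + r * (s * w.1 + c * w.2))

section aff

variable {p : ℝ × ℝ} {r c s : ℝ}

theorem contDiff_aff : ContDiff ℝ ∞ (aff p r c s) := by
  unfold aff
  fun_prop

theorem hasFDerivAt_aff (w : ℝ × ℝ) : HasFDerivAt (aff p r c s)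
    (((r * c) • ContinuousLinearMap.fst ℝ ℝ ℝ - (r * s) • ContinuousLinearMap.snd ℝ ℝ ℝ).prod
      ((r * s) • ContinuousLinearMap.fst ℝ ℝ ℝ + (r * c) • ContinuousLinearMap.snd ℝ ℝ ℝ)) w := by
  have h1 : HasFDerivAt (fun w : ℝ × ℝ => w.1) (ContinuousLinearMap.fst ℝ ℝ ℝ) w := hasFDerivAt_fst
  have h2 : HasFDerivAt (fun w : ℝ × ℝ => w.2) (ContinuousLinearMap.snd ℝ ℝ ℝ) w := hasFDerivAt_snd
  have h3 := (((h1.const_mul c).sub (h2.const_mul s)).const_mul r).const_add p.1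
  have h4 := (((h1.const_mul s).add (h2.const_mul c)).const_mul r).const_add p.2
  refine (h3.prodMk h4).congr_fderiv ?_
  ext <;> simp

theorem dx_aff {w : ℝ × ℝ} (hf : DifferentiableAt ℝ f (aff p r c s w)) :
    dx (fun w => f (aff p r c s w)) w
      = r * (c * dx f (aff p r c s w) + s * dy f (aff p r c s w)) := by
  have h := hf.hasFDerivAt.comp w (hasFDerivAt_aff (p := p) (r := r) (c := c) (s := s) w)
  have h' : fderiv ℝ (fun w => f (aff p r c s w)) w = _ := h.fderiv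
  rw [dx, h', ContinuousLinearMap.comp_apply, ChordAux.fderiv_eq]
  simp
  ring

theorem dy_aff {w : ℝ × ℝ} (hf : DifferentiableAt ℝ f (aff p r c s w)) :
    dy (fun w => f (aff p r c s w)) w
      = r * (-s * dx f (aff p r c s w) + c * dy f (aff p r c s w)) := by
  have h := hf.hasFDerivAt.comp w (hasFDerivAt_aff (p := p) (r := r) (c := c) (s := s) w)
  have h' : fderiv ℝ (fun w => f (aff p r c s w)) w = _ := h.fderiv
  rw [dy, h', ContinuousLinearMap.comp_apply, ChordAux.fderiv_eq]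
  simp
  ring

theorem sm_aff {V : Set (ℝ × ℝ)} (hf : Sm U f) (hV : ∀ w ∈ V, aff p r c s w ∈ U) :
    Sm V (fun w => f (aff p r c s w)) :=
  ContDiffOn.comp hf contDiff_aff.contDiffOn hV

theorem isOpen_pre (hU : IsOpen U) : IsOpen {w | aff p r c s w ∈ U} :=
  hU.preimage contDiff_aff.continuous

/-- bounds for the derivatives of the composition with `aff` -/
theorem ord_aff (hU : IsOpen U) (hr : 0 ≤ r) (hc : |c| ≤ 1) (hs : |s| ≤ 1) {K : Set (ℝ × ℝ)}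
    (hK : K ⊆ U) {B : ℝ} (j : ℕ) : ∀ (f : ℝ × ℝ → ℝ), Sm U f →
    (∀ u : List Bool, u.length = j → ∀ z ∈ K, |Dw u f z| ≤ B) →
    ∀ u : List Bool, u.length = j → ∀ w, aff p r c s w ∈ K →
      |Dw u (fun w => f (aff p r c s w)) w| ≤ (2 * r) ^ j * B := by
  induction j with
  | zero =>
    intro f hf hb u hu w hw
    rw [List.length_eq_zero_iff] at hu
    subst hu
    simpa [Dw] using hb [] rfl _ hw
  | succ j ih =>
    intro f hf hb u hu w hw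
    have hVo : IsOpen {w | aff p r c s w ∈ U} := isOpen_pre hU
    have hwV : w ∈ {w | aff p r c s w ∈ U} := hK hw
    have hx := ih (dx f) (hf.dx hU) (fun u hu z hz => by
      rw [← Dw_append_true]
      exact hb _ (by simp [hu]) z hz)
    have hy := ih (dy f) (hf.dy hU) (fun u hu z hz => by
      rw [← Dw_append_false]
      exact hb _ (by simp [hu]) z hz)
    have sx : Sm {w | aff p r c s w ∈ U} (fun w => dx f (aff p r c s w)) :=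
      sm_aff (hf.dx hU) (fun w hw => hw)
    have sy : Sm {w | aff p r c s w ∈ U} (fun w => dy f (aff p r c s w)) :=
      sm_aff (hf.dy hU) (fun w hw => hw)
    have key : ∀ X Y α β Bj : ℝ, |X| ≤ Bj → |Y| ≤ Bj → |α| ≤ 1 → |β| ≤ 1 →
        |r * α * X + r * β * Y| ≤ 2 * r * Bj := by
      intro X Y α β Bj hX hY hα hβ
      have h1 : |r * α * X| ≤ r * Bj := by
        rw [mul_assoc, abs_mul, abs_mul, abs_of_nonneg hr]
        apply mul_le_mul_of_nonneg_left _ hr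
        calc |α| * |X| ≤ 1 * Bj := mul_le_mul hα hX (abs_nonneg _) zero_le_one
          _ = Bj := one_mul _
      have h2 : |r * β * Y| ≤ r * Bj := by
        rw [mul_assoc, abs_mul, abs_mul, abs_of_nonneg hr]
        apply mul_le_mul_of_nonneg_left _ hr
        calc |β| * |Y| ≤ 1 * Bj := mul_le_mul hβ hY (abs_nonneg _) zero_le_one
          _ = Bj := one_mul _
      calc _ ≤ |r * α * X| + |r * β * Y| := abs_add_le _ _
        _ ≤ _ := by linarith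
    rcases List.eq_nil_or_concat u with h0 | ⟨u', b, hub⟩
    · simp [h0] at hu
    · rw [List.concat_eq_append] at hub
      subst hub
      have hu' : u'.length = j := by simpa using hu
      cases b
      · rw [Dw_append_false]
        have e : ∀ w ∈ {w | aff p r c s w ∈ U}, dy (fun w => f (aff p r c s w)) w
            = r * -s * dx f (aff p r c s w) + r * c * dy f (aff p r c s w) := by
          intro w hw
          rw [dy_aff (hf.diff hU hw)]; ring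
        rw [Dw_congr hVo e u' w hwV, Dw_lin2 hVo sx sy _ _ u' w hwV]
        have := key _ _ (-s) c _ (hx u' hu' w hw) (hy u' hu' w hw) (by rwa [abs_neg]) hc
        refine this.trans (le_of_eq ?_)
        ring
      · rw [Dw_append_true]
        have e : ∀ w ∈ {w | aff p r c s w ∈ U}, dx (fun w => f (aff p r c s w)) w
            = r * c * dx f (aff p r c s w) + r * s * dy f (aff p r c s w) := by
          intro w hw
          rw [dx_aff (hf.diff hU hw)]; ring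
        rw [Dw_congr hVo e u' w hwV, Dw_lin2 hVo sx sy _ _ u' w hwV]
        have := key _ _ c s _ (hx u' hu' w hw) (hy u' hu' w hw) hc hs
        refine this.trans (le_of_eq ?_)
        ring

end aff

/-! ### cut-off and the rescaled function -/

open scoped Manifold in
theorem exists_cut {V : Set (ℝ × ℝ)} (hV : IsOpen V) (hK : cdisc 0 3 ⊆ V) :
    ∃ χ : ℝ × ℝ → ℝ, ContDiff ℝ ∞ χ ∧ tsupport χ ⊆ V ∧ ∀ w ∈ cdisc 0 3, χ w = 1 := by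
  obtain ⟨f, h0, h1, _⟩ := exists_contMDiffMap_zero_one_nhds_of_isClosed (n := (⊤ : ℕ∞))
    (𝓘(ℝ, ℝ × ℝ)) hV.isClosed_compl (DiscsAux.isClosed_cdisc 0 3)
    (by rw [disjoint_compl_left_iff_subset]; exact hK)
  refine ⟨f, f.contMDiff.contDiff, ?_, ?_⟩
  · intro x hx
    by_contra hxV
    have h2 : ∀ᶠ y in nhds x, f y = 0 :=
      (eventually_nhdsSet_iff_forall.mp h0) x hxV
    exact (notMem_tsupport_iff_eventuallyEq.mpr h2) hx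
  · intro w hw
    exact (eventually_nhdsSet_iff_forall.mp h1 w hw).self_of_nhds

/-- cut off and rescaled function -/
noncomputable def nm (χ : ℝ × ℝ → ℝ) (p : ℝ × ℝ) (r c s : ℝ) (f : ℝ × ℝ → ℝ) : ℝ × ℝ → ℝ :=
  fun w => χ w * ((1 / r) * (f (aff p r c s w) - f p))

theorem disc_sub : disc 3 ⊆ cdisc 0 3 := by
  intro w hw
  have : w.1 ^ 2 + w.2 ^ 2 < 3 ^ 2 := hw
  change (w.1 - 0) ^ 2 + (w.2 - 0) ^ 2 ≤ 3 ^ 2
  simp only [sub_zero]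
  exact this.le

theorem zero_mem_disc : (0 : ℝ × ℝ) ∈ disc 3 := by
  change (0 : ℝ) ^ 2 + (0 : ℝ) ^ 2 < 3 ^ 2
  norm_num

theorem aff_zero {p : ℝ × ℝ} {r c s : ℝ} : aff p r c s 0 = p := by
  simp [aff]

/-- everything about `nm` -/
theorem nm_facts {χ : ℝ × ℝ → ℝ} {p : ℝ × ℝ} {r c s : ℝ} (hU : IsOpen U) (hf : Sm U f)
    (hr : 0 < r) (hcs : c ^ 2 + s ^ 2 = 1) (hsub : cdisc p (3 * r) ⊆ U)
    (hχ : ContDiff ℝ ∞ χ) (hχs : tsupport χ ⊆ {w | aff p r c s w ∈ U})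
    (hχ1 : ∀ w ∈ cdisc 0 3, χ w = 1) :
    ContDiff ℝ ∞ (nm χ p r c s f) ∧ nm χ p r c s f 0 = 0 ∧
    (∀ w ∈ disc 3, dx (nm χ p r c s f) w
      = c * dx f (aff p r c s w) + s * dy f (aff p r c s w)) ∧
    (∀ w ∈ disc 3, dy (nm χ p r c s f) w
      = -s * dx f (aff p r c s w) + c * dy f (aff p r c s w)) ∧
    dx (dy (nm χ p r c s f)) 0 = r * (-(c * s) * dx (dx f) p + (c ^ 2 - s ^ 2) * dx (dy f) p
      + c * s * dy (dy f) p) ∧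
    dy (dy (nm χ p r c s f)) 0 = r * (s ^ 2 * dx (dx f) p - 2 * (c * s) * dx (dy f) p
      + c ^ 2 * dy (dy f) p) ∧
    ∀ (B : ℝ) (k : ℕ), 1 ≤ k → OrdBd (cdisc p (3 * r)) k B f →
      OrdBd (disc 3) k (2 ^ k * r ^ (k - 1) * B) (nm χ p r c s f) := by
  have hVo : IsOpen {w | aff p r c s w ∈ U} := isOpen_pre hU
  have hmap : ∀ w ∈ cdisc 0 3, aff p r c s w ∈ cdisc p (3 * r) := by
    intro w hw
    have hw' : (w.1 - 0) ^ 2 + (w.2 - 0) ^ 2 ≤ 3 ^ 2 := hw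
    change (p.1 + r * (c * w.1 - s * w.2) - p.1) ^ 2 + (p.2 + r * (s * w.1 + c * w.2) - p.2) ^ 2
      ≤ (3 * r) ^ 2
    have e : (p.1 + r * (c * w.1 - s * w.2) - p.1) ^ 2 + (p.2 + r * (s * w.1 + c * w.2) - p.2) ^ 2
        = r ^ 2 * ((c ^ 2 + s ^ 2) * (w.1 ^ 2 + w.2 ^ 2)) := by ring
    rw [e, hcs]
    simp only [sub_zero] at hw'
    nlinarith [sq_nonneg r]
  have hdV : disc 3 ⊆ {w | aff p r c s w ∈ U} := fun w hw => hsub (hmap w (disc_sub hw))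
  have hd3 : IsOpen (disc 3) := isOpen_disc 3
  have hcomp : Sm (disc 3) (fun w => f (aff p r c s w)) := sm_aff hf (fun w hw => hdV hw)
  have hrep : ∀ w ∈ disc 3, nm χ p r c s f w = 1 / r * f (aff p r c s w) + -(f p) / r * 1 := by
    intro w hw
    rw [nm, hχ1 w (disc_sub hw)]
    ring
  have hc1 : |c| ≤ 1 := by
    rw [abs_le]; constructor <;> nlinarith [sq_nonneg s]
  have hs1 : |s| ≤ 1 := by
    rw [abs_le]; constructor <;> nlinarith [sq_nonneg c]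
  have hDw : ∀ u : List Bool, 1 ≤ u.length → ∀ w ∈ disc 3,
      Dw u (nm χ p r c s f) w = 1 / r * Dw u (fun w => f (aff p r c s w)) w := by
    intro u hu w hw
    rw [Dw_congr hd3 hrep u w hw, Dw_lin2 hd3 hcomp (Sm.const 1) _ _ u w hw, Dw_const 1 hu]
    ring
  have hdx : ∀ w ∈ disc 3, dx (nm χ p r c s f) w
      = c * dx f (aff p r c s w) + s * dy f (aff p r c s w) := by
    intro w hw
    have h := hDw [true] (by simp) w hw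
    change dx (nm χ p r c s f) w = 1 / r * dx (fun w => f (aff p r c s w)) w at h
    rw [h, dx_aff (hf.diff hU (hdV hw))]
    field_simp
  have hdy : ∀ w ∈ disc 3, dy (nm χ p r c s f) w
      = -s * dx f (aff p r c s w) + c * dy f (aff p r c s w) := by
    intro w hw
    have h := hDw [false] (by simp) w hw
    change dy (nm χ p r c s f) w = 1 / r * dy (fun w => f (aff p r c s w)) w at h
    rw [h, dy_aff (hf.diff hU (hdV hw))]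
    field_simp
  have sx : Sm (disc 3) (fun w => dx f (aff p r c s w)) := sm_aff (hf.dx hU) (fun w hw => hdV hw)
  have sy : Sm (disc 3) (fun w => dy f (aff p r c s w)) := sm_aff (hf.dy hU) (fun w hw => hdV hw)
  have h0 := zero_mem_disc
  have hpU : p ∈ U := by have := hdV h0; rwa [mem_ofPred_eq, aff_zero] at this
  have dX := sx.diff hd3 h0
  have dY := sy.diff hd3 h0
  have dfx : DifferentiableAt ℝ (dx f) (aff p r c s 0) := by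
    rw [aff_zero]; exact (hf.dx hU).diff hU hpU
  have dfy : DifferentiableAt ℝ (dy f) (aff p r c s 0) := by
    rw [aff_zero]; exact (hf.dy hU).diff hU hpU
  have hsym := hf.dx_dy_comm hU hpU
  refine ⟨?_, ?_, hdx, hdy, ?_, ?_, ?_⟩
  · exact contDiff_mul_of_tsupport hVo hχ hχs
      ((contDiffOn_const).mul ((sm_aff hf (fun w hw => hw)).sub (Sm.const _)))
  · rw [nm, aff_zero]; simp
  · rw [dx_congr hd3 hdy h0, dx_add (dX.const_mul _) (dY.const_mul _), dx_const_mul _ dX,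
      dx_const_mul _ dY, dx_aff dfx, dx_aff dfy, aff_zero, ← hsym]
    ring
  · rw [dy_congr hd3 hdy h0, dy_add (dX.const_mul _) (dY.const_mul _), dy_const_mul _ dX,
      dy_const_mul _ dY, dy_aff dfx, dy_aff dfy, aff_zero, ← hsym]
    ring
  · intro B k hk hB u hu w hw
    rw [hDw u (by omega) w hw]
    have h := ord_aff hU hr.le hc1 hs1 hsub k f hf hB u hu w (hmap w (disc_sub hw))
    rw [abs_mul, abs_of_pos (by positivity : (0 : ℝ) < 1 / r)]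
    calc 1 / r * |Dw u (fun w => f (aff p r c s w)) w| ≤ 1 / r * ((2 * r) ^ k * B) :=
          mul_le_mul_of_nonneg_left h (by positivity)
      _ = 2 ^ k * r ^ (k - 1) * B := by
        obtain ⟨k', rfl⟩ : ∃ k', k = k' + 1 := ⟨k - 1, by omega⟩
        rw [Nat.add_sub_cancel, mul_pow]
        field_simp
        ring

/-! ### linear algebra -/

/-- Lagrange identity with cross product, bilinear form -/
theorem lagrange (a1 a2 a3 b1 b2 b3 x1 x2 x3 y1 y2 y3 : ℝ) (haa : a1 ^ 2 + a2 ^ 2 + a3 ^ 2 = 1)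
    (hbb : b1 ^ 2 + b2 ^ 2 + b3 ^ 2 = 1) (hab : a1 * b1 + a2 * b2 + a3 * b3 = 0) :
    (a1 * x1 + a2 * x2 + a3 * x3) * (a1 * y1 + a2 * y2 + a3 * y3)
      + (b1 * x1 + b2 * x2 + b3 * x3) * (b1 * y1 + b2 * y2 + b3 * y3)
      + ((a2 * b3 - a3 * b2) * x1 + (a3 * b1 - a1 * b3) * x2 + (a1 * b2 - a2 * b1) * x3)
        * ((a2 * b3 - a3 * b2) * y1 + (a3 * b1 - a1 * b3) * y2 + (a1 * b2 - a2 * b1) * y3)
      = x1 * y1 + x2 * y2 + x3 * y3 := by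
  have h : ((a2 * b3 - a3 * b2) * x1 + (a3 * b1 - a1 * b3) * x2 + (a1 * b2 - a2 * b1) * x3)
        * ((a2 * b3 - a3 * b2) * y1 + (a3 * b1 - a1 * b3) * y2 + (a1 * b2 - a2 * b1) * y3)
      = (a1 ^ 2 + a2 ^ 2 + a3 ^ 2) * ((b1 ^ 2 + b2 ^ 2 + b3 ^ 2) * (x1 * y1 + x2 * y2 + x3 * y3)
          - (b1 * x1 + b2 * x2 + b3 * x3) * (b1 * y1 + b2 * y2 + b3 * y3))
        - (a1 * b1 + a2 * b2 + a3 * b3) * ((a1 * b1 + a2 * b2 + a3 * b3) * (x1 * y1 + x2 * y2 + x3 * y3)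
          - (b1 * x1 + b2 * x2 + b3 * x3) * (a1 * y1 + a2 * y2 + a3 * y3))
        + (a1 * x1 + a2 * x2 + a3 * x3) * ((a1 * b1 + a2 * b2 + a3 * b3) *
          (b1 * y1 + b2 * y2 + b3 * y3)
          - (b1 ^ 2 + b2 ^ 2 + b3 ^ 2) * (a1 * y1 + a2 * y2 + a3 * y3)) := by ring
  rw [h, haa, hbb, hab]
  ring

/-- rotation diagonalising a quadratic form, with the bigger eigenvalue last -/
theorem exists_angle (l11 l12 l22 : ℝ) : ∃ c s : ℝ, c ^ 2 + s ^ 2 = 1 ∧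
    -(c * s) * l11 + (c ^ 2 - s ^ 2) * l12 + c * s * l22 = 0 ∧
    (l11 ^ 2 + 2 * l12 ^ 2 + l22 ^ 2) / 2 ≤ (s ^ 2 * l11 - 2 * (c * s) * l12 + c ^ 2 * l22) ^ 2 := by
  obtain ⟨α, hα⟩ : ∃ α, α = (l11 - l22) / 2 := ⟨_, rfl⟩
  obtain ⟨m, hm⟩ : ∃ m, m = (l11 + l22) / 2 := ⟨_, rfl⟩
  have e1 : l11 = m + α := by rw [hm, hα]; ring
  have e2 : l22 = m - α := by rw [hm, hα]; ring
  obtain ⟨ρ, hρ⟩ : ∃ ρ, ρ = √(α ^ 2 + l12 ^ 2) := ⟨_, rfl⟩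
  have hρ2 : ρ ^ 2 = α ^ 2 + l12 ^ 2 := by rw [hρ, Real.sq_sqrt (by positivity)]
  have hρ0 : 0 ≤ ρ := by rw [hρ]; positivity
  rcases hρ0.eq_or_lt with h0 | h0
  · -- zero case
    have h1 : α = 0 := by nlinarith [sq_nonneg α, sq_nonneg l12]
    have h2 : l12 = 0 := by nlinarith [sq_nonneg α, sq_nonneg l12]
    refine ⟨1, 0, by norm_num, by rw [h2]; ring, ?_⟩
    rw [e1, e2, h1, h2]
    nlinarith
  · obtain ⟨σ, hσ2, hσm⟩ : ∃ σ : ℝ, σ ^ 2 = 1 ∧ 0 ≤ -σ * m := by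
      rcases le_total 0 m with h | h
      · exact ⟨-1, by norm_num, by linarith⟩
      · exact ⟨1, by norm_num, by linarith⟩
    obtain ⟨C, hC⟩ : ∃ C, C = σ * α / ρ := ⟨_, rfl⟩
    obtain ⟨S, hS⟩ : ∃ S, S = σ * l12 / ρ := ⟨_, rfl⟩
    have hCS : C ^ 2 + S ^ 2 = 1 := by
      rw [hC, hS, div_pow, div_pow, ← add_div, div_eq_one_iff_eq (by positivity)]
      linear_combination (α ^ 2 + l12 ^ 2) * hσ2 - hρ2
    -- half angle
    have hz : ‖(⟨C, S⟩ : ℂ)‖ = 1 := by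
      rw [Complex.norm_def, Complex.normSq_mk, ← sq, ← sq, hCS, Real.sqrt_one]
    have hz0 : (⟨C, S⟩ : ℂ) ≠ 0 := by
      intro h
      rw [h, norm_zero] at hz
      exact zero_ne_one hz
    obtain ⟨φ, hφ⟩ : ∃ φ, φ = Complex.arg (⟨C, S⟩ : ℂ) := ⟨_, rfl⟩
    have hcos : Real.cos φ = C := by rw [hφ, Complex.cos_arg hz0, hz]; simp
    have hsin : Real.sin φ = S := by rw [hφ, Complex.sin_arg, hz]; simp
    have hφ2 : φ = 2 * (φ / 2) := by ring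
    rw [hφ2, Real.cos_two_mul] at hcos
    rw [hφ2, Real.sin_two_mul] at hsin
    have hsc := Real.sin_sq_add_cos_sq (φ / 2)
    set c := Real.cos (φ / 2)
    set s := Real.sin (φ / 2)
    have hcs : c ^ 2 - s ^ 2 = C := by linarith
    refine ⟨c, s, by linarith, ?_, ?_⟩
    · have : -(c * s) * l11 + (c ^ 2 - s ^ 2) * l12 + c * s * l22
          = C * l12 - S * α := by
        rw [e1, e2, hcs]
        linear_combination (-α) * hsin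
      rw [this, hC, hS]
      ring
    · have h1 : s ^ 2 * l11 - 2 * (c * s) * l12 + c ^ 2 * l22 = m - σ * ρ := by
        have : s ^ 2 * l11 - 2 * (c * s) * l12 + c ^ 2 * l22 = m - (C * α + S * l12) := by
          rw [e1, e2]
          linear_combination (m) * hsc - α * hcs - l12 * hsin
        rw [this, hC, hS]
        have : σ * α / ρ * α + σ * l12 / ρ * l12 = σ * ρ := by
          field_simp
          linear_combination (-σ) * hρ2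
        rw [this]
      rw [h1, e1, e2]
      have h2 : (m - σ * ρ) ^ 2 = m ^ 2 + ρ ^ 2 + 2 * ρ * (-σ * m) := by
        linear_combination ρ ^ 2 * hσ2
      rw [h2]
      have h3 : 0 ≤ 2 * ρ * (-σ * m) := by positivity
      nlinarith

/-! ### differentiating the relations -/

theorem dx_sumsq {g1 g2 g3 : ℝ × ℝ → ℝ} {z : ℝ × ℝ} (h1 : DifferentiableAt ℝ g1 z)
    (h2 : DifferentiableAt ℝ g2 z) (h3 : DifferentiableAt ℝ g3 z) :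
    dx (fun w => g1 w ^ 2 + g2 w ^ 2 + g3 w ^ 2) z
      = 2 * (g1 z * dx g1 z + g2 z * dx g2 z + g3 z * dx g3 z) := by
  have d1 : DifferentiableAt ℝ (fun w => g1 w ^ 2) z := h1.pow 2
  have d2 : DifferentiableAt ℝ (fun w => g2 w ^ 2) z := h2.pow 2
  have d3 : DifferentiableAt ℝ (fun w => g3 w ^ 2) z := h3.pow 2
  have d12 : DifferentiableAt ℝ (fun w => g1 w ^ 2 + g2 w ^ 2) z := d1.add d2
  rw [dx_add d12 d3, dx_add d1 d2, dx_pow 2 h1, dx_pow 2 h2, dx_pow 2 h3]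
  push_cast
  ring

theorem dy_sumsq {g1 g2 g3 : ℝ × ℝ → ℝ} {z : ℝ × ℝ} (h1 : DifferentiableAt ℝ g1 z)
    (h2 : DifferentiableAt ℝ g2 z) (h3 : DifferentiableAt ℝ g3 z) :
    dy (fun w => g1 w ^ 2 + g2 w ^ 2 + g3 w ^ 2) z
      = 2 * (g1 z * dy g1 z + g2 z * dy g2 z + g3 z * dy g3 z) := by
  have d1 : DifferentiableAt ℝ (fun w => g1 w ^ 2) z := h1.pow 2
  have d2 : DifferentiableAt ℝ (fun w => g2 w ^ 2) z := h2.pow 2
  have d3 : DifferentiableAt ℝ (fun w => g3 w ^ 2) z := h3.pow 2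
  have d12 : DifferentiableAt ℝ (fun w => g1 w ^ 2 + g2 w ^ 2) z := d1.add d2
  rw [dy_add d12 d3, dy_add d1 d2, dy_pow 2 h1, dy_pow 2 h2, dy_pow 2 h3]
  push_cast
  ring

theorem dx_dot {g1 g2 g3 k1 k2 k3 : ℝ × ℝ → ℝ} {z : ℝ × ℝ} (h1 : DifferentiableAt ℝ g1 z)
    (h2 : DifferentiableAt ℝ g2 z) (h3 : DifferentiableAt ℝ g3 z) (e1 : DifferentiableAt ℝ k1 z)
    (e2 : DifferentiableAt ℝ k2 z) (e3 : DifferentiableAt ℝ k3 z) :
    dx (fun w => g1 w * k1 w + g2 w * k2 w + g3 w * k3 w) z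
      = (dx g1 z * k1 z + dx g2 z * k2 z + dx g3 z * k3 z)
        + (g1 z * dx k1 z + g2 z * dx k2 z + g3 z * dx k3 z) := by
  have d1 : DifferentiableAt ℝ (fun w => g1 w * k1 w) z := h1.mul e1
  have d2 : DifferentiableAt ℝ (fun w => g2 w * k2 w) z := h2.mul e2
  have d3 : DifferentiableAt ℝ (fun w => g3 w * k3 w) z := h3.mul e3
  have d12 : DifferentiableAt ℝ (fun w => g1 w * k1 w + g2 w * k2 w) z := d1.add d2
  rw [dx_add d12 d3, dx_add d1 d2, dx_mul h1 e1, dx_mul h2 e2, dx_mul h3 e3]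
  ring

theorem dy_dot {g1 g2 g3 k1 k2 k3 : ℝ × ℝ → ℝ} {z : ℝ × ℝ} (h1 : DifferentiableAt ℝ g1 z)
    (h2 : DifferentiableAt ℝ g2 z) (h3 : DifferentiableAt ℝ g3 z) (e1 : DifferentiableAt ℝ k1 z)
    (e2 : DifferentiableAt ℝ k2 z) (e3 : DifferentiableAt ℝ k3 z) :
    dy (fun w => g1 w * k1 w + g2 w * k2 w + g3 w * k3 w) z
      = (dy g1 z * k1 z + dy g2 z * k2 z + dy g3 z * k3 z)
        + (g1 z * dy k1 z + g2 z * dy k2 z + g3 z * dy k3 z) := by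
  have d1 : DifferentiableAt ℝ (fun w => g1 w * k1 w) z := h1.mul e1
  have d2 : DifferentiableAt ℝ (fun w => g2 w * k2 w) z := h2.mul e2
  have d3 : DifferentiableAt ℝ (fun w => g3 w * k3 w) z := h3.mul e3
  have d12 : DifferentiableAt ℝ (fun w => g1 w * k1 w + g2 w * k2 w) z := d1.add d2
  rw [dy_add d12 d3, dy_add d1 d2, dy_mul h1 e1, dy_mul h2 e2, dy_mul h3 e3]
  ring

/-- a radial function has zero gradient at the origin -/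
theorem radial_grad {ψ : ℝ × ℝ → ℝ} (hψ : ContDiff ℝ ∞ ψ) (hrad : Radial ψ) :
    dx ψ 0 = 0 ∧ dy ψ 0 = 0 := by
  have hd : DifferentiableAt ℝ ψ 0 := (hψ.differentiable (by simp)).differentiableAt
  have hd' : DifferentiableAt ℝ ψ (aff 0 (-1) 1 0 0) := by rw [aff_zero]; exact hd
  have e : (fun w => ψ (aff 0 (-1) 1 0 w)) = ψ := by
    funext w
    apply hrad
    simp [aff]
  have h1 := dx_aff (p := 0) (r := -1) (c := 1) (s := 0) (w := 0) hd'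
  have h2 := dy_aff (p := 0) (r := -1) (c := 1) (s := 0) (w := 0) hd'
  rw [e, aff_zero] at h1 h2
  constructor <;> linarith

/-- the normal structure of the second derivatives at `p` -/
theorem second_normal {Ψ ψ F1 F2 F3 : ℝ × ℝ → ℝ} {p : ℝ × ℝ} {r : ℝ} (hU : IsOpen U)
    (hΨ : ContDiff ℝ ∞ Ψ) (hψ : ContDiff ℝ ∞ ψ) (hrad : Radial ψ) (s1 : Sm U F1) (s2 : Sm U F2)
    (s3 : Sm U F3) (hI : Imm3 U Ψ F1 F2 F3) (hr : 0 < r) (hp : p ∈ U)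
    (hloc : ∀ w : ℝ × ℝ, w.1 ^ 2 + w.2 ^ 2 ≤ 9 → Ψ (p.1 + r * w.1, p.2 + r * w.2) = ψ w) :
    (dx F1 p * dx (dx F1) p + dx F2 p * dx (dx F2) p + dx F3 p * dx (dx F3) p = 0 ∧
      dy F1 p * dx (dx F1) p + dy F2 p * dx (dx F2) p + dy F3 p * dx (dx F3) p = 0) ∧
    (dx F1 p * dx (dy F1) p + dx F2 p * dx (dy F2) p + dx F3 p * dx (dy F3) p = 0 ∧
      dy F1 p * dx (dy F1) p + dy F2 p * dx (dy F2) p + dy F3 p * dx (dy F3) p = 0) ∧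
    (dx F1 p * dy (dy F1) p + dx F2 p * dy (dy F2) p + dx F3 p * dy (dy F3) p = 0 ∧
      dy F1 p * dy (dy F1) p + dy F2 p * dy (dy F2) p + dy F3 p * dy (dy F3) p = 0) := by
  have hdΨ : DifferentiableAt ℝ Ψ p := (hΨ.differentiable (by simp)).differentiableAt
  have hdΨ' : DifferentiableAt ℝ Ψ (aff p r 1 0 0) := by rw [aff_zero]; exact hdΨ
  have hcg : ∀ w ∈ disc 3, (fun w => Ψ (aff p r 1 0 w)) w = ψ w := by
    intro w hw
    have hw' : w.1 ^ 2 + w.2 ^ 2 < 3 ^ 2 := hw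
    have := hloc w (by linarith)
    simp only [aff, one_mul, zero_mul, sub_zero, zero_add]
    exact this
  obtain ⟨g1, g2⟩ := radial_grad hψ hrad
  have hΨx : dx Ψ p = 0 := by
    have h1 := dx_aff (w := 0) hdΨ'
    rw [dx_congr (isOpen_disc 3) hcg zero_mem_disc, g1, aff_zero] at h1
    have : r * dx Ψ p = 0 := by linarith
    exact (mul_eq_zero.mp this).resolve_left hr.ne'
  have hΨy : dy Ψ p = 0 := by
    have h1 := dy_aff (w := 0) hdΨ'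
    rw [dy_congr (isOpen_disc 3) hcg zero_mem_disc, g2, aff_zero] at h1
    have : r * dy Ψ p = 0 := by linarith
    exact (mul_eq_zero.mp this).resolve_left hr.ne'
  have hexp : ∀ t : ℝ, HasDerivAt (fun t => Real.exp (2 * t)) (2 * Real.exp (2 * t)) t := by
    intro t
    have := ((hasDerivAt_id t).const_mul 2).exp
    exact this.congr_deriv (by simp; ring)
  have hex : dx (fun z => Real.exp (2 * Ψ z)) p = 0 := by
    rw [dx_comp (φ := fun t => Real.exp (2 * t)) (hexp _) hdΨ, hΨx, mul_zero]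
  have hey : dy (fun z => Real.exp (2 * Ψ z)) p = 0 := by
    rw [dy_comp (φ := fun t => Real.exp (2 * t)) (hexp _) hdΨ, hΨy, mul_zero]
  have x1 := (s1.dx hU).diff hU hp
  have x2 := (s2.dx hU).diff hU hp
  have x3 := (s3.dx hU).diff hU hp
  have y1 := (s1.dy hU).diff hU hp
  have y2 := (s2.dy hU).diff hU hp
  have y3 := (s3.dy hU).diff hU hp
  have c1 := s1.dx_dy_comm hU hp
  have c2 := s2.dx_dy_comm hU hp
  have c3 := s3.dx_dy_comm hU hp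
  have q1 := dx_congr hU (fun z hz => (hI z hz).1) hp
  have q2 := dy_congr hU (fun z hz => (hI z hz).1) hp
  have q3 := dx_congr hU (fun z hz => (hI z hz).2.1) hp
  have q4 := dy_congr hU (fun z hz => (hI z hz).2.1) hp
  have q5 := dx_congr (g := fun _ => 0) hU (fun z hz => (hI z hz).2.2) hp
  have q6 := dy_congr (g := fun _ => 0) hU (fun z hz => (hI z hz).2.2) hp
  rw [dx_sumsq x1 x2 x3, hex] at q1
  rw [dy_sumsq x1 x2 x3, hey, ← c1, ← c2, ← c3] at q2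
  rw [dx_sumsq y1 y2 y3, hex] at q3
  rw [dy_sumsq y1 y2 y3, hey] at q4
  rw [dx_dot x1 x2 x3 y1 y2 y3, dx_const] at q5
  rw [dy_dot x1 x2 x3 y1 y2 y3, dy_const, ← c1, ← c2, ← c3] at q6
  refine ⟨⟨by linarith, by linarith⟩, ⟨by linarith, by linarith⟩, ⟨by linarith, by linarith⟩⟩

theorem OrdBd_mono {K : Set (ℝ × ℝ)} {k : ℕ} {B B' : ℝ} (h : OrdBd K k B f) (hB : B ≤ B') :
    OrdBd K k B' f := fun u hu z hz => (h u hu z hz).trans hB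

theorem abs_le_one_of {a b c : ℝ} (h : a ^ 2 + b ^ 2 + c ^ 2 = 1) : |a| ≤ 1 ∧ |b| ≤ 1 ∧ |c| ≤ 1 := by
  refine ⟨?_, ?_, ?_⟩ <;> rw [abs_le] <;> constructor <;>
    nlinarith [sq_nonneg a, sq_nonneg b, sq_nonneg c]

theorem ord_cmb (hU : IsOpen U) {F1 F2 F3 : ℝ × ℝ → ℝ} (h1 : Sm U F1) (h2 : Sm U F2) (h3 : Sm U F3)
    {a1 a2 a3 : ℝ} (ha : a1 ^ 2 + a2 ^ 2 + a3 ^ 2 = 1) {K : Set (ℝ × ℝ)} (hK : K ⊆ U) {k : ℕ} {B : ℝ}
    (o1 : OrdBd K k B F1) (o2 : OrdBd K k B F2) (o3 : OrdBd K k B F3) :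
    OrdBd K k (3 * B) (cmb a1 a2 a3 F1 F2 F3) := by
  intro u hu z hz
  obtain ⟨b1, b2, b3⟩ := abs_le_one_of ha
  rw [Dw_cmb hU h1 h2 h3 a1 a2 a3 u z (hK hz)]
  have key : ∀ a X : ℝ, |a| ≤ 1 → |X| ≤ B → |a * X| ≤ B := by
    intro a X ha hX
    rw [abs_mul]
    calc |a| * |X| ≤ 1 * B := mul_le_mul ha hX (abs_nonneg _) zero_le_one
      _ = B := one_mul _
  have e1 := key _ _ b1 (o1 u hu z hz)
  have e2 := key _ _ b2 (o2 u hu z hz)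
  have e3 := key _ _ b3 (o3 u hu z hz)
  have := abs_add_three (a1 * Dw u F1 z) (a2 * Dw u F2 z) (a3 * Dw u F3 z)
  linarith

theorem ob_nm {χ : ℝ × ℝ → ℝ} {p : ℝ × ℝ} {r c s M0 : ℝ} (hU : IsOpen U) (hM0 : 1 ≤ M0)
    {F1 F2 F3 : ℝ × ℝ → ℝ} (h1 : Sm U F1) (h2 : Sm U F2) (h3 : Sm U F3)
    {a1 a2 a3 : ℝ} (ha : a1 ^ 2 + a2 ^ 2 + a3 ^ 2 = 1)
    (hr : 0 < r) (hcs : c ^ 2 + s ^ 2 = 1) (hsub : cdisc p (3 * r) ⊆ U)
    (hχ : ContDiff ℝ ∞ χ) (hχs : tsupport χ ⊆ {w | aff p r c s w ∈ U})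
    (hχ1 : ∀ w ∈ cdisc 0 3, χ w = 1)
    (hOB : ∀ k : ℕ, 2 ≤ k → k ≤ 4 → OrdBd (cdisc p (3 * r)) k M0 F1 ∧
      OrdBd (cdisc p (3 * r)) k M0 F2 ∧ OrdBd (cdisc p (3 * r)) k M0 F3) :
    OB (100 * M0) r (nm χ p r c s (cmb a1 a2 a3 F1 F2 F3)) := by
  have hN := (nm_facts hU (sm_cmb h1 h2 h3 a1 a2 a3) hr hcs hsub hχ hχs hχ1).2.2.2.2.2.2
  have hk : ∀ k : ℕ, 2 ≤ k → k ≤ 4 → OrdBd (disc 3) k (2 ^ k * r ^ (k - 1) * (3 * M0))
      (nm χ p r c s (cmb a1 a2 a3 F1 F2 F3)) := by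
    intro k hk2 hk4
    obtain ⟨o1, o2, o3⟩ := hOB k hk2 hk4
    exact hN _ k (by omega) (ord_cmb hU h1 h2 h3 ha hsub o1 o2 o3)
  have hrM : 0 ≤ r * M0 := by positivity
  have hrM2 : 0 ≤ r ^ 2 * M0 := by positivity
  have hrM3 : 0 ≤ r ^ 3 * M0 := by positivity
  refine ⟨OrdBd_mono (hk 2 le_rfl (by norm_num)) ?_, OrdBd_mono (hk 3 (by norm_num) (by norm_num)) ?_,
    OrdBd_mono (hk 4 (by norm_num) le_rfl) ?_⟩ <;> norm_num <;> nlinarith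

theorem aux_bound {M0 m σ L : ℝ} (hM0 : 1 ≤ M0) (hσ2 : σ ^ 2 = 1) (hσm : 0 ≤ σ * m)
    (h1 : (1 / M0) ^ 2 ≤ L) (h2 : L / 2 ≤ m ^ 2) : 1 / (100 * M0) ≤ σ * m := by
  have hM0p : 0 < 1 / M0 := by positivity
  have e1 : 1 / (100 * M0) = 1 / 100 * (1 / M0) := by field_simp
  rw [e1]
  generalize 1 / M0 = q at *
  have h3 : (σ * m) ^ 2 = m ^ 2 := by rw [mul_pow, hσ2, one_mul]
  have h4 : q ^ 2 / 2 ≤ (σ * m) ^ 2 := by rw [h3]; linarith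
  by_contra hcon
  push Not at hcon
  nlinarith

theorem sq_le_of_abs {q X a b : ℝ} (hq : 0 < q) (h : q ≤ |X|) :
    q ^ 2 ≤ X ^ 2 + a ^ 2 + b ^ 2 ∧ q ^ 2 ≤ a ^ 2 + X ^ 2 + b ^ 2 ∧ q ^ 2 ≤ a ^ 2 + b ^ 2 + X ^ 2 := by
  have h1 : q ^ 2 ≤ X ^ 2 := by
    rw [← sq_abs X]
    exact pow_le_pow_left₀ hq.le h 2
  have h2 := sq_nonneg a
  have h3 := sq_nonneg b
  refine ⟨by linarith, by linarith, by linarith⟩

theorem big_of {M0 : ℝ} (hM0 : 1 ≤ M0) {F1 F2 F3 : ℝ × ℝ → ℝ} {p : ℝ × ℝ}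
    (hbig : ∃ F ∈ ({F1, F2, F3} : Set (ℝ × ℝ → ℝ)), 1 / M0 ≤ |dx (dx F) p| ∨
      1 / M0 ≤ |dx (dy F) p| ∨ 1 / M0 ≤ |dy (dy F) p|) :
    (1 / M0) ^ 2 ≤ dx (dx F1) p ^ 2 + dx (dx F2) p ^ 2 + dx (dx F3) p ^ 2 ∨
      (1 / M0) ^ 2 ≤ dx (dy F1) p ^ 2 + dx (dy F2) p ^ 2 + dx (dy F3) p ^ 2 ∨
      (1 / M0) ^ 2 ≤ dy (dy F1) p ^ 2 + dy (dy F2) p ^ 2 + dy (dy F3) p ^ 2 := by
  have hM0p : 0 < 1 / M0 := by positivity
  obtain ⟨F, hF, h⟩ := hbig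
  simp only [mem_insert_iff, mem_singleton_iff] at hF
  rcases hF with rfl | rfl | rfl <;> rcases h with h | h | h
  · exact Or.inl (sq_le_of_abs hM0p h).1
  · exact Or.inr (Or.inl (sq_le_of_abs hM0p h).1)
  · exact Or.inr (Or.inr (sq_le_of_abs hM0p h).1)
  · exact Or.inl (sq_le_of_abs hM0p h).2.1
  · exact Or.inr (Or.inl (sq_le_of_abs hM0p h).2.1)
  · exact Or.inr (Or.inr (sq_le_of_abs hM0p h).2.1)
  · exact Or.inl (sq_le_of_abs hM0p h).2.2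
  · exact Or.inr (Or.inl (sq_le_of_abs hM0p h).2.2)
  · exact Or.inr (Or.inr (sq_le_of_abs hM0p h).2.2)

theorem aff_maps {p : ℝ × ℝ} {r c s : ℝ} (hcs : c ^ 2 + s ^ 2 = 1) (hsub : cdisc p (3 * r) ⊆ U) :
    cdisc 0 3 ⊆ {w | aff p r c s w ∈ U} := by
  intro w hw
  apply hsub
  have hw' : (w.1 - 0) ^ 2 + (w.2 - 0) ^ 2 ≤ 3 ^ 2 := hw
  change (p.1 + r * (c * w.1 - s * w.2) - p.1) ^ 2 + (p.2 + r * (s * w.1 + c * w.2) - p.2) ^ 2
    ≤ (3 * r) ^ 2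
  have e : (p.1 + r * (c * w.1 - s * w.2) - p.1) ^ 2 + (p.2 + r * (s * w.1 + c * w.2) - p.2) ^ 2
      = r ^ 2 * ((c ^ 2 + s ^ 2) * (w.1 ^ 2 + w.2 ^ 2)) := by ring
  rw [e, hcs]
  simp only [sub_zero] at hw'
  nlinarith [sq_nonneg r]

/-- metric part -/
theorem imm_alg {c s t1 t2 t3 u1 u2 u3 v1 v2 v3 X1 X2 X3 Y1 Y2 Y3 E : ℝ} (hcs : c ^ 2 + s ^ 2 = 1)
    (hpars : ∀ g1 g2 g3 k1 k2 k3 : ℝ, (t1 * g1 + t2 * g2 + t3 * g3) * (t1 * k1 + t2 * k2 + t3 * k3)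
        + (u1 * g1 + u2 * g2 + u3 * g3) * (u1 * k1 + u2 * k2 + u3 * k3)
        + (v1 * g1 + v2 * g2 + v3 * g3) * (v1 * k1 + v2 * k2 + v3 * k3)
          = g1 * k1 + g2 * k2 + g3 * k3)
    (i1 : X1 ^ 2 + X2 ^ 2 + X3 ^ 2 = E) (i2 : Y1 ^ 2 + Y2 ^ 2 + Y3 ^ 2 = E)
    (i3 : X1 * Y1 + X2 * Y2 + X3 * Y3 = 0) :
    (c * (t1 * X1 + t2 * X2 + t3 * X3) + s * (t1 * Y1 + t2 * Y2 + t3 * Y3)) ^ 2
      + (c * (u1 * X1 + u2 * X2 + u3 * X3) + s * (u1 * Y1 + u2 * Y2 + u3 * Y3)) ^ 2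
      + (c * (v1 * X1 + v2 * X2 + v3 * X3) + s * (v1 * Y1 + v2 * Y2 + v3 * Y3)) ^ 2 = E ∧
    (-s * (t1 * X1 + t2 * X2 + t3 * X3) + c * (t1 * Y1 + t2 * Y2 + t3 * Y3)) ^ 2
      + (-s * (u1 * X1 + u2 * X2 + u3 * X3) + c * (u1 * Y1 + u2 * Y2 + u3 * Y3)) ^ 2
      + (-s * (v1 * X1 + v2 * X2 + v3 * X3) + c * (v1 * Y1 + v2 * Y2 + v3 * Y3)) ^ 2 = E ∧
    (c * (t1 * X1 + t2 * X2 + t3 * X3) + s * (t1 * Y1 + t2 * Y2 + t3 * Y3))
        * (-s * (t1 * X1 + t2 * X2 + t3 * X3) + c * (t1 * Y1 + t2 * Y2 + t3 * Y3))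
      + (c * (u1 * X1 + u2 * X2 + u3 * X3) + s * (u1 * Y1 + u2 * Y2 + u3 * Y3))
        * (-s * (u1 * X1 + u2 * X2 + u3 * X3) + c * (u1 * Y1 + u2 * Y2 + u3 * Y3))
      + (c * (v1 * X1 + v2 * X2 + v3 * X3) + s * (v1 * Y1 + v2 * Y2 + v3 * Y3))
        * (-s * (v1 * X1 + v2 * X2 + v3 * X3) + c * (v1 * Y1 + v2 * Y2 + v3 * Y3)) = 0 := by
  refine ⟨?_, ?_, ?_⟩
  · have h := hpars (c * X1 + s * Y1) (c * X2 + s * Y2) (c * X3 + s * Y3)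
      (c * X1 + s * Y1) (c * X2 + s * Y2) (c * X3 + s * Y3)
    linear_combination h + c ^ 2 * i1 + s ^ 2 * i2 + 2 * c * s * i3 + E * hcs
  · have h := hpars (-s * X1 + c * Y1) (-s * X2 + c * Y2) (-s * X3 + c * Y3)
      (-s * X1 + c * Y1) (-s * X2 + c * Y2) (-s * X3 + c * Y3)
    linear_combination h + s ^ 2 * i1 + c ^ 2 * i2 - 2 * c * s * i3 + E * hcs
  · have h := hpars (c * X1 + s * Y1) (c * X2 + s * Y2) (c * X3 + s * Y3)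
      (-s * X1 + c * Y1) (-s * X2 + c * Y2) (-s * X3 + c * Y3)
    linear_combination h - c * s * i1 + c * s * i2 + (c ^ 2 - s ^ 2) * i3

/-- all the linear algebra at the point `p` -/
theorem lin_alg {e0 M0 a1 a2 a3 b1 b2 b3 x1 x2 x3 y1 y2 y3 z1 z2 z3 : ℝ} (he0 : 0 < e0)
    (hM0 : 1 ≤ M0)
    (iaa : a1 ^ 2 + a2 ^ 2 + a3 ^ 2 = e0 ^ 2) (ibb : b1 ^ 2 + b2 ^ 2 + b3 ^ 2 = e0 ^ 2)
    (iab : a1 * b1 + a2 * b2 + a3 * b3 = 0)
    (nx1 : a1 * x1 + a2 * x2 + a3 * x3 = 0) (nx2 : b1 * x1 + b2 * x2 + b3 * x3 = 0)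
    (ny1 : a1 * y1 + a2 * y2 + a3 * y3 = 0) (ny2 : b1 * y1 + b2 * y2 + b3 * y3 = 0)
    (nz1 : a1 * z1 + a2 * z2 + a3 * z3 = 0) (nz2 : b1 * z1 + b2 * z2 + b3 * z3 = 0)
    (hbig : (1 / M0) ^ 2 ≤ x1 ^ 2 + x2 ^ 2 + x3 ^ 2 ∨ (1 / M0) ^ 2 ≤ y1 ^ 2 + y2 ^ 2 + y3 ^ 2 ∨
      (1 / M0) ^ 2 ≤ z1 ^ 2 + z2 ^ 2 + z3 ^ 2) :
    ∃ c s t1 t2 t3 u1 u2 u3 v1 v2 v3 : ℝ, c ^ 2 + s ^ 2 = 1 ∧
      (t1 ^ 2 + t2 ^ 2 + t3 ^ 2 = 1 ∧ u1 ^ 2 + u2 ^ 2 + u3 ^ 2 = 1 ∧ v1 ^ 2 + v2 ^ 2 + v3 ^ 2 = 1) ∧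
      (∀ g1 g2 g3 k1 k2 k3 : ℝ, (t1 * g1 + t2 * g2 + t3 * g3) * (t1 * k1 + t2 * k2 + t3 * k3)
        + (u1 * g1 + u2 * g2 + u3 * g3) * (u1 * k1 + u2 * k2 + u3 * k3)
        + (v1 * g1 + v2 * g2 + v3 * g3) * (v1 * k1 + v2 * k2 + v3 * k3)
          = g1 * k1 + g2 * k2 + g3 * k3) ∧
      (c * (t1 * a1 + t2 * a2 + t3 * a3) + s * (t1 * b1 + t2 * b2 + t3 * b3) = e0 ∧
        -s * (t1 * a1 + t2 * a2 + t3 * a3) + c * (t1 * b1 + t2 * b2 + t3 * b3) = 0) ∧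
      (c * (u1 * a1 + u2 * a2 + u3 * a3) + s * (u1 * b1 + u2 * b2 + u3 * b3) = 0 ∧
        -s * (u1 * a1 + u2 * a2 + u3 * a3) + c * (u1 * b1 + u2 * b2 + u3 * b3) = e0) ∧
      (c * (v1 * a1 + v2 * a2 + v3 * a3) + s * (v1 * b1 + v2 * b2 + v3 * b3) = 0 ∧
        -s * (v1 * a1 + v2 * a2 + v3 * a3) + c * (v1 * b1 + v2 * b2 + v3 * b3) = 0) ∧
      -(c * s) * (v1 * x1 + v2 * x2 + v3 * x3) + (c ^ 2 - s ^ 2) * (v1 * y1 + v2 * y2 + v3 * y3)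
        + c * s * (v1 * z1 + v2 * z2 + v3 * z3) = 0 ∧
      1 / (100 * M0) ≤ s ^ 2 * (v1 * x1 + v2 * x2 + v3 * x3)
        - 2 * (c * s) * (v1 * y1 + v2 * y2 + v3 * y3) + c ^ 2 * (v1 * z1 + v2 * z2 + v3 * z3) := by
  -- unit vectors `a/e0`, `b/e0`
  obtain ⟨A1, hA1⟩ : ∃ A, A = a1 / e0 := ⟨_, rfl⟩
  obtain ⟨A2, hA2⟩ : ∃ A, A = a2 / e0 := ⟨_, rfl⟩
  obtain ⟨A3, hA3⟩ : ∃ A, A = a3 / e0 := ⟨_, rfl⟩
  obtain ⟨B1, hB1⟩ : ∃ A, A = b1 / e0 := ⟨_, rfl⟩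
  obtain ⟨B2, hB2⟩ : ∃ A, A = b2 / e0 := ⟨_, rfl⟩
  obtain ⟨B3, hB3⟩ : ∃ A, A = b3 / e0 := ⟨_, rfl⟩
  have ea1 : a1 = e0 * A1 := by rw [hA1]; field_simp
  have ea2 : a2 = e0 * A2 := by rw [hA2]; field_simp
  have ea3 : a3 = e0 * A3 := by rw [hA3]; field_simp
  have eb1 : b1 = e0 * B1 := by rw [hB1]; field_simp
  have eb2 : b2 = e0 * B2 := by rw [hB2]; field_simp
  have eb3 : b3 = e0 * B3 := by rw [hB3]; field_simp
  clear hA1 hA2 hA3 hB1 hB2 hB3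
  subst ea1 ea2 ea3 eb1 eb2 eb3
  have cancel : ∀ X : ℝ, e0 * X = 0 → X = 0 := fun X h => (mul_eq_zero.mp h).resolve_left he0.ne'
  have cancel2 : ∀ X : ℝ, e0 ^ 2 * X = e0 ^ 2 → X = 1 := fun X h => by
    have h2 : 0 < e0 ^ 2 := by positivity
    have : e0 ^ 2 * (X - 1) = 0 := by linarith
    have := (mul_eq_zero.mp this).resolve_left h2.ne'
    linarith
  have AA : A1 ^ 2 + A2 ^ 2 + A3 ^ 2 = 1 := cancel2 _ (by linarith)
  have BB : B1 ^ 2 + B2 ^ 2 + B3 ^ 2 = 1 := cancel2 _ (by linarith)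
  have AB : A1 * B1 + A2 * B2 + A3 * B3 = 0 := cancel _ (cancel _ (by linarith))
  have nx1' : A1 * x1 + A2 * x2 + A3 * x3 = 0 := cancel _ (by linarith)
  have nx2' : B1 * x1 + B2 * x2 + B3 * x3 = 0 := cancel _ (by linarith)
  have ny1' : A1 * y1 + A2 * y2 + A3 * y3 = 0 := cancel _ (by linarith)
  have ny2' : B1 * y1 + B2 * y2 + B3 * y3 = 0 := cancel _ (by linarith)
  have nz1' : A1 * z1 + A2 * z2 + A3 * z3 = 0 := cancel _ (by linarith)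
  have nz2' : B1 * z1 + B2 * z2 + B3 * z3 = 0 := cancel _ (by linarith)
  clear iaa ibb iab nx1 nx2 ny1 ny2 nz1 nz2 cancel cancel2
  have hL := lagrange A1 A2 A3 B1 B2 B3
  obtain ⟨n1, hn1⟩ : ∃ n, n = A2 * B3 - A3 * B2 := ⟨_, rfl⟩
  obtain ⟨n2, hn2⟩ : ∃ n, n = A3 * B1 - A1 * B3 := ⟨_, rfl⟩
  obtain ⟨n3, hn3⟩ : ∃ n, n = A1 * B2 - A2 * B1 := ⟨_, rfl⟩
  rw [← hn1, ← hn2, ← hn3] at hL
  have nA : n1 * A1 + n2 * A2 + n3 * A3 = 0 := by rw [hn1, hn2, hn3]; ring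
  have nB : n1 * B1 + n2 * B2 + n3 * B3 = 0 := by rw [hn1, hn2, hn3]; ring
  have nn : n1 ^ 2 + n2 ^ 2 + n3 ^ 2 = 1 := by
    have : n1 ^ 2 + n2 ^ 2 + n3 ^ 2 = (A1 ^ 2 + A2 ^ 2 + A3 ^ 2) * (B1 ^ 2 + B2 ^ 2 + B3 ^ 2)
        - (A1 * B1 + A2 * B2 + A3 * B3) ^ 2 := by rw [hn1, hn2, hn3]; ring
    rw [this, AA, BB, AB]; norm_num
  obtain ⟨l11, hl11⟩ : ∃ l, l = n1 * x1 + n2 * x2 + n3 * x3 := ⟨_, rfl⟩
  obtain ⟨l12, hl12⟩ : ∃ l, l = n1 * y1 + n2 * y2 + n3 * y3 := ⟨_, rfl⟩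
  obtain ⟨l22, hl22⟩ : ∃ l, l = n1 * z1 + n2 * z2 + n3 * z3 := ⟨_, rfl⟩
  have hx : x1 ^ 2 + x2 ^ 2 + x3 ^ 2 = l11 ^ 2 := by
    have := hL x1 x2 x3 x1 x2 x3 AA BB AB
    rw [nx1', nx2', ← hl11] at this
    linarith
  have hy : y1 ^ 2 + y2 ^ 2 + y3 ^ 2 = l12 ^ 2 := by
    have := hL y1 y2 y3 y1 y2 y3 AA BB AB
    rw [ny1', ny2', ← hl12] at this
    linarith
  have hz : z1 ^ 2 + z2 ^ 2 + z3 ^ 2 = l22 ^ 2 := by
    have := hL z1 z2 z3 z1 z2 z3 AA BB AB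
    rw [nz1', nz2', ← hl22] at this
    linarith
  have hbig' : (1 / M0) ^ 2 ≤ l11 ^ 2 + 2 * l12 ^ 2 + l22 ^ 2 := by
    rw [hx, hy, hz] at hbig
    rcases hbig with h | h | h
    · linarith [sq_nonneg l12, sq_nonneg l22]
    · linarith [sq_nonneg l12, sq_nonneg l22, sq_nonneg l11]
    · linarith [sq_nonneg l12, sq_nonneg l11]
  obtain ⟨c, s, hcs, hL12, hL22⟩ := exists_angle l11 l12 l22
  obtain ⟨m, hm⟩ : ∃ m, m = s ^ 2 * l11 - 2 * (c * s) * l12 + c ^ 2 * l22 := ⟨_, rfl⟩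
  rw [← hm] at hL22
  obtain ⟨σ, hσ2, hσm⟩ : ∃ σ : ℝ, σ ^ 2 = 1 ∧ 0 ≤ σ * m := by
    rcases le_total 0 m with h | h
    · exact ⟨1, by norm_num, by linarith⟩
    · exact ⟨-1, by norm_num, by linarith⟩
  have hm2 : 1 / (100 * M0) ≤ σ * m := aux_bound hM0 hσ2 hσm hbig' hL22
  refine ⟨c, s, c * A1 + s * B1, c * A2 + s * B2, c * A3 + s * B3,
    -s * A1 + c * B1, -s * A2 + c * B2, -s * A3 + c * B3, σ * n1, σ * n2, σ * n3, hcs,
    ⟨?_, ?_, ?_⟩, ?_, ⟨?_, ?_⟩, ⟨?_, ?_⟩, ⟨?_, ?_⟩, ?_, ?_⟩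
  · linear_combination hcs + c ^ 2 * AA + s ^ 2 * BB + 2 * c * s * AB
  · linear_combination hcs + s ^ 2 * AA + c ^ 2 * BB - 2 * c * s * AB
  · linear_combination hσ2 * (n1 ^ 2 + n2 ^ 2 + n3 ^ 2) + nn
  · intro g1 g2 g3 k1 k2 k3
    have h := hL g1 g2 g3 k1 k2 k3 AA BB AB
    linear_combination h + hσ2 * (n1 * g1 + n2 * g2 + n3 * g3) * (n1 * k1 + n2 * k2 + n3 * k3)
      + hcs * ((A1 * g1 + A2 * g2 + A3 * g3) * (A1 * k1 + A2 * k2 + A3 * k3)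
        + (B1 * g1 + B2 * g2 + B3 * g3) * (B1 * k1 + B2 * k2 + B3 * k3))
  · linear_combination e0 * (hcs + c ^ 2 * AA + s ^ 2 * BB + 2 * c * s * AB)
  · linear_combination e0 * (-(s * c) * AA + s * c * BB + (c ^ 2 - s ^ 2) * AB)
  · linear_combination e0 * (-(s * c) * AA + s * c * BB + (c ^ 2 - s ^ 2) * AB)
  · linear_combination e0 * (hcs + s ^ 2 * AA + c ^ 2 * BB - 2 * c * s * AB)
  · linear_combination e0 * σ * (c * nA + s * nB)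
  · linear_combination e0 * σ * (-s * nA + c * nB)
  · rw [hl11, hl12, hl22] at hL12
    linear_combination σ * hL12
  · refine hm2.trans (le_of_eq ?_)
    rw [hm, hl11, hl12, hl22]
    ring

end NormalizeAux

open NormalizeAux in
theorem normalize (M0 : ℝ) (hM0 : 1 ≤ M0) : ∃ M : ℝ, 1 ≤ M ∧ ∀ (U : Set (ℝ × ℝ))
    (Ψ ψ F1 F2 F3 : ℝ × ℝ → ℝ) (p : ℝ × ℝ) (r : ℝ), IsOpen U → ContDiff ℝ ∞ Ψ → ContDiff ℝ ∞ ψ →
    Radial ψ → Sm U F1 → Sm U F2 → Sm U F3 → Imm3 U Ψ F1 F2 F3 → 0 < r → r ≤ 1 →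
    cdisc p (3 * r) ⊆ U →
    (∀ w : ℝ × ℝ, w.1 ^ 2 + w.2 ^ 2 ≤ 9 → Ψ (p.1 + r * w.1, p.2 + r * w.2) = ψ w) →
    (∀ k : ℕ, 2 ≤ k → k ≤ 4 → OrdBd (cdisc p (3 * r)) k M0 F1 ∧ OrdBd (cdisc p (3 * r)) k M0 F2 ∧
      OrdBd (cdisc p (3 * r)) k M0 F3) →
    (∃ F ∈ ({F1, F2, F3} : Set (ℝ × ℝ → ℝ)), 1 / M0 ≤ |dx (dx F) p| ∨ 1 / M0 ≤ |dx (dy F) p| ∨
      1 / M0 ≤ |dy (dy F) p|) →
    ψ 0 ≤ 0 → -1 ≤ ψ 0 →
    ∃ T : Tri, Nrm M r (Real.exp (ψ 0)) T ∧ IsImm ψ T := by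
  refine ⟨100 * M0, by linarith, ?_⟩
  intro U Ψ ψ F1 F2 F3 p r hU hΨ hψ hrad s1 s2 s3 hI hr hr1 hsub hloc hOB hbig _ _
  have hpc : p ∈ cdisc p (3 * r) := by
    change (p.1 - p.1) ^ 2 + (p.2 - p.2) ^ 2 ≤ (3 * r) ^ 2
    nlinarith
  have hp : p ∈ U := hsub hpc
  obtain ⟨⟨nx1, nx2⟩, ⟨ny1, ny2⟩, ⟨nz1, nz2⟩⟩ :=
    second_normal hU hΨ hψ hrad s1 s2 s3 hI hr hp hloc
  have he0p : 0 < Real.exp (ψ 0) := Real.exp_pos _
  have hΨp : Ψ p = ψ 0 := by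
    have := hloc 0 (by simp)
    simpa using this
  have hexp2 : Real.exp (2 * Ψ p) = Real.exp (ψ 0) ^ 2 := by
    rw [hΨp, ← Real.exp_nat_mul]; norm_num
  obtain ⟨iaa, ibb, iab⟩ := hI p hp
  rw [hexp2] at iaa ibb
  have hbig' := big_of hM0 hbig
  obtain ⟨c, s, t1, t2, t3, u1, u2, u3, v1, v2, v3, hcs, ⟨tt, uu, vv⟩, hpars, ⟨et1, et2⟩,
    ⟨eu1, eu2⟩, ⟨ev1, ev2⟩, hxy, hyy⟩ :=
    lin_alg he0p hM0 iaa ibb iab nx1 nx2 ny1 ny2 nz1 nz2 hbig'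
  -- the cut-off
  have hVo : IsOpen {w | aff p r c s w ∈ U} := isOpen_pre hU
  have hK : cdisc 0 3 ⊆ {w | aff p r c s w ∈ U} := aff_maps hcs hsub
  obtain ⟨χ, hχ, hχs, hχ1⟩ := exists_cut hVo hK
  obtain ⟨ca, oa, dxa, dya, -, -, -⟩ :=
    nm_facts hU (sm_cmb s1 s2 s3 t1 t2 t3) hr hcs hsub hχ hχs hχ1
  obtain ⟨cb, ob, dxb, dyb, -, -, -⟩ :=
    nm_facts hU (sm_cmb s1 s2 s3 u1 u2 u3) hr hcs hsub hχ hχs hχ1
  obtain ⟨ch, oh, dxh, dyh, dxyh, dyyh, -⟩ :=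
    nm_facts hU (sm_cmb s1 s2 s3 v1 v2 v3) hr hcs hsub hχ hχs hχ1
  have d1 : ∀ (q1 q2 q3 : ℝ) (z : ℝ × ℝ), z ∈ U → dx (cmb q1 q2 q3 F1 F2 F3) z
      = q1 * dx F1 z + q2 * dx F2 z + q3 * dx F3 z := fun q1 q2 q3 z hz =>
    Dw_cmb hU s1 s2 s3 q1 q2 q3 [true] z hz
  have d2 : ∀ (q1 q2 q3 : ℝ) (z : ℝ × ℝ), z ∈ U → dy (cmb q1 q2 q3 F1 F2 F3) z
      = q1 * dy F1 z + q2 * dy F2 z + q3 * dy F3 z := fun q1 q2 q3 z hz =>
    Dw_cmb hU s1 s2 s3 q1 q2 q3 [false] z hz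
  have d11 : dx (dx (cmb v1 v2 v3 F1 F2 F3)) p
      = v1 * dx (dx F1) p + v2 * dx (dx F2) p + v3 * dx (dx F3) p :=
    Dw_cmb hU s1 s2 s3 v1 v2 v3 [true, true] p hp
  have d12 : dx (dy (cmb v1 v2 v3 F1 F2 F3)) p
      = v1 * dx (dy F1) p + v2 * dx (dy F2) p + v3 * dx (dy F3) p :=
    Dw_cmb hU s1 s2 s3 v1 v2 v3 [true, false] p hp
  have d22 : dy (dy (cmb v1 v2 v3 F1 F2 F3)) p
      = v1 * dy (dy F1) p + v2 * dy (dy F2) p + v3 * dy (dy F3) p :=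
    Dw_cmb hU s1 s2 s3 v1 v2 v3 [false, false] p hp
  have h0 := zero_mem_disc
  refine ⟨⟨nm χ p r c s (cmb t1 t2 t3 F1 F2 F3), nm χ p r c s (cmb u1 u2 u3 F1 F2 F3),
    nm χ p r c s (cmb v1 v2 v3 F1 F2 F3), ca, cb, ch⟩, ?_, ?_⟩
  · refine ⟨oa, ob, oh, ?_, ?_, ?_, ?_, ?_, ?_, ?_, ?_, ?_, ?_, ?_⟩
    · rw [dxa 0 h0, aff_zero, d1 _ _ _ p hp, d2 _ _ _ p hp]; exact et1
    · rw [dya 0 h0, aff_zero, d1 _ _ _ p hp, d2 _ _ _ p hp]; exact et2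
    · rw [dxb 0 h0, aff_zero, d1 _ _ _ p hp, d2 _ _ _ p hp]; exact eu1
    · rw [dyb 0 h0, aff_zero, d1 _ _ _ p hp, d2 _ _ _ p hp]; exact eu2
    · rw [dxh 0 h0, aff_zero, d1 _ _ _ p hp, d2 _ _ _ p hp]; exact ev1
    · rw [dyh 0 h0, aff_zero, d1 _ _ _ p hp, d2 _ _ _ p hp]; exact ev2
    · rw [dxyh, d11, d12, d22, hxy, mul_zero]
    · rw [dyyh, d11, d12, d22]
      have := mul_le_mul_of_nonneg_left hyy hr.le
      refine le_trans (le_of_eq ?_) this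
      ring
    · exact ob_nm hU hM0 s1 s2 s3 tt hr hcs hsub hχ hχs hχ1 hOB
    · exact ob_nm hU hM0 s1 s2 s3 uu hr hcs hsub hχ hχs hχ1 hOB
    · exact ob_nm hU hM0 s1 s2 s3 vv hr hcs hsub hχ hχs hχ1 hOB
  · intro z hz
    have hzU : aff p r c s z ∈ U := hK (disc_sub hz)
    obtain ⟨i1, i2, i3⟩ := hI _ hzU
    have hΨz : Ψ (aff p r c s z) = ψ z := by
      have hz' : z.1 ^ 2 + z.2 ^ 2 < 3 ^ 2 := hz
      have e : (c * z.1 - s * z.2) ^ 2 + (s * z.1 + c * z.2) ^ 2 = z.1 ^ 2 + z.2 ^ 2 := by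
        linear_combination (z.1 ^ 2 + z.2 ^ 2) * hcs
      have h1 := hloc (c * z.1 - s * z.2, s * z.1 + c * z.2) (by rw [e]; linarith)
      have h2 := hrad (c * z.1 - s * z.2, s * z.1 + c * z.2) z e
      rw [← h2]
      exact h1
    rw [hΨz] at i1 i2
    simp only
    rw [dxa z hz, dxb z hz, dxh z hz, dya z hz, dyb z hz, dyh z hz]
    simp only [d1 _ _ _ _ hzU, d2 _ _ _ _ hzU]
    exact imm_alg hcs hpars i1 i2 i3

end Vale.Agent.P229
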