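import Vale.Agent.P229.Discs

/-!
# P229 [N]: the sum of the rescaled profiles
-/

namespace Vale.Agent.P229

open Set
open scoped ContDiff

namespace SumAux

/-- derivatives of a rescaled function -/
lemma norm_iteratedFDeriv_rescale {f : ℝ × ℝ → ℝ} (hf : ContDiff ℝ ∞ f) (p : ℝ × ℝ) {r : ℝ}
    (hr : 0 < r) (k : ℕ) {B : ℝ} (hB : ∀ z, ‖iteratedFDeriv ℝ k f z‖ ≤ B) (z : ℝ × ℝ) :
    ‖iteratedFDeriv ℝ k (fun z => f (r⁻¹ • (z - p))) z‖ ≤ r⁻¹ ^ k * B := by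
  have e1 : (fun z => f (r⁻¹ • (z - p))) = fun z => (fun y => f (r⁻¹ • y)) (z - p) := rfl
  have hf' : ContDiff ℝ (k : ℕ∞) f := hf.of_le (by exact_mod_cast le_top)
  have e2 := iteratedFDeriv_comp_sub (𝕜 := ℝ) (f := fun y => f (r⁻¹ • y)) k p z
  rw [e1, e2, iteratedFDeriv_comp_const_smul _ hf', norm_smul, norm_pow,
    Real.norm_of_nonneg (inv_nonneg.2 hr.le)]
  exact mul_le_mul_of_nonneg_left (hB _) (pow_nonneg (inv_nonneg.2 hr.le) _)

end SumAux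

open SumAux in
theorem sum_exists (p : ℕ → ℝ × ℝ) (r : ℕ → ℝ) (hr : ∀ j, 0 < r j ∧ r j ≤ 1)
    (hd : ∀ i j, i ≠ j → Disjoint (cdisc (p i) (3 * r i)) (cdisc (p j) (3 * r j)))
    (ψ : ℕ → ℝ × ℝ → ℝ) (hψ : ∀ j, ContDiff ℝ ∞ (ψ j)) (h2 : ∀ j, ∀ z, z ∉ disc 2 → ψ j z = 0)
    (hb : ∀ j, ∀ i ≤ j, ∀ z, ‖iteratedFDeriv ℝ i (ψ j) z‖ ≤ (r j / 2) ^ j) :
    ∃ Ψ : ℝ × ℝ → ℝ, ContDiff ℝ ∞ Ψ ∧ ∀ j, ∀ w : ℝ × ℝ, w.1 ^ 2 + w.2 ^ 2 ≤ 9 →
      Ψ ((p j).1 + r j * w.1, (p j).2 + r j * w.2) = ψ j w := by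
  let f : ℕ → ℝ × ℝ → ℝ := fun j z => ψ j ((r j)⁻¹ • (z - p j))
  refine ⟨fun z => ∑' j, f j z, ?_, ?_⟩
  · refine contDiff_tsum_of_eventually (N := ⊤) (v := fun _ j => (1 / 2 : ℝ) ^ j) ?_ ?_ ?_
    · intro j
      exact (hψ j).comp (by fun_prop)
    · intro k _
      exact summable_geometric_of_lt_one (by norm_num) (by norm_num)
    · intro k _
      rw [Nat.cofinite_eq_atTop]
      filter_upwards [Filter.eventually_ge_atTop k] with j hj z
      obtain ⟨h0, h1⟩ := hr j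
      refine (norm_iteratedFDeriv_rescale (hψ j) (p j) h0 k (hb j k hj) z).trans ?_
      rw [div_pow, inv_pow, one_div, inv_pow]
      rw [div_eq_mul_inv, ← mul_assoc]
      have h3 : (r j ^ k)⁻¹ * r j ^ j ≤ 1 := by
        rw [inv_mul_le_iff₀ (by positivity), mul_one]
        exact pow_le_pow_of_le_one h0.le h1 hj
      have h4 : (0 : ℝ) ≤ (2 ^ j)⁻¹ := by positivity
      nlinarith
  · intro j w hw
    obtain ⟨h0, h1⟩ := hr j
    have hz : ((p j).1 + r j * w.1, (p j).2 + r j * w.2) ∈ cdisc (p j) (3 * r j) := by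
      simp only [cdisc, mem_ofPred_eq]
      have : ((p j).1 + r j * w.1 - (p j).1) ^ 2 + ((p j).2 + r j * w.2 - (p j).2) ^ 2
        = r j ^ 2 * (w.1 ^ 2 + w.2 ^ 2) := by ring
      rw [this]
      have := mul_le_mul_of_nonneg_left hw (sq_nonneg (r j))
      nlinarith
    have hself : f j ((p j).1 + r j * w.1, (p j).2 + r j * w.2) = ψ j w := by
      simp only [f]
      congr 1
      ext
      · simp only [Prod.smul_fst, Prod.fst_sub, smul_eq_mul]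
        field_simp; ring
      · simp only [Prod.smul_snd, Prod.snd_sub, smul_eq_mul]
        field_simp; ring
    simp only
    rw [tsum_eq_single j, hself]
    intro i hij
    have hi0 := (hr i).1
    apply h2
    intro hdisc
    refine (disjoint_left.1 (hd i j hij)) ?_ hz
    simp only [disc, mem_ofPred_eq, Prod.smul_fst, Prod.smul_snd, Prod.fst_sub, Prod.snd_sub,
      smul_eq_mul] at hdisc
    simp only [cdisc, mem_ofPred_eq]
    have e : ((r i)⁻¹ * ((p j).1 + r j * w.1 - (p i).1)) ^ 2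
        + ((r i)⁻¹ * ((p j).2 + r j * w.2 - (p i).2)) ^ 2
        = (((p j).1 + r j * w.1 - (p i).1) ^ 2 + ((p j).2 + r j * w.2 - (p i).2) ^ 2)
          / (r i) ^ 2 := by
      field_simp
    rw [e, div_lt_iff₀ (by positivity)] at hdisc
    nlinarith
end Vale.Agent.P229
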