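import Vale.Agent.P229.BdAlg

/-! P229, module J: the bump patterns. -/

namespace Vale.Agent.P229

open MeasureTheory Set
open scoped ContDiff

namespace PatternAux

/-! ### one-variable profiles -/

/-- smooth bump, equal to `1` on `[1/4,3/4]` and vanishing outside `(0,1)` -/
noncomputable def gb (t : ℝ) : ℝ :=
  Real.smoothTransition (4 * t) * Real.smoothTransition (4 * (1 - t))

theorem gb_contDiff : ContDiff ℝ ∞ gb := by
  unfold gb
  exact (Real.smoothTransition.contDiff.comp (by fun_prop)).mul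
    (Real.smoothTransition.contDiff.comp (by fun_prop))

theorem gb_nonneg (t : ℝ) : 0 ≤ gb t :=
  mul_nonneg (Real.smoothTransition.nonneg _) (Real.smoothTransition.nonneg _)

theorem gb_le_one (t : ℝ) : gb t ≤ 1 :=
  mul_le_one₀ (Real.smoothTransition.le_one _) (Real.smoothTransition.nonneg _)
    (Real.smoothTransition.le_one _)

theorem gb_left {t : ℝ} (h : t ≤ 0) : gb t = 0 := by
  unfold gb
  rw [Real.smoothTransition.zero_of_nonpos (by linarith), zero_mul]

theorem gb_right {t : ℝ} (h : 1 ≤ t) : gb t = 0 := by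
  unfold gb
  rw [Real.smoothTransition.zero_of_nonpos (x := 4 * (1 - t)) (by linarith), mul_zero]

theorem gb_mid {t : ℝ} (h1 : 1 / 4 ≤ t) (h2 : t ≤ 3 / 4) : gb t = 1 := by
  unfold gb
  rw [Real.smoothTransition.one_of_one_le (by linarith),
    Real.smoothTransition.one_of_one_le (by linarith), one_mul]

theorem gb_compact : HasCompactSupport gb := by
  refine HasCompactSupport.intro (K := Icc 0 1) isCompact_Icc ?_
  intro t ht
  by_contra h
  apply ht
  constructor
  · by_contra h1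
    exact h (gb_left (not_le.1 h1).le)
  · by_contra h1
    exact h (gb_right (not_le.1 h1).le)

/-- cutoff, equal to `1` on `(-∞,9/4]` and vanishing on `[4,∞)` -/
noncomputable def cut (s : ℝ) : ℝ := Real.smoothTransition ((4 - s) * (4 / 7))

theorem cut_contDiff : ContDiff ℝ ∞ cut := by
  unfold cut
  exact Real.smoothTransition.contDiff.comp (by fun_prop)

theorem cut_nonneg (s : ℝ) : 0 ≤ cut s := Real.smoothTransition.nonneg _

theorem cut_one {s : ℝ} (h : s ≤ 9 / 4) : cut s = 1 :=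
  Real.smoothTransition.one_of_one_le (by linarith)

theorem cut_zero {s : ℝ} (h : 4 ≤ s) : cut s = 0 :=
  Real.smoothTransition.zero_of_nonpos (by linarith)

/-- squared radius -/
noncomputable def rr (z : ℝ × ℝ) : ℝ := z.1 ^ 2 + z.2 ^ 2

theorem rr_contDiff : ContDiff ℝ ∞ rr := by unfold rr; fun_prop

theorem rr_nonneg (z : ℝ × ℝ) : 0 ≤ rr z := by unfold rr; positivity

theorem dx_rr (z : ℝ × ℝ) : dx rr z = 2 * z.1 := by
  unfold rr
  rw [dx_add (by fun_prop) (by fun_prop), dx_pow 2 (by fun_prop), dx_pow 2 (by fun_prop),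
    dx_fst, dx_snd]
  norm_num

theorem dy_rr (z : ℝ × ℝ) : dy rr z = 2 * z.2 := by
  unfold rr
  rw [dy_add (by fun_prop) (by fun_prop), dy_pow 2 (by fun_prop), dy_pow 2 (by fun_prop),
    dy_fst, dy_snd]
  norm_num

/-! ### bounds for iterated derivatives -/

theorem exists_bound {E : Type*} [NormedAddCommGroup E] [NormedSpace ℝ E] {f : E → ℝ}
    (hf : ContDiff ℝ ∞ f) (hc : HasCompactSupport f) (n : ℕ) :
    ∃ C : ℝ, 1 ≤ C ∧ ∀ i ≤ n, ∀ x, ‖iteratedFDeriv ℝ i f x‖ ≤ C := by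
  have h1 : ∀ i : ℕ, ∃ C : ℝ, ∀ x, ‖iteratedFDeriv ℝ i f x‖ ≤ C := by
    intro i
    have hcont : Continuous (iteratedFDeriv ℝ i f) := hf.continuous_iteratedFDeriv (by
      exact_mod_cast le_top)
    exact (hc.iteratedFDeriv i).exists_bound_of_continuous hcont
  choose C hC using h1
  refine ⟨1 + ∑ i ∈ Finset.range (n + 1), |C i|, ?_, ?_⟩
  · have : 0 ≤ ∑ i ∈ Finset.range (n + 1), |C i| := Finset.sum_nonneg fun i _ => abs_nonneg _
    linarith
  · intro i hi x
    have h2 : |C i| ≤ ∑ i ∈ Finset.range (n + 1), |C i| :=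
      Finset.single_le_sum (f := fun i => |C i|) (fun i _ => abs_nonneg _)
        (Finset.mem_range.2 (by omega))
    have h3 := hC i x
    have h4 := le_abs_self (C i)
    linarith

theorem Dw_le {f : ℝ × ℝ → ℝ} (hf : ContDiff ℝ ∞ f) (w : List Bool) :
    ∃ v : Fin w.length → ℝ × ℝ, (∀ i, ‖v i‖ ≤ 1) ∧
      ∀ z, Dw w f z = iteratedFDeriv ℝ w.length f z v := by
  induction w with
  | nil => exact ⟨fun i => 0, fun i => by simp, fun z => by simp [Dw]⟩
  | cons c w ih =>
    obtain ⟨v, hv, h⟩ := ih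
    have key : ∀ e : ℝ × ℝ, ∀ z, fderiv ℝ (Dw w f) z e =
        iteratedFDeriv ℝ (w.length + 1) f z (Fin.cons e v) := by
      intro e z
      rw [iteratedFDeriv_succ_apply_left]
      have h1 : Dw w f = fun z => iteratedFDeriv ℝ w.length f z v := funext h
      have hd : DifferentiableAt ℝ (iteratedFDeriv ℝ w.length f) z :=
        (hf.differentiable_iteratedFDeriv (by exact_mod_cast WithTop.coe_lt_top _)) z
      rw [h1]
      have h2 := (hd.hasFDerivAt.continuousMultilinear_apply_const v)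
      rw [h2.fderiv]
      simp
    have hn : ∀ e : ℝ × ℝ, ‖e‖ ≤ 1 →
        ∀ i : Fin (w.length + 1), ‖(Fin.cons e v : Fin (w.length + 1) → ℝ × ℝ) i‖ ≤ 1 := by
      intro e he i
      refine Fin.cases ?_ (fun i => ?_) i
      · simpa using he
      · simpa using hv i
    cases c
    · exact ⟨Fin.cons (0, 1) v, hn _ (by simp [Prod.norm_def]), fun z => key _ z⟩
    · exact ⟨Fin.cons (1, 0) v, hn _ (by simp [Prod.norm_def]), fun z => key _ z⟩

theorem Bd_of_iterated {f : ℝ × ℝ → ℝ} (hf : ContDiff ℝ ∞ f) {k : ℕ} {C : ℝ}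
    (h : ∀ i ≤ k, ∀ z, ‖iteratedFDeriv ℝ i f z‖ ≤ C) : Bd univ k C f := by
  rw [Bd_iff_Dw]
  intro w hw z _
  obtain ⟨v, hv, he⟩ := Dw_le hf w
  rw [he z, ← Real.norm_eq_abs]
  refine (ContinuousMultilinearMap.le_opNorm _ _).trans ?_
  have h1 : ∏ i, ‖v i‖ ≤ 1 := Finset.prod_le_one (fun i _ => norm_nonneg _) fun i _ => hv i
  calc ‖iteratedFDeriv ℝ w.length f z‖ * ∏ i, ‖v i‖ ≤ ‖iteratedFDeriv ℝ w.length f z‖ * 1 := by
        gcongr
    _ ≤ C := by rw [mul_one]; exact h _ hw z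

/-! ### the annular bumps -/

/-- annular bump on `a ≤ r² ≤ a + β` -/
noncomputable def ab (a β : ℝ) (z : ℝ × ℝ) : ℝ := gb ((rr z - a) / β)

theorem ab_contDiff (a β : ℝ) : ContDiff ℝ ∞ (ab a β) := by
  unfold ab
  exact gb_contDiff.comp ((rr_contDiff.sub contDiff_const).div_const β)

theorem ab_nonneg (a β : ℝ) (z : ℝ × ℝ) : 0 ≤ ab a β z := gb_nonneg _

theorem ab_le_one (a β : ℝ) (z : ℝ × ℝ) : ab a β z ≤ 1 := gb_le_one _

theorem ab_in {a β : ℝ} (hβ : 0 < β) {z : ℝ × ℝ} (h : rr z ≤ a) : ab a β z = 0 := by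
  refine gb_left ?_
  rw [div_le_iff₀ hβ]; linarith

theorem ab_out {a β : ℝ} (hβ : 0 < β) {z : ℝ × ℝ} (h : a + β ≤ rr z) : ab a β z = 0 := by
  refine gb_right ?_
  rw [le_div_iff₀ hβ]; linarith

theorem ab_mid {a β : ℝ} (hβ : 0 < β) {z : ℝ × ℝ} (h1 : a + β / 4 ≤ rr z)
    (h2 : rr z ≤ a + 3 * β / 4) : ab a β z = 1 := by
  refine gb_mid ?_ ?_
  · rw [le_div_iff₀ hβ]; linarith
  · rw [div_le_iff₀ hβ]; linarith

theorem ab_iterated (n : ℕ) : ∃ C : ℝ, 1 ≤ C ∧ ∀ a β : ℝ, 0 ≤ a → 0 < β → β ≤ 1 → a + β ≤ 1 →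
    ∀ i ≤ n, ∀ z, ‖iteratedFDeriv ℝ i (ab a β) z‖ ≤ C / β ^ n := by
  obtain ⟨G, hG1, hG⟩ := exists_bound gb_contDiff gb_compact n
  -- bounds for `rr` on the closed unit ball
  have hQ : ∃ Q : ℝ, 1 ≤ Q ∧ ∀ i ≤ n, ∀ z ∈ Metric.closedBall (0 : ℝ × ℝ) 1,
      ‖iteratedFDeriv ℝ i rr z‖ ≤ Q := by
    have h1 : ∀ i : ℕ, ∃ C : ℝ, ∀ z ∈ Metric.closedBall (0 : ℝ × ℝ) 1,
        ‖iteratedFDeriv ℝ i rr z‖ ≤ C := by
      intro i
      have hcont : Continuous (iteratedFDeriv ℝ i rr) :=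
        rr_contDiff.continuous_iteratedFDeriv (by exact_mod_cast le_top)
      exact (isCompact_closedBall (0 : ℝ × ℝ) 1).exists_bound_of_continuousOn hcont.continuousOn
    choose C hC using h1
    refine ⟨1 + ∑ i ∈ Finset.range (n + 1), |C i|, ?_, ?_⟩
    · have : 0 ≤ ∑ i ∈ Finset.range (n + 1), |C i| := Finset.sum_nonneg fun i _ => abs_nonneg _
      linarith
    · intro i hi x hx
      have h2 : |C i| ≤ ∑ i ∈ Finset.range (n + 1), |C i| :=
        Finset.single_le_sum (f := fun i => |C i|) (fun i _ => abs_nonneg _)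
          (Finset.mem_range.2 (by omega))
      have h3 := hC i x hx
      have h4 := le_abs_self (C i)
      linarith
  obtain ⟨Q, hQ1, hQ⟩ := hQ
  refine ⟨n.factorial * G * Q ^ n, ?_, ?_⟩
  · have h1 : (1 : ℝ) ≤ n.factorial := by exact_mod_cast Nat.factorial_pos n
    have h2 : (1 : ℝ) ≤ Q ^ n := one_le_pow₀ hQ1
    have h3 : (1 : ℝ) ≤ n.factorial * G := one_le_mul_of_one_le_of_one_le h1 hG1
    exact one_le_mul_of_one_le_of_one_le h3 h2
  intro a β ha hβ hβ1 haβ i hi z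
  have hpos : 0 ≤ (n.factorial : ℝ) * G * Q ^ n / β ^ n := by positivity
  by_cases hz : 1 < rr z
  · have hopen : IsOpen {z : ℝ × ℝ | 1 < rr z} := isOpen_lt continuous_const rr_contDiff.continuous
    have h0 : ab a β =ᶠ[nhds z] fun _ => 0 := by
      filter_upwards [hopen.mem_nhds hz] with w hw
      have hw' : 1 < rr w := hw
      exact ab_out hβ (by linarith)
    have h1 : iteratedFDeriv ℝ i (ab a β) z = 0 := by
      rw [(Filter.EventuallyEq.iteratedFDeriv (𝕜 := ℝ) h0 i).eq_of_nhds]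
      simp
    rw [h1, norm_zero]
    exact hpos
  · have hz1 : rr z ≤ 1 := not_lt.1 hz
    have hball : z ∈ Metric.closedBall (0 : ℝ × ℝ) 1 := by
      rw [mem_closedBall_zero_iff, Prod.norm_def]
      unfold rr at hz1
      refine max_le ?_ ?_
      · rw [Real.norm_eq_abs, abs_le]
        constructor <;> nlinarith [sq_nonneg z.2]
      · rw [Real.norm_eq_abs, abs_le]
        constructor <;> nlinarith [sq_nonneg z.1]
    have hφ : ContDiff ℝ ∞ (fun t => gb (t - a / β)) :=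
      gb_contDiff.comp (contDiff_id.sub contDiff_const)
    have hq : ContDiff ℝ ∞ (β⁻¹ • rr) := rr_contDiff.const_smul β⁻¹
    have he : ab a β = (fun t => gb (t - a / β)) ∘ (β⁻¹ • rr) := by
      funext w
      simp only [ab, Function.comp, Pi.smul_apply, smul_eq_mul]
      congr 1
      field_simp
    have hb1 : 1 ≤ Q / β := by rw [le_div_iff₀ hβ]; linarith
    have key := norm_iteratedFDeriv_comp_le (𝕜 := ℝ) (g := fun t => gb (t - a / β))
      (f := β⁻¹ • rr) (n := i) (N := ∞) hφ hq (by exact_mod_cast le_top) z (C := G) (D := Q / β)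
      (fun j hj => by
        rw [iteratedFDeriv_comp_sub]
        exact hG j (hj.trans hi) _)
      (fun j hj1 hj => by
        rw [iteratedFDeriv_const_smul_apply (rr_contDiff.contDiffAt.of_le (by exact_mod_cast le_top)),
          norm_smul]
        rw [Real.norm_eq_abs, abs_of_pos (inv_pos.2 hβ)]
        calc β⁻¹ * ‖iteratedFDeriv ℝ j rr z‖ ≤ β⁻¹ * Q := by
              gcongr
              exact hQ j (hj.trans hi) z hball
          _ = (Q / β) ^ 1 := by rw [pow_one]; field_simp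
          _ ≤ (Q / β) ^ j := pow_le_pow_right₀ hb1 hj1)
    rw [he]
    refine key.trans ?_
    have h1 : (i.factorial : ℝ) ≤ n.factorial := by exact_mod_cast Nat.factorial_le hi
    have h2 : (Q / β) ^ i ≤ (Q / β) ^ n := pow_le_pow_right₀ hb1 hi
    calc (i.factorial : ℝ) * G * (Q / β) ^ i ≤ n.factorial * G * (Q / β) ^ n := by gcongr
      _ = n.factorial * G * Q ^ n / β ^ n := by rw [div_pow]; ring

/-! ### sharp second order bounds -/

theorem dgb_contDiff : ContDiff ℝ ∞ (deriv gb) := by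
  have h := (contDiff_infty_iff_deriv.1 gb_contDiff).2
  exact h

theorem ddgb_contDiff : ContDiff ℝ ∞ (deriv (deriv gb)) :=
  (contDiff_infty_iff_deriv.1 dgb_contDiff).2

theorem gb_derivs : ∃ C : ℝ, 1 ≤ C ∧ (∀ t, |deriv gb t| ≤ C) ∧ (∀ t, |deriv (deriv gb) t| ≤ C) := by
  obtain ⟨C1, h1⟩ := (gb_compact.deriv).exists_bound_of_continuous dgb_contDiff.continuous
  obtain ⟨C2, h2⟩ := (gb_compact.deriv.deriv).exists_bound_of_continuous ddgb_contDiff.continuous
  refine ⟨1 + |C1| + |C2|, ?_, fun t => ?_, fun t => ?_⟩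
  · have := abs_nonneg C1
    have := abs_nonneg C2
    linarith
  · have := h1 t
    rw [Real.norm_eq_abs] at this
    have := abs_nonneg C2
    have := le_abs_self C1
    linarith
  · have := h2 t
    rw [Real.norm_eq_abs] at this
    have := abs_nonneg C1
    have := le_abs_self C2
    linarith

theorem dgb_zero {t : ℝ} (h : 1 < t) : deriv gb t = 0 := by
  have h0 : gb =ᶠ[nhds t] fun _ => 0 := by
    filter_upwards [lt_mem_nhds h] with s hs
    exact gb_right hs.le
  rw [h0.deriv_eq]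
  simp

theorem ddgb_zero {t : ℝ} (h : 1 < t) : deriv (deriv gb) t = 0 := by
  have h0 : deriv gb =ᶠ[nhds t] fun _ => 0 := by
    filter_upwards [lt_mem_nhds h] with s hs
    exact dgb_zero hs
  rw [h0.deriv_eq]
  simp

theorem q_diff (a β : ℝ) (z : ℝ × ℝ) : DifferentiableAt ℝ (fun z => (rr z - a) / β) z :=
  ((rr_contDiff.sub contDiff_const).div_const β).differentiable (by simp) z

theorem dx_q (a β : ℝ) (z : ℝ × ℝ) : dx (fun z => (rr z - a) / β) z = 2 / β * z.1 := by
  have h1 : (fun z => (rr z - a) / β) = fun z => β⁻¹ * (rr z - a) := by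
    funext w; rw [div_eq_inv_mul]
  have hr : DifferentiableAt ℝ rr z := rr_contDiff.differentiable (by simp) z
  have hr2 : DifferentiableAt ℝ (fun w => rr w - a) z := hr.sub (differentiableAt_const a)
  have h2 : dx (fun w => rr w - a) z = dx rr z - dx (fun _ => a) z :=
    dx_sub hr (differentiableAt_const a)
  rw [h1, dx_const_mul _ hr2, h2, dx_rr, dx_const]
  ring

theorem dy_q (a β : ℝ) (z : ℝ × ℝ) : dy (fun z => (rr z - a) / β) z = 2 / β * z.2 := by
  have h1 : (fun z => (rr z - a) / β) = fun z => β⁻¹ * (rr z - a) := by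
    funext w; rw [div_eq_inv_mul]
  have hr : DifferentiableAt ℝ rr z := rr_contDiff.differentiable (by simp) z
  have hr2 : DifferentiableAt ℝ (fun w => rr w - a) z := hr.sub (differentiableAt_const a)
  have h2 : dy (fun w => rr w - a) z = dy rr z - dy (fun _ => a) z :=
    dy_sub hr (differentiableAt_const a)
  rw [h1, dy_const_mul _ hr2, h2, dy_rr, dy_const]
  ring

theorem dx_ab (a β : ℝ) :
    dx (ab a β) = fun z => deriv gb ((rr z - a) / β) * (2 / β * z.1) := by
  funext z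
  have h := dx_comp (φ := gb) (f := fun z => (rr z - a) / β) (z := z)
    ((gb_contDiff.differentiable (by simp) ((rr z - a) / β)).hasDerivAt) (q_diff a β z)
  rw [dx_q] at h
  exact h

theorem dy_ab (a β : ℝ) :
    dy (ab a β) = fun z => deriv gb ((rr z - a) / β) * (2 / β * z.2) := by
  funext z
  have h := dy_comp (φ := gb) (f := fun z => (rr z - a) / β) (z := z)
    ((gb_contDiff.differentiable (by simp) ((rr z - a) / β)).hasDerivAt) (q_diff a β z)
  rw [dy_q] at h
  exact h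

theorem dx_dab (a β : ℝ) (z : ℝ × ℝ) : dx (fun z => deriv gb ((rr z - a) / β)) z =
    deriv (deriv gb) ((rr z - a) / β) * (2 / β * z.1) := by
  have h := dx_comp (φ := deriv gb) (f := fun z => (rr z - a) / β) (z := z)
    ((dgb_contDiff.differentiable (by simp) ((rr z - a) / β)).hasDerivAt) (q_diff a β z)
  rw [dx_q] at h
  exact h

theorem dy_dab (a β : ℝ) (z : ℝ × ℝ) : dy (fun z => deriv gb ((rr z - a) / β)) z =
    deriv (deriv gb) ((rr z - a) / β) * (2 / β * z.2) := by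
  have h := dy_comp (φ := deriv gb) (f := fun z => (rr z - a) / β) (z := z)
    ((dgb_contDiff.differentiable (by simp) ((rr z - a) / β)).hasDerivAt) (q_diff a β z)
  rw [dy_q] at h
  exact h

theorem dab_diff (a β : ℝ) (z : ℝ × ℝ) :
    DifferentiableAt ℝ (fun z => deriv gb ((rr z - a) / β)) z :=
  ((dgb_contDiff.differentiable (by simp)).differentiableAt).comp z (q_diff a β z)

theorem lin1_diff (c : ℝ) (z : ℝ × ℝ) : DifferentiableAt ℝ (fun z : ℝ × ℝ => c * z.1) z := by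
  fun_prop

theorem lin2_diff (c : ℝ) (z : ℝ × ℝ) : DifferentiableAt ℝ (fun z : ℝ × ℝ => c * z.2) z := by
  fun_prop

theorem second_ab (a β : ℝ) (z : ℝ × ℝ) :
    dx (dx (ab a β)) z = deriv (deriv gb) ((rr z - a) / β) * (2 / β * z.1) * (2 / β * z.1)
      + deriv gb ((rr z - a) / β) * (2 / β) ∧
    dy (dx (ab a β)) z = deriv (deriv gb) ((rr z - a) / β) * (2 / β * z.2) * (2 / β * z.1) ∧
    dx (dy (ab a β)) z = deriv (deriv gb) ((rr z - a) / β) * (2 / β * z.1) * (2 / β * z.2) ∧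
    dy (dy (ab a β)) z = deriv (deriv gb) ((rr z - a) / β) * (2 / β * z.2) * (2 / β * z.2)
      + deriv gb ((rr z - a) / β) * (2 / β) := by
  rw [dx_ab, dy_ab]
  refine ⟨?_, ?_, ?_, ?_⟩
  · rw [dx_mul (dab_diff a β z) (lin1_diff _ z), dx_dab, dx_const_mul _ (by fun_prop), dx_fst]
    ring
  · rw [dy_mul (dab_diff a β z) (lin1_diff _ z), dy_dab, dy_const_mul _ (by fun_prop), dy_fst]
    ring
  · rw [dx_mul (dab_diff a β z) (lin2_diff _ z), dx_dab, dx_const_mul _ (by fun_prop), dx_snd]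
    ring
  · rw [dy_mul (dab_diff a β z) (lin2_diff _ z), dy_dab, dy_const_mul _ (by fun_prop), dy_snd]
    ring

theorem ab_Bd2 : ∃ C : ℝ, 1 ≤ C ∧ ∀ a β b : ℝ, 0 < b → b ≤ 1 → 0 < β → β ≤ b ^ 2 →
    a + β ≤ b ^ 2 → Bd univ 2 (C * (b / β) ^ 2) (ab a β) := by
  obtain ⟨G, hG1, hG, hG2⟩ := gb_derivs
  refine ⟨8 * G, by linarith, ?_⟩
  intro a β b hb hb1 hβ hβb hab
  have hbβ : 1 ≤ b / β := by
    rw [le_div_iff₀ hβ]
    nlinarith
  have hβinv : 1 / β ≤ (b / β) ^ 2 := by
    rw [div_pow, div_le_div_iff₀ hβ (by positivity)]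
    nlinarith
  -- the two basic estimates
  have hx : ∀ z : ℝ × ℝ, ∀ c : ℝ, (c = z.1 ∨ c = z.2) →
      |deriv gb ((rr z - a) / β) * (2 / β * c)| ≤ 2 * G * (b / β) := by
    intro z c hc
    by_cases hz : b ^ 2 < rr z
    · rw [dgb_zero (by rw [lt_div_iff₀ hβ]; linarith)]
      simp only [zero_mul, abs_zero]
      positivity
    · have hc2 : |c| ≤ b := by
        have : c ^ 2 ≤ b ^ 2 := by
          unfold rr at hz
          rcases hc with rfl | rfl
          · nlinarith [sq_nonneg z.2]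
          · nlinarith [sq_nonneg z.1]
        exact abs_le_of_sq_le_sq this hb.le
      rw [abs_mul, abs_mul, abs_of_pos (show (0 : ℝ) < 2 / β by positivity)]
      calc |deriv gb ((rr z - a) / β)| * (2 / β * |c|) ≤ G * (2 / β * b) := by
            gcongr
            exact hG _
        _ = 2 * G * (b / β) := by ring
  have hxx : ∀ z : ℝ × ℝ, ∀ c d : ℝ, (c = z.1 ∨ c = z.2) → (d = z.1 ∨ d = z.2) →
      |deriv (deriv gb) ((rr z - a) / β) * (2 / β * c) * (2 / β * d)| ≤ 4 * G * (b / β) ^ 2 := by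
    intro z c d hc hd
    by_cases hz : b ^ 2 < rr z
    · rw [ddgb_zero (by rw [lt_div_iff₀ hβ]; linarith)]
      simp only [zero_mul, abs_zero]
      positivity
    · have hc2 : ∀ c : ℝ, (c = z.1 ∨ c = z.2) → |c| ≤ b := by
        intro c hc
        have : c ^ 2 ≤ b ^ 2 := by
          unfold rr at hz
          rcases hc with rfl | rfl
          · nlinarith [sq_nonneg z.2]
          · nlinarith [sq_nonneg z.1]
        exact abs_le_of_sq_le_sq this hb.le
      have h1 := hc2 c hc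
      have h2 := hc2 d hd
      rw [abs_mul, abs_mul, abs_mul, abs_mul, abs_of_pos (show (0 : ℝ) < 2 / β by positivity)]
      calc |deriv (deriv gb) ((rr z - a) / β)| * (2 / β * |c|) * (2 / β * |d|)
            ≤ G * (2 / β * b) * (2 / β * b) := by
            gcongr
            exact hG2 _
        _ = 4 * G * (b / β) ^ 2 := by ring
  have hxc : ∀ z : ℝ × ℝ, |deriv gb ((rr z - a) / β) * (2 / β)| ≤ 2 * G * (b / β) ^ 2 := by
    intro z
    rw [abs_mul, abs_of_pos (show (0 : ℝ) < 2 / β by positivity)]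
    calc |deriv gb ((rr z - a) / β)| * (2 / β) ≤ G * (2 / β) := by
          gcongr
          exact hG _
      _ = 2 * G * (1 / β) := by ring
      _ ≤ 2 * G * (b / β) ^ 2 := by gcongr
  have hsq : (b / β) ≤ (b / β) ^ 2 := by nlinarith
  have hsq1 : 1 ≤ (b / β) ^ 2 := by nlinarith
  have hfin1 : 2 * G * (b / β) ≤ 8 * G * (b / β) ^ 2 := by nlinarith
  have hG0 : 0 < G := by linarith
  have hfin2 : 4 * G * (b / β) ^ 2 ≤ 8 * G * (b / β) ^ 2 := by
    have : 0 < G * (b / β) ^ 2 := by positivity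
    nlinarith
  have hfin3 : 4 * G * (b / β) ^ 2 + 2 * G * (b / β) ^ 2 ≤ 8 * G * (b / β) ^ 2 := by
    have : 0 < G * (b / β) ^ 2 := by positivity
    nlinarith
  refine ⟨fun z _ => ?_, ⟨fun z _ => ?_, fun z _ => ?_, fun z _ => ?_⟩,
    ⟨fun z _ => ?_, fun z _ => ?_, fun z _ => ?_⟩⟩
  · rw [abs_of_nonneg (ab_nonneg a β z)]
    refine (ab_le_one a β z).trans ?_
    nlinarith
  · rw [dx_ab]
    exact (hx z z.1 (Or.inl rfl)).trans hfin1
  · rw [(second_ab a β z).1]
    refine (abs_add_le _ _).trans ((add_le_add (hxx z z.1 z.1 (Or.inl rfl) (Or.inl rfl))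
      (hxc z)).trans hfin3)
  · rw [(second_ab a β z).2.1]
    exact (hxx z z.2 z.1 (Or.inr rfl) (Or.inl rfl)).trans hfin2
  · rw [dy_ab]
    exact (hx z z.2 (Or.inr rfl)).trans hfin1
  · rw [(second_ab a β z).2.2.1]
    exact (hxx z z.1 z.2 (Or.inl rfl) (Or.inr rfl)).trans hfin2
  · rw [(second_ab a β z).2.2.2]
    refine (abs_add_le _ _).trans ((add_le_add (hxx z z.2 z.2 (Or.inr rfl) (Or.inr rfl))
      (hxc z)).trans hfin3)

/-! ### exponentials -/

theorem Bd_const_mul {U : Set (ℝ × ℝ)} {f : ℝ × ℝ → ℝ} {C : ℝ} (c : ℝ) (k : ℕ)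
    (hf : ContDiff ℝ ∞ f) (h : Bd U k C f) : Bd U k (|c| * C) (fun z => c * f z) := by
  induction k generalizing f with
  | zero =>
    intro z hz
    rw [abs_mul]
    exact mul_le_mul_of_nonneg_left (h z hz) (abs_nonneg c)
  | succ k ih =>
    have hd : ∀ z, DifferentiableAt ℝ f z := fun z => hf.differentiable (by simp) z
    have e1 : dx (fun z => c * f z) = fun z => c * dx f z := by
      funext z; exact dx_const_mul c (hd z)
    have e2 : dy (fun z => c * f z) = fun z => c * dy f z := by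
      funext z; exact dy_const_mul c (hd z)
    refine ⟨fun z hz => ?_, ?_, ?_⟩
    · rw [abs_mul]
      exact mul_le_mul_of_nonneg_left (h.1 z hz) (abs_nonneg c)
    · rw [e1]; exact ih (contDiff_dx hf) h.2.1
    · rw [e2]; exact ih (contDiff_dy hf) h.2.2

theorem exp_sub_le {p q : ℝ} (hp : p ≤ 0) (hq : q ≤ 0) : |Real.exp p - Real.exp q| ≤ |p - q| := by
  have key : ∀ p q : ℝ, p ≤ 0 → q ≤ p → Real.exp p - Real.exp q ≤ p - q := by
    intro p q hp hqp
    have h1 : Real.exp q = Real.exp p * Real.exp (q - p) := by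
      rw [← Real.exp_add]; congr 1; ring
    have h2 := Real.add_one_le_exp (q - p)
    have h3 := Real.exp_pos p
    have h4 : Real.exp p ≤ 1 := Real.exp_le_one_iff.2 hp
    have h5 : 0 ≤ p - q := by linarith
    rw [h1]
    nlinarith
  rcases le_total q p with h | h
  · rw [abs_of_nonneg (sub_nonneg.2 (Real.exp_le_exp.2 h)), abs_of_nonneg (sub_nonneg.2 h)]
    exact key p q hp h
  · rw [abs_sub_comm, abs_sub_comm p q, abs_of_nonneg (sub_nonneg.2 (Real.exp_le_exp.2 h)),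
      abs_of_nonneg (sub_nonneg.2 h)]
    exact key q p hq h

theorem exp_sub_ge {p q : ℝ} (hpq : 0 ≤ p - q) (hq : -(1 / 2) ≤ q) :
    (p - q) / 2 ≤ Real.exp p - Real.exp q := by
  have h1 : Real.exp p = Real.exp q * Real.exp (p - q) := by
    rw [← Real.exp_add]; congr 1; ring
  have h2 := Real.add_one_le_exp (p - q)
  have h3 := Real.add_one_le_exp q
  have h4 : 1 / 2 ≤ Real.exp q := by linarith
  rw [h1]
  nlinarith

theorem dx_exp {u : ℝ × ℝ → ℝ} (hu : ContDiff ℝ ∞ u) :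
    dx (fun z => Real.exp (u z)) = fun z => Real.exp (u z) * dx u z := by
  funext z
  exact dx_comp (φ := Real.exp) (Real.hasDerivAt_exp (u z)) (hu.differentiable (by simp) z)

theorem dy_exp {u : ℝ × ℝ → ℝ} (hu : ContDiff ℝ ∞ u) :
    dy (fun z => Real.exp (u z)) = fun z => Real.exp (u z) * dy u z := by
  funext z
  exact dy_comp (φ := Real.exp) (Real.hasDerivAt_exp (u z)) (hu.differentiable (by simp) z)

theorem exp_Bd (k : ℕ) : ∃ C : ℝ, 0 < C ∧ ∀ u : ℝ × ℝ → ℝ, ContDiff ℝ ∞ u → (∀ z, u z ≤ 0) →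
    Bd univ k 1 u → Bd univ k C (fun z => Real.exp (u z)) := by
  induction k with
  | zero =>
    refine ⟨1, one_pos, fun u hu h0 hb z _ => ?_⟩
    rw [abs_of_pos (Real.exp_pos _)]
    exact Real.exp_le_one_iff.2 (h0 z)
  | succ k ih =>
    obtain ⟨C, hC, ih⟩ := ih
    refine ⟨max 1 (2 ^ k * C * 1), lt_max_of_lt_left one_pos, fun u hu h0 hb => ?_⟩
    have h1 := ih u hu h0 (hb.of_le (Nat.le_succ k))
    have su : Sm univ (fun z => Real.exp (u z)) := Sm.of_contDiff hu.exp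
    refine ⟨fun z _ => ?_, ?_, ?_⟩
    · rw [abs_of_pos (Real.exp_pos _)]
      exact (Real.exp_le_one_iff.2 (h0 z)).trans (le_max_left _ _)
    · rw [dx_exp hu]
      exact (Bd.mul isOpen_univ su (Sm.of_contDiff (contDiff_dx hu)) h1 hb.dx).mono subset_rfl
        (le_max_right _ _)
    · rw [dy_exp hu]
      exact (Bd.mul isOpen_univ su (Sm.of_contDiff (contDiff_dy hu)) h1 hb.dy).mono subset_rfl
        (le_max_right _ _)

theorem expdiff_Bd (k : ℕ) : ∃ C : ℝ, 1 ≤ C ∧ ∀ (u v : ℝ × ℝ → ℝ) (S : ℝ), ContDiff ℝ ∞ u →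
    ContDiff ℝ ∞ v → (∀ z, u z ≤ 0) → (∀ z, v z ≤ 0) → 0 ≤ S → Bd univ k 1 u → Bd univ k 1 v →
    Bd univ k S (fun z => u z - v z) →
    Bd univ k (C * S) (fun z => Real.exp (u z) - Real.exp (v z)) := by
  induction k with
  | zero =>
    refine ⟨1, le_rfl, fun u v S hu hv h0 h0' hS hb hb' hd z hz => ?_⟩
    rw [one_mul]
    exact (exp_sub_le (h0 z) (h0' z)).trans (hd z hz)
  | succ k ih =>
    obtain ⟨C, hC, ih⟩ := ih
    obtain ⟨E, hE, hexp⟩ := exp_Bd k
    refine ⟨1 + 2 ^ k * E + 2 ^ k * C, ?_, fun u v S hu hv h0 h0' hS hb hb' hd => ?_⟩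
    · have : 0 ≤ 2 ^ k * E + 2 ^ k * C := by positivity
      linarith
    have hw := ih u v S hu hv h0 h0' hS (hb.of_le (Nat.le_succ k)) (hb'.of_le (Nat.le_succ k))
      (hd.of_le (Nat.le_succ k))
    have he := hexp u hu h0 (hb.of_le (Nat.le_succ k))
    have cd : ContDiff ℝ ∞ (fun z => u z - v z) := hu.sub hv
    have cw : ContDiff ℝ ∞ (fun z => Real.exp (u z) - Real.exp (v z)) := hu.exp.sub hv.exp
    have ud : ∀ z, DifferentiableAt ℝ u z := fun z => hu.differentiable (by simp) z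
    have vd : ∀ z, DifferentiableAt ℝ v z := fun z => hv.differentiable (by simp) z
    have eud : ∀ z, DifferentiableAt ℝ (fun z => Real.exp (u z)) z :=
      fun z => hu.exp.differentiable (by simp) z
    have evd : ∀ z, DifferentiableAt ℝ (fun z => Real.exp (v z)) z :=
      fun z => hv.exp.differentiable (by simp) z
    have hbound : 2 ^ k * E * S + 2 ^ k * (C * S) * 1 ≤ (1 + 2 ^ k * E + 2 ^ k * C) * S := by
      nlinarith
    refine ⟨fun z hz => ?_, ?_, ?_⟩
    · have h1 := (exp_sub_le (h0 z) (h0' z)).trans (hd.1 z hz)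
      refine h1.trans ?_
      have : 0 ≤ (2 ^ k * E + 2 ^ k * C) * S := by positivity
      nlinarith
    · have e1 : dx (fun z => Real.exp (u z) - Real.exp (v z)) = fun z =>
          Real.exp (u z) * dx (fun z => u z - v z) z
            + (Real.exp (u z) - Real.exp (v z)) * dx v z := by
        funext z
        rw [dx_sub (eud z) (evd z), dx_sub (ud z) (vd z), dx_exp hu, dx_exp hv]
        ring
      rw [e1]
      exact (Bd.add isOpen_univ
        ((Sm.of_contDiff hu.exp).mul (Sm.of_contDiff (contDiff_dx cd)))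
        ((Sm.of_contDiff cw).mul (Sm.of_contDiff (contDiff_dx hv)))
        (Bd.mul isOpen_univ (Sm.of_contDiff hu.exp) (Sm.of_contDiff (contDiff_dx cd)) he hd.dx)
        (Bd.mul isOpen_univ (Sm.of_contDiff cw) (Sm.of_contDiff (contDiff_dx hv)) hw hb'.dx)).mono
        subset_rfl hbound
    · have e1 : dy (fun z => Real.exp (u z) - Real.exp (v z)) = fun z =>
          Real.exp (u z) * dy (fun z => u z - v z) z
            + (Real.exp (u z) - Real.exp (v z)) * dy v z := by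
        funext z
        rw [dy_sub (eud z) (evd z), dy_sub (ud z) (vd z), dy_exp hu, dy_exp hv]
        ring
      rw [e1]
      exact (Bd.add isOpen_univ
        ((Sm.of_contDiff hu.exp).mul (Sm.of_contDiff (contDiff_dy cd)))
        ((Sm.of_contDiff cw).mul (Sm.of_contDiff (contDiff_dy hv)))
        (Bd.mul isOpen_univ (Sm.of_contDiff hu.exp) (Sm.of_contDiff (contDiff_dy cd)) he hd.dy)
        (Bd.mul isOpen_univ (Sm.of_contDiff cw) (Sm.of_contDiff (contDiff_dy hv)) hw hb'.dy)).mono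
        subset_rfl hbound

/-! ### sums of annular bumps -/

/-- sum of the bumps indexed by `σ` -/
noncomputable def bs (b β : ℝ) (σ : Finset ℕ) (z : ℝ × ℝ) : ℝ :=
  ∑ i ∈ σ, ab (b ^ 2 / 4 + i * β) β z

theorem bs_contDiff (b β : ℝ) (σ : Finset ℕ) : ContDiff ℝ ∞ (bs b β σ) := by
  unfold bs
  exact ContDiff.sum fun i _ => ab_contDiff _ _

theorem bs_Bd {b β C : ℝ} {k : ℕ} (σ : Finset ℕ)
    (h : ∀ i ∈ σ, Bd univ k C (ab (b ^ 2 / 4 + i * β) β)) :
    Bd univ k (σ.card * C) (bs b β σ) := by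
  induction σ using Finset.induction_on with
  | empty =>
    have e : bs b β ∅ = fun _ => 0 := by funext z; simp [bs]
    rw [e]
    exact Bd.const (by simp)
  | insert i σ hi ih =>
    have e : bs b β (insert i σ) = fun z => ab (b ^ 2 / 4 + i * β) β z + bs b β σ z := by
      funext z; simp only [bs]; rw [Finset.sum_insert hi]
    rw [e, Finset.card_insert_of_notMem hi]
    refine (Bd.add isOpen_univ (Sm.of_contDiff (ab_contDiff _ _))
      (Sm.of_contDiff (bs_contDiff b β σ)) (h i (Finset.mem_insert_self i σ))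
      (ih fun j hj => h j (Finset.mem_insert_of_mem hj))).mono subset_rfl ?_
    push_cast
    linarith

theorem bs_iterated {b β C : ℝ} {n : ℕ} (σ : Finset ℕ) (z : ℝ × ℝ)
    (h : ∀ i ∈ σ, ‖iteratedFDeriv ℝ n (ab (b ^ 2 / 4 + i * β) β) z‖ ≤ C) :
    ‖iteratedFDeriv ℝ n (bs b β σ) z‖ ≤ σ.card * C := by
  have e : bs b β σ = fun z => ∑ i ∈ σ, ab (b ^ 2 / 4 + i * β) β z := rfl
  rw [e, iteratedFDeriv_fun_sum_apply (fun i _ =>
    ((ab_contDiff _ _).contDiffAt.of_le (by exact_mod_cast le_top)))]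
  refine (norm_sum_le _ _).trans ?_
  refine (Finset.sum_le_sum h).trans ?_
  simp

theorem bs_low {b β : ℝ} {K : ℕ} (hβ : 0 < β) (hK : K * β = 3 * b ^ 2 / 4) {σ σ' : Finset ℕ}
    (hσ : σ ⊆ Finset.range K) (hσ' : σ' ⊆ Finset.range K) (hne : σ ≠ σ') :
    ∃ a sg : ℝ, (sg = 1 ∨ sg = -1) ∧ b ^ 2 / 4 ≤ a ∧ a + β ≤ b ^ 2 ∧
      ∀ z, a ≤ rr z → bs b β σ z - bs b β σ' z = sg * ab a β z := by
  classical
  have hD : (symmDiff σ σ').Nonempty := by
    rw [Finset.nonempty_iff_ne_empty]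
    intro h
    exact hne (symmDiff_eq_bot.1 h)
  obtain ⟨i, hi, hmax⟩ := Finset.exists_max_image (symmDiff σ σ') id hD
  have hiK : i < K := by
    rw [Finset.mem_symmDiff] at hi
    rcases hi with h | h
    · exact Finset.mem_range.1 (hσ h.1)
    · exact Finset.mem_range.1 (hσ' h.1)
  have hiK' : (i : ℝ) + 1 ≤ K := by exact_mod_cast hiK
  have hexp : ∀ τ ⊆ Finset.range K, ∀ z, bs b β τ z =
      ∑ j ∈ Finset.range K, if j ∈ τ then ab (b ^ 2 / 4 + j * β) β z else 0 := by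
    intro τ hτ z
    rw [← Finset.sum_filter]
    unfold bs
    congr 1
    ext j
    simp only [Finset.mem_filter]
    exact ⟨fun h => ⟨hτ h, h⟩, fun h => h.2⟩
  refine ⟨b ^ 2 / 4 + i * β, if i ∈ σ then 1 else -1, ?_, ?_, ?_, ?_⟩
  · by_cases h : i ∈ σ <;> simp [h]
  · have : 0 ≤ (i : ℝ) * β := by positivity
    linarith
  · have : ((i : ℝ) + 1) * β ≤ K * β := by gcongr
    linarith
  · intro z hz
    rw [hexp σ hσ z, hexp σ' hσ' z, ← Finset.sum_sub_distrib]
    rw [Finset.sum_eq_single i]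
    · rw [Finset.mem_symmDiff] at hi
      rcases hi with h | h
      · simp [h.1, h.2]
      · simp [h.1, h.2]
    · intro j hj hji
      rcases lt_or_gt_of_ne hji with h | h
      · have h1 : (j : ℝ) + 1 ≤ i := by exact_mod_cast h
        have h2 : ((j : ℝ) + 1) * β ≤ i * β := by gcongr
        have h3 : ab (b ^ 2 / 4 + j * β) β z = 0 := ab_out hβ (by linarith)
        simp [h3]
      · have h1 : j ∉ symmDiff σ σ' := by
          intro hm
          have := hmax j hm
          simp only [id] at this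
          omega
        have h2 : j ∈ σ ↔ j ∈ σ' := by
          rw [Finset.mem_symmDiff] at h1
          tauto
        by_cases h3 : j ∈ σ
        · simp [h3, h2.1 h3]
        · have h4 : j ∉ σ' := fun h => h3 (h2.2 h)
          simp [h3, h4]
    · intro h
      exact absurd (Finset.mem_range.2 hiK) h

theorem bs_out {b β : ℝ} {K : ℕ} (hβ : 0 < β) (hK : K * β = 3 * b ^ 2 / 4) {σ : Finset ℕ}
    (hσ : σ ⊆ Finset.range K) {z : ℝ × ℝ} (hz : b ^ 2 ≤ rr z) : bs b β σ z = 0 := by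
  unfold bs
  refine Finset.sum_eq_zero fun i hi => ab_out hβ ?_
  have hiK : i < K := Finset.mem_range.1 (hσ hi)
  have hiK' : (i : ℝ) + 1 ≤ K := by exact_mod_cast hiK
  have : ((i : ℝ) + 1) * β ≤ K * β := by gcongr
  linarith

theorem bs_zero {b β : ℝ} (hβ : 0 < β) (σ : Finset ℕ) : bs b β σ 0 = 0 := by
  unfold bs
  refine Finset.sum_eq_zero fun i _ => ab_in hβ ?_
  have : rr 0 = 0 := by simp [rr]
  rw [this]
  positivity

theorem bs_nonneg (b β : ℝ) (σ : Finset ℕ) (z : ℝ × ℝ) : 0 ≤ bs b β σ z :=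
  Finset.sum_nonneg fun _ _ => ab_nonneg _ _ _

theorem bs_le_card (b β : ℝ) (σ : Finset ℕ) (z : ℝ × ℝ) : bs b β σ z ≤ σ.card := by
  unfold bs
  refine (Finset.sum_le_sum fun i _ => ab_le_one _ _ _).trans ?_
  simp

/-! ### the base profile -/

/-- polynomial part -/
noncomputable def pb (z : ℝ × ℝ) : ℝ := -(rr z) ^ 2 / 16 + rr z / 4 - 1

theorem pb_contDiff : ContDiff ℝ ∞ pb := by
  unfold pb rr
  fun_prop

/-- base profile -/
noncomputable def base (z : ℝ × ℝ) : ℝ := cut (rr z) * pb z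

theorem base_contDiff : ContDiff ℝ ∞ base :=
  (cut_contDiff.comp rr_contDiff).mul pb_contDiff

theorem base_out {z : ℝ × ℝ} (h : 4 ≤ rr z) : base z = 0 := by
  unfold base; rw [cut_zero h, zero_mul]

theorem base_in {z : ℝ × ℝ} (h : rr z ≤ 9 / 4) : base z = pb z := by
  unfold base; rw [cut_one h, one_mul]

theorem pb_le (z : ℝ × ℝ) : pb z ≤ -(3 / 4) := by
  unfold pb
  nlinarith [sq_nonneg (rr z / 4 - 1 / 2)]

theorem base_le (z : ℝ × ℝ) : base z ≤ 0 := by
  unfold base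
  have := pb_le z
  have := cut_nonneg (rr z)
  nlinarith

theorem base_compact : HasCompactSupport base := by
  refine HasCompactSupport.intro (K := Metric.closedBall (0 : ℝ × ℝ) 2)
    (isCompact_closedBall _ _) ?_
  intro z hz
  apply base_out
  by_contra h
  apply hz
  rw [not_le] at h
  unfold rr at h
  rw [mem_closedBall_zero_iff, Prod.norm_def]
  refine max_le ?_ ?_
  · rw [Real.norm_eq_abs, abs_le]
    constructor <;> nlinarith [sq_nonneg z.2]
  · rw [Real.norm_eq_abs, abs_le]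
    constructor <;> nlinarith [sq_nonneg z.1]

theorem lap_pb (z : ℝ × ℝ) : dx (dx pb) z + dy (dy pb) z = 1 - rr z := by
  have hr : ∀ z, DifferentiableAt ℝ rr z := fun z => rr_contDiff.differentiable (by simp) z
  have e : pb = fun z => (-1 / 16) * rr z ^ 2 + ((1 / 4) * rr z + (-1)) := by
    funext z; unfold pb; ring
  have hr2 : ∀ z, DifferentiableAt ℝ (fun w => rr w ^ 2) z := fun z => (hr z).pow 2
  have e1 : dx pb = fun z => (-1 / 4) * (rr z * z.1) + (1 / 2) * z.1 := by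
    funext z
    rw [e, dx_add ((hr2 z).const_mul _) (((hr z).const_mul _).add_const _),
      dx_const_mul _ (hr2 z), dx_pow 2 (hr z),
      dx_add ((hr z).const_mul _) (differentiableAt_const _), dx_const_mul _ (hr z), dx_rr,
      dx_const]
    norm_num
    ring
  have e2 : dy pb = fun z => (-1 / 4) * (rr z * z.2) + (1 / 2) * z.2 := by
    funext z
    rw [e, dy_add ((hr2 z).const_mul _) (((hr z).const_mul _).add_const _),
      dy_const_mul _ (hr2 z), dy_pow 2 (hr z),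
      dy_add ((hr z).const_mul _) (differentiableAt_const _), dy_const_mul _ (hr z), dy_rr,
      dy_const]
    norm_num
    ring
  have f1 : DifferentiableAt ℝ (fun w : ℝ × ℝ => w.1) z := by fun_prop
  have f2 : DifferentiableAt ℝ (fun w : ℝ × ℝ => w.2) z := by fun_prop
  have g1 : DifferentiableAt ℝ (fun w : ℝ × ℝ => rr w * w.1) z := (hr z).mul f1
  have g2 : DifferentiableAt ℝ (fun w : ℝ × ℝ => rr w * w.2) z := (hr z).mul f2
  rw [e1, e2, dx_add (g1.const_mul _) (f1.const_mul _),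
    dx_const_mul _ g1, dx_const_mul _ f1, dx_mul (hr z) f1,
    dy_add (g2.const_mul _) (f2.const_mul _),
    dy_const_mul _ g2, dy_const_mul _ f2, dy_mul (hr z) f2,
    dx_rr, dy_rr, dx_fst, dy_snd]
  unfold rr
  ring

theorem lap_base {z : ℝ × ℝ} (h : rr z < 9 / 4) :
    dx (dx base) z + dy (dy base) z = 1 - rr z := by
  have hU : IsOpen {z : ℝ × ℝ | rr z < 9 / 4} := isOpen_lt rr_contDiff.continuous continuous_const
  have h0 : ∀ w ∈ {z : ℝ × ℝ | rr z < 9 / 4}, base w = pb w := by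
    intro w hw
    have hw' : rr w < 9 / 4 := hw
    exact base_in hw'.le
  rw [← lap_pb z, dx_congr hU (fun w hw => dx_congr hU h0 hw) h,
    dy_congr hU (fun w hw => dy_congr hU h0 hw) h]

/-! ### the profiles -/

/-- the profile attached to `σ` -/
noncomputable def pr (δ amp b β : ℝ) (σ : Finset ℕ) (z : ℝ × ℝ) : ℝ :=
  δ * base z + amp * bs b β σ z

theorem pr_contDiff (δ amp b β : ℝ) (σ : Finset ℕ) : ContDiff ℝ ∞ (pr δ amp b β σ) :=
  (contDiff_const.mul base_contDiff).add (contDiff_const.mul (bs_contDiff b β σ))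

theorem pr_iterated {δ amp b β : ℝ} (hδ : 0 ≤ δ) (ha : 0 ≤ amp) (σ : Finset ℕ) (i : ℕ)
    (z : ℝ × ℝ) : ‖iteratedFDeriv ℝ i (pr δ amp b β σ) z‖ ≤
      δ * ‖iteratedFDeriv ℝ i base z‖ + amp * ‖iteratedFDeriv ℝ i (bs b β σ) z‖ := by
  have e : pr δ amp b β σ = (δ • base) + (amp • bs b β σ) := by
    funext w
    simp [pr]
  have c1 : ContDiffAt ℝ i base z := base_contDiff.contDiffAt.of_le (by exact_mod_cast le_top)
  have c2 : ContDiffAt ℝ i (bs b β σ) z :=
    (bs_contDiff b β σ).contDiffAt.of_le (by exact_mod_cast le_top)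
  have c3 : ContDiffAt ℝ i (δ • base) z := c1.const_smul δ
  have c4 : ContDiffAt ℝ i (amp • bs b β σ) z := c2.const_smul amp
  rw [e, iteratedFDeriv_add_apply c3 c4,
    iteratedFDeriv_const_smul_apply c1, iteratedFDeriv_const_smul_apply c2]
  refine (norm_add_le _ _).trans ?_
  rw [norm_smul, norm_smul, Real.norm_eq_abs, Real.norm_eq_abs, abs_of_nonneg hδ,
    abs_of_nonneg ha]

theorem pr_out2 {δ amp b β : ℝ} {K : ℕ} (hb : 0 < b) (hb1 : b ≤ 1) (hβ : 0 < β)
    (hK : K * β = 3 * b ^ 2 / 4)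
    {σ : Finset ℕ} (hσ : σ ⊆ Finset.range K) {z : ℝ × ℝ} (hz : z ∉ disc 2) :
    pr δ amp b β σ z = 0 := by
  have h1 : 4 ≤ rr z := by
    unfold disc at hz
    simp only [Set.mem_ofPred_eq, not_lt] at hz
    unfold rr
    linarith
  unfold pr
  rw [base_out h1, bs_out hβ hK hσ (by nlinarith)]
  ring

theorem pr_isl {CB X δ amp b β : ℝ} {K : ℕ} (hb : 0 < b) (hb1 : b ≤ 1) (hβ : 0 < β)
    (hK : K * β = 3 * b ^ 2 / 4) (hδ : 0 < δ) (ha : 0 ≤ amp)
    (hCB : ∀ i ≤ 3, ∀ z, ‖iteratedFDeriv ℝ i base z‖ ≤ CB)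
    {σ : Finset ℕ} (hσ : σ ⊆ Finset.range K)
    (hX : ∀ i ≤ 3, ∀ z, ‖iteratedFDeriv ℝ i (bs b β σ) z‖ ≤ X) (hXa : amp * X ≤ δ / 200) :
    Isl (CB + 1) δ b (pr δ amp b β σ) := by
  have hBs : Bd univ 3 X (bs b β σ) := Bd_of_iterated (bs_contDiff b β σ) hX
  have hbs0 : ∀ z, amp * bs b β σ z ≤ δ / 200 := by
    intro z
    have h1 := hBs.bound (mem_univ z)
    have h2 := le_abs_self (bs b β σ z)
    calc amp * bs b β σ z ≤ amp * X := by gcongr; linarith
      _ ≤ _ := hXa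
  refine ⟨pr_contDiff δ amp b β σ, ?_, ?_, ?_, ?_, ?_⟩
  · intro z
    unfold pr
    by_cases hz : rr z ≤ b ^ 2
    · have h1 := hbs0 z
      rw [base_in (by nlinarith)]
      have h2 := pb_le z
      nlinarith
    · rw [bs_out hβ hK hσ (not_le.1 hz).le]
      have := base_le z
      nlinarith
  · have h0 : rr 0 = 0 := by simp [rr]
    unfold pr
    rw [bs_zero hβ, base_in (by rw [h0]; norm_num)]
    unfold pb
    rw [h0]
    ring
  · refine Bd_of_iterated (pr_contDiff δ amp b β σ) ?_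
    intro i hi z
    refine (pr_iterated hδ.le ha σ i z).trans ?_
    have h1 : δ * ‖iteratedFDeriv ℝ i base z‖ ≤ δ * CB := by
      gcongr
      exact hCB i hi z
    have h2 : amp * ‖iteratedFDeriv ℝ i (bs b β σ) z‖ ≤ amp * X := by
      gcongr
      exact hX i hi z
    linarith
  · intro z hz1 hz2
    have h1 : b ^ 2 ≤ rr z := hz1
    have h2 : rr z < 9 / 4 := hz2
    unfold pr
    rw [bs_out hβ hK hσ h1, base_in h2.le]
    unfold pb rr
    ring
  · intro z hz
    have h1 : rr z ≤ b ^ 2 := hz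
    have h2 : rr z < 9 / 4 := by nlinarith
    have bd : ∀ z, DifferentiableAt ℝ base z := fun z => base_contDiff.differentiable (by simp) z
    have sd : ∀ z, DifferentiableAt ℝ (bs b β σ) z :=
      fun z => (bs_contDiff b β σ).differentiable (by simp) z
    have bdx : ∀ z, DifferentiableAt ℝ (dx base) z :=
      fun z => (contDiff_dx base_contDiff).differentiable (by simp) z
    have bdy : ∀ z, DifferentiableAt ℝ (dy base) z :=
      fun z => (contDiff_dy base_contDiff).differentiable (by simp) z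
    have sdx : ∀ z, DifferentiableAt ℝ (dx (bs b β σ)) z :=
      fun z => (contDiff_dx (bs_contDiff b β σ)).differentiable (by simp) z
    have sdy : ∀ z, DifferentiableAt ℝ (dy (bs b β σ)) z :=
      fun z => (contDiff_dy (bs_contDiff b β σ)).differentiable (by simp) z
    have e0 : pr δ amp b β σ = fun z => δ * base z + amp * bs b β σ z := rfl
    have e1 : dx (pr δ amp b β σ) = fun z => δ * dx base z + amp * dx (bs b β σ) z := by
      funext w
      rw [e0, dx_add ((bd w).const_mul _) ((sd w).const_mul _), dx_const_mul _ (bd w),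
        dx_const_mul _ (sd w)]
    have e2 : dy (pr δ amp b β σ) = fun z => δ * dy base z + amp * dy (bs b β σ) z := by
      funext w
      rw [e0, dy_add ((bd w).const_mul _) ((sd w).const_mul _), dy_const_mul _ (bd w),
        dy_const_mul _ (sd w)]
    have e3 : dx (dx (pr δ amp b β σ)) z = δ * dx (dx base) z + amp * dx (dx (bs b β σ)) z := by
      rw [e1, dx_add ((bdx z).const_mul _) ((sdx z).const_mul _), dx_const_mul _ (bdx z),
        dx_const_mul _ (sdx z)]
    have e4 : dy (dy (pr δ amp b β σ)) z = δ * dy (dy base) z + amp * dy (dy (bs b β σ)) z := by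
      rw [e2, dy_add ((bdy z).const_mul _) ((sdy z).const_mul _), dy_const_mul _ (bdy z),
        dy_const_mul _ (sdy z)]
    have hl := lap_base h2
    have h3 : |dx (dx (bs b β σ)) z| ≤ X := hBs.dx.dx.bound (mem_univ z)
    have h4 : |dy (dy (bs b β σ)) z| ≤ X := hBs.dy.dy.bound (mem_univ z)
    have e5 : dx (dx (pr δ amp b β σ)) z + dy (dy (pr δ amp b β σ)) z
        + δ * (z.1 ^ 2 + z.2 ^ 2 - 1)
        = amp * dx (dx (bs b β σ)) z + amp * dy (dy (bs b β σ)) z := by
      rw [e3, e4]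
      have : dx (dx base) z = 1 - rr z - dy (dy base) z := by linarith
      rw [this]
      unfold rr
      ring
    rw [e5]
    refine (abs_add_le _ _).trans ?_
    rw [abs_mul, abs_mul, abs_of_nonneg ha]
    have h5 : amp * |dx (dx (bs b β σ)) z| ≤ amp * X := by gcongr
    have h6 : amp * |dy (dy (bs b β σ)) z| ≤ amp * X := by gcongr
    linarith

theorem pr_radial (δ amp b β : ℝ) (σ : Finset ℕ) : Radial (pr δ amp b β σ) := by
  intro z w h
  have h' : rr z = rr w := h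
  simp only [pr, base, pb, bs, ab, h']

theorem pr_bump {E G CB δ amp b β : ℝ} {K : ℕ} (hb : 0 < b) (hb1 : b ≤ 1) (hβ : 0 < β)
    (hK : K * β = 3 * b ^ 2 / 4) (ha : 0 ≤ amp) (hCB : (CB + 1) * δ ≤ 1 / 4)
    (hG : ∀ a β b : ℝ, 0 < b → b ≤ 1 → 0 < β → β ≤ b ^ 2 →
      a + β ≤ b ^ 2 → Bd univ 2 (G * (b / β) ^ 2) (ab a β)) (hG0 : 0 ≤ G)
    (hE : ∀ (u v : ℝ × ℝ → ℝ) (S : ℝ), ContDiff ℝ ∞ u →
      ContDiff ℝ ∞ v → (∀ z, u z ≤ 0) → (∀ z, v z ≤ 0) → 0 ≤ S → Bd univ 2 1 u → Bd univ 2 1 v →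
      Bd univ 2 S (fun z => u z - v z) →
      Bd univ 2 (E * S) (fun z => Real.exp (u z) - Real.exp (v z)))
    {σ σ' : Finset ℕ} (hσ : σ ⊆ Finset.range K) (hσ' : σ' ⊆ Finset.range K) (hne : σ ≠ σ')
    (hI : Isl (CB + 1) δ b (pr δ amp b β σ)) (hI' : Isl (CB + 1) δ b (pr δ amp b β σ')) :
    BumpDiff amp (E * (4 * amp * K * G * (b / β) ^ 2)) b β
      (fun z => Real.exp (2 * pr δ amp b β σ z) - Real.exp (2 * pr δ amp b β σ' z)) := by
  have hβb : β ≤ b ^ 2 ∨ K = 0 := by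
    rcases Nat.eq_zero_or_pos K with h | h
    · exact Or.inr h
    · left
      have : (1 : ℝ) ≤ K := by exact_mod_cast h
      nlinarith
  have hK0 : K ≠ 0 := by
    intro h
    rw [h] at hK
    simp only [Nat.cast_zero, zero_mul] at hK
    nlinarith [sq_pos_of_pos hb]
  have hβb : β ≤ b ^ 2 := hβb.resolve_right hK0
  have c : ∀ σ, ContDiff ℝ ∞ (fun z => 2 * pr δ amp b β σ z) :=
    fun σ => contDiff_const.mul (pr_contDiff δ amp b β σ)
  have hbd1 : ∀ σ, Isl (CB + 1) δ b (pr δ amp b β σ) →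
      Bd univ 2 1 (fun z => 2 * pr δ amp b β σ z) := by
    intro σ h
    refine (Bd_const_mul 2 2 (pr_contDiff δ amp b β σ) (h.bd.of_le (by norm_num))).mono
      subset_rfl ?_
    rw [abs_of_pos (by norm_num : (0 : ℝ) < 2)]
    linarith
  have hcard : ∀ σ ⊆ Finset.range K, (σ.card : ℝ) ≤ K := by
    intro σ h
    have := Finset.card_le_card h
    rw [Finset.card_range] at this
    exact_mod_cast this
  have hbs : ∀ σ ⊆ Finset.range K, Bd univ 2 (K * (G * (b / β) ^ 2)) (bs b β σ) := by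
    intro σ h
    refine (bs_Bd σ (k := 2) (C := G * (b / β) ^ 2) ?_).mono subset_rfl ?_
    · intro i hi
      refine hG _ β b hb hb1 hβ hβb ?_
      have hiK : i < K := Finset.mem_range.1 (h hi)
      have hiK' : (i : ℝ) + 1 ≤ K := by exact_mod_cast hiK
      have : ((i : ℝ) + 1) * β ≤ K * β := by gcongr
      linarith
    · have := hcard σ h
      gcongr
  have hdiff : Bd univ 2 (4 * amp * K * G * (b / β) ^ 2)
      (fun z => 2 * pr δ amp b β σ z - 2 * pr δ amp b β σ' z) := by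
    have h1 := Bd.sub isOpen_univ (Sm.of_contDiff (bs_contDiff b β σ))
      (Sm.of_contDiff (bs_contDiff b β σ')) (hbs σ hσ) (hbs σ' hσ')
    have h2 := Bd_const_mul (2 * amp) 2 ((bs_contDiff b β σ).sub (bs_contDiff b β σ')) h1
    refine Bd.congr isOpen_univ (fun z _ => ?_) (h2.mono subset_rfl ?_)
    · simp only [pr]; ring
    · rw [abs_of_nonneg (by positivity)]
      apply le_of_eq
      ring
  refine ⟨?_, ?_, ?_, ?_⟩
  · exact (c σ).exp.sub (c σ').exp
  · intro z hz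
    have h1 : b ^ 2 ≤ rr z := by
      unfold disc at hz
      simp only [Set.mem_ofPred_eq, not_lt] at hz
      exact hz
    simp only [pr]
    rw [bs_out hβ hK hσ h1, bs_out hβ hK hσ' h1, sub_self]
  · exact hE _ _ _ (c σ) (c σ') (fun z => by have := hI.le0 z; linarith)
      (fun z => by have := hI'.le0 z; linarith) (by positivity) (hbd1 σ hI) (hbd1 σ' hI') hdiff
  · obtain ⟨a, sg, hsg, ha1, ha2, hab⟩ := bs_low hβ hK hσ hσ' hne
    have hlow : ∀ σ, Isl (CB + 1) δ b (pr δ amp b β σ) → ∀ z,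
        -(1 / 2) ≤ 2 * pr δ amp b β σ z := by
      intro σ h z
      have := h.bd.bound (mem_univ z)
      have := neg_abs_le (pr δ amp b β σ z)
      linarith
    have key : ∀ z, a ≤ rr z → amp * ab a β z ≤
        sg * (Real.exp (2 * pr δ amp b β σ z) - Real.exp (2 * pr δ amp b β σ' z)) := by
      intro z hz
      have h1 := hab z hz
      have h2 : 0 ≤ amp * ab a β z := mul_nonneg ha (ab_nonneg _ _ _)
      have h3 : 2 * pr δ amp b β σ z - 2 * pr δ amp b β σ' z = 2 * (sg * (amp * ab a β z)) := by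
        have : 2 * pr δ amp b β σ z - 2 * pr δ amp b β σ' z
            = 2 * amp * (bs b β σ z - bs b β σ' z) := by
          simp only [pr]; ring
        rw [this, h1]; ring
      rcases hsg with h | h
      · rw [h] at h3 ⊢
        have h4 := exp_sub_ge (p := 2 * pr δ amp b β σ z) (q := 2 * pr δ amp b β σ' z)
          (by rw [h3]; linarith) (hlow σ' hI' z)
        rw [h3] at h4
        linarith
      · rw [h] at h3 ⊢
        have h4 := exp_sub_ge (p := 2 * pr δ amp b β σ' z) (q := 2 * pr δ amp b β σ z)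
          (by linarith) (hlow σ hI z)
        linarith
    refine ⟨a, sg, hsg, ha1, ha2, ?_, ?_⟩
    · intro z hz
      exact (mul_nonneg ha (ab_nonneg _ _ _)).trans (key z hz)
    · intro z hz1 hz2
      have h1 : ab a β z = 1 := ab_mid hβ hz1 hz2
      have h2 := key z (by
        have : a + β / 4 ≤ rr z := hz1
        linarith)
      rw [h1, mul_one] at h2
      exact h2

end PatternAux

open PatternAux in
theorem patterns : ∃ Cs : ℝ, 0 < Cs ∧ ∀ (N : ℕ) (τ : ℝ), 0 < τ → ∃ δ1 : ℝ, 0 < δ1 ∧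
    ∀ δ : ℝ, 0 < δ → δ < δ1 → ∃ (k0 m : ℕ) (C2 : ℝ), 0 < C2 ∧ ∀ k : ℕ, k0 ≤ k →
    ∃ (amp : ℝ) (ψ : Finset ℕ → ℝ × ℝ → ℝ), 1 / (k : ℝ) ^ m ≤ amp ∧ amp ≤ 1 ∧
      (∀ σ ⊆ Finset.range (k ^ 8), Isl Cs δ (1 / (k : ℝ) ^ 64) (ψ σ) ∧ Radial (ψ σ) ∧
        (∀ z, z ∉ disc 2 → ψ σ z = 0) ∧
        (∀ i ≤ N, ∀ z, ‖iteratedFDeriv ℝ i (ψ σ) z‖ ≤ τ)) ∧
      (∀ σ ⊆ Finset.range (k ^ 8), ∀ σ' ⊆ Finset.range (k ^ 8), σ ≠ σ' →
        BumpDiff amp (C2 * amp * (k : ℝ) ^ 152) (1 / (k : ℝ) ^ 64) (3 / (4 * (k : ℝ) ^ 136))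
          (fun z => Real.exp (2 * ψ σ z) - Real.exp (2 * ψ σ' z))) := by
  obtain ⟨CB, hCB1, hCB⟩ := exists_bound base_contDiff base_compact 3
  refine ⟨CB + 1, by linarith, ?_⟩
  intro N τ hτ
  obtain ⟨n, hn⟩ : ∃ n, n = max N 3 := ⟨_, rfl⟩
  have hnN : N ≤ n := by omega
  have hn3 : 3 ≤ n := by omega
  obtain ⟨CN, hCN1, hCN⟩ := exists_bound base_contDiff base_compact n
  obtain ⟨A, hA1, hA⟩ := ab_iterated n
  obtain ⟨G, hG1, hG⟩ := ab_Bd2
  obtain ⟨E, hE1, hE⟩ := expdiff_Bd 2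
  refine ⟨min (τ / (2 * CN)) (1 / (4 * (CB + 1))), lt_min (by positivity)
    (by positivity), ?_⟩
  intro δ hδ hδ1
  have hδτ : δ * CN ≤ τ / 2 := by
    have h1 := hδ1.le.trans (min_le_left _ _)
    rw [le_div_iff₀ (by positivity)] at h1
    linarith
  have hδC : (CB + 1) * δ ≤ 1 / 4 := by
    have h1 := hδ1.le.trans (min_le_right _ _)
    rw [le_div_iff₀ (by positivity)] at h1
    linarith
  have hμ : 0 < min (δ / 200) (τ / 2) := lt_min (by positivity) (by positivity)
  obtain ⟨k1, hk1⟩ := exists_nat_ge (A * (4 / 3) ^ n / min (δ / 200) (τ / 2))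
  refine ⟨k1 + 1, 136 * n + 9, E * (64 / 9 * G), by positivity, ?_⟩
  intro k hk
  have hkr : (1 : ℝ) ≤ k := by
    have : 1 ≤ k := by omega
    exact_mod_cast this
  have hk0 : (0 : ℝ) < k := by linarith
  have hk1' : A * (4 / 3) ^ n ≤ min (δ / 200) (τ / 2) * k := by
    have h1 : (k1 : ℝ) ≤ k := by
      have : k1 ≤ k := by omega
      exact_mod_cast this
    have h2 := hk1.trans h1
    rw [div_le_iff₀ hμ] at h2
    linarith
  -- parameters
  obtain ⟨b, hb⟩ : ∃ b : ℝ, b = 1 / (k : ℝ) ^ 64 := ⟨_, rfl⟩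
  obtain ⟨β, hβ⟩ : ∃ β : ℝ, β = 3 / (4 * (k : ℝ) ^ 136) := ⟨_, rfl⟩
  obtain ⟨amp, hamp⟩ : ∃ amp : ℝ, amp = 1 / (k : ℝ) ^ (136 * n + 9) := ⟨_, rfl⟩
  have hb0 : 0 < b := by rw [hb]; positivity
  have hb1 : b ≤ 1 := by
    rw [hb, div_le_one (by positivity)]
    exact one_le_pow₀ hkr
  have hβ0 : 0 < β := by rw [hβ]; positivity
  have hβ1 : β ≤ 1 := by
    rw [hβ, div_le_one (by positivity)]
    have : (1 : ℝ) ≤ (k : ℝ) ^ 136 := one_le_pow₀ hkr
    linarith
  have hamp0 : 0 < amp := by rw [hamp]; positivity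
  have hamp1 : amp ≤ 1 := by
    rw [hamp, div_le_one (by positivity)]
    exact one_le_pow₀ hkr
  have hK : ((k ^ 8 : ℕ) : ℝ) * β = 3 * b ^ 2 / 4 := by
    rw [hβ, hb]
    push_cast
    field_simp
  have hX : amp * ((k : ℝ) ^ 8 * (A / β ^ n)) ≤ min (δ / 200) (τ / 2) := by
    have e : amp * ((k : ℝ) ^ 8 * (A / β ^ n)) = A * (4 / 3) ^ n / k := by
      rw [hamp, hβ]
      rw [div_pow, mul_pow, div_pow, ← pow_mul, pow_add]
      field_simp
    rw [e, div_le_iff₀ hk0]
    exact hk1'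
  have hXs : ∀ σ ⊆ Finset.range (k ^ 8), ∀ i ≤ n, ∀ z,
      ‖iteratedFDeriv ℝ i (bs b β σ) z‖ ≤ (k : ℝ) ^ 8 * (A / β ^ n) := by
    intro σ hσ i hi z
    have hb2 : b ^ 2 ≤ 1 := by nlinarith
    refine (bs_iterated (C := A / β ^ n) σ z ?_).trans ?_
    · intro j hj
      have hjK : j < k ^ 8 := Finset.mem_range.1 (hσ hj)
      have hjK' : (j : ℝ) + 1 ≤ ((k ^ 8 : ℕ) : ℝ) := by exact_mod_cast hjK
      have h1 : ((j : ℝ) + 1) * β ≤ ((k ^ 8 : ℕ) : ℝ) * β := by gcongr
      exact hA _ β (by positivity) hβ0 hβ1 (by linarith) i hi z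
    · have h1 := Finset.card_le_card hσ
      rw [Finset.card_range] at h1
      have h2 : (σ.card : ℝ) ≤ (k : ℝ) ^ 8 := by exact_mod_cast h1
      have h3 : 0 ≤ A / β ^ n := by positivity
      gcongr
  have hIsl : ∀ σ ⊆ Finset.range (k ^ 8), Isl (CB + 1) δ b (pr δ amp b β σ) := by
    intro σ hσ
    exact pr_isl hb0 hb1 hβ0 hK hδ hamp0.le hCB hσ
      (fun i hi z => hXs σ hσ i (hi.trans hn3) z) (hX.trans (min_le_left _ _))
  refine ⟨amp, fun σ => pr δ amp b β σ, by rw [hamp], hamp1, ?_, ?_⟩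
  · intro σ hσ
    rw [← hb]
    refine ⟨hIsl σ hσ, pr_radial _ _ _ _ _, fun z hz => pr_out2 hb0 hb1 hβ0 hK hσ hz, ?_⟩
    intro i hi z
    refine (pr_iterated hδ.le hamp0.le σ i z).trans ?_
    have h1 : δ * ‖iteratedFDeriv ℝ i base z‖ ≤ δ * CN := by
      gcongr
      exact hCN i (hi.trans hnN) z
    have h2 : amp * ‖iteratedFDeriv ℝ i (bs b β σ) z‖ ≤ amp * ((k : ℝ) ^ 8 * (A / β ^ n)) := by
      gcongr
      exact hXs σ hσ i (hi.trans hnN) z
    have h3 := hX.trans (min_le_right _ _)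
    linarith
  · intro σ hσ σ' hσ' hne
    have h := pr_bump (E := E) (G := G) (CB := CB) (δ := δ) hb0 hb1 hβ0 hK hamp0.le hδC hG
      (by linarith) hE hσ hσ' hne (hIsl σ hσ) (hIsl σ' hσ')
    have e : E * (4 * amp * ((k ^ 8 : ℕ) : ℝ) * G * (b / β) ^ 2)
        = E * (64 / 9 * G) * amp * (k : ℝ) ^ 152 := by
      have e1 : b / β = 4 / 3 * (k : ℝ) ^ 72 := by
        rw [hb, hβ]
        field_simp
      rw [e1]
      push_cast
      ring
    rw [e] at h
    rw [← hb, ← hβ]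
    exact h

end Vale.Agent.P229
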