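import Vale.Agent.P229.Surf

/-!
# P229: lemmas for the assembly (means, integrals over regions)
-/

namespace Vale.Agent.P229

open MeasureTheory Set
open scoped ContDiff

namespace KeyAux

theorem Dw_mean (f g : ℝ × ℝ → ℝ) (hf : ContDiff ℝ ∞ f) (hg : ContDiff ℝ ∞ g) (w : List Bool) :
    Dw w (fun z => (f z + g z) / 2) = fun z => (Dw w f z + Dw w g z) / 2 := by
  induction w with
  | nil => rfl
  | cons b w ih =>
    have d1 : ∀ z, DifferentiableAt ℝ (Dw w f) z := fun z =>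
      (contDiff_Dw hf w).differentiable (by simp) z
    have d2 : ∀ z, DifferentiableAt ℝ (Dw w g) z := fun z =>
      (contDiff_Dw hg w).differentiable (by simp) z
    have e : (fun z => (Dw w f z + Dw w g z) / 2) = fun z => (1/2) * (Dw w f z + Dw w g z) := by
      ext z; ring
    cases b with
    | true =>
      show dx (Dw w _) = fun z => (dx (Dw w f) z + dx (Dw w g) z) / 2
      rw [ih, e]
      ext z
      have d3 : DifferentiableAt ℝ (fun z => Dw w f z + Dw w g z) z := (d1 z).add (d2 z)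
      rw [dx_const_mul _ d3, dx_add (d1 z) (d2 z)]; ring
    | false =>
      show dy (Dw w _) = fun z => (dy (Dw w f) z + dy (Dw w g) z) / 2
      rw [ih, e]
      ext z
      have d3 : DifferentiableAt ℝ (fun z => Dw w f z + Dw w g z) z := (d1 z).add (d2 z)
      rw [dy_const_mul _ d3, dy_add (d1 z) (d2 z)]; ring

theorem OrdBd_mean {U : Set (ℝ × ℝ)} {k : ℕ} {C : ℝ} {f g : ℝ × ℝ → ℝ} (hf : ContDiff ℝ ∞ f)
    (hg : ContDiff ℝ ∞ g) (h1 : OrdBd U k C f) (h2 : OrdBd U k C g) :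
    OrdBd U k C (fun z => (f z + g z) / 2) := by
  intro w hw z hz
  rw [Dw_mean f g hf hg w]
  have a := abs_le.1 (h1 w hw z hz)
  have b := abs_le.1 (h2 w hw z hz)
  exact abs_le.2 ⟨by linarith [a.1, b.1], by linarith [a.2, b.2]⟩

theorem OB_mean {M ε : ℝ} {f g : ℝ × ℝ → ℝ} (hf : ContDiff ℝ ∞ f)
    (hg : ContDiff ℝ ∞ g) (h1 : OB M ε f) (h2 : OB M ε g) : OB M ε (fun z => (f z + g z) / 2) :=
  ⟨OrdBd_mean hf hg h1.1 h2.1, OrdBd_mean hf hg h1.2.1 h2.2.1, OrdBd_mean hf hg h1.2.2 h2.2.2⟩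

theorem Nrm_mean {M ε e0 : ℝ} {T T' : Tri} (h : Nrm M ε e0 T) (h' : Nrm M ε e0 T') :
    Nrm M ε e0 (T.mean T') := by
  have e1 : ∀ f g : ℝ × ℝ → ℝ, ContDiff ℝ ∞ f → ContDiff ℝ ∞ g → ∀ z,
      dx (fun z => (f z + g z) / 2) z = (dx f z + dx g z) / 2 := fun f g hf hg z =>
    congrFun (Dw_mean f g hf hg [true]) z
  have e2 : ∀ f g : ℝ × ℝ → ℝ, ContDiff ℝ ∞ f → ContDiff ℝ ∞ g → ∀ z,
      dy (fun z => (f z + g z) / 2) z = (dy f z + dy g z) / 2 := fun f g hf hg z =>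
    congrFun (Dw_mean f g hf hg [false]) z
  refine ⟨?_, ?_, ?_, ?_, ?_, ?_, ?_, ?_, ?_, ?_, ?_, ?_, ?_, ?_⟩
  · show (T.a 0 + T'.a 0) / 2 = 0
    rw [h.a0, h'.a0]; ring
  · show (T.b 0 + T'.b 0) / 2 = 0
    rw [h.b0, h'.b0]; ring
  · show (T.h 0 + T'.h 0) / 2 = 0
    rw [h.h0, h'.h0]; ring
  · show dx (fun z => (T.a z + T'.a z) / 2) 0 = e0
    rw [e1 _ _ T.ha T'.ha, h.ax, h'.ax]; ring
  · show dy (fun z => (T.a z + T'.a z) / 2) 0 = 0
    rw [e2 _ _ T.ha T'.ha, h.ay, h'.ay]; ring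
  · show dx (fun z => (T.b z + T'.b z) / 2) 0 = 0
    rw [e1 _ _ T.hb T'.hb, h.bx, h'.bx]; ring
  · show dy (fun z => (T.b z + T'.b z) / 2) 0 = e0
    rw [e2 _ _ T.hb T'.hb, h.by', h'.by']; ring
  · show dx (fun z => (T.h z + T'.h z) / 2) 0 = 0
    rw [e1 _ _ T.hh T'.hh, h.hx, h'.hx]; ring
  · show dy (fun z => (T.h z + T'.h z) / 2) 0 = 0
    rw [e2 _ _ T.hh T'.hh, h.hy, h'.hy]; ring
  · show Dw [true, false] (fun z => (T.h z + T'.h z) / 2) 0 = 0
    rw [Dw_mean _ _ T.hh T'.hh]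
    show (dx (dy T.h) 0 + dx (dy T'.h) 0) / 2 = 0
    rw [h.hxy, h'.hxy]; ring
  · show ε / M ≤ Dw [false, false] (fun z => (T.h z + T'.h z) / 2) 0
    rw [Dw_mean _ _ T.hh T'.hh]
    show ε / M ≤ (dy (dy T.h) 0 + dy (dy T'.h) 0) / 2
    linarith [h.hyy, h'.hyy]
  · exact OB_mean T.ha T'.ha h.oa h'.oa
  · exact OB_mean T.hb T'.hb h.ob h'.ob
  · exact OB_mean T.hh T'.hh h.oh h'.oh

theorem Bd_congr {U : Set (ℝ × ℝ)} {k : ℕ} {C : ℝ} {f g : ℝ × ℝ → ℝ} (hU : IsOpen U)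
    (h : ∀ z ∈ U, f z = g z) (hf : Bd U k C f) : Bd U k C g := by
  induction k generalizing f g with
  | zero => intro z hz; rw [← h z hz]; exact hf z hz
  | succ k ih =>
    exact ⟨fun z hz => by rw [← h z hz]; exact hf.1 z hz,
      ih (fun z hz => dx_congr hU h hz) hf.2.1, ih (fun z hz => dy_congr hU h hz) hf.2.2⟩

theorem Bd_avg {U : Set (ℝ × ℝ)} {k : ℕ} {C : ℝ} {f g : ℝ × ℝ → ℝ} (hU : IsOpen U)
    (hf : ContDiff ℝ ∞ f) (hg : ContDiff ℝ ∞ g) (h1 : Bd U k C f) (h2 : Bd U k C g) :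
    Bd U k C (fun z => (f z + g z) / 2) := by
  have key : ∀ z, |f z| ≤ C → |g z| ≤ C → |(f z + g z) / 2| ≤ C := by
    intro z h1 h2
    have a := abs_le.1 h1
    have b := abs_le.1 h2
    exact abs_le.2 ⟨by linarith [a.1, b.1], by linarith [a.2, b.2]⟩
  induction k generalizing f g with
  | zero => intro z hz; exact key z (h1 z hz) (h2 z hz)
  | succ k ih =>
    have e1 : dx (fun z => (f z + g z) / 2) = fun z => (dx f z + dx g z) / 2 :=
      Dw_mean f g hf hg [true]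
    have e2 : dy (fun z => (f z + g z) / 2) = fun z => (dy f z + dy g z) / 2 :=
      Dw_mean f g hf hg [false]
    have key' : ∀ (f g : ℝ × ℝ → ℝ) z, |f z| ≤ C → |g z| ≤ C → |(f z + g z) / 2| ≤ C := by
      intro f g z h1 h2
      have a := abs_le.1 h1
      have b := abs_le.1 h2
      exact abs_le.2 ⟨by linarith [a.1, b.1], by linarith [a.2, b.2]⟩
    refine ⟨fun z hz => key z (h1.1 z hz) (h2.1 z hz), ?_, ?_⟩
    · rw [e1]
      exact ih (contDiff_dx hf) (contDiff_dx hg) h1.2.1 h2.2.1 (fun z => key' _ _ z)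
    · rw [e2]
      exact ih (contDiff_dy hf) (contDiff_dy hg) h1.2.2 h2.2.2 (fun z => key' _ _ z)

/-- if `T`, `T'` are both `η`-close to `T0`, so is their mean -/
theorem Close3_mean {η : ℝ} {T T' T0 : Tri} (h : Close3 η T T0) (h' : Close3 η T' T0) :
    Close3 η (T.mean T') T0 := by
  refine ⟨?_, ?_, ?_⟩
  · refine Bd_congr (isOpen_disc 2) (fun z _ => ?_)
      (Bd_avg (isOpen_disc 2) (T.ha.sub T0.ha) (T'.ha.sub T0.ha) h.1 h'.1)
    show (T.a z - T0.a z + (T'.a z - T0.a z)) / 2 = (T.a z + T'.a z) / 2 - T0.a z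
    ring
  · refine Bd_congr (isOpen_disc 2) (fun z _ => ?_)
      (Bd_avg (isOpen_disc 2) (T.hb.sub T0.hb) (T'.hb.sub T0.hb) h.2.1 h'.2.1)
    show (T.b z - T0.b z + (T'.b z - T0.b z)) / 2 = (T.b z + T'.b z) / 2 - T0.b z
    ring
  · refine Bd_congr (isOpen_disc 2) (fun z _ => ?_)
      (Bd_avg (isOpen_disc 2) (T.hh.sub T0.hh) (T'.hh.sub T0.hh) h.2.2 h'.2.2)
    show (T.h z - T0.h z + (T'.h z - T0.h z)) / 2 = (T.h z + T'.h z) / 2 - T0.h z
    ring

/-! ### integrals over bounded regions -/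

theorem disc_subset_Icc (R : ℝ) (hR : 0 ≤ R) : disc R ⊆ Icc ((-R, -R) : ℝ × ℝ) (R, R) := by
  intro z hz
  have h : z.1 ^ 2 + z.2 ^ 2 < R ^ 2 := hz
  have h1 : |z.1| ≤ R := abs_le_of_sq_le_sq (by nlinarith [sq_nonneg z.2]) hR
  have h2 : |z.2| ≤ R := abs_le_of_sq_le_sq (by nlinarith [sq_nonneg z.1]) hR
  exact ⟨⟨(abs_le.1 h1).1, (abs_le.1 h2).1⟩, ⟨(abs_le.1 h1).2, (abs_le.1 h2).2⟩⟩

theorem volume_disc_le (R : ℝ) (hR : 0 ≤ R) : (volume : Measure (ℝ × ℝ)) (disc R) ≤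
    ENNReal.ofReal (4 * R ^ 2) := by
  refine (measure_mono (disc_subset_Icc R hR)).trans ?_
  rw [Icc_prod_eq, Measure.volume_eq_prod, Measure.prod_prod, Real.volume_Icc]
  rw [← ENNReal.ofReal_mul (by linarith)]
  apply le_of_eq
  congr 1
  ring

theorem integrableOn_disc {f : ℝ × ℝ → ℝ} (hf : Continuous f) {A : Set (ℝ × ℝ)} {R : ℝ}
    (hA : A ⊆ disc R) : IntegrableOn f A := by
  have h1 : A ⊆ Icc ((-|R|, -|R|) : ℝ × ℝ) (|R|, |R|) := by
    refine hA.trans ?_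
    have : disc R = disc |R| := by ext z; simp [disc]
    rw [this]
    exact disc_subset_Icc _ (abs_nonneg _)
  exact (hf.continuousOn.integrableOn_compact isCompact_Icc).mono_set h1

theorem setIntegral_disc_le {F : ℝ × ℝ → ℝ} {K R : ℝ} (hR : 0 ≤ R) (hK : 0 ≤ K)
    (h : ∀ z ∈ disc R, |F z| ≤ K) : ∫ z in disc R, F z ≤ K * (4 * R ^ 2) := by
  have hv := volume_disc_le R hR
  have h1 : (volume : Measure (ℝ × ℝ)) (disc R) < ⊤ := lt_of_le_of_lt hv ENNReal.ofReal_lt_top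
  have h2 := norm_setIntegral_le_of_norm_le_const (μ := (volume : Measure (ℝ × ℝ))) (f := F)
    (C := K) h1 (fun z hz => by simpa using h z hz)
  have h3 : (volume : Measure (ℝ × ℝ)).real (disc R) ≤ 4 * R ^ 2 := by
    rw [Measure.real]
    exact ENNReal.toReal_le_of_le_ofReal (by positivity) hv
  calc ∫ z in disc R, F z ≤ |∫ z in disc R, F z| := le_abs_self _
    _ ≤ K * (volume : Measure (ℝ × ℝ)).real (disc R) := by simpa using h2
    _ ≤ K * (4 * R ^ 2) := mul_le_mul_of_nonneg_left h3 hK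

/-- monotonicity of integrals of nonnegative continuous functions over bounded regions -/
theorem setIntegral_mono_region {f : ℝ × ℝ → ℝ} (hf : Continuous f) (h0 : ∀ z, 0 ≤ f z)
    {A B : Set (ℝ × ℝ)} {R : ℝ} (hB : B ⊆ disc R) (hAB : A ⊆ B) :
    ∫ z in A, f z ≤ ∫ z in B, f z :=
  setIntegral_mono_set (integrableOn_disc hf hB) (Filter.Eventually.of_forall h0)
    (Filter.Eventually.of_forall fun _ hx => hAB hx)

end KeyAux

end Vale.Agent.P229
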