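import Vale.Agent.P229.KeyA

/-!
# P229: the iteration step for one pair, abstract form
-/

namespace Vale.Agent.P229

open MeasureTheory Set
open scoped ContDiff

namespace KeyAux

/-- the conclusion of `caccioppoli` -/
def CacProp (C0 j0 k1 n0 g A : ℝ) : Prop := ∀ (u P κ v : ℝ × ℝ → ℝ) (t R : ℝ),
      Reg C0 j0 u P κ → ContDiff ℝ ∞ v → |t| ≤ C0 → 6 / 5 + g ≤ R → R ≤ 7 / 5 →
      (∀ z ∈ disc (3 / 2), z ∉ disc (11 / 10) → k1 ≤ κ z) →
      (∀ z ∈ disc (3 / 2), t < P z → n0 ≤ No u P κ z) →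
      (∀ z ∈ disc (3 / 2), t < P z → Op u P κ v z = 0) →
      ∫ z in Om P (t + g) (R - g), (dx v z ^ 2 + dy v z ^ 2) ≤ A * ∫ z in Om P t R, v z ^ 2

/-- data of a pair relative to the reference function `Ps` -/
structure StepData (C0 j0 k1 n0 g t0 : ℝ) (Ps u P κ v : ℝ × ℝ → ℝ) : Prop where
  reg : Reg C0 j0 u P κ
  sv : ContDiff ℝ ∞ v
  cl : ∀ z ∈ disc 2, |P z - Ps z| ≤ g / 2
  kap : ∀ z ∈ disc (3 / 2), z ∉ disc (11 / 10) → k1 ≤ κ z
  nk : ∀ z ∈ disc (3 / 2), t0 ≤ P z → n0 ≤ No u P κ z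
  op : ∀ z ∈ disc (3 / 2), t0 ≤ P z → Op u P κ v z = 0

theorem disc_mono {R R' : ℝ} (h0 : 0 ≤ R) (h : R ≤ R') : disc R ⊆ disc R' := by
  intro z hz
  have h1 : z.1 ^ 2 + z.2 ^ 2 < R ^ 2 := hz
  show z.1 ^ 2 + z.2 ^ 2 < R' ^ 2
  nlinarith

theorem step {C0 j0 k1 n0 g A t0 : ℝ} (hC0 : 2 * t0 ≤ C0) (hg : 0 < g) (hA : 0 < A) (ht0 : 0 < t0)
    (hcac : CacProp C0 j0 k1 n0 g A) {Ps u P κ v : ℝ × ℝ → ℝ}
    (D : StepData C0 j0 k1 n0 g t0 Ps u P κ v) {t R : ℝ} (ht : t0 ≤ t) (ht2 : t + g / 2 ≤ 2 * t0)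
    (hR1 : 6 / 5 + 2 * g ≤ R) (hR2 : R ≤ 7 / 5) :
    ∫ z in Om Ps (t + 2 * g) (R - 2 * g), (dx v z ^ 2 + dy v z ^ 2)
      ≤ A * ∫ z in Om Ps t R, v z ^ 2 := by
  have c1 : Continuous (fun z => dx v z ^ 2 + dy v z ^ 2) :=
    ((contDiff_dx D.sv).continuous.pow 2).add ((contDiff_dy D.sv).continuous.pow 2)
  have c2 : Continuous (fun z => v z ^ 2) := D.sv.continuous.pow 2
  have key := hcac u P κ v (t + g / 2) R D.reg D.sv
    (by rw [abs_of_pos (by linarith)]; linarith) (by linarith) hR2 D.kap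
    (fun z hz hP => D.nk z hz (by linarith)) (fun z hz hP => D.op z hz (by linarith))
  have s1 : Om Ps (t + 2 * g) (R - 2 * g) ⊆ Om P (t + g / 2 + g) (R - g) := by
    intro z hz
    have hz2 : z ∈ disc 2 := disc_mono (by linarith) (by linarith) hz.1
    refine ⟨disc_mono (by linarith) (by linarith) hz.1, ?_⟩
    have h1 := (abs_le.1 (D.cl z hz2)).1
    have h2 : t + 2 * g < Ps z := hz.2
    linarith
  have s2 : Om P (t + g / 2) R ⊆ Om Ps t R := by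
    intro z hz
    have hz2 : z ∈ disc 2 := disc_mono (by linarith) (by linarith) hz.1
    refine ⟨hz.1, ?_⟩
    have h1 := (abs_le.1 (D.cl z hz2)).2
    have h2 : t + g / 2 < P z := hz.2
    linarith
  calc ∫ z in Om Ps (t + 2 * g) (R - 2 * g), (dx v z ^ 2 + dy v z ^ 2)
      ≤ ∫ z in Om P (t + g / 2 + g) (R - g), (dx v z ^ 2 + dy v z ^ 2) :=
        setIntegral_mono_region c1 (fun z => by positivity) (R := R - g) (fun z hz => hz.1) s1
    _ ≤ A * ∫ z in Om P (t + g / 2) R, v z ^ 2 := key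
    _ ≤ A * ∫ z in Om Ps t R, v z ^ 2 := by
        refine mul_le_mul_of_nonneg_left ?_ hA.le
        exact setIntegral_mono_region c2 (fun z => by positivity) (R := R) (fun z hz => hz.1) s2

end KeyAux

end Vale.Agent.P229
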