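import Vale.Agent.P229.Surf

/-!
# P229: the reflection `y ↦ -y`
-/

namespace Vale.Agent.P229

open MeasureTheory Set
open scoped ContDiff

section R
variable {z : ℝ × ℝ}

/-- reflection `y ↦ -y` -/
def rf (z : ℝ × ℝ) : ℝ × ℝ := (z.1, -z.2)

variable {f g u P κ v : ℝ × ℝ → ℝ}

namespace ReflectAux

theorem rf_rf (z : ℝ × ℝ) : rf (rf z) = z := by simp [rf]

theorem hasFDerivAt_rf (z : ℝ × ℝ) :
    HasFDerivAt rf ((ContinuousLinearMap.fst ℝ ℝ ℝ).prod (-(ContinuousLinearMap.snd ℝ ℝ ℝ))) z := by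
  have h1 : HasFDerivAt (fun w : ℝ × ℝ => w.1) (ContinuousLinearMap.fst ℝ ℝ ℝ) z := hasFDerivAt_fst
  have h2 : HasFDerivAt (fun w : ℝ × ℝ => w.2) (ContinuousLinearMap.snd ℝ ℝ ℝ) z := hasFDerivAt_snd
  exact h1.prodMk h2.neg

theorem contDiff_rf : ContDiff ℝ ∞ rf := contDiff_fst.prodMk contDiff_snd.neg

theorem rf_mem_disc {R : ℝ} : rf z ∈ disc R ↔ z ∈ disc R := by simp [disc, rf]

theorem measurePreserving_rf : MeasurePreserving rf (volume : Measure (ℝ × ℝ)) volume := by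
  have h := (MeasurePreserving.id (volume : Measure ℝ)).prod
    (Measure.measurePreserving_neg (volume : Measure ℝ))
  exact h

theorem measurableEmbedding_rf : MeasurableEmbedding rf := by
  have hm : Measurable rf := contDiff_rf.continuous.measurable
  refine MeasurableEmbedding.of_measurable_inverse hm ?_ hm rf_rf
  have : range rf = univ := by
    ext w
    simp only [mem_range, mem_univ, iff_true]
    exact ⟨rf w, rf_rf w⟩
  rw [this]
  exact MeasurableSet.univ

end ReflectAux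

open ReflectAux

theorem dx_rf (hf : DifferentiableAt ℝ f (rf z)) : dx (fun w => f (rf w)) z = dx f (rf z) := by
  have h := hf.hasFDerivAt.comp z (hasFDerivAt_rf z)
  have h2 : HasFDerivAt (fun w => f (rf w)) ((fderiv ℝ f (rf z)).comp
    ((ContinuousLinearMap.fst ℝ ℝ ℝ).prod (-(ContinuousLinearMap.snd ℝ ℝ ℝ)))) z := h
  simp [dx, h2.fderiv]

theorem dy_rf (hf : DifferentiableAt ℝ f (rf z)) : dy (fun w => f (rf w)) z = -dy f (rf z) := by
  have h := hf.hasFDerivAt.comp z (hasFDerivAt_rf z)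
  have h2 : HasFDerivAt (fun w => f (rf w)) ((fderiv ℝ f (rf z)).comp
    ((ContinuousLinearMap.fst ℝ ℝ ℝ).prod (-(ContinuousLinearMap.snd ℝ ℝ ℝ)))) z := h
  have h3 : ((0 : ℝ), (-1 : ℝ)) = -(0, 1) := by simp
  simp [dy, h2.fderiv, h3, -Prod.neg_mk]

theorem Sm.rf {R : ℝ} (hf : Sm (disc R) f) : Sm (disc R) (fun w => f (rf w)) :=
  ContDiffOn.comp hf contDiff_rf.contDiffOn (fun _ hz => rf_mem_disc.2 hz)

namespace ReflectAux

theorem br_rf_neg (hf : DifferentiableAt ℝ f (P229.rf z)) (hg : DifferentiableAt ℝ g (P229.rf z)) :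
    br (fun w => f (P229.rf w)) (fun w => - g (P229.rf w)) z = br f g (P229.rf z) := by
  simp only [br, dx_rf hf, dy_rf hf, dx_neg (f := fun w => g (P229.rf w)),
    dy_neg (f := fun w => g (P229.rf w)), dx_rf hg, dy_rf hg]
  ring

theorem br_rf (hf : DifferentiableAt ℝ f (P229.rf z)) (hg : DifferentiableAt ℝ g (P229.rf z)) :
    br (fun w => f (P229.rf w)) (fun w => g (P229.rf w)) z = - br f g (P229.rf z) := by
  simp only [br, dx_rf hf, dy_rf hf, dx_rf hg, dy_rf hg]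
  ring

end ReflectAux

theorem Reg.rf {C0 j0 : ℝ} (h : Reg C0 j0 u P κ) :
    Reg C0 j0 (fun w => u (rf w)) (fun w => - P (rf w)) (fun w => κ (rf w)) where
  su := h.su.rf
  sP := h.sP.rf.neg
  sk := h.sk.rf
  bu := by
    intro z hz
    have hz' : P229.rf z ∈ disc 2 := rf_mem_disc.2 hz
    have hd := h.su.diff (isOpen_disc 2) hz'
    have := h.bu _ hz'
    rw [dx_rf hd, dy_rf hd, abs_neg]
    exact this
  bP := by
    intro z hz
    have hz' : P229.rf z ∈ disc 2 := rf_mem_disc.2 hz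
    have hd := h.sP.diff (isOpen_disc 2) hz'
    have := h.bP _ hz'
    rw [dx_neg (f := fun w => P (P229.rf w)), dy_neg (f := fun w => P (P229.rf w)), dx_rf hd,
      dy_rf hd, abs_neg, abs_neg, neg_neg]
    exact this
  bk := by
    intro z hz
    have hz' : P229.rf z ∈ disc 2 := rf_mem_disc.2 hz
    have hd := h.sk.diff (isOpen_disc 2) hz'
    have := h.bk _ hz'
    rw [dx_rf hd, dy_rf hd, abs_neg]
    exact this
  J := by
    intro z hz
    have hz' : P229.rf z ∈ disc 2 := rf_mem_disc.2 hz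
    rw [br_rf_neg (h.su.diff (isOpen_disc 2) hz') (h.sP.diff (isOpen_disc 2) hz')]
    exact h.J _ hz'

theorem Geo.rf {ρ0 κ0 C0 j0 : ℝ} (hr : Reg C0 j0 u P κ) (h : Geo ρ0 κ0 u P κ) :
    Geo ρ0 κ0 (fun w => u (rf w)) (fun w => - P (rf w)) (fun w => κ (rf w)) where
  u0 := by
    have : P229.rf 0 = 0 := by simp [P229.rf]
    show u (P229.rf 0) = 0
    rw [this]; exact h.u0
  P0 := by
    have : P229.rf 0 = 0 := by simp [P229.rf]
    show - P (P229.rf 0) = 0
    rw [this, h.P0, neg_zero]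
  ux := by
    intro z hz
    have := h.ux _ (rf_mem_disc.2 hz)
    simpa [P229.rf] using this
  Py := by
    intro z hz
    have hz' : P229.rf z ∈ disc 2 := rf_mem_disc.2 hz
    have hd := hr.sP.diff (isOpen_disc 2) hz'
    rw [dy_neg (f := fun w => P (P229.rf w)), dy_rf hd, neg_neg]
    exact h.Py _ hz'
  Px := by
    intro z hz
    have hz' : P229.rf z ∈ disc 2 := rf_mem_disc.2 hz
    have hd := hr.sP.diff (isOpen_disc 2) hz'
    rw [dx_neg (f := fun w => P (P229.rf w)), dx_rf hd, abs_neg]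
    exact h.Px _ hz'
  line := by
    intro x hx
    have := h.line x hx
    simpa [P229.rf] using this
  kneg := by
    intro z hz
    exact h.kneg _ (rf_mem_disc.2 hz)

namespace ReflectAux

theorem Lo_rf' {C0 j0 : ℝ} (h : Reg C0 j0 u P κ) (hz : z ∈ disc 2) {f : ℝ × ℝ → ℝ}
    (hf : DifferentiableAt ℝ f (P229.rf z)) :
    Lo (fun w => u (P229.rf w)) (fun w => - P (P229.rf w)) (fun w => f (P229.rf w)) z
      = Lo u P f (P229.rf z) := by
  have hz' : P229.rf z ∈ disc 2 := rf_mem_disc.2 hz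
  simp only [Lo]
  rw [br_rf_neg hf (h.sP.diff (isOpen_disc 2) hz'),
    br_rf_neg (h.su.diff (isOpen_disc 2) hz') (h.sP.diff (isOpen_disc 2) hz')]

theorem No_rf' {C0 j0 : ℝ} (h : Reg C0 j0 u P κ) (hz : z ∈ disc 2) {f : ℝ × ℝ → ℝ}
    (hf : DifferentiableAt ℝ f (P229.rf z)) :
    No (fun w => u (P229.rf w)) (fun w => - P (P229.rf w)) (fun w => f (P229.rf w)) z
      = - No u P f (P229.rf z) := by
  have hz' : P229.rf z ∈ disc 2 := rf_mem_disc.2 hz
  simp only [No]
  rw [br_rf (h.su.diff (isOpen_disc 2) hz') hf,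
    br_rf_neg (h.su.diff (isOpen_disc 2) hz') (h.sP.diff (isOpen_disc 2) hz'), neg_div]

theorem No_neg : No u P (fun w => - f w) z = - No u P f z := by
  simp only [No, br, dx_neg, dy_neg]; ring

theorem Lo_neg : Lo u P (fun w => - f w) z = - Lo u P f z := by
  simp only [Lo, br, dx_neg, dy_neg]; ring

theorem Lo_congr {U : Set (ℝ × ℝ)} {f' : ℝ × ℝ → ℝ} (hU : IsOpen U) (h : ∀ w ∈ U, f w = f' w)
    (hz : z ∈ U) : Lo u P f z = Lo u P f' z := by
  simp only [Lo, br_congr hU h (fun w _ => rfl) hz]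

theorem No_congr {U : Set (ℝ × ℝ)} {f' : ℝ × ℝ → ℝ} (hU : IsOpen U) (h : ∀ w ∈ U, f w = f' w)
    (hz : z ∈ U) : No u P f z = No u P f' z := by
  simp only [No, br_congr hU (fun w _ => rfl) h hz]

end ReflectAux

theorem Op_rf {C0 j0 : ℝ} (hj : 0 < j0) (h : Reg C0 j0 u P κ) (hv : ContDiff ℝ ∞ v) :
    ∀ z ∈ disc 2, Op (fun w => u (rf w)) (fun w => - P (rf w)) (fun w => κ (rf w))
      (fun w => v (rf w)) z = Op u P κ v (rf z) := by
  intro z hz
  have hz' : P229.rf z ∈ disc 2 := rf_mem_disc.2 hz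
  have hU := isOpen_disc 2
  have h0 : ∀ z ∈ disc 2, br u P z ≠ 0 := fun z hz => ne_of_gt (lt_of_lt_of_le hj (h.J z hz))
  have sv : Sm (disc 2) v := Sm.of_contDiff hv
  have sL : Sm (disc 2) (Lo u P v) := Sm.Lo hU h.su h.sP sv h0
  have sN : Sm (disc 2) (No u P v) := Sm.No hU h.su h.sP sv h0
  have skN : Sm (disc 2) (fun w => κ w * No u P v w) := h.sk.mul sN
  simp only [Op]
  congr 1
  · rw [Lo_congr hU (f' := fun w => Lo u P v (P229.rf w)) (fun w hw =>
      Lo_rf' h hw (sv.diff hU (rf_mem_disc.2 hw))) hz]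
    exact Lo_rf' h hz (sL.diff hU hz')
  · rw [No_congr hU (f' := fun w => (fun y => - (κ y * No u P v y)) (P229.rf w)) (fun w hw => by
      rw [No_rf' h hw (sv.diff hU (rf_mem_disc.2 hw))]; ring) hz]
    have hd : DifferentiableAt ℝ (fun y => - (κ y * No u P v y)) (P229.rf z) := skN.neg.diff hU hz'
    rw [No_rf' h hz hd]
    rw [No_neg (f := fun y => κ y * No u P v y), neg_neg]

theorem No_rf {C0 j0 : ℝ} (hj : 0 < j0) (h : Reg C0 j0 u P κ) :
    ∀ z ∈ disc 2, No (fun w => u (rf w)) (fun w => - P (rf w)) (fun w => κ (rf w)) z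
      = - No u P κ (rf z) := by
  intro z hz
  have _ := hj
  exact No_rf' h hz (h.sk.diff (isOpen_disc 2) (rf_mem_disc.2 hz))

/-- change of variables -/
theorem integral_rf (F : ℝ × ℝ → ℝ) (A : Set (ℝ × ℝ)) :
    ∫ z in {z | rf z ∈ A}, F (rf z) = ∫ z in A, F z :=
  measurePreserving_rf.setIntegral_preimage_emb measurableEmbedding_rf F A

end R

end Vale.Agent.P229
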