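import Vale.Agent.P229.KeyC

/-!
# P229: smallness on `{|P| > κ0/75}`
-/

namespace Vale.Agent.P229

open MeasureTheory Set
open scoped ContDiff

namespace KeyAux

theorem isOpen_Om {P : ℝ × ℝ → ℝ} (hP : Sm (disc 2) P) {t R : ℝ} (h0 : 0 ≤ R) (hR : R ≤ 2) :
    IsOpen (Om P t R) := by
  have h1 : ContinuousOn P (disc R) := (ContDiffOn.continuousOn hP).mono (disc_mono h0 hR)
  exact h1.isOpen_inter_preimage (isOpen_disc R) isOpen_Ioi

/-- energy density -/
noncomputable def en (v : ℝ × ℝ → ℝ) (z : ℝ × ℝ) : ℝ := v z ^ 2 + dx v z ^ 2 + dy v z ^ 2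

theorem en_nonneg (v : ℝ × ℝ → ℝ) (z : ℝ × ℝ) : 0 ≤ en v z := by unfold en; positivity

theorem continuous_en {v : ℝ × ℝ → ℝ} (hv : ContDiff ℝ ∞ v) : Continuous (en v) :=
  ((hv.continuous.pow 2).add ((contDiff_dx hv).continuous.pow 2)).add
    ((contDiff_dy hv).continuous.pow 2)

theorem en_rf {v : ℝ × ℝ → ℝ} (hv : ContDiff ℝ ∞ v) (z : ℝ × ℝ) :
    en (fun w => v (rf w)) z = en v (rf z) := by
  have hd : DifferentiableAt ℝ v (rf z) := hv.differentiable (by simp) _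
  unfold en
  rw [dx_rf hd, dy_rf hd]
  ring

theorem small_all {C0 j0 k1 n1 g t1 κ0 ρ0 b tf Rf e : ℝ} {Ps u P κ v : ℝ × ℝ → ℝ}
    (MD : MeanData C0 j0 k1 n1 g t1 κ0 ρ0 b Ps u P κ v) (htf : tf + g / 2 ≤ κ0 / 75)
    (hκ : 0 < κ0) (hRf : 1 ≤ Rf) (hRf2 : Rf ≤ 7 / 5)
    (hup : ∫ z in Om Ps tf Rf, en v z ≤ e)
    (hlo : ∫ z in Om (fun w => - Ps (rf w)) tf Rf, en (fun w => v (rf w)) z ≤ e) :
    ∫ z in {z | z ∈ disc 1 ∧ κ0 / 75 < |P z|}, (v z ^ 2 + dx v z ^ 2 + dy v z ^ 2) ≤ 2 * e := by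
  have hv := MD.up.sv
  have hc := continuous_en hv
  -- lower integral in original variables
  have hlo' : ∫ z in {w | w ∈ disc Rf ∧ tf < - Ps w}, en v z ≤ e := by
    have h1 := integral_rf (en v) {w | w ∈ disc Rf ∧ tf < - Ps w}
    have h2 : {z : ℝ × ℝ | rf z ∈ {w | w ∈ disc Rf ∧ tf < - Ps w}}
        = Om (fun w => - Ps (rf w)) tf Rf := by
      ext z
      simp only [mem_ofPred_eq, Om, rf_mem]
    rw [← h1, h2]
    refine le_trans (le_of_eq ?_) hlo
    refine integral_congr_ae (Filter.Eventually.of_forall fun z => ?_)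
    exact (en_rf hv z).symm
  set A : Set (ℝ × ℝ) := Om P (κ0 / 75) 1 with hA
  set B : Set (ℝ × ℝ) := Om (fun z => - P z) (κ0 / 75) 1 with hB
  have hAo : IsOpen A := isOpen_Om MD.up.reg.sP (by norm_num) (by norm_num)
  have hBo : IsOpen B := isOpen_Om MD.up.reg.sP.neg (by norm_num) (by norm_num)
  have hAB : {z : ℝ × ℝ | z ∈ disc 1 ∧ κ0 / 75 < |P z|} = A ∪ B := by
    ext z
    simp only [mem_ofPred_eq, A, B, Om, mem_union, lt_abs]
    tauto
  have hdis : Disjoint A B := by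
    rw [Set.disjoint_left]
    rintro z ⟨_, h1⟩ ⟨_, h2⟩
    have : 0 < κ0 / 75 := by positivity
    linarith
  have iA : IntegrableOn (en v) A := integrableOn_disc hc (R := 1) (fun z hz => hz.1)
  have iB : IntegrableOn (en v) B := integrableOn_disc hc (R := 1) (fun z hz => hz.1)
  have d12 : disc 1 ⊆ disc 2 := disc_mono (by norm_num) (by norm_num)
  have e1 : ∫ z in A, en v z ≤ e := by
    refine le_trans ?_ hup
    refine setIntegral_mono_region hc (en_nonneg v) (R := Rf) (fun z hz => hz.1) ?_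
    rintro z ⟨hz, hP⟩
    refine ⟨disc_mono (by norm_num) hRf hz, ?_⟩
    have := (abs_le.1 (MD.up.cl z (d12 hz))).2
    linarith
  have e2 : ∫ z in B, en v z ≤ e := by
    refine le_trans ?_ hlo'
    refine setIntegral_mono_region hc (en_nonneg v) (R := Rf) (fun z hz => hz.1) ?_
    rintro z ⟨hz, hP⟩
    refine ⟨disc_mono (by norm_num) hRf hz, ?_⟩
    have := (abs_le.1 (MD.up.cl z (d12 hz))).1
    show tf < - Ps z
    have hP' : κ0 / 75 < - P z := hP
    linarith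
  have : ∫ z in {z | z ∈ disc 1 ∧ κ0 / 75 < |P z|}, (v z ^ 2 + dx v z ^ 2 + dy v z ^ 2)
      = (∫ z in A, en v z) + ∫ z in B, en v z := by
    rw [hAB]
    exact setIntegral_union hdis hBo.measurableSet iA iB
  rw [this]
  linarith

end KeyAux

end Vale.Agent.P229
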