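import Vale.Agent.P229.BdAlg
import Vale.Agent.P229.Gauss

/-! P229, module G: the linearised equation for a pair of immersions. -/

namespace Vale.Agent.P229

open MeasureTheory Set
open scoped ContDiff

namespace PairAux

/-- an operator that behaves as a derivation on functions smooth on `U` -/
structure Der (U : Set (ℝ × ℝ)) (D : (ℝ × ℝ → ℝ) → (ℝ × ℝ → ℝ)) : Prop where
  sm : ∀ {f : ℝ × ℝ → ℝ}, Sm U f → Sm U (D f)
  cg : ∀ (f g : ℝ × ℝ → ℝ), (∀ w ∈ U, f w = g w) → ∀ z ∈ U, D f z = D g z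
  add : ∀ {f g : ℝ × ℝ → ℝ}, Sm U f → Sm U g → ∀ z ∈ U,
    D (fun w => f w + g w) z = D f z + D g z
  cmul : ∀ (c : ℝ) {f : ℝ × ℝ → ℝ}, Sm U f → ∀ z ∈ U, D (fun w => c * f w) z = c * D f z
  mul : ∀ {f g : ℝ × ℝ → ℝ}, Sm U f → Sm U g → ∀ z ∈ U,
    D (fun w => f w * g w) z = D f z * g z + f z * D g z

variable {U : Set (ℝ × ℝ)} {D E : (ℝ × ℝ → ℝ) → (ℝ × ℝ → ℝ)} {f g : ℝ × ℝ → ℝ} {z : ℝ × ℝ}

theorem Der.sub (hD : Der U D) (sf : Sm U f) (sg : Sm U g) (hz : z ∈ U) :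
    D (fun w => f w - g w) z = D f z - D g z := by
  have h1 := hD.cg (fun w => f w - g w) (fun w => f w + (-1) * g w)
    (fun w _ => by ring) z hz
  rw [h1, hD.add sf ((Sm.const (-1)).mul sg) z hz, hD.cmul (-1) sg z hz]
  ring

theorem Der.zero (hD : Der U D) (hz : z ∈ U) : D (fun _ => 0) z = 0 := by
  have h1 := hD.cg (fun _ => 0) (fun w => (0 : ℝ) * (fun _ => (0 : ℝ)) w)
    (fun w _ => by ring) z hz
  rw [h1, hD.cmul 0 (Sm.const 0) z hz, zero_mul]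

theorem Der.mul2 (hD : Der U D) (hE : Der U E) (sf : Sm U f) (sg : Sm U g) (hz : z ∈ U) :
    D (E (fun w => f w * g w)) z =
      D (E f) z * g z + E f z * D g z + (D f z * E g z + f z * D (E g) z) := by
  rw [hD.cg _ (fun w => E f w * g w + f w * E g w) (fun w hw => hE.mul sf sg w hw) z hz,
    hD.add ((hE.sm sf).mul sg) (sf.mul (hE.sm sg)) z hz, hD.mul (hE.sm sf) sg z hz,
    hD.mul sf (hE.sm sg) z hz]

theorem Der.add2 (hD : Der U D) (hE : Der U E) (sf : Sm U f) (sg : Sm U g) (hz : z ∈ U) :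
    D (E (fun w => f w + g w)) z = D (E f) z + D (E g) z := by
  rw [hD.cg _ (fun w => E f w + E g w) (fun w hw => hE.add sf sg w hw) z hz,
    hD.add (hE.sm sf) (hE.sm sg) z hz]

theorem Der.cmul2 (hD : Der U D) (hE : Der U E) (c : ℝ) (sf : Sm U f) (hz : z ∈ U) :
    D (E (fun w => c * f w)) z = c * D (E f) z := by
  rw [hD.cg _ (fun w => c * E f w) (fun w hw => hE.cmul c sf w hw) z hz,
    hD.cmul c (hE.sm sf) z hz]

theorem Der.cg2 (hD : Der U D) (hE : Der U E) (f g : ℝ × ℝ → ℝ) (h : ∀ w ∈ U, f w = g w)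
    (hz : z ∈ U) : D (E f) z = D (E g) z :=
  hD.cg _ _ (fun w hw => hE.cg f g h w hw) z hz

theorem derLo {a b : ℝ × ℝ → ℝ} (hU : IsOpen U) (sa : Sm U a) (sb : Sm U b)
    (h0 : ∀ z ∈ U, br a b z ≠ 0) : Der U (Lo a b) where
  sm := fun sf => Sm.Lo hU sa sb sf h0
  cg := fun f g h z hz => by simp only [Lo, br, dx_congr hU h hz, dy_congr hU h hz]
  add := fun sf sg z hz => Lo_add (sf.diff hU hz) (sg.diff hU hz)
  cmul := fun c _ sf z hz => Lo_const_mul c (sf.diff hU hz)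
  mul := fun sf sg z hz => Lo_mul (sf.diff hU hz) (sg.diff hU hz)

theorem derNo {a b : ℝ × ℝ → ℝ} (hU : IsOpen U) (sa : Sm U a) (sb : Sm U b)
    (h0 : ∀ z ∈ U, br a b z ≠ 0) : Der U (No a b) where
  sm := fun sf => Sm.No hU sa sb sf h0
  cg := fun f g h z hz => by simp only [No, br, dx_congr hU h hz, dy_congr hU h hz]
  add := fun sf sg z hz => No_add (sf.diff hU hz) (sg.diff hU hz)
  cmul := fun c _ sf z hz => No_const_mul c (sf.diff hU hz)
  mul := fun sf sg z hz => No_mul (sf.diff hU hz) (sg.diff hU hz)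

/-- brackets in terms of `X₁, X₂` -/
theorem br_eq {a b : ℝ × ℝ → ℝ} (h0 : br a b z ≠ 0) (f g : ℝ × ℝ → ℝ) :
    br f g z = br a b z * (Lo a b f z * No a b g z - No a b f z * Lo a b g z) := by
  have h1 := h0
  simp only [Lo, No]
  simp only [br] at h1 ⊢
  field_simp
  ring

end PairAux

open PairAux

theorem Op_eq_Mo (T : Tri) {U : Set (ℝ × ℝ)} (hU : IsOpen U) (h0 : ∀ z ∈ U, br T.a T.b z ≠ 0)
    (hJ : ∀ z ∈ U, br T.a (Pf T) z ≠ 0) (v : ℝ × ℝ → ℝ) (hv : Sm U v) :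
    ∀ z ∈ U, br T.a (Pf T) z * Op T.a (Pf T) (kf T) v z = br T.a T.b z * Mo T v z := by
  have sa : Sm U T.a := Sm.of_contDiff T.ha
  have sb : Sm U T.b := Sm.of_contDiff T.hb
  have sh : Sm U T.h := Sm.of_contDiff T.hh
  have d1 := derLo hU sa sb h0
  have d2 := derNo hU sa sb h0
  have cm : ∀ {f : ℝ × ℝ → ℝ}, Sm U f → ∀ z ∈ U,
      Lo T.a T.b (No T.a T.b f) z = No T.a T.b (Lo T.a T.b f) z :=
    fun sf z hz => Lo_No_comm hU sa sb sf h0 hz
  have sp : Sm U (pf T) := d1.sm sh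
  have sP : Sm U (Pf T) := d2.sm sh
  have pP : ∀ z ∈ U, Lo T.a T.b (Pf T) z = No T.a T.b (pf T) z := fun z hz => cm sh z hz
  have s22 : Sm U (No T.a T.b (Pf T)) := d2.sm sP
  have s12 : Sm U (Lo T.a T.b (Pf T)) := d1.sm sP
  have s11 : Sm U (Lo T.a T.b (pf T)) := d1.sm sp
  have hJ0 : ∀ z ∈ U, br T.a (Pf T) z = br T.a T.b z * No T.a T.b (Pf T) z := by
    intro z hz
    rw [br_eq (h0 z hz) T.a (Pf T), Lo_u (h0 z hz), No_u]
    ring
  have n22 : ∀ z ∈ U, No T.a T.b (Pf T) z ≠ 0 := by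
    intro z hz h
    apply hJ z hz
    rw [hJ0 z hz, h, mul_zero]
  obtain ⟨m, hm⟩ : ∃ m : ℝ × ℝ → ℝ, m = fun w => Lo T.a T.b (Pf T) w / No T.a T.b (Pf T) w :=
    ⟨_, rfl⟩
  have sm : Sm U m := by rw [hm]; exact s12.div s22 n22
  have hm1 : ∀ w ∈ U, m w * No T.a T.b (Pf T) w = Lo T.a T.b (Pf T) w := by
    intro w hw
    rw [hm]
    have := n22 w hw
    field_simp
  have hL : ∀ f : ℝ × ℝ → ℝ, ∀ z ∈ U, Lo T.a (Pf T) f z =
      Lo T.a T.b f z - m z * No T.a T.b f z := by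
    intro f z hz
    have e1 : Lo T.a (Pf T) f z = br f (Pf T) z / br T.a (Pf T) z := rfl
    have e2 := hm1 z hz
    rw [e1, hJ0 z hz, br_eq (h0 z hz) f (Pf T), ← e2]
    have := n22 z hz
    have := h0 z hz
    field_simp
  have hN : ∀ f : ℝ × ℝ → ℝ, ∀ z ∈ U, No T.a (Pf T) f z =
      No T.a T.b f z / No T.a T.b (Pf T) z := by
    intro f z hz
    have e1 : No T.a (Pf T) f z = br T.a f z / br T.a (Pf T) z := rfl
    rw [e1, hJ0 z hz, br_eq (h0 z hz) T.a f, Lo_u (h0 z hz), No_u]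
    have := n22 z hz
    have := h0 z hz
    field_simp
    ring
  have hk : ∀ z ∈ U, kf T z = Lo T.a T.b (pf T) z * No T.a T.b (Pf T) z -
      Lo T.a T.b (Pf T) z * Lo T.a T.b (Pf T) z := by
    intro z hz
    have e1 : kf T z = br (pf T) (Pf T) z / br T.a T.b z := rfl
    rw [e1, br_eq (h0 z hz) (pf T) (Pf T), ← pP z hz]
    have := h0 z hz
    field_simp
  intro z hz
  have hz0 := n22 z hz
  -- first order consequences
  have f1 := d1.cg _ _ hm1 z hz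
  rw [d1.mul sm s22 z hz] at f1
  have f2 := d2.cg _ _ hm1 z hz
  rw [d2.mul sm s22 z hz] at f2
  have c1 : Lo T.a T.b (Lo T.a T.b (Pf T)) z = No T.a T.b (Lo T.a T.b (pf T)) z := by
    rw [d1.cg _ _ pP z hz, cm sp z hz]
  have c2 : Lo T.a T.b (No T.a T.b (Pf T)) z = No T.a T.b (Lo T.a T.b (Pf T)) z := cm sP z hz
  -- L L v
  have g1 : Lo T.a (Pf T) (Lo T.a (Pf T) v) z =
      (Lo T.a T.b (Lo T.a T.b v) z - (Lo T.a T.b m z * No T.a T.b v z +
        m z * Lo T.a T.b (No T.a T.b v) z)) -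
      m z * (No T.a T.b (Lo T.a T.b v) z - (No T.a T.b m z * No T.a T.b v z +
        m z * No T.a T.b (No T.a T.b v) z)) := by
    rw [hL _ z hz, d1.cg _ _ (hL v) z hz, d2.cg _ _ (hL v) z hz,
      d1.sub (d1.sm hv) (sm.mul (d2.sm hv)) hz, d2.sub (d1.sm hv) (sm.mul (d2.sm hv)) hz,
      d1.mul sm (d2.sm hv) z hz, d2.mul sm (d2.sm hv) z hz]
  -- N (κ N v)
  obtain ⟨q, hq⟩ : ∃ q : ℝ × ℝ → ℝ, q = fun w => Lo T.a T.b (pf T) w -
      m w * Lo T.a T.b (Pf T) w := ⟨_, rfl⟩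
  have sq' : Sm U q := by rw [hq]; exact s11.sub (sm.mul s12)
  have hq1 : ∀ w ∈ U, kf T w * No T.a (Pf T) v w = q w * No T.a T.b v w := by
    intro w hw
    have e2 := hm1 w hw
    rw [hk w hw, hN v w hw, hq]
    have := n22 w hw
    simp only
    rw [← e2]
    field_simp
  have g2 : No T.a (Pf T) (fun w => kf T w * No T.a (Pf T) v w) z =
      (No T.a T.b q z * No T.a T.b v z + q z * No T.a T.b (No T.a T.b v) z) /
        No T.a T.b (Pf T) z := by
    rw [hN _ z hz, d2.cg _ _ hq1 z hz, d2.mul sq' (d2.sm hv) z hz]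
  have g3 : No T.a T.b q z = No T.a T.b (Lo T.a T.b (pf T)) z -
      (No T.a T.b m z * Lo T.a T.b (Pf T) z + m z * No T.a T.b (Lo T.a T.b (Pf T)) z) := by
    rw [hq, d2.sub s11 (sm.mul s12) hz, d2.mul sm s12 z hz]
  have c3 := cm hv z hz
  have e2 := hm1 z hz
  have hqz : q z = Lo T.a T.b (pf T) z - m z * Lo T.a T.b (Pf T) z := by rw [hq]
  rw [hJ0 z hz]
  simp only [Op, Mo]
  rw [g1, g2, g3, hqz, ← c3]
  rw [c1] at f1
  rw [c2] at f1
  generalize Lo T.a T.b (Lo T.a T.b v) z = v11 at *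
  generalize Lo T.a T.b (No T.a T.b v) z = v12 at *
  generalize No T.a T.b (No T.a T.b v) z = v22 at *
  generalize No T.a T.b v z = v2 at *
  generalize Lo T.a T.b m z = m1 at *
  generalize No T.a T.b m z = m2 at *
  generalize No T.a T.b (Lo T.a T.b (pf T)) z = h112 at *
  generalize No T.a T.b (Lo T.a T.b (Pf T)) z = h122 at *
  generalize No T.a T.b (No T.a T.b (Pf T)) z = h222 at *
  generalize Lo T.a T.b (pf T) z = h11 at *
  generalize Lo T.a T.b (Pf T) z = h12 at *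
  generalize No T.a T.b (Pf T) z = h22 at *
  generalize br T.a T.b z = J at *
  generalize m z = mz at *
  subst e2
  field_simp
  linear_combination (-J * v2) * f1

namespace PairAux

/-- cancellation of the third order terms -/
theorem Mo_key (T : Tri) {U : Set (ℝ × ℝ)} (hU : IsOpen U) (h0 : ∀ z ∈ U, br T.a T.b z ≠ 0)
    {x1 x2 v E11 E12 E22 : ℝ × ℝ → ℝ} (s1 : Sm U x1) (s2 : Sm U x2) (sv : Sm U v)
    (hα : ∀ z ∈ U, Lo T.a T.b x1 z + pf T z * Lo T.a T.b v z = E11 z)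
    (hβ : ∀ z ∈ U, No T.a T.b x2 z + Pf T z * No T.a T.b v z = E22 z)
    (hγ : ∀ z ∈ U, (Lo T.a T.b x2 z + No T.a T.b x1 z) +
      (pf T z * No T.a T.b v z + Pf T z * Lo T.a T.b v z) = E12 z) :
    ∀ z ∈ U, Mo T v z = -(No T.a T.b (No T.a T.b E11) z - Lo T.a T.b (No T.a T.b E12) z
      + Lo T.a T.b (Lo T.a T.b E22) z) := by
  intro z hz
  have sa : Sm U T.a := Sm.of_contDiff T.ha
  have sb : Sm U T.b := Sm.of_contDiff T.hb
  have sh : Sm U T.h := Sm.of_contDiff T.hh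
  have d1 := derLo hU sa sb h0
  have d2 := derNo hU sa sb h0
  have cm : ∀ {f : ℝ × ℝ → ℝ}, Sm U f → ∀ z ∈ U,
      Lo T.a T.b (No T.a T.b f) z = No T.a T.b (Lo T.a T.b f) z :=
    fun sf z hz => Lo_No_comm hU sa sb sf h0 hz
  have sp : Sm U (pf T) := d1.sm sh
  have sP : Sm U (Pf T) := d2.sm sh
  have pP : ∀ z ∈ U, Lo T.a T.b (Pf T) z = No T.a T.b (pf T) z := fun z hz => cm sh z hz
  -- third order commutations
  have t1 : ∀ {f : ℝ × ℝ → ℝ}, Sm U f → No T.a T.b (No T.a T.b (Lo T.a T.b f)) z =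
      Lo T.a T.b (No T.a T.b (No T.a T.b f)) z := by
    intro f sf
    rw [← d2.cg _ _ (cm sf) z hz, cm (d2.sm sf) z hz]
  have t2 : ∀ {f : ℝ × ℝ → ℝ}, Sm U f → Lo T.a T.b (Lo T.a T.b (No T.a T.b f)) z =
      Lo T.a T.b (No T.a T.b (Lo T.a T.b f)) z := fun sf => d1.cg _ _ (cm sf) z hz
  have A := d2.cg2 d2 _ _ hα hz
  rw [d2.add2 d2 (d1.sm s1) (sp.mul (d1.sm sv)) hz, d2.mul2 d2 sp (d1.sm sv) hz, t1 s1, t1 sv] at A
  have B := d1.cg2 d1 _ _ hβ hz
  rw [d1.add2 d1 (d2.sm s2) (sP.mul (d2.sm sv)) hz, d1.mul2 d1 sP (d2.sm sv) hz, t2 s2, t2 sv] at B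
  have C := d1.cg2 d2 _ _ hγ hz
  rw [d1.add2 d2 ((d1.sm s2).add (d2.sm s1)) ((sp.mul (d2.sm sv)).add (sP.mul (d1.sm sv))) hz,
    d1.add2 d2 (d1.sm s2) (d2.sm s1) hz, d1.add2 d2 (sp.mul (d2.sm sv)) (sP.mul (d1.sm sv)) hz,
    d1.mul2 d2 sp (d2.sm sv) hz, d1.mul2 d2 sP (d1.sm sv) hz] at C
  have e1 : No T.a T.b (No T.a T.b (pf T)) z = Lo T.a T.b (No T.a T.b (Pf T)) z := by
    rw [← d2.cg _ _ pP z hz, cm sP z hz]
  have e2 : Lo T.a T.b (No T.a T.b (pf T)) z = Lo T.a T.b (Lo T.a T.b (Pf T)) z := by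
    rw [← d1.cg _ _ pP z hz]
  rw [← A, ← B, ← C, e1, e2, ← cm sv z hz, ← pP z hz]
  simp only [Mo]
  ring

theorem metric_rel {J ax ay bx by' hx hy x1x x1y x2x x2y vx vy w : ℝ} (hJ : J ≠ 0)
    (hJe : J = ax * by' - ay * bx)
    (r1 : x1x * ax + x2x * bx + vx * hx = w / 2) (r2 : x1y * ay + x2y * by' + vy * hy = w / 2)
    (r3 : x1x * ay + x2x * by' + vx * hy + (x1y * ax + x2y * bx + vy * hx) = 0) :
    (x1x * by' - x1y * bx) / J + (hx * by' - hy * bx) / J * ((vx * by' - vy * bx) / J) =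
      1 / 2 * (w * ((by' ^ 2 + bx ^ 2) / J ^ 2)) ∧
    (ax * x2y - ay * x2x) / J + (ax * hy - ay * hx) / J * ((ax * vy - ay * vx) / J) =
      1 / 2 * (w * ((ay ^ 2 + ax ^ 2) / J ^ 2)) ∧
    ((x2x * by' - x2y * bx) / J + (ax * x1y - ay * x1x) / J) +
      ((hx * by' - hy * bx) / J * ((ax * vy - ay * vx) / J) +
        (ax * hy - ay * hx) / J * ((vx * by' - vy * bx) / J)) =
      w * (-(by' * ay + bx * ax) / J ^ 2) := by
  refine ⟨?_, ?_, ?_⟩
  · have e : J * (x1x * by' - x1y * bx) + (hx * by' - hy * bx) * (vx * by' - vy * bx) =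
      1 / 2 * (w * (by' ^ 2 + bx ^ 2)) := by
      rw [hJe]
      linear_combination by' ^ 2 * r1 + bx ^ 2 * r2 - bx * by' * r3
    field_simp
    linear_combination 2 * e
  · have e : J * (ax * x2y - ay * x2x) + (ax * hy - ay * hx) * (ax * vy - ay * vx) =
      1 / 2 * (w * (ay ^ 2 + ax ^ 2)) := by
      rw [hJe]
      linear_combination ay ^ 2 * r1 + ax ^ 2 * r2 - ax * ay * r3
    field_simp
    linear_combination 2 * e
  · have e : J * ((x2x * by' - x2y * bx) + (ax * x1y - ay * x1x)) +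
      ((hx * by' - hy * bx) * (ax * vy - ay * vx) + (ax * hy - ay * hx) * (vx * by' - vy * bx)) =
      w * (-(by' * ay + bx * ax)) := by
      rw [hJe]
      linear_combination (-2 * by' * ay) * r1 - 2 * bx * ax * r2 + (ax * by' + ay * bx) * r3
    field_simp
    linear_combination e

theorem disc23 : disc 2 ⊆ disc 3 := by
  intro z hz
  unfold disc at *
  simp only [Set.mem_ofPred_eq] at *
  linarith

end PairAux

theorem Mo_diff (T T' : Tri) (ψ ψ' : ℝ × ℝ → ℝ) (hψ : ContDiff ℝ ∞ ψ) (hψ' : ContDiff ℝ ∞ ψ')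
    (hI : IsImm ψ T) (hI' : IsImm ψ' T')
    (h0 : ∀ z ∈ disc 2, br (T.mean T').a (T.mean T').b z ≠ 0) :
    ∀ z ∈ disc 2, Mo (T.mean T') (fun w => T.h w - T'.h w) z =
      -(1 / 2) * (No (T.mean T').a (T.mean T').b (No (T.mean T').a (T.mean T').b
          (fun w => (Real.exp (2 * ψ w) - Real.exp (2 * ψ' w)) * g11 (T.mean T') w)) z
        - 2 * Lo (T.mean T').a (T.mean T').b (No (T.mean T').a (T.mean T').b
          (fun w => (Real.exp (2 * ψ w) - Real.exp (2 * ψ' w)) * g12 (T.mean T') w)) z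
        + Lo (T.mean T').a (T.mean T').b (Lo (T.mean T').a (T.mean T').b
          (fun w => (Real.exp (2 * ψ w) - Real.exp (2 * ψ' w)) * g22 (T.mean T') w)) z) := by
  have hU := isOpen_disc 2
  have sa : Sm (disc 2) (T.mean T').a := Sm.of_contDiff (T.mean T').ha
  have sb : Sm (disc 2) (T.mean T').b := Sm.of_contDiff (T.mean T').hb
  have da : ∀ {f : ℝ × ℝ → ℝ}, ContDiff ℝ ∞ f → ∀ z, DifferentiableAt ℝ f z :=
    fun hf z => hf.differentiable (by simp) z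
  have hmx : ∀ {f g : ℝ × ℝ → ℝ}, ContDiff ℝ ∞ f → ContDiff ℝ ∞ g → ∀ z,
      dx (fun w => (f w + g w) / 2) z = (dx f z + dx g z) / 2 := by
    intro f g hf hg z
    have e : (fun w => (f w + g w) / 2) = fun w => (1 / 2 : ℝ) * (f w + g w) := by
      funext w; ring
    rw [e, dx_const_mul (f := fun w => f w + g w) _ ((da hf z).add (da hg z)), dx_add (da hf z) (da hg z)]
    ring
  have hmy : ∀ {f g : ℝ × ℝ → ℝ}, ContDiff ℝ ∞ f → ContDiff ℝ ∞ g → ∀ z,
      dy (fun w => (f w + g w) / 2) z = (dy f z + dy g z) / 2 := by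
    intro f g hf hg z
    have e : (fun w => (f w + g w) / 2) = fun w => (1 / 2 : ℝ) * (f w + g w) := by
      funext w; ring
    rw [e, dy_const_mul (f := fun w => f w + g w) _ ((da hf z).add (da hg z)), dy_add (da hf z) (da hg z)]
    ring
  have hrel : ∀ z ∈ disc 2, _ := fun z hz => by
    have h1 := hI z (disc23 hz)
    have h2 := hI' z (disc23 hz)
    exact metric_rel (J := br (T.mean T').a (T.mean T').b z)
      (ax := dx (T.mean T').a z) (ay := dy (T.mean T').a z)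
      (bx := dx (T.mean T').b z) (by' := dy (T.mean T').b z)
      (hx := dx (T.mean T').h z) (hy := dy (T.mean T').h z)
      (x1x := dx (fun w => T.a w - T'.a w) z) (x1y := dy (fun w => T.a w - T'.a w) z)
      (x2x := dx (fun w => T.b w - T'.b w) z) (x2y := dy (fun w => T.b w - T'.b w) z)
      (vx := dx (fun w => T.h w - T'.h w) z) (vy := dy (fun w => T.h w - T'.h w) z)
      (w := Real.exp (2 * ψ z) - Real.exp (2 * ψ' z)) (h0 z hz) rfl
      (by
        simp only [Tri.mean, hmx T.ha T'.ha, hmx T.hb T'.hb, hmx T.hh T'.hh,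
          dx_sub (da T.ha z) (da T'.ha z), dx_sub (da T.hb z) (da T'.hb z),
          dx_sub (da T.hh z) (da T'.hh z)]
        linear_combination (1 / 2) * h1.1 - (1 / 2) * h2.1)
      (by
        simp only [Tri.mean, hmy T.ha T'.ha, hmy T.hb T'.hb, hmy T.hh T'.hh,
          dy_sub (da T.ha z) (da T'.ha z), dy_sub (da T.hb z) (da T'.hb z),
          dy_sub (da T.hh z) (da T'.hh z)]
        linear_combination (1 / 2) * h1.2.1 - (1 / 2) * h2.2.1)
      (by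
        simp only [Tri.mean, hmy T.ha T'.ha, hmy T.hb T'.hb, hmy T.hh T'.hh,
          dy_sub (da T.ha z) (da T'.ha z), dy_sub (da T.hb z) (da T'.hb z),
          dy_sub (da T.hh z) (da T'.hh z), hmx T.ha T'.ha, hmx T.hb T'.hb, hmx T.hh T'.hh,
          dx_sub (da T.ha z) (da T'.ha z), dx_sub (da T.hb z) (da T'.hb z),
          dx_sub (da T.hh z) (da T'.hh z)]
        linear_combination h1.2.2 - h2.2.2)
  intro z hz
  have hw : ContDiff ℝ ∞ (fun w => Real.exp (2 * ψ w) - Real.exp (2 * ψ' w)) :=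
    ((contDiff_const.mul hψ).exp).sub ((contDiff_const.mul hψ').exp)
  have sw : Sm (disc 2) (fun w => Real.exp (2 * ψ w) - Real.exp (2 * ψ' w)) := Sm.of_contDiff hw
  have sJ : Sm (disc 2) (br (T.mean T').a (T.mean T').b) := Sm.br hU sa sb
  have sg11 : Sm (disc 2) (g11 (T.mean T')) :=
    (((sb.dy hU).pow 2).add ((sb.dx hU).pow 2)).div (sJ.pow 2) (fun z hz => pow_ne_zero 2 (h0 z hz))
  have sg22 : Sm (disc 2) (g22 (T.mean T')) :=
    (((sa.dy hU).pow 2).add ((sa.dx hU).pow 2)).div (sJ.pow 2) (fun z hz => pow_ne_zero 2 (h0 z hz))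
  have d1 := derLo hU sa sb h0
  have d2 := derNo hU sa sb h0
  have key := Mo_key (T.mean T') hU h0
    (x1 := fun w => T.a w - T'.a w) (x2 := fun w => T.b w - T'.b w) (v := fun w => T.h w - T'.h w)
    (E11 := fun w => 1 / 2 * ((Real.exp (2 * ψ w) - Real.exp (2 * ψ' w)) * g11 (T.mean T') w))
    (E22 := fun w => 1 / 2 * ((Real.exp (2 * ψ w) - Real.exp (2 * ψ' w)) * g22 (T.mean T') w))
    (E12 := fun w => (Real.exp (2 * ψ w) - Real.exp (2 * ψ' w)) * g12 (T.mean T') w)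
    (Sm.of_contDiff (T.ha.sub T'.ha)) (Sm.of_contDiff (T.hb.sub T'.hb))
    (Sm.of_contDiff (T.hh.sub T'.hh))
    (fun z hz => (hrel z hz).1) (fun z hz => (hrel z hz).2.1) (fun z hz => (hrel z hz).2.2) z hz
  rw [key, d2.cmul2 d2 _ (sw.mul sg11) hz, d1.cmul2 d1 _ (sw.mul sg22) hz]
  ring

namespace PairAux

/-- integrability of functions continuous on `U` and vanishing off a compact subset -/
theorem integrable_cs {U K : Set (ℝ × ℝ)} {F : ℝ × ℝ → ℝ} (hU : IsOpen U) (hK : IsCompact K)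
    (hKU : K ⊆ U) (hc : ContinuousOn F U) (h0 : ∀ z, z ∉ K → F z = 0) : Integrable F := by
  have hcont : Continuous F := by
    rw [continuous_iff_continuousAt]
    intro z
    by_cases hz : z ∈ K
    · exact (hc z (hKU hz)).continuousAt (hU.mem_nhds (hKU hz))
    · have hn : Kᶜ ∈ nhds z := hK.isClosed.isOpen_compl.mem_nhds hz
      have : F =ᶠ[nhds z] fun _ => 0 := by
        filter_upwards [hn] with w hw
        exact h0 w hw
      exact continuousAt_const.congr this.symm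
  exact hcont.integrable_of_hasCompactSupport (HasCompactSupport.intro hK h0)

/-- a first order operator with smooth coefficients, skew-adjoint for the density `J` -/
structure VF (U : Set (ℝ × ℝ)) (J : ℝ × ℝ → ℝ) (X : (ℝ × ℝ → ℝ) → (ℝ × ℝ → ℝ)) : Prop where
  coef : ∃ α β : ℝ × ℝ → ℝ, Sm U α ∧ Sm U β ∧ ∀ f z, X f z = dx f z * α z + dy f z * β z
  ibp : ∀ f φ : ℝ × ℝ → ℝ, ContDiff ℝ 1 f → HasCompactSupport f → tsupport f ⊆ U → Sm U φ →
    ∫ z, J z * (X f z * φ z) = - ∫ z, J z * (f z * X φ z)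

variable {U : Set (ℝ × ℝ)} {J f w φ : ℝ × ℝ → ℝ} {X Y : (ℝ × ℝ → ℝ) → (ℝ × ℝ → ℝ)}

theorem VF.c1 (hU : IsOpen U) (hX : VF U J X) (hw : ContDiff ℝ 2 w) (hs : tsupport w ⊆ U) :
    ContDiff ℝ 1 (X w) := by
  obtain ⟨α, β, sα, sβ, h⟩ := hX.coef
  have e : X w = fun z => dx w z * α z + dy w z * β z := by funext z; exact h w z
  have c1 : ContDiff ℝ 1 (dx w) := by
    have : ContDiff ℝ 1 (fun z => fderiv ℝ w z (1, 0)) :=
      (hw.fderiv_right (m := 1) (by norm_num)).clm_apply contDiff_const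
    exact this
  have c2 : ContDiff ℝ 1 (dy w) := by
    have : ContDiff ℝ 1 (fun z => fderiv ℝ w z (0, 1)) :=
      (hw.fderiv_right (m := 1) (by norm_num)).clm_apply contDiff_const
    exact this
  have t1 : tsupport (dx w) ⊆ U := (tsupport_fderiv_apply_subset ℝ (1, 0)).trans hs
  have t2 : tsupport (dy w) ⊆ U := (tsupport_fderiv_apply_subset ℝ (0, 1)).trans hs
  rw [e]
  exact (contDiff_mul_of_tsupport (n := 1) hU c1 t1 (ContDiffOn.of_le sα (by norm_cast))).add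
    (contDiff_mul_of_tsupport (n := 1) hU c2 t2 (ContDiffOn.of_le sβ (by norm_cast)))

theorem VF.zero_off (hX : VF U J X) {z : ℝ × ℝ} (hz : z ∉ tsupport f) : X f z = 0 := by
  obtain ⟨α, β, sα, sβ, h⟩ := hX.coef
  rw [h, dx_eq_zero_of_notMem hz, dy_eq_zero_of_notMem hz]
  ring

theorem VF.tsupport_sub (hX : VF U J X) : tsupport (X f) ⊆ tsupport f := by
  refine closure_minimal ?_ (isClosed_tsupport f)
  intro z hz
  by_contra h
  exact hz (hX.zero_off h)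

theorem VF.contOn (hX : VF U J X) (hf : ContDiff ℝ 1 f) : ContinuousOn (X f) U := by
  obtain ⟨α, β, sα, sβ, h⟩ := hX.coef
  have e : X f = fun z => dx f z * α z + dy f z * β z := by funext z; exact h f z
  rw [e]
  exact ((continuous_dx hf).continuousOn.mul sα.continuousOn).add
    ((continuous_dy hf).continuousOn.mul sβ.continuousOn)

theorem VF.ibp2 (hU : IsOpen U) (hX : VF U J X) (hY : VF U J Y) (dX : Der U X)
    (hw : ContDiff ℝ 2 w) (hc : HasCompactSupport w) (hs : tsupport w ⊆ U) (sφ : Sm U φ) :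
    ∫ z, J z * (X (Y w) z * φ z) = ∫ z, J z * (w z * Y (X φ) z) := by
  have hc' : HasCompactSupport (Y w) := hc.mono' (subset_trans subset_closure hY.tsupport_sub)
  rw [hX.ibp (Y w) φ (hY.c1 hU hw hs) hc' (hY.tsupport_sub.trans hs) sφ,
    hY.ibp w (X φ) (hw.of_le (by norm_num)) hc hs (dX.sm sφ), neg_neg]

theorem VF.int2 (hU : IsOpen U) (hX : VF U J X) (hY : VF U J Y) (hJ : ContinuousOn J U)
    (hw : ContDiff ℝ 2 w) (hc : HasCompactSupport w) (hs : tsupport w ⊆ U) (sφ : Sm U φ) :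
    Integrable (fun z => J z * (X (Y w) z * φ z)) := by
  refine integrable_cs hU hc.isCompact hs ?_ ?_
  · exact hJ.mul ((hX.contOn (hY.c1 hU hw hs)).mul sφ.continuousOn)
  · intro z hz
    have h1 : z ∉ tsupport (Y w) := fun h => hz (hY.tsupport_sub h)
    rw [hX.zero_off h1]
    ring

theorem int0 (hU : IsOpen U) (hJ : ContinuousOn J U) (hw : Continuous w)
    (hc : HasCompactSupport w) (hs : tsupport w ⊆ U) (sφ : Sm U φ) :
    Integrable (fun z => J z * (w z * φ z)) := by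
  refine integrable_cs hU hc.isCompact hs ?_ ?_
  · exact hJ.mul (hw.continuousOn.mul sφ.continuousOn)
  · intro z hz
    rw [image_eq_zero_of_notMem_tsupport hz]
    ring

theorem comb {X1 X2 : (ℝ × ℝ → ℝ) → (ℝ × ℝ → ℝ)} (hU : IsOpen U) (h1 : VF U J X1)
    (h2 : VF U J X2) (d1 : Der U X1) (d2 : Der U X2)
    (cm : ∀ {f : ℝ × ℝ → ℝ}, Sm U f → ∀ z ∈ U, X1 (X2 f) z = X2 (X1 f) z)
    (hJ : ContinuousOn J U)
    (hw : ContDiff ℝ 2 w) (hc : HasCompactSupport w) (hs : tsupport w ⊆ U)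
    {φ1 φ2 φ3 : ℝ × ℝ → ℝ} (s1 : Sm U φ1) (s2 : Sm U φ2) (s3 : Sm U φ3) :
    ∫ z, J z * (φ1 z * X1 (X1 w) z - 2 * φ2 z * X1 (X2 w) z + φ3 z * X2 (X2 w) z) =
      ∫ z, J z * (w z * (X1 (X1 φ1) z - 2 * X1 (X2 φ2) z + X2 (X2 φ3) z)) := by
  have i1 := h1.int2 hU h1 hJ hw hc hs s1
  have i2 := h1.int2 hU h2 hJ hw hc hs s2
  have i3 := h2.int2 hU h2 hJ hw hc hs s3
  have j1 := int0 hU hJ hw.continuous hc hs (d1.sm (d1.sm s1))
  have j2 := int0 hU hJ hw.continuous hc hs (d2.sm (d1.sm s2))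
  have j3 := int0 hU hJ hw.continuous hc hs (d2.sm (d2.sm s3))
  have k1 := h1.ibp2 hU h1 d1 hw hc hs s1
  have k2 := h1.ibp2 hU h2 d1 hw hc hs s2
  have k3 := h2.ibp2 hU h2 d2 hw hc hs s3
  have eL : ∀ z, J z * (φ1 z * X1 (X1 w) z - 2 * φ2 z * X1 (X2 w) z + φ3 z * X2 (X2 w) z) =
      (J z * (X1 (X1 w) z * φ1 z) - 2 * (J z * (X1 (X2 w) z * φ2 z))) +
        J z * (X2 (X2 w) z * φ3 z) := fun z => by ring
  have eR : ∀ z, J z * (w z * (X1 (X1 φ1) z - 2 * X1 (X2 φ2) z + X2 (X2 φ3) z)) =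
      (J z * (w z * X1 (X1 φ1) z) - 2 * (J z * (w z * X2 (X1 φ2) z))) +
        J z * (w z * X2 (X2 φ3) z) := by
    intro z
    by_cases hz : z ∈ tsupport w
    · rw [cm s2 z (hs hz)]
      ring
    · rw [image_eq_zero_of_notMem_tsupport hz]
      ring
  have l1 : Integrable (fun z => J z * (X1 (X1 w) z * φ1 z) -
      2 * (J z * (X1 (X2 w) z * φ2 z))) := i1.sub (i2.const_mul 2)
  have l2 : Integrable (fun z => J z * (w z * X1 (X1 φ1) z) -
      2 * (J z * (w z * X2 (X1 φ2) z))) := j1.sub (j2.const_mul 2)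
  simp only [eL, eR]
  rw [integral_add l1 i3, integral_sub i1 (i2.const_mul 2),
    integral_const_mul, integral_add l2 j3,
    integral_sub j1 (j2.const_mul 2), integral_const_mul, k1, k2, k3]

theorem vfLo {a b : ℝ × ℝ → ℝ} (hU : IsOpen U) (sa : Sm U a) (sb : Sm U b)
    (h0 : ∀ z ∈ U, br a b z ≠ 0) : VF U (br a b) (Lo a b) where
  coef := by
    refine ⟨fun z => dy b z / br a b z, fun z => -dx b z / br a b z,
      (sb.dy hU).div (Sm.br hU sa sb) h0, (sb.dx hU).neg.div (Sm.br hU sa sb) h0, fun f z => ?_⟩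
    have e : Lo a b f z = (dx f z * dy b z - dy f z * dx b z) / br a b z := rfl
    rw [e]
    ring
  ibp := by
    intro f φ hf hc hs sφ
    have key := integral_mul_br hU hf hc hs (ContDiffOn.of_le sφ (by norm_cast)) sb
    have e1 : ∀ z, br a b z * (Lo a b f z * φ z) = br f b z * φ z := by
      intro z
      by_cases hz : z ∈ tsupport f
      · have := h0 z (hs hz)
        simp only [Lo]
        field_simp
      · have e : Lo a b f z = br f b z / br a b z := rfl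
        have e' : br f b z = 0 := by
          simp only [br, dx_eq_zero_of_notMem hz, dy_eq_zero_of_notMem hz]; ring
        rw [e, e']
        simp
    have e2 : ∀ z, br a b z * (f z * Lo a b φ z) = f z * br φ b z := by
      intro z
      by_cases hz : z ∈ tsupport f
      · have := h0 z (hs hz)
        simp only [Lo]
        field_simp
      · rw [image_eq_zero_of_notMem_tsupport hz]
        ring
    simp only [e1, e2]
    rw [key, neg_neg]

theorem vfNo {a b : ℝ × ℝ → ℝ} (hU : IsOpen U) (sa : Sm U a) (sb : Sm U b)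
    (h0 : ∀ z ∈ U, br a b z ≠ 0) : VF U (br a b) (No a b) where
  coef := by
    refine ⟨fun z => -dy a z / br a b z, fun z => dx a z / br a b z,
      (sa.dy hU).neg.div (Sm.br hU sa sb) h0, (sa.dx hU).div (Sm.br hU sa sb) h0, fun f z => ?_⟩
    have e : No a b f z = (dx a z * dy f z - dy a z * dx f z) / br a b z := rfl
    rw [e]
    ring
  ibp := by
    intro f φ hf hc hs sφ
    have key := integral_mul_br hU hf hc hs (ContDiffOn.of_le sφ (by norm_cast)) sa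
    have e1 : ∀ z, br a b z * (No a b f z * φ z) = -(br f a z * φ z) := by
      intro z
      by_cases hz : z ∈ tsupport f
      · have := h0 z (hs hz)
        rw [br_antisymm (f := f)]
        simp only [No]
        field_simp
      · have e : No a b f z = br a f z / br a b z := rfl
        have e' : br a f z = 0 := by
          simp only [br, dx_eq_zero_of_notMem hz, dy_eq_zero_of_notMem hz]; ring
        have e'' : br f a z = 0 := by rw [br_antisymm, e', neg_zero]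
        rw [e, e', e'']
        simp
    have e2 : ∀ z, br a b z * (f z * No a b φ z) = -(f z * br φ a z) := by
      intro z
      by_cases hz : z ∈ tsupport f
      · have := h0 z (hs hz)
        rw [br_antisymm (f := φ)]
        simp only [No]
        field_simp
      · rw [image_eq_zero_of_notMem_tsupport hz]
        ring
    simp only [e1, e2]
    rw [integral_neg, integral_neg, key, neg_neg]

/-- formal self-adjointness of `Mo` -/
theorem Mo_selfadj (T : Tri) (hU : IsOpen U) (h0 : ∀ z ∈ U, br T.a T.b z ≠ 0)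
    {v : ℝ × ℝ → ℝ} (sv : Sm U v) : ∀ z ∈ U,
    Lo T.a T.b (Lo T.a T.b (fun w => No T.a T.b (Pf T) w * v w)) z
      - 2 * Lo T.a T.b (No T.a T.b (fun w => Lo T.a T.b (Pf T) w * v w)) z
      + No T.a T.b (No T.a T.b (fun w => Lo T.a T.b (pf T) w * v w)) z = Mo T v z := by
  intro z hz
  have sa : Sm U T.a := Sm.of_contDiff T.ha
  have sb : Sm U T.b := Sm.of_contDiff T.hb
  have sh : Sm U T.h := Sm.of_contDiff T.hh
  have d1 := derLo hU sa sb h0
  have d2 := derNo hU sa sb h0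
  have cm : ∀ {f : ℝ × ℝ → ℝ}, Sm U f → ∀ z ∈ U,
      Lo T.a T.b (No T.a T.b f) z = No T.a T.b (Lo T.a T.b f) z :=
    fun sf z hz => Lo_No_comm hU sa sb sf h0 hz
  have sp : Sm U (pf T) := d1.sm sh
  have sP : Sm U (Pf T) := d2.sm sh
  have pP : ∀ z ∈ U, Lo T.a T.b (Pf T) z = No T.a T.b (pf T) z := fun z hz => cm sh z hz
  have s22 : Sm U (No T.a T.b (Pf T)) := d2.sm sP
  have s12 : Sm U (Lo T.a T.b (Pf T)) := d1.sm sP
  have s11 : Sm U (Lo T.a T.b (pf T)) := d1.sm sp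
  -- third order
  have a1 : ∀ z ∈ U, Lo T.a T.b (No T.a T.b (Pf T)) z = No T.a T.b (Lo T.a T.b (Pf T)) z :=
    cm sP
  have a2 : ∀ z ∈ U, Lo T.a T.b (Lo T.a T.b (Pf T)) z = No T.a T.b (Lo T.a T.b (pf T)) z := by
    intro z hz
    rw [d1.cg _ _ pP z hz, cm sp z hz]
  -- fourth order
  have b1 : Lo T.a T.b (Lo T.a T.b (No T.a T.b (Pf T))) z =
      Lo T.a T.b (No T.a T.b (Lo T.a T.b (Pf T))) z := d1.cg _ _ a1 z hz
  have b2 : No T.a T.b (No T.a T.b (Lo T.a T.b (pf T))) z =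
      Lo T.a T.b (No T.a T.b (Lo T.a T.b (Pf T))) z := by
    rw [← d2.cg _ _ a2 z hz, cm s12 z hz]
  rw [d1.mul2 d1 s22 sv hz, d1.mul2 d2 s12 sv hz, d2.mul2 d2 s11 sv hz, b1, b2,
    a1 z hz, a2 z hz]
  simp only [Mo]
  ring

theorem smg {T : Tri} (hU : IsOpen U) (h0 : ∀ z ∈ U, br T.a T.b z ≠ 0) :
    Sm U (g11 T) ∧ Sm U (g12 T) ∧ Sm U (g22 T) := by
  have sa : Sm U T.a := Sm.of_contDiff T.ha
  have sb : Sm U T.b := Sm.of_contDiff T.hb
  have sJ : Sm U (br T.a T.b) := Sm.br hU sa sb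
  have hn : ∀ z ∈ U, br T.a T.b z ^ 2 ≠ 0 := fun z hz => pow_ne_zero 2 (h0 z hz)
  exact ⟨(((sb.dy hU).pow 2).add ((sb.dx hU).pow 2)).div (sJ.pow 2) hn,
    ((((sb.dy hU).mul (sa.dy hU)).add ((sb.dx hU).mul (sa.dx hU))).neg).div (sJ.pow 2) hn,
    (((sa.dy hU).pow 2).add ((sa.dx hU).pow 2)).div (sJ.pow 2) hn⟩

end PairAux

theorem weak_form (T T' : Tri) (ψ ψ' : ℝ × ℝ → ℝ) (hψ : ContDiff ℝ ∞ ψ) (hψ' : ContDiff ℝ ∞ ψ')
    (hI : IsImm ψ T) (hI' : IsImm ψ' T')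
    (h0 : ∀ z ∈ disc 2, br (T.mean T').a (T.mean T').b z ≠ 0) (w : ℝ × ℝ → ℝ)
    (hw : ContDiff ℝ 2 w) (hc : HasCompactSupport w) (hs : tsupport w ⊆ disc 2) :
    ∫ z, br (T.mean T').a (T.mean T').b z * ((T.h z - T'.h z) * Mo (T.mean T') w z) =
      -(1 / 2) * ∫ z, br (T.mean T').a (T.mean T').b z *
        ((Real.exp (2 * ψ z) - Real.exp (2 * ψ' z)) *
          (g11 (T.mean T') z * No (T.mean T').a (T.mean T').b (No (T.mean T').a (T.mean T').b w) z
           - 2 * g12 (T.mean T') z * Lo (T.mean T').a (T.mean T').b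
              (No (T.mean T').a (T.mean T').b w) z
           + g22 (T.mean T') z * Lo (T.mean T').a (T.mean T').b
              (Lo (T.mean T').a (T.mean T').b w) z)) := by
  have hU := isOpen_disc 2
  have key := Mo_diff T T' ψ ψ' hψ hψ' hI hI' h0
  have sv : Sm (disc 2) (fun w => T.h w - T'.h w) := Sm.of_contDiff (T.hh.sub T'.hh)
  have se : Sm (disc 2) (fun w => Real.exp (2 * ψ w) - Real.exp (2 * ψ' w)) :=
    Sm.of_contDiff (((contDiff_const.mul hψ).exp).sub ((contDiff_const.mul hψ').exp))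
  generalize hTm : T.mean T' = Q at *
  have sa : Sm (disc 2) Q.a := Sm.of_contDiff Q.ha
  have sb : Sm (disc 2) Q.b := Sm.of_contDiff Q.hb
  have sh : Sm (disc 2) Q.h := Sm.of_contDiff Q.hh
  have sJ : Sm (disc 2) (br Q.a Q.b) := Sm.br hU sa sb
  have d1 := derLo hU sa sb h0
  have d2 := derNo hU sa sb h0
  have v1 := vfLo hU sa sb h0
  have v2 := vfNo hU sa sb h0
  have sp : Sm (disc 2) (pf Q) := d1.sm sh
  have sP : Sm (disc 2) (Pf Q) := d2.sm sh
  have cm : ∀ {f : ℝ × ℝ → ℝ}, Sm (disc 2) f → ∀ z ∈ disc 2,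
      Lo Q.a Q.b (No Q.a Q.b f) z = No Q.a Q.b (Lo Q.a Q.b f) z :=
    fun sf z hz => Lo_No_comm hU sa sb sf h0 hz
  obtain ⟨sg1, sg2, sg3⟩ := smg (T := Q) hU h0
  have c1 := comb hU v1 v2 d1 d2 cm sJ.continuousOn hw hc hs
    ((d2.sm sP).mul sv) ((d1.sm sP).mul sv) ((d1.sm sp).mul sv)
  have c2 := comb hU v1 v2 d1 d2 cm sJ.continuousOn hw hc hs
    (se.mul sg3) (se.mul sg2) (se.mul sg1)
  have e1 : ∀ z, br Q.a Q.b z * ((T.h z - T'.h z) * Mo Q w z) =
      br Q.a Q.b z * (No Q.a Q.b (Pf Q) z * (T.h z - T'.h z) * Lo Q.a Q.b (Lo Q.a Q.b w) z -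
        2 * (Lo Q.a Q.b (Pf Q) z * (T.h z - T'.h z)) * Lo Q.a Q.b (No Q.a Q.b w) z +
        Lo Q.a Q.b (pf Q) z * (T.h z - T'.h z) * No Q.a Q.b (No Q.a Q.b w) z) := by
    intro z
    simp only [Mo]
    ring
  have e2 : ∀ z, br Q.a Q.b z * ((Real.exp (2 * ψ z) - Real.exp (2 * ψ' z)) *
          (g11 Q z * No Q.a Q.b (No Q.a Q.b w) z - 2 * g12 Q z * Lo Q.a Q.b (No Q.a Q.b w) z
           + g22 Q z * Lo Q.a Q.b (Lo Q.a Q.b w) z)) =
      br Q.a Q.b z * ((Real.exp (2 * ψ z) - Real.exp (2 * ψ' z)) * g22 Q z *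
          Lo Q.a Q.b (Lo Q.a Q.b w) z -
        2 * ((Real.exp (2 * ψ z) - Real.exp (2 * ψ' z)) * g12 Q z) *
          Lo Q.a Q.b (No Q.a Q.b w) z +
        (Real.exp (2 * ψ z) - Real.exp (2 * ψ' z)) * g11 Q z *
          No Q.a Q.b (No Q.a Q.b w) z) := by
    intro z
    ring
  simp only [e1, e2]
  rw [c1, c2, ← integral_const_mul]
  refine integral_congr_ae (Filter.Eventually.of_forall fun z => ?_)
  simp only
  by_cases hz : z ∈ tsupport w
  · have hz' := hs hz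
    have q := Mo_selfadj Q hU h0 sv z hz'
    rw [q, key z hz']
    ring
  · rw [image_eq_zero_of_notMem_tsupport hz]
    ring

namespace PairAux

open BdAux in
theorem LN_bd (k : ℕ) (C c : ℝ) (hC : 0 < C) (hc : 0 < c) : ∃ D : ℝ, 0 < D ∧
    ∀ (U : Set (ℝ × ℝ)) (a b f : ℝ × ℝ → ℝ) (E : ℝ), IsOpen U → Sm U a → Sm U b → Sm U f →
      Bd U (k + 1) C a → Bd U (k + 1) C b → (∀ z ∈ U, c ≤ br a b z) → Bd U (k + 1) E f →
      Bd U k (D * E) (Lo a b f) ∧ Bd U k (D * E) (No a b f) := by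
  obtain ⟨D, hD, h⟩ := div' k (2 * (2 ^ k * C * C)) c hc
  refine ⟨D * (2 * (2 ^ k * C)), by positivity, fun U a b f E hU sa sb sf ha hb h0 hf => ?_⟩
  have hJ := Bd.br hU sa sb ha hb
  have h1 := h U _ _ _ hU (Sm.br hU sf sb) (Sm.br hU sa sb) (Bd.br hU sf sb hf hb) hJ h0
  have h2 := h U _ _ _ hU (Sm.br hU sa sf) (Sm.br hU sa sb) (Bd.br hU sa sf ha hf) hJ h0
  constructor
  · refine Bd.mono h1 subset_rfl (le_of_eq (by ring))
  · refine Bd.mono h2 subset_rfl (le_of_eq (by ring))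

theorem g_bd (C c : ℝ) (hC : 0 < C) (hc : 0 < c) : ∃ D : ℝ, 0 < D ∧
    ∀ (U : Set (ℝ × ℝ)) (T : Tri), IsOpen U → Bd U 3 C T.a → Bd U 3 C T.b →
      (∀ z ∈ U, c ≤ br T.a T.b z) →
      Bd U 2 D (g11 T) ∧ Bd U 2 D (g12 T) ∧ Bd U 2 D (g22 T) := by
  obtain ⟨D, hD, h⟩ := Bd.div 2 (8 * C ^ 2 + 256 * C ^ 4) (c * c) (by positivity)
  refine ⟨D, hD, fun U T hU ha hb h0 => ?_⟩
  have sa : Sm U T.a := Sm.of_contDiff T.ha
  have sb : Sm U T.b := Sm.of_contDiff T.hb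
  have sJ : Sm U (br T.a T.b) := Sm.br hU sa sb
  have hJ := Bd.br hU sa sb ha hb
  have hJJ := (Bd.mul hU sJ sJ hJ hJ).mono (D := 8 * C ^ 2 + 256 * C ^ 4) subset_rfl
    (by have : 0 ≤ C ^ 2 := by positivity
        nlinarith)
  have hcc : ∀ z ∈ U, c * c ≤ br T.a T.b z * br T.a T.b z := fun z hz =>
    mul_le_mul (h0 z hz) (h0 z hz) hc.le (hc.le.trans (h0 z hz))
  have q : ∀ {p q r s : ℝ × ℝ → ℝ}, Sm U p → Sm U q → Sm U r → Sm U s → Bd U 2 C p → Bd U 2 C q →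
      Bd U 2 C r → Bd U 2 C s → Bd U 2 (8 * C ^ 2 + 256 * C ^ 4)
        (fun z => p z * q z + r z * s z) := by
    intro p q r s sp sq sr ss hp hq hr hs
    refine (Bd.add hU (sp.mul sq) (sr.mul ss) (Bd.mul hU sp sq hp hq)
      (Bd.mul hU sr ss hr hs)).mono subset_rfl ?_
    have : 0 ≤ C ^ 4 := by positivity
    nlinarith
  have bx := sb.dx hU
  have by' := sb.dy hU
  have ax := sa.dx hU
  have ay := sa.dy hU
  have e2 : ∀ x : ℝ, x ^ 2 = x * x := fun x => by ring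
  refine ⟨?_, ?_, ?_⟩
  · refine Bd.congr hU (fun z hz => ?_) (h U _ _ hU ((by'.mul by').add (bx.mul bx)) (sJ.mul sJ)
      (q by' by' bx bx hb.dy hb.dy hb.dx hb.dx) hJJ hcc)
    simp only [g11, e2]
  · refine Bd.congr hU (fun z hz => ?_) (h U _ _ hU ((by'.mul ay).add (bx.mul ax)).neg
      (sJ.mul sJ) (q by' ay bx ax hb.dy ha.dy hb.dx ha.dx).neg hJJ hcc)
    simp only [g12, e2]
  · refine Bd.congr hU (fun z hz => ?_) (h U _ _ hU ((ay.mul ay).add (ax.mul ax)) (sJ.mul sJ)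
      (q ay ay ax ax ha.dy ha.dy ha.dx ha.dx) hJJ hcc)
    simp only [g22, e2]

theorem zero_mem_disc2 : (0 : ℝ × ℝ) ∈ disc 2 := by
  unfold disc
  simp

/-- `J * Op v = J0 * Mo v` and the value of `Mo v` -/
theorem Op_val {M ε C0 j0 : ℝ} (hj : 0 < j0) (T T' : Tri) (ψ ψ' : ℝ × ℝ → ℝ)
    (hψ : ContDiff ℝ ∞ ψ) (hψ' : ContDiff ℝ ∞ ψ')
    (hI : IsImm ψ T) (hI' : IsImm ψ' T') (hB : Basic M ε C0 j0 (T.mean T')) :
    ∀ z ∈ disc 2, br (T.mean T').a (Pf (T.mean T')) z *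
        Op (T.mean T').a (Pf (T.mean T')) (kf (T.mean T')) (fun w => T.h w - T'.h w) z =
      br (T.mean T').a (T.mean T').b z *
      (-(1 / 2) * (No (T.mean T').a (T.mean T').b (No (T.mean T').a (T.mean T').b
          (fun w => (Real.exp (2 * ψ w) - Real.exp (2 * ψ' w)) * g11 (T.mean T') w)) z
        - 2 * Lo (T.mean T').a (T.mean T').b (No (T.mean T').a (T.mean T').b
          (fun w => (Real.exp (2 * ψ w) - Real.exp (2 * ψ' w)) * g12 (T.mean T') w)) z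
        + Lo (T.mean T').a (T.mean T').b (Lo (T.mean T').a (T.mean T').b
          (fun w => (Real.exp (2 * ψ w) - Real.exp (2 * ψ' w)) * g22 (T.mean T') w)) z)) := by
  intro z hz
  have h0 : ∀ z ∈ disc 2, br (T.mean T').a (T.mean T').b z ≠ 0 := fun z hz =>
    ((by norm_num : (0 : ℝ) < 9 / 10).trans_le (hB.J0l z hz)).ne'
  have hJ : ∀ z ∈ disc 2, br (T.mean T').a (Pf (T.mean T')) z ≠ 0 := fun z hz =>
    (hj.trans_le (hB.reg.J z hz)).ne'
  have e1 := Op_eq_Mo (T.mean T') (isOpen_disc 2) h0 hJ (fun w => T.h w - T'.h w)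
    (Sm.of_contDiff (T.hh.sub T'.hh)) z hz
  rw [e1, Mo_diff T T' ψ ψ' hψ hψ' hI hI' h0 z hz]

end PairAux

theorem source_bound (M ε C0 j0 : ℝ) (hM : 1 ≤ M) (hε : 0 < ε) (hC : 0 < C0) (hj : 0 < j0) :
    ∃ C : ℝ, 0 < C ∧ ∀ (T T' : Tri) (ψ ψ' : ℝ × ℝ → ℝ) (S0 : ℝ), ContDiff ℝ ∞ ψ →
      ContDiff ℝ ∞ ψ' → IsImm ψ T → IsImm ψ' T' → Basic M ε C0 j0 (T.mean T') →
      Bd (disc 2) 2 S0 (fun z => Real.exp (2 * ψ z) - Real.exp (2 * ψ' z)) →
      ∀ z ∈ disc 2, |Op (T.mean T').a (Pf (T.mean T')) (kf (T.mean T'))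
        (fun w => T.h w - T'.h w) z| ≤ C * S0 := by
  obtain ⟨G, hG, hg⟩ := g_bd C0 (9 / 10) hC (by norm_num)
  obtain ⟨D1, hD1, h1⟩ := LN_bd 1 C0 (9 / 10) hC (by norm_num)
  obtain ⟨D0, hD0, h2⟩ := LN_bd 0 C0 (9 / 10) hC (by norm_num)
  refine ⟨11 / 10 * 8 * D0 * D1 * G / j0, by positivity,
    fun T T' ψ ψ' S0 hψ hψ' hI hI' hB hw z hz => ?_⟩
  have hU := isOpen_disc 2
  have key := Op_val hj T T' ψ ψ' hψ hψ' hI hI' hB z hz
  have hS0 : 0 ≤ S0 := (abs_nonneg _).trans (hw.bound zero_mem_disc2)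
  have se : Sm (disc 2) (fun w => Real.exp (2 * ψ w) - Real.exp (2 * ψ' w)) :=
    Sm.of_contDiff (((contDiff_const.mul hψ).exp).sub ((contDiff_const.mul hψ').exp))
  have hJz := hB.reg.J z hz
  have hJ0 := hB.J0l
  have hJ0u := hB.J0u z hz
  have ba := hB.bda
  have bb := hB.bdb
  generalize Op (T.mean T').a (Pf (T.mean T')) (kf (T.mean T'))
        (fun w => T.h w - T'.h w) z = O at *
  generalize br (T.mean T').a (Pf (T.mean T')) z = J at *
  generalize hTm : T.mean T' = Q at *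
  have h0 : ∀ z ∈ disc 2, br Q.a Q.b z ≠ 0 := fun z hz =>
    ((by norm_num : (0 : ℝ) < 9 / 10).trans_le (hJ0 z hz)).ne'
  have sa : Sm (disc 2) Q.a := Sm.of_contDiff Q.ha
  have sb : Sm (disc 2) Q.b := Sm.of_contDiff Q.hb
  have d1 := derLo hU sa sb h0
  have d2 := derNo hU sa sb h0
  obtain ⟨sg1, sg2, sg3⟩ := smg (T := Q) hU h0
  obtain ⟨b1, b2, b3⟩ := hg (disc 2) Q hU ba bb hJ0
  have c1 := Bd.mul hU se sg1 hw b1
  have c2 := Bd.mul hU se sg2 hw b2
  have c3 := Bd.mul hU se sg3 hw b3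
  have ba2 := ba.of_le (m := 2) (by norm_num)
  have bb2 := bb.of_le (m := 2) (by norm_num)
  have ba1 := ba.of_le (m := 1) (by norm_num)
  have bb1 := bb.of_le (m := 1) (by norm_num)
  have e1 := (h1 (disc 2) Q.a Q.b _ _ hU sa sb (se.mul sg1) ba2 bb2 hJ0 c1).2
  have e2 := (h1 (disc 2) Q.a Q.b _ _ hU sa sb (se.mul sg2) ba2 bb2 hJ0 c2).2
  have e3 := (h1 (disc 2) Q.a Q.b _ _ hU sa sb (se.mul sg3) ba2 bb2 hJ0 c3).1
  have f1 := (h2 (disc 2) Q.a Q.b _ _ hU sa sb (d2.sm (se.mul sg1)) ba1 bb1 hJ0 e1).2 z hz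
  have f2 := (h2 (disc 2) Q.a Q.b _ _ hU sa sb (d2.sm (se.mul sg2)) ba1 bb1 hJ0 e2).1 z hz
  have f3 := (h2 (disc 2) Q.a Q.b _ _ hU sa sb (d1.sm (se.mul sg3)) ba1 bb1 hJ0 e3).1 z hz
  generalize No Q.a Q.b (No Q.a Q.b
    (fun w => (Real.exp (2 * ψ w) - Real.exp (2 * ψ' w)) * g11 Q w)) z = A1 at *
  generalize Lo Q.a Q.b (No Q.a Q.b
    (fun w => (Real.exp (2 * ψ w) - Real.exp (2 * ψ' w)) * g12 Q w)) z = A2 at *
  generalize Lo Q.a Q.b (Lo Q.a Q.b
    (fun w => (Real.exp (2 * ψ w) - Real.exp (2 * ψ' w)) * g22 Q w)) z = A3 at *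
  have hJ0z := hJ0 z hz
  generalize br Q.a Q.b z = J0 at *
  have hJpos : 0 < J := hj.trans_le hJz
  have hB1 : |A1 - 2 * A2 + A3| ≤ 4 * (D0 * (D1 * (2 ^ 2 * S0 * G))) := by
    rw [abs_le] at *
    constructor <;> linarith [f1.1, f1.2, f2.1, f2.2, f3.1, f3.2]
  have hB2 : |J * O| ≤ 11 / 10 * (8 * (D0 * D1 * G * S0)) := by
    rw [key, abs_mul, abs_mul, abs_of_pos (by linarith : 0 < J0)]
    have e : |(-(1 / 2) : ℝ)| = 1 / 2 := by norm_num
    rw [e]
    have h8 : 1 / 2 * |A1 - 2 * A2 + A3| ≤ 8 * (D0 * D1 * G * S0) := by nlinarith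
    exact mul_le_mul hJ0u h8 (by positivity) (by norm_num)
  rw [abs_mul, abs_of_pos hJpos] at hB2
  have hB3 : j0 * |O| ≤ 11 / 10 * (8 * (D0 * D1 * G * S0)) :=
    (mul_le_mul_of_nonneg_right hJz (abs_nonneg _)).trans hB2
  have hB4 : |O| ≤ (11 / 10 * (8 * (D0 * D1 * G * S0))) / j0 := by
    rw [le_div_iff₀ hj]
    linarith
  refine hB4.trans (le_of_eq (by ring))

theorem source_zero (M ε C0 j0 : ℝ) (hM : 1 ≤ M) (hε : 0 < ε) (hC : 0 < C0) (hj : 0 < j0)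
    (T T' : Tri) (ψ ψ' : ℝ × ℝ → ℝ) (hψ : ContDiff ℝ ∞ ψ) (hψ' : ContDiff ℝ ∞ ψ')
    (hI : IsImm ψ T) (hI' : IsImm ψ' T') (hB : Basic M ε C0 j0 (T.mean T')) (b : ℝ) (hb : 0 ≤ b)
    (h : ∀ z, z ∉ disc b → Real.exp (2 * ψ z) - Real.exp (2 * ψ' z) = 0) :
    ∀ z ∈ disc 2, z ∉ disc b → Op (T.mean T').a (Pf (T.mean T')) (kf (T.mean T'))
        (fun w => T.h w - T'.h w) z = 0 := by
  intro z hz hzb
  have hU := isOpen_disc 2
  have key := Op_val hj T T' ψ ψ' hψ hψ' hI hI' hB z hz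
  have se : Sm (disc 2) (fun w => Real.exp (2 * ψ w) - Real.exp (2 * ψ' w)) :=
    Sm.of_contDiff (((contDiff_const.mul hψ).exp).sub ((contDiff_const.mul hψ').exp))
  have hJz : br (T.mean T').a (Pf (T.mean T')) z ≠ 0 := (hj.trans_le (hB.reg.J z hz)).ne'
  have hJ0 := hB.J0l
  generalize Op (T.mean T').a (Pf (T.mean T')) (kf (T.mean T'))
        (fun w => T.h w - T'.h w) z = O at *
  generalize br (T.mean T').a (Pf (T.mean T')) z = J at *
  generalize hTm : T.mean T' = Q at *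
  have h0 : ∀ z ∈ disc 2, br Q.a Q.b z ≠ 0 := fun z hz =>
    ((by norm_num : (0 : ℝ) < 9 / 10).trans_le (hJ0 z hz)).ne'
  have sa : Sm (disc 2) Q.a := Sm.of_contDiff Q.ha
  have sb : Sm (disc 2) Q.b := Sm.of_contDiff Q.hb
  have d1 := derLo hU sa sb h0
  have d2 := derNo hU sa sb h0
  obtain ⟨sg1, sg2, sg3⟩ := smg (T := Q) hU h0
  -- the open set on which everything vanishes
  obtain ⟨S, hS⟩ : ∃ S : Set (ℝ × ℝ), S = {w | w ∈ disc 2 ∧ b ^ 2 < w.1 ^ 2 + w.2 ^ 2} := ⟨_, rfl⟩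
  have hSo : IsOpen S := by
    rw [hS]
    have h2 : IsOpen {w : ℝ × ℝ | b ^ 2 < w.1 ^ 2 + w.2 ^ 2} :=
      isOpen_lt continuous_const (by fun_prop)
    exact hU.inter h2
  have hS2 : S ⊆ disc 2 := by rw [hS]; exact fun w hw => hw.1
  have e1 := derLo hSo (sa.mono hS2) (sb.mono hS2) (fun z hz => h0 z (hS2 hz))
  have e2 := derNo hSo (sa.mono hS2) (sb.mono hS2) (fun z hz => h0 z (hS2 hz))
  have hzero : ∀ (g : ℝ × ℝ → ℝ), ∀ w ∈ S,
      (Real.exp (2 * ψ w) - Real.exp (2 * ψ' w)) * g w = (fun _ => (0 : ℝ)) w := by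
    intro g w hw
    rw [hS] at hw
    have : w ∉ disc b := by
      unfold disc
      simp only [Set.mem_ofPred_eq, not_lt]
      exact hw.2.le
    rw [h w this, zero_mul]
  have van : ∀ (D E : (ℝ × ℝ → ℝ) → (ℝ × ℝ → ℝ)) (g : ℝ × ℝ → ℝ), Der S D → Der S E →
      Der (disc 2) D → Der (disc 2) E → Sm (disc 2) g →
      D (E (fun w => (Real.exp (2 * ψ w) - Real.exp (2 * ψ' w)) * g w)) z = 0 := by
    intro D E g dD dE dD' dE' sg
    have hS0 : ∀ w ∈ S, D (E (fun w => (Real.exp (2 * ψ w) - Real.exp (2 * ψ' w)) * g w)) w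
        = 0 := by
      intro w hw
      rw [dD.cg2 dE _ _ (hzero g) hw,
        dD.cg _ (fun _ => 0) (fun w hw => dE.zero hw) w hw, dD.zero hw]
    have hcont : ContinuousAt
        (D (E (fun w => (Real.exp (2 * ψ w) - Real.exp (2 * ψ' w)) * g w))) z :=
      ((dD'.sm (dE'.sm (se.mul sg))).continuousOn z hz).continuousAt (hU.mem_nhds hz)
    obtain ⟨σ, hσ1, hσ2⟩ : ∃ σ : ℝ, σ ^ 2 = 1 ∧ 0 ≤ σ * z.1 := by
      rcases le_total 0 z.1 with h | h
      · exact ⟨1, by norm_num, by linarith⟩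
      · exact ⟨-1, by norm_num, by linarith⟩
    have hγ : ContinuousAt (fun t : ℝ => ((z.1 + t * σ, z.2) : ℝ × ℝ)) 0 := by fun_prop
    have hγ0 : ((z.1 + 0 * σ, z.2) : ℝ × ℝ) = z := by simp
    have hlim : Filter.Tendsto (fun t : ℝ => D (E (fun w => (Real.exp (2 * ψ w) -
        Real.exp (2 * ψ' w)) * g w)) (z.1 + t * σ, z.2)) (nhdsWithin 0 (Ioi 0))
        (nhds (D (E (fun w => (Real.exp (2 * ψ w) - Real.exp (2 * ψ' w)) * g w)) z)) := by
      have h1 : Filter.Tendsto (fun t : ℝ => ((z.1 + t * σ, z.2) : ℝ × ℝ)) (nhds 0) (nhds z) := by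
        have := hγ.tendsto
        rwa [hγ0] at this
      exact (hcont.tendsto.comp h1).mono_left nhdsWithin_le_nhds
    have hev : ∀ᶠ t : ℝ in nhdsWithin 0 (Ioi 0), D (E (fun w => (Real.exp (2 * ψ w) -
        Real.exp (2 * ψ' w)) * g w)) (z.1 + t * σ, z.2) = 0 := by
      have h1 : Filter.Tendsto (fun t : ℝ => ((z.1 + t * σ, z.2) : ℝ × ℝ))
          (nhdsWithin 0 (Ioi 0)) (nhds z) := by
        have := hγ.tendsto
        rw [hγ0] at this
        exact this.mono_left nhdsWithin_le_nhds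
      filter_upwards [h1.eventually (hU.mem_nhds hz), self_mem_nhdsWithin] with t ht ht0
      apply hS0
      rw [hS]
      refine ⟨ht, ?_⟩
      have hzb' : b ^ 2 ≤ z.1 ^ 2 + z.2 ^ 2 := by
        unfold disc at hzb
        simpa only [Set.mem_ofPred_eq, not_lt] using hzb
      have ht0' : 0 < t := ht0
      have : 0 < t ^ 2 := by positivity
      have h3 : (z.1 + t * σ) ^ 2 = z.1 ^ 2 + 2 * t * (σ * z.1) + t ^ 2 * σ ^ 2 := by ring
      simp only
      rw [h3, hσ1]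
      have h4 : 0 ≤ 2 * t * (σ * z.1) := by positivity
      linarith
    have hlim2 : Filter.Tendsto (fun t : ℝ => D (E (fun w => (Real.exp (2 * ψ w) -
        Real.exp (2 * ψ' w)) * g w)) (z.1 + t * σ, z.2)) (nhdsWithin 0 (Ioi 0)) (nhds 0) :=
      (tendsto_const_nhds).congr' (hev.mono fun t ht => ht.symm)
    exact tendsto_nhds_unique hlim hlim2
  rw [van _ _ _ e2 e2 d2 d2 sg1, van _ _ _ e1 e2 d1 d2 sg2, van _ _ _ e1 e1 d1 d1 sg3] at key
  have : J * O = 0 := by rw [key]; ring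
  exact (mul_eq_zero.mp this).resolve_left hJz

end Vale.Agent.P229
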