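import Vale.Agent.P229.KeyD
import Vale.Agent.P229.Pair

/-!
# P229: the contradiction for one pair, and numerics
-/

namespace Vale.Agent.P229

open MeasureTheory Set
open scoped ContDiff

namespace KeyAux

instance : Nonempty Tri := ⟨⟨0, 0, 0, contDiff_const, contDiff_const, contDiff_const⟩⟩

/-- conclusion of `bump_bound` -/
def BBProp (C0 j0 ρ0 κ0 C1 C b0 : ℝ) : Prop := ∀ (u P κ v : ℝ × ℝ → ℝ) (b d S : ℝ),
      0 < b → b < b0 → 0 ≤ d → 0 ≤ S → Reg C0 j0 u P κ → Geo ρ0 κ0 u P κ → ContDiff ℝ ∞ v →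
      (∀ z ∈ disc 1, z ∉ disc b → Op u P κ v z = 0) →
      (∫ z in disc b, Op u P κ v z ^ 2 ≤ S ^ 2) →
      (∫ z in {z | z ∈ disc 1 ∧ κ0 / 75 < |P z|}, (v z ^ 2 + dx v z ^ 2 + dy v z ^ 2) ≤ d ^ 2) →
      (∫ z in disc (C1 * b), v z ^ 2 ≤ C * (b ^ 4 * S ^ 2 + d ^ 2 / b ^ 2)) ∧
      (∫ z in {z | z ∈ disc (1 / 10) ∧ z ∉ disc (C1 * b)}, v z ^ 2 ≤ C * (d ^ 2 / b ^ 2))

/-- conclusion of `bump_contra` -/
def BCProp (M ε C0 j0 κ0 C1 c C b0 : ℝ) : Prop := ∀ (T : Tri) (e0 : ℝ) (v w0 : ℝ × ℝ → ℝ)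
      (b β amp S0 V1 V2 : ℝ), Basic M ε C0 j0 T → Nrm M ε e0 T → 99 / 100 ≤ e0 → e0 ≤ 1 →
      kf T 0 ≤ -κ0 ^ 2 → ContDiff ℝ ∞ v → BumpDiff amp S0 b β w0 →
      (∀ w : ℝ × ℝ → ℝ, ContDiff ℝ 2 w → HasCompactSupport w → tsupport w ⊆ disc 2 →
        ∫ z, br T.a T.b z * (v z * Mo T w z) =
          -(1 / 2) * ∫ z, br T.a T.b z * (w0 z *
            (g11 T z * No T.a T.b (No T.a T.b w) z - 2 * g12 T z * Lo T.a T.b (No T.a T.b w) z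
              + g22 T z * Lo T.a T.b (Lo T.a T.b w) z))) →
      0 < b → b < b0 → 0 < β → C * b ^ 2 ≤ β / b → 0 ≤ amp → 0 ≤ V1 → 0 ≤ V2 →
      (∫ z in disc (C1 * b), v z ^ 2 ≤ V1 ^ 2) →
      (∫ z in {z | z ∈ disc (1 / 10) ∧ z ∉ disc (C1 * b)}, v z ^ 2 ≤ V2 ^ 2) →
      c * amp * (β / b) ^ 3 ≤ C * (b ^ 3 * V1 + V2)

/-- from the smallness `d` away from the bump to the final inequality -/
theorem pair_final {C0 j0 k1 n1 g t1 κ0 C1 CB CK cK CS b b0 M ε e0 d β amp S0 : ℝ}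
    {T T' : Tri} {ψ ψ' Ps : ℝ × ℝ → ℝ}
    (hbb : BBProp C0 j0 (ε / (2 * M)) κ0 C1 CB b0) (hbc : BCProp M ε C0 j0 κ0 C1 cK CK b0)
    (hCS : 0 ≤ CS) (hCB : 0 ≤ CB) (hS0 : 0 ≤ S0) (hd : 0 ≤ d) (hamp : 0 ≤ amp)
    (hψ : ContDiff ℝ ∞ ψ) (hψ' : ContDiff ℝ ∞ ψ') (hI : IsImm ψ T) (hI' : IsImm ψ' T')
    (hNm : Nrm M ε e0 (T.mean T')) (hBm : Basic M ε C0 j0 (T.mean T')) (he : 99 / 100 ≤ e0)
    (he1 : e0 ≤ 1)
    (hsrc : ∀ z ∈ disc 2, |Op (T.mean T').a (Pf (T.mean T')) (kf (T.mean T'))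
        (fun w => T.h w - T'.h w) z| ≤ CS * S0)
    (hop : ∀ z ∈ disc 2, z ∉ disc b → Op (T.mean T').a (Pf (T.mean T')) (kf (T.mean T'))
        (fun w => T.h w - T'.h w) z = 0)
    (MD : MeanData C0 j0 k1 n1 g t1 κ0 (ε / (2 * M)) b Ps (T.mean T').a (Pf (T.mean T'))
      (kf (T.mean T')) (fun w => T.h w - T'.h w))
    (hBD : BumpDiff amp S0 b β (fun z => Real.exp (2 * ψ z) - Real.exp (2 * ψ' z)))
    (hb : 0 < b) (hbb0 : b < b0) (hb1 : b ≤ 1) (hβ : 0 < β) (hCKb : CK * b ^ 2 ≤ β / b)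
    (hsmall : ∫ z in {z | z ∈ disc 1 ∧ κ0 / 75 < |Pf (T.mean T') z|},
      ((T.h z - T'.h z) ^ 2 + dx (fun w => T.h w - T'.h w) z ^ 2
        + dy (fun w => T.h w - T'.h w) z ^ 2) ≤ d ^ 2) :
    cK * amp * (β / b) ^ 3 ≤ CK * (b ^ 3 * (Real.sqrt CB * (b ^ 2 * (2 * (CS * S0) * b) + d / b))
      + Real.sqrt CB * (d / b)) := by
  have hv : ContDiff ℝ ∞ (fun w => T.h w - T'.h w) := T.hh.sub T'.hh
  have hS : ∫ z in disc b, Op (T.mean T').a (Pf (T.mean T')) (kf (T.mean T'))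
      (fun w => T.h w - T'.h w) z ^ 2 ≤ (2 * (CS * S0) * b) ^ 2 := by
    have h1 : ∀ z ∈ disc b, |Op (T.mean T').a (Pf (T.mean T')) (kf (T.mean T'))
      (fun w => T.h w - T'.h w) z ^ 2| ≤ (CS * S0) ^ 2 := by
      intro z hz
      have h2 := hsrc z (disc_mono hb.le (by linarith) hz)
      rw [abs_pow]
      exact pow_le_pow_left₀ (abs_nonneg _) h2 2
    have := setIntegral_disc_le (K := (CS * S0) ^ 2) hb.le (by positivity) h1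
    refine this.trans (le_of_eq ?_)
    ring
  have key := hbb _ _ _ _ b d (2 * (CS * S0) * b) hb hbb0 hd (by positivity) hBm.reg MD.geo hv
    (fun z hz hz' => hop z (disc_mono (by norm_num) (by norm_num) hz) hz') hS hsmall
  have sB : Real.sqrt CB ^ 2 = CB := Real.sq_sqrt hCB
  have sB0 : 0 ≤ Real.sqrt CB := Real.sqrt_nonneg _
  have hdb : 0 ≤ d / b := by positivity
  have hk0 : kf (T.mean T') 0 ≤ -κ0 ^ 2 := MD.geo.kneg 0 (by simp [disc])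
  have h0 : ∀ z ∈ disc 2, br (T.mean T').a (T.mean T').b z ≠ 0 := fun z hz => by
    have := hBm.J0l z hz
    linarith
  refine hbc (T.mean T') e0 (fun w => T.h w - T'.h w) _ b β amp S0 _ _ hBm hNm he he1 hk0 hv hBD
    (fun w hw hc hs => weak_form T T' ψ ψ' hψ hψ' hI hI' h0 w hw hc hs) hb hbb0 hβ hCKb hamp
    (by positivity) (by positivity) (key.1.trans ?_) (key.2.trans ?_)
  · have e0 : ∀ Y : ℝ, (Real.sqrt CB * Y) ^ 2 = CB * Y ^ 2 := fun Y => by rw [mul_pow, sB]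
    rw [e0]
    refine mul_le_mul_of_nonneg_left ?_ hCB
    have e : d ^ 2 / b ^ 2 = (d / b) ^ 2 := by rw [div_pow]
    rw [e]
    have h1 : 0 ≤ b ^ 2 * (2 * (CS * S0) * b) := by positivity
    nlinarith [mul_nonneg h1 hdb]
  · rw [mul_pow, sB, div_pow]

/-- the final numerical contradiction -/
theorem numeric {cK CK CB CS C2 Dc amp x : ℝ} {m l : ℕ} (hx : 0 < x) (hx1 : x ≤ 1)
    (hl : m + 281 ≤ 3 * l)
    (hcK : 0 < cK) (hCK : 0 < CK) (hCB : 0 < CB) (hCS : 0 < CS) (hC2 : 0 < C2) (hDc : 0 ≤ Dc)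
    (hamp : x ^ m ≤ amp)
    (hsm : CK * Real.sqrt CB * (2 * CS * C2 + 2 * Dc) * x < cK * (27 / 64)) :
    CK * ((x ^ 64) ^ 3 * (Real.sqrt CB * ((x ^ 64) ^ 2 * (2 * (CS * (C2 * amp * (1 / x) ^ 152)) * x ^ 64)
      + (Dc * x ^ (3 * l)) / x ^ 64)) + Real.sqrt CB * ((Dc * x ^ (3 * l)) / x ^ 64))
      < cK * amp * (3 / 4 * x ^ 136 / x ^ 64) ^ 3 := by
  have ha : 0 < amp := lt_of_lt_of_le (by positivity) hamp
  have sB0 : 0 < Real.sqrt CB := Real.sqrt_pos.2 hCB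
  set s := Real.sqrt CB with hs
  have e1 : (3 / 4 * x ^ 136 / x ^ 64) ^ 3 = 27 / 64 * x ^ 216 := by
    field_simp
    ring
  have e2 : (x ^ 64) ^ 3 * (s * ((x ^ 64) ^ 2 * (2 * (CS * (C2 * amp * (1 / x) ^ 152)) * x ^ 64)))
      = s * (2 * CS * C2 * amp) * x ^ 232 := by
    field_simp
    try ring
  have e3 : x ^ (3 * l) / x ^ 64 ≤ amp * x ^ 217 := by
    rw [div_le_iff₀ (by positivity)]
    have h1 : x ^ (3 * l) ≤ x ^ (m + 281) := pow_le_pow_of_le_one hx.le hx1 hl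
    have h2 : x ^ (m + 281) = x ^ m * x ^ 217 * x ^ 64 := by
      rw [← pow_add, ← pow_add]
    rw [h2] at h1
    have h3 : x ^ m * x ^ 217 * x ^ 64 ≤ amp * x ^ 217 * x ^ 64 := by gcongr
    linarith
  have e4 : (Dc * x ^ (3 * l)) / x ^ 64 = Dc * (x ^ (3 * l) / x ^ 64) := by ring
  have e5 : (x ^ 64) ^ 3 ≤ 1 := by
    apply pow_le_one₀ (by positivity)
    exact pow_le_one₀ hx.le hx1
  have e6 : x ^ 232 ≤ x ^ 217 := pow_le_pow_of_le_one hx.le hx1 (by norm_num)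
  rw [e4]
  set D := Dc * (x ^ (3 * l) / x ^ 64) with hD
  have hD1 : D ≤ Dc * (amp * x ^ 217) := mul_le_mul_of_nonneg_left e3 hDc
  have hD0 : 0 ≤ D := by positivity
  have h1 : (x ^ 64) ^ 3 * (s * ((x ^ 64) ^ 2 * (2 * (CS * (C2 * amp * (1 / x) ^ 152)) * x ^ 64) + D))
      + s * D ≤ s * (2 * CS * C2 * amp) * x ^ 217 + 2 * (s * (Dc * (amp * x ^ 217))) := by
    have h2 : (x ^ 64) ^ 3 * (s * ((x ^ 64) ^ 2 * (2 * (CS * (C2 * amp * (1 / x) ^ 152)) * x ^ 64) + D))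
      = s * (2 * CS * C2 * amp) * x ^ 232 + (x ^ 64) ^ 3 * (s * D) := by
      rw [← e2]; ring
    rw [h2]
    have h3 : (x ^ 64) ^ 3 * (s * D) ≤ 1 * (s * D) := mul_le_mul_of_nonneg_right e5 (by positivity)
    have h4 : s * D ≤ s * (Dc * (amp * x ^ 217)) := mul_le_mul_of_nonneg_left hD1 sB0.le
    have h5 : s * (2 * CS * C2 * amp) * x ^ 232 ≤ s * (2 * CS * C2 * amp) * x ^ 217 :=
      mul_le_mul_of_nonneg_left e6 (by positivity)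
    linarith
  have h6 : CK * (s * (2 * CS * C2 * amp) * x ^ 217 + 2 * (s * (Dc * (amp * x ^ 217))))
      = (CK * s * (2 * CS * C2 + 2 * Dc) * x) * (amp * x ^ 216) := by ring
  have h7 : (CK * s * (2 * CS * C2 + 2 * Dc) * x) * (amp * x ^ 216)
      < (cK * (27 / 64)) * (amp * x ^ 216) := mul_lt_mul_of_pos_right hsm (by positivity)
  calc _ ≤ CK * (s * (2 * CS * C2 * amp) * x ^ 217 + 2 * (s * (Dc * (amp * x ^ 217)))) :=
        mul_le_mul_of_nonneg_left h1 hCK.le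
    _ = (CK * s * (2 * CS * C2 + 2 * Dc) * x) * (amp * x ^ 216) := h6
    _ < (cK * (27 / 64)) * (amp * x ^ 216) := h7
    _ = cK * amp * (3 / 4 * x ^ 136 / x ^ 64) ^ 3 := by rw [e1]; ring

theorem count_lt (K0 c k : ℕ) (hk : 2 * c + K0 + 1 ≤ k) :
    K0 * (k ^ (c * k ^ 6) * k ^ (c * k ^ 6)) < 2 ^ (k ^ 8) := by
  have h1 : k ≤ 2 ^ k := Nat.lt_two_pow_self.le
  have h2 : K0 ≤ 2 ^ K0 := Nat.lt_two_pow_self.le
  have h3 : k ^ (c * k ^ 6) ≤ 2 ^ (k * (c * k ^ 6)) := by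
    calc k ^ (c * k ^ 6) ≤ (2 ^ k) ^ (c * k ^ 6) := Nat.pow_le_pow_left h1 _
      _ = 2 ^ (k * (c * k ^ 6)) := by rw [← pow_mul]
  have hk1 : 1 ≤ k := by omega
  have h7 : 1 ≤ k ^ 7 := Nat.one_le_pow _ _ hk1
  have h4 : K0 + (k * (c * k ^ 6) + k * (c * k ^ 6)) < k ^ 8 := by
    have e : k ^ 8 = k * k ^ 7 := by ring
    have e2 : k * (c * k ^ 6) = c * k ^ 7 := by ring
    rw [e, e2]
    have : (2 * c + K0 + 1) * k ^ 7 ≤ k * k ^ 7 := Nat.mul_le_mul_right _ hk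
    nlinarith
  calc K0 * (k ^ (c * k ^ 6) * k ^ (c * k ^ 6))
      ≤ 2 ^ K0 * (2 ^ (k * (c * k ^ 6)) * 2 ^ (k * (c * k ^ 6))) := by gcongr
    _ = 2 ^ (K0 + (k * (c * k ^ 6) + k * (c * k ^ 6))) := by rw [pow_add, pow_add]
    _ < 2 ^ (k ^ 8) := Nat.pow_lt_pow_right (by norm_num) h4

end KeyAux

end Vale.Agent.P229
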