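import Vale.Agent.P229.Surf

/-!
# P229 module A: Caccioppoli inequality
-/

namespace Vale.Agent.P229

open MeasureTheory Set
open scoped ContDiff

namespace CaccAux

/-! ### derivations at a point -/

/-- `f` is differentiable at `z` with `L f = l`, `N f = n`. -/
structure HL (u P f : ℝ × ℝ → ℝ) (l n : ℝ) (z : ℝ × ℝ) : Prop where
  d : DifferentiableAt ℝ f z
  l : Lo u P f z = l
  n : No u P f z = n

variable {u P f g : ℝ × ℝ → ℝ} {l n l' n' : ℝ} {z : ℝ × ℝ}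

theorem HL.of (h : DifferentiableAt ℝ f z) : HL u P f (Lo u P f z) (No u P f z) z := ⟨h, rfl, rfl⟩

theorem HL.add (hf : HL u P f l n z) (hg : HL u P g l' n' z) :
    HL u P (fun w => f w + g w) (l + l') (n + n') z :=
  ⟨hf.d.add hg.d, by rw [Lo_add hf.d hg.d, hf.l, hg.l], by rw [No_add hf.d hg.d, hf.n, hg.n]⟩

theorem HL.sub (hf : HL u P f l n z) (hg : HL u P g l' n' z) :
    HL u P (fun w => f w - g w) (l - l') (n - n') z :=
  ⟨hf.d.sub hg.d, by rw [Lo_sub hf.d hg.d, hf.l, hg.l], by rw [No_sub hf.d hg.d, hf.n, hg.n]⟩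

theorem HL.mul (hf : HL u P f l n z) (hg : HL u P g l' n' z) :
    HL u P (fun w => f w * g w) (l * g z + f z * l') (n * g z + f z * n') z :=
  ⟨hf.d.mul hg.d, by rw [Lo_mul hf.d hg.d, hf.l, hg.l], by rw [No_mul hf.d hg.d, hf.n, hg.n]⟩

theorem HL.const_mul (c : ℝ) (hf : HL u P f l n z) :
    HL u P (fun w => c * f w) (c * l) (c * n) z :=
  ⟨hf.d.const_mul c, by rw [Lo_const_mul c hf.d, hf.l], by rw [No_const_mul c hf.d, hf.n]⟩

theorem HL.comp {φ : ℝ → ℝ} {φ' : ℝ} (hφ : HasDerivAt φ φ' (f z)) (hf : HL u P f l n z) :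
    HL u P (fun w => φ (f w)) (φ' * l) (φ' * n) z :=
  ⟨hφ.differentiableAt.comp z hf.d, by rw [Lo_comp hφ hf.d, hf.l], by rw [No_comp hφ hf.d, hf.n]⟩

/-! ### powers of the positive part -/

theorem hasDerivAt_pos_pow (k : ℕ) (x : ℝ) :
    HasDerivAt (fun x : ℝ => (max x 0) ^ (k + 2)) ((k + 2 : ℕ) * (max x 0) ^ (k + 1)) x := by
  rcases lt_trichotomy x 0 with h | h | h
  · have h1 : (fun x : ℝ => (max x 0) ^ (k + 2)) =ᶠ[nhds x] fun _ => 0 := by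
      filter_upwards [Iio_mem_nhds h] with y hy
      rw [max_eq_right (le_of_lt hy)]
      simp
    have h2 : ((k + 2 : ℕ) : ℝ) * (max x 0) ^ (k + 1) = 0 := by
      rw [max_eq_right h.le]; simp
    rw [h2]
    exact (hasDerivAt_const x (0 : ℝ)).congr_of_eventuallyEq h1
  · subst h
    have h2 : ((k + 2 : ℕ) : ℝ) * (max (0 : ℝ) 0) ^ (k + 1) = 0 := by simp
    rw [h2, hasDerivAt_iff_isLittleO_nhds_zero]
    have h3 : (fun h : ℝ => h ^ 2) =o[nhds 0] fun h => h := by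
      have := Asymptotics.isLittleO_pow_id (𝕜 := ℝ) (n := 2) (by norm_num)
      exact this
    refine Asymptotics.IsBigO.trans_isLittleO ?_ h3
    refine Asymptotics.IsBigO.of_bound 1 ?_
    filter_upwards [Ioo_mem_nhds (show (-1 : ℝ) < 0 by norm_num) (show (0 : ℝ) < 1 by norm_num)]
      with y hy
    simp only [zero_add, max_self, smul_zero, sub_zero, ne_eq, Nat.add_eq_zero_iff,
      OfNat.ofNat_ne_zero, and_false, not_false_eq_true, zero_pow, one_mul]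
    rw [norm_pow, norm_pow, Real.norm_eq_abs, Real.norm_eq_abs]
    have h4 : |max y 0| ≤ |y| := by
      rcases le_total y 0 with h | h
      · rw [max_eq_right h]; simp
      · rw [max_eq_left h]
    have h5 : |y| ≤ 1 := abs_le.2 ⟨hy.1.le, hy.2.le⟩
    calc |max y 0| ^ (k + 2) ≤ |y| ^ (k + 2) := pow_le_pow_left₀ (abs_nonneg _) h4 _
      _ ≤ |y| ^ 2 := pow_le_pow_of_le_one (abs_nonneg _) h5 (by omega)
  · have h1 : (fun x : ℝ => (max x 0) ^ (k + 2)) =ᶠ[nhds x] fun y => y ^ (k + 2) := by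
      filter_upwards [Ioi_mem_nhds h] with y hy
      rw [max_eq_left (le_of_lt hy)]
    rw [max_eq_left h.le]
    exact (hasDerivAt_pow (k + 2) x).congr_of_eventuallyEq h1

theorem contDiff_pos_pow (k : ℕ) : ContDiff ℝ 1 (fun x : ℝ => (max x 0) ^ (k + 2)) := by
  rw [contDiff_one_iff_deriv]
  refine ⟨fun x => (hasDerivAt_pos_pow k x).differentiableAt, ?_⟩
  have : deriv (fun x : ℝ => (max x 0) ^ (k + 2)) =
      fun x => ((k + 2 : ℕ) : ℝ) * (max x 0) ^ (k + 1) :=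
    funext fun x => (hasDerivAt_pos_pow k x).deriv
  rw [this]
  fun_prop

/-! ### cutoffs -/

/-- radial cutoff profiles -/
noncomputable def cu (a b : ℝ) (z : ℝ × ℝ) : ℝ :=
  Real.smoothTransition (a + b * (z.1 ^ 2 + z.2 ^ 2))

theorem contDiff_cu (a b : ℝ) : ContDiff ℝ ∞ (cu a b) := by
  unfold cu
  exact Real.smoothTransition.contDiff.comp (by fun_prop)

theorem cu_nonneg (a b : ℝ) (z : ℝ × ℝ) : 0 ≤ cu a b z := Real.smoothTransition.nonneg _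
theorem cu_le_one (a b : ℝ) (z : ℝ × ℝ) : cu a b z ≤ 1 := Real.smoothTransition.le_one _

theorem exists_deriv_bound : ∃ c : ℝ, 0 ≤ c ∧ ∀ x, |deriv Real.smoothTransition x| ≤ c := by
  have hcont : Continuous (deriv Real.smoothTransition) :=
    (Real.smoothTransition.contDiff (n := 1)).continuous_deriv le_rfl
  obtain ⟨c, hc⟩ := (isCompact_Icc (a := (0 : ℝ)) (b := 1)).exists_bound_of_continuousOn
    hcont.continuousOn
  refine ⟨max c 0, le_max_right _ _, fun x => ?_⟩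
  by_cases hx : x ∈ Icc (0 : ℝ) 1
  · exact (hc x hx).trans (le_max_left _ _)
  · rw [mem_Icc, not_and_or, not_le, not_le] at hx
    have h0 : deriv Real.smoothTransition x = 0 := by
      rcases hx with hx | hx
      · have : Real.smoothTransition =ᶠ[nhds x] fun _ => 0 := by
          filter_upwards [Iio_mem_nhds hx] with y hy
          exact Real.smoothTransition.zero_of_nonpos (le_of_lt hy)
        rw [this.deriv_eq]; simp
      · have : Real.smoothTransition =ᶠ[nhds x] fun _ => 1 := by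
          filter_upwards [Ioi_mem_nhds hx] with y hy
          exact Real.smoothTransition.one_of_one_le (le_of_lt hy)
        rw [this.deriv_eq]; simp
    rw [h0, abs_zero]
    exact le_max_right _ _

theorem dx_cu (a b : ℝ) (z : ℝ × ℝ) :
    dx (cu a b) z = deriv Real.smoothTransition (a + b * (z.1 ^ 2 + z.2 ^ 2)) * (b * (2 * z.1)) := by
  have hd : DifferentiableAt ℝ (fun w : ℝ × ℝ => a + b * (w.1 ^ 2 + w.2 ^ 2)) z := by fun_prop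
  have h1 : HasDerivAt Real.smoothTransition
      (deriv Real.smoothTransition (a + b * (z.1 ^ 2 + z.2 ^ 2))) (a + b * (z.1 ^ 2 + z.2 ^ 2)) :=
    ((Real.smoothTransition.contDiff (n := 1)).differentiable (by norm_num)).differentiableAt.hasDerivAt
  have h2 := dx_comp (f := fun w : ℝ × ℝ => a + b * (w.1 ^ 2 + w.2 ^ 2)) (z := z) h1 hd
  have e : cu a b = fun w => Real.smoothTransition (a + b * (w.1 ^ 2 + w.2 ^ 2)) := rfl
  rw [e, h2]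
  congr 1
  have h3 : DifferentiableAt ℝ (fun w : ℝ × ℝ => w.1) z := by fun_prop
  have h4 : DifferentiableAt ℝ (fun w : ℝ × ℝ => w.2) z := by fun_prop
  have h5 : DifferentiableAt ℝ (fun w : ℝ × ℝ => w.1 ^ 2) z := by fun_prop
  have h6 : DifferentiableAt ℝ (fun w : ℝ × ℝ => w.2 ^ 2) z := by fun_prop
  rw [dx_add (f := fun _ => a) (g := fun w => b * (w.1 ^ 2 + w.2 ^ 2)) (by fun_prop) (by fun_prop),
    dx_const, dx_const_mul (f := fun w => w.1 ^ 2 + w.2 ^ 2) b (by fun_prop),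
    dx_add h5 h6, dx_pow 2 h3, dx_pow 2 h4, dx_fst, dx_snd]
  norm_num

theorem dy_cu (a b : ℝ) (z : ℝ × ℝ) :
    dy (cu a b) z = deriv Real.smoothTransition (a + b * (z.1 ^ 2 + z.2 ^ 2)) * (b * (2 * z.2)) := by
  have hd : DifferentiableAt ℝ (fun w : ℝ × ℝ => a + b * (w.1 ^ 2 + w.2 ^ 2)) z := by fun_prop
  have h1 : HasDerivAt Real.smoothTransition
      (deriv Real.smoothTransition (a + b * (z.1 ^ 2 + z.2 ^ 2))) (a + b * (z.1 ^ 2 + z.2 ^ 2)) :=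
    ((Real.smoothTransition.contDiff (n := 1)).differentiable (by norm_num)).differentiableAt.hasDerivAt
  have h2 := dy_comp (f := fun w : ℝ × ℝ => a + b * (w.1 ^ 2 + w.2 ^ 2)) (z := z) h1 hd
  have e : cu a b = fun w => Real.smoothTransition (a + b * (w.1 ^ 2 + w.2 ^ 2)) := rfl
  rw [e, h2]
  congr 1
  have h3 : DifferentiableAt ℝ (fun w : ℝ × ℝ => w.1) z := by fun_prop
  have h4 : DifferentiableAt ℝ (fun w : ℝ × ℝ => w.2) z := by fun_prop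
  have h5 : DifferentiableAt ℝ (fun w : ℝ × ℝ => w.1 ^ 2) z := by fun_prop
  have h6 : DifferentiableAt ℝ (fun w : ℝ × ℝ => w.2 ^ 2) z := by fun_prop
  rw [dy_add (f := fun _ => a) (g := fun w => b * (w.1 ^ 2 + w.2 ^ 2)) (by fun_prop) (by fun_prop),
    dy_const, dy_const_mul (f := fun w => w.1 ^ 2 + w.2 ^ 2) b (by fun_prop),
    dy_add h5 h6, dy_pow 2 h3, dy_pow 2 h4, dy_fst, dy_snd]
  norm_num

/-! ### algebra -/

theorem algK (M k' t2 p k v a b lt nt : ℝ) (hM : 1 ≤ M) (hk' : 0 < k') (hk'1 : k' ≤ 1)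
    (t20 : 0 ≤ t2) (t21 : t2 ≤ 1) (hp0 : 0 ≤ p) (hpM : p ≤ M) (hkM : |k| ≤ M)
    (hlt : |lt| ≤ M) (hnt : |nt| ≤ M) (hk : t2 ≠ 0 → k' ≤ k) :
    1 / 2 * k' * t2 ^ 2 * p ^ 3 * (a ^ 2 + b ^ 2) - 15 * M ^ 6 * v ^ 2 ≤
      t2 ^ 2 * p ^ 3 * b ^ 2 + t2 ^ 2 * p ^ 3 * k * a ^ 2 + v * b * (2 * t2 * lt * p ^ 3) +
        k * v * a * (2 * t2 * nt * p ^ 3 + 3 * t2 ^ 2 * p ^ 2) := by
  have hM0 : 0 ≤ M := by linarith
  have hv : 0 ≤ v ^ 2 := sq_nonneg v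
  by_cases ht : t2 = 0
  · subst ht
    have : 0 ≤ 15 * M ^ 6 * v ^ 2 := by positivity
    nlinarith
  have hkk := hk ht
  have hk0 : 0 < k := lt_of_lt_of_le hk' hkk
  have hkM' : k ≤ M := (le_abs_self k).trans hkM
  have e1 : 0 ≤ 1 / 2 * p ^ 3 * (t2 * b + 2 * lt * v) ^ 2 := by positivity
  have e2 : 0 ≤ k * p ^ 3 * (1 / 2 * t2 * a + 2 * nt * v) ^ 2 := by positivity
  have e3 : 0 ≤ k * (t2 ^ 2 * p) * (1 / 2 * p * a + 3 * v) ^ 2 := by positivity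
  have hlt2 : lt ^ 2 ≤ M ^ 2 := by rw [← sq_abs lt]; exact pow_le_pow_left₀ (abs_nonneg _) hlt 2
  have hnt2 : nt ^ 2 ≤ M ^ 2 := by rw [← sq_abs nt]; exact pow_le_pow_left₀ (abs_nonneg _) hnt 2
  have hp3 : p ^ 3 ≤ M ^ 3 := pow_le_pow_left₀ hp0 hpM 3
  have ht22 : t2 ^ 2 ≤ 1 := pow_le_one₀ t20 t21
  have b1 : 2 * lt ^ 2 * p ^ 3 ≤ 2 * M ^ 6 := by
    calc 2 * lt ^ 2 * p ^ 3 ≤ 2 * M ^ 2 * M ^ 3 := by gcongr
      _ = 2 * M ^ 5 := by ring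
      _ ≤ 2 * M ^ 6 := by
          have := pow_le_pow_right₀ hM (show 5 ≤ 6 by norm_num); linarith
  have b2 : 4 * k * nt ^ 2 * p ^ 3 ≤ 4 * M ^ 6 := by
    calc 4 * k * nt ^ 2 * p ^ 3 ≤ 4 * M * M ^ 2 * M ^ 3 := by gcongr
      _ = 4 * M ^ 6 := by ring
  have b3 : 9 * k * t2 ^ 2 * p ≤ 9 * M ^ 6 := by
    calc 9 * k * t2 ^ 2 * p ≤ 9 * M * 1 * M := by gcongr
      _ = 9 * M ^ 2 := by ring
      _ ≤ 9 * M ^ 6 := by
          have := pow_le_pow_right₀ hM (show 2 ≤ 6 by norm_num); linarith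
  have b4 : (2 * lt ^ 2 * p ^ 3 + 4 * k * nt ^ 2 * p ^ 3 + 9 * k * t2 ^ 2 * p) * v ^ 2 ≤
      15 * M ^ 6 * v ^ 2 := mul_le_mul_of_nonneg_right (by linarith) hv
  have b5 : k' * (t2 ^ 2 * p ^ 3 * a ^ 2) ≤ k * (t2 ^ 2 * p ^ 3 * a ^ 2) :=
    mul_le_mul_of_nonneg_right hkk (by positivity)
  have b6 : k' * (t2 ^ 2 * p ^ 3 * b ^ 2) ≤ 1 * (t2 ^ 2 * p ^ 3 * b ^ 2) :=
    mul_le_mul_of_nonneg_right hk'1 (by positivity)
  nlinarith

theorem algf1 (M p v a b : ℝ) (hM : 1 ≤ M) (hp0 : 0 ≤ p) (hpM : p ≤ M) :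
    |b * (p ^ 4 * a - 2 * p ^ 3 * v)| ≤ p ^ 3 * (3 / 2 * M * (a ^ 2 + b ^ 2)) +
      M ^ 3 * v ^ 2 := by
  have hM0 : 0 ≤ M := by linarith
  have hp3 : p ^ 3 ≤ M ^ 3 := pow_le_pow_left₀ hp0 hpM 3
  have hab : |a| * |b| ≤ (a ^ 2 + b ^ 2) / 2 := by
    have := sq_nonneg (|a| - |b|)
    rw [sub_sq, sq_abs, sq_abs] at this
    linarith
  have hbv : 2 * (|b| * |v|) ≤ b ^ 2 + v ^ 2 := by
    have := sq_nonneg (|b| - |v|)
    rw [sub_sq, sq_abs, sq_abs] at this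
    linarith
  have e : b * (p ^ 4 * a - 2 * p ^ 3 * v) = p ^ 3 * (b * (p * a - 2 * v)) := by ring
  rw [e, abs_mul, abs_of_nonneg (by positivity : 0 ≤ p ^ 3), abs_mul]
  have h1 : |p * a - 2 * v| ≤ M * |a| + 2 * |v| := by
    refine (abs_sub _ _).trans ?_
    rw [abs_mul, abs_mul, abs_of_nonneg hp0, abs_two]
    gcongr
  have h2 : |b| * |p * a - 2 * v| ≤ M * ((a ^ 2 + b ^ 2) / 2) + (b ^ 2 + v ^ 2) := by
    calc |b| * |p * a - 2 * v| ≤ |b| * (M * |a| + 2 * |v|) :=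
          mul_le_mul_of_nonneg_left h1 (abs_nonneg _)
      _ = M * (|a| * |b|) + 2 * (|b| * |v|) := by ring
      _ ≤ _ := add_le_add (mul_le_mul_of_nonneg_left hab hM0) hbv
  have h3 : b ^ 2 ≤ M * (a ^ 2 + b ^ 2) := by
    have h4 : 1 * (a ^ 2 + b ^ 2) ≤ M * (a ^ 2 + b ^ 2) :=
      mul_le_mul_of_nonneg_right hM (by positivity)
    have := sq_nonneg a
    linarith
  calc p ^ 3 * (|b| * |p * a - 2 * v|) ≤ p ^ 3 * (3 / 2 * M * (a ^ 2 + b ^ 2) + v ^ 2) := by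
        refine mul_le_mul_of_nonneg_left ?_ (by positivity)
        linarith
    _ = p ^ 3 * (3 / 2 * M * (a ^ 2 + b ^ 2)) + p ^ 3 * v ^ 2 := by ring
    _ ≤ _ := by gcongr

theorem algf2 (M p k v a b : ℝ) (hM : 1 ≤ M) (hp0 : 0 ≤ p) (hpM : p ≤ M) (hkM : |k| ≤ M) :
    |-(1 / 2) * p ^ 4 * b ^ 2 + 1 / 2 * p ^ 4 * k * a ^ 2 -
          2 * p ^ 3 * k * v * a + 3 * p ^ 2 * k * v ^ 2| ≤
      p ^ 3 * (3 / 2 * M ^ 2 * (a ^ 2 + b ^ 2)) + 4 * M ^ 4 * v ^ 2 := by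
  have hM0 : 0 ≤ M := by linarith
  have hp2 : p ^ 2 ≤ M ^ 2 := pow_le_pow_left₀ hp0 hpM 2
  have hp3 : p ^ 3 ≤ M ^ 3 := pow_le_pow_left₀ hp0 hpM 3
  have hv : 0 ≤ v ^ 2 := sq_nonneg v
  have hav : 2 * (|a| * |v|) ≤ a ^ 2 + v ^ 2 := by
    have := sq_nonneg (|a| - |v|)
    rw [sub_sq, sq_abs, sq_abs] at this
    linarith
  have h1 : |-(1 / 2) * p ^ 4 * b ^ 2| ≤ p ^ 3 * (1 / 2 * M * b ^ 2) := by
    rw [abs_mul, abs_mul, abs_of_nonneg (by positivity : 0 ≤ p ^ 4),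
      abs_of_nonneg (sq_nonneg b)]
    have : |(-(1 / 2) : ℝ)| = 1 / 2 := by rw [abs_neg, abs_of_pos (by norm_num)]
    rw [this]
    calc 1 / 2 * p ^ 4 * b ^ 2 = p ^ 3 * (1 / 2 * p * b ^ 2) := by ring
      _ ≤ _ := by gcongr
  have h2 : |1 / 2 * p ^ 4 * k * a ^ 2| ≤ p ^ 3 * (1 / 2 * M ^ 2 * a ^ 2) := by
    rw [abs_mul, abs_mul, abs_mul, abs_of_nonneg (by positivity : 0 ≤ p ^ 4),
      abs_of_nonneg (sq_nonneg a), abs_of_pos (by norm_num : (0 : ℝ) < 1 / 2)]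
    calc 1 / 2 * p ^ 4 * |k| * a ^ 2 = p ^ 3 * (1 / 2 * (p * |k|) * a ^ 2) := by ring
      _ ≤ p ^ 3 * (1 / 2 * (M * M) * a ^ 2) := by gcongr
      _ = _ := by ring
  have h3 : |2 * p ^ 3 * k * v * a| ≤ p ^ 3 * (M * (a ^ 2 + v ^ 2)) := by
    have e : 2 * p ^ 3 * k * v * a = p ^ 3 * (k * (2 * (a * v))) := by ring
    rw [e, abs_mul, abs_of_nonneg (by positivity : 0 ≤ p ^ 3), abs_mul, abs_mul, abs_mul, abs_two]
    gcongr
  have h4 : |3 * p ^ 2 * k * v ^ 2| ≤ 3 * M ^ 3 * v ^ 2 := by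
    rw [abs_mul, abs_mul, abs_mul, abs_of_nonneg (by positivity : 0 ≤ p ^ 2),
      abs_of_nonneg hv, abs_of_pos (by norm_num : (0 : ℝ) < 3)]
    calc 3 * p ^ 2 * |k| * v ^ 2 ≤ 3 * M ^ 2 * M * v ^ 2 := by gcongr
      _ = _ := by ring
  have h5 : |-(1 / 2) * p ^ 4 * b ^ 2 + 1 / 2 * p ^ 4 * k * a ^ 2 -
        2 * p ^ 3 * k * v * a + 3 * p ^ 2 * k * v ^ 2| ≤ |-(1 / 2) * p ^ 4 * b ^ 2| +
        |1 / 2 * p ^ 4 * k * a ^ 2| + |2 * p ^ 3 * k * v * a| + |3 * p ^ 2 * k * v ^ 2| := by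
    refine (abs_add_le _ _).trans ?_
    refine add_le_add ?_ le_rfl
    refine (abs_sub _ _).trans ?_
    exact add_le_add (abs_add_le _ _) le_rfl
  have h6 : M * v ^ 2 * p ^ 3 ≤ M ^ 4 * v ^ 2 := by
    calc M * v ^ 2 * p ^ 3 ≤ M * v ^ 2 * M ^ 3 := by gcongr
      _ = _ := by ring
  have h7 : 3 * M ^ 3 * v ^ 2 ≤ 3 * M ^ 4 * v ^ 2 := by
    have := pow_le_pow_right₀ hM (show 3 ≤ 4 by norm_num)
    gcongr
  have hMM : M ≤ M ^ 2 := by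
    calc M = M * 1 := (mul_one M).symm
      _ ≤ M * M := mul_le_mul_of_nonneg_left hM hM0
      _ = M ^ 2 := by ring
  have h8 : p ^ 3 * (1 / 2 * M * b ^ 2) + p ^ 3 * (1 / 2 * M ^ 2 * a ^ 2) +
      p ^ 3 * (M * a ^ 2) ≤ p ^ 3 * (3 / 2 * M ^ 2 * (a ^ 2 + b ^ 2)) := by
    have i1 : M * a ^ 2 ≤ M ^ 2 * a ^ 2 := mul_le_mul_of_nonneg_right hMM (sq_nonneg a)
    have i2 : M * b ^ 2 ≤ M ^ 2 * b ^ 2 := mul_le_mul_of_nonneg_right hMM (sq_nonneg b)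
    have i3 : 0 ≤ M ^ 2 * b ^ 2 := by positivity
    have : 1 / 2 * M * b ^ 2 + 1 / 2 * M ^ 2 * a ^ 2 + M * a ^ 2 ≤
        3 / 2 * M ^ 2 * (a ^ 2 + b ^ 2) := by linarith
    calc _ = p ^ 3 * (1 / 2 * M * b ^ 2 + 1 / 2 * M ^ 2 * a ^ 2 + M * a ^ 2) := by ring
      _ ≤ _ := mul_le_mul_of_nonneg_left this (by positivity)
  have e : p ^ 3 * (M * (a ^ 2 + v ^ 2)) = p ^ 3 * (M * a ^ 2) + M * v ^ 2 * p ^ 3 := by ring
  rw [e] at h3
  have e2 : (4 : ℝ) * M ^ 4 * v ^ 2 = M ^ 4 * v ^ 2 + 3 * M ^ 4 * v ^ 2 := by ring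
  rw [e2]
  linarith

theorem algG (M θ p k v a b lθ nθ : ℝ) (hM : 1 ≤ M) (θ0 : 0 ≤ θ) (θ1 : θ ≤ 1) (hp0 : 0 ≤ p)
    (hpM : p ≤ M) (hkM : |k| ≤ M) (hlθ : |lθ| ≤ M) (hnθ : |nθ| ≤ M) :
    -(6 * M ^ 3 * p ^ 3 * (a ^ 2 + b ^ 2)) - 10 * M ^ 5 * v ^ 2 ≤
      -(2 * θ * lθ * (b * (p ^ 4 * a - 2 * p ^ 3 * v))) -
        2 * θ * nθ * (-(1 / 2) * p ^ 4 * b ^ 2 + 1 / 2 * p ^ 4 * k * a ^ 2 -
          2 * p ^ 3 * k * v * a + 3 * p ^ 2 * k * v ^ 2) := by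
  have hM0 : 0 ≤ M := by linarith
  have f1 := algf1 M p v a b hM hp0 hpM
  have f2 := algf2 M p k v a b hM hp0 hpM hkM
  set F1 := b * (p ^ 4 * a - 2 * p ^ 3 * v) with hF1
  set F2 := -(1 / 2) * p ^ 4 * b ^ 2 + 1 / 2 * p ^ 4 * k * a ^ 2 -
          2 * p ^ 3 * k * v * a + 3 * p ^ 2 * k * v ^ 2 with hF2
  have c1 : |2 * θ * lθ| ≤ 2 * M := by
    rw [abs_mul, abs_mul, abs_two, abs_of_nonneg θ0]
    calc 2 * θ * |lθ| ≤ 2 * 1 * M := by gcongr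
      _ = 2 * M := by ring
  have c2 : |2 * θ * nθ| ≤ 2 * M := by
    rw [abs_mul, abs_mul, abs_two, abs_of_nonneg θ0]
    calc 2 * θ * |nθ| ≤ 2 * 1 * M := by gcongr
      _ = 2 * M := by ring
  have g1 : |2 * θ * lθ * F1| ≤
      3 * M ^ 2 * (p ^ 3 * (a ^ 2 + b ^ 2)) + 2 * M ^ 4 * v ^ 2 := by
    rw [abs_mul]
    calc |2 * θ * lθ| * |F1| ≤ 2 * M * (p ^ 3 * (3 / 2 * M * (a ^ 2 + b ^ 2)) + M ^ 3 * v ^ 2) :=
          mul_le_mul c1 f1 (abs_nonneg _) (by positivity)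
      _ = _ := by ring
  have g2 : |2 * θ * nθ * F2| ≤
      3 * M ^ 3 * (p ^ 3 * (a ^ 2 + b ^ 2)) + 8 * M ^ 5 * v ^ 2 := by
    rw [abs_mul]
    calc |2 * θ * nθ| * |F2| ≤
          2 * M * (p ^ 3 * (3 / 2 * M ^ 2 * (a ^ 2 + b ^ 2)) + 4 * M ^ 4 * v ^ 2) :=
          mul_le_mul c2 f2 (abs_nonneg _) (by positivity)
      _ = _ := by ring
  have h1 := le_abs_self (2 * θ * lθ * F1)
  have h2 := le_abs_self (2 * θ * nθ * F2)
  have hMM : M ^ 2 ≤ M ^ 3 := pow_le_pow_right₀ hM (by norm_num)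
  have hM45 : M ^ 4 ≤ M ^ 5 := pow_le_pow_right₀ hM (by norm_num)
  have h3 : 3 * M ^ 2 * (p ^ 3 * (a ^ 2 + b ^ 2)) ≤ 3 * M ^ 3 * (p ^ 3 * (a ^ 2 + b ^ 2)) := by
    gcongr
  have h4 : 2 * M ^ 4 * v ^ 2 ≤ 2 * M ^ 5 * v ^ 2 := by gcongr
  have e1 : 6 * M ^ 3 * p ^ 3 * (a ^ 2 + b ^ 2) = 6 * (M ^ 3 * (p ^ 3 * (a ^ 2 + b ^ 2))) := by
    ring
  rw [e1]
  linarith

/-- the pointwise inequality -/
theorem alg (M k' n0 θ t2 p k v a b lθ nθ lt nt nk s : ℝ) (hM : 1 ≤ M) (hk' : 0 < k')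
    (hk'1 : k' ≤ 1) (θ0 : 0 ≤ θ) (θ1 : θ ≤ 1) (t20 : 0 ≤ t2) (t21 : t2 ≤ 1) (hp0 : 0 ≤ p)
    (hpM : p ≤ M) (hkM : |k| ≤ M) (hnkM : |nk| ≤ M) (hlθ : |lθ| ≤ M) (hnθ : |nθ| ≤ M)
    (hlt : |lt| ≤ M) (hnt : |nt| ≤ M) (hk : t2 ≠ 0 → k' ≤ k)
    (hG : (lθ ≠ 0 ∨ nθ ≠ 0) → t2 = 1) (hn : 0 < p → n0 ≤ nk) (hs : 0 < p → s = 0) :
    θ ^ 2 * (4 * p ^ 3 * b ^ 2 + 1 / 2 * n0 * p ^ 4 * a ^ 2) -
        (9 * M ^ 3 + 10 * M ^ 5 + 180 * M ^ 9 / k') * v ^ 2 ≤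
      θ ^ 2 * (4 * p ^ 3 * b ^ 2 + 1 / 2 * p ^ 4 * nk * a ^ 2 -
        (6 * p * k + 3 * p ^ 2 * nk) * v ^ 2) +
      (-(2 * θ * lθ * (b * (p ^ 4 * a - 2 * p ^ 3 * v))) -
        2 * θ * nθ * (-(1 / 2) * p ^ 4 * b ^ 2 + 1 / 2 * p ^ 4 * k * a ^ 2 -
          2 * p ^ 3 * k * v * a + 3 * p ^ 2 * k * v ^ 2)) +
      12 * M ^ 3 / k' * (t2 ^ 2 * p ^ 3 * b ^ 2 + t2 ^ 2 * p ^ 3 * k * a ^ 2 +
        v * b * (2 * t2 * lt * p ^ 3) + k * v * a * (2 * t2 * nt * p ^ 3 + 3 * t2 ^ 2 * p ^ 2)) +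
      s * (12 * M ^ 3 / k' * (t2 ^ 2 * p ^ 3 * v) - θ ^ 2 * (p ^ 4 * a - 2 * p ^ 3 * v)) := by
  have hM0 : 0 ≤ M := by linarith
  have hv : 0 ≤ v ^ 2 := sq_nonneg v
  have hsz : s * (12 * M ^ 3 / k' * (t2 ^ 2 * p ^ 3 * v) - θ ^ 2 * (p ^ 4 * a - 2 * p ^ 3 * v))
      = 0 := by
    rcases hp0.eq_or_lt with h | h
    · rw [← h]; ring
    · rw [hs h]; ring
  rw [hsz, add_zero]
  have hnk : n0 * p ^ 4 ≤ nk * p ^ 4 := by
    rcases hp0.eq_or_lt with h | h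
    · rw [← h]; simp
    · exact mul_le_mul_of_nonneg_right (hn h) (by positivity)
  have hnk2 : θ ^ 2 * (1 / 2 * n0 * p ^ 4 * a ^ 2) ≤ θ ^ 2 * (1 / 2 * p ^ 4 * nk * a ^ 2) := by
    have h1 : (n0 * p ^ 4) * (1 / 2 * a ^ 2 * θ ^ 2) ≤ (nk * p ^ 4) * (1 / 2 * a ^ 2 * θ ^ 2) :=
      mul_le_mul_of_nonneg_right hnk (by positivity)
    linarith
  have h3 : θ ^ 2 * ((6 * p * k + 3 * p ^ 2 * nk) * v ^ 2) ≤ 9 * M ^ 3 * v ^ 2 := by
    have hp2 : p ^ 2 ≤ M ^ 2 := pow_le_pow_left₀ hp0 hpM 2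
    have h4 : 6 * p * k + 3 * p ^ 2 * nk ≤ 9 * M ^ 3 := by
      have h5 : p * k ≤ M * M := by
        calc p * k ≤ p * |k| := mul_le_mul_of_nonneg_left (le_abs_self k) hp0
          _ ≤ M * M := by gcongr
      have h6 : p ^ 2 * nk ≤ M ^ 2 * M := by
        calc p ^ 2 * nk ≤ p ^ 2 * |nk| := mul_le_mul_of_nonneg_left (le_abs_self nk) (by positivity)
          _ ≤ M ^ 2 * M := by gcongr
      have hMM : M ^ 2 ≤ M ^ 3 := pow_le_pow_right₀ hM (by norm_num)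
      nlinarith
    have hθ2 : θ ^ 2 ≤ 1 := pow_le_one₀ θ0 θ1
    have h7 : (6 * p * k + 3 * p ^ 2 * nk) * v ^ 2 ≤ 9 * M ^ 3 * v ^ 2 :=
      mul_le_mul_of_nonneg_right h4 hv
    have h8 : θ ^ 2 * ((6 * p * k + 3 * p ^ 2 * nk) * v ^ 2) ≤ θ ^ 2 * (9 * M ^ 3 * v ^ 2) :=
      mul_le_mul_of_nonneg_left h7 (by positivity)
    have h9 : θ ^ 2 * (9 * M ^ 3 * v ^ 2) ≤ 1 * (9 * M ^ 3 * v ^ 2) :=
      mul_le_mul_of_nonneg_right hθ2 (by positivity)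
    linarith
  have hK := algK M k' t2 p k v a b lt nt hM hk' hk'1 t20 t21 hp0 hpM hkM hlt hnt hk
  have hK2 := mul_le_mul_of_nonneg_left hK (by positivity : 0 ≤ 12 * M ^ 3 / k')
  have e1 : 12 * M ^ 3 / k' * (1 / 2 * k' * t2 ^ 2 * p ^ 3 * (a ^ 2 + b ^ 2) -
      15 * M ^ 6 * v ^ 2) = 6 * M ^ 3 * (t2 ^ 2 * p ^ 3 * (a ^ 2 + b ^ 2)) -
      180 * M ^ 9 / k' * v ^ 2 := by
    field_simp
    ring
  rw [e1] at hK2
  have h10 : 0 ≤ 10 * M ^ 5 * v ^ 2 := by positivity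
  by_cases hcase : lθ ≠ 0 ∨ nθ ≠ 0
  · have ht2 := hG hcase
    have hg := algG M θ p k v a b lθ nθ hM θ0 θ1 hp0 hpM hkM hlθ hnθ
    rw [ht2] at hK2 ⊢
    linarith
  · push Not at hcase
    rw [hcase.1, hcase.2]
    have h11 : 0 ≤ 6 * M ^ 3 * (t2 ^ 2 * p ^ 3 * (a ^ 2 + b ^ 2)) := by positivity
    linarith

/-! ### bounds and supports -/

theorem HL.neg (hf : HL u P f l n z) : HL u P (fun w => - f w) (-l) (-n) z := by
  have h := hf.const_mul (-1)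
  have e : (fun w => -1 * f w) = fun w => - f w := funext fun w => by ring
  rw [e] at h
  exact ⟨h.d, by rw [h.l]; ring, by rw [h.n]; ring⟩

theorem abs_Lo_le {C0 j0 G : ℝ} (hj : 0 < j0) (hJ : j0 ≤ br u P z) (hPx : |dx P z| ≤ C0)
    (hPy : |dy P z| ≤ C0) (hx : |dx f z| ≤ G) (hy : |dy f z| ≤ G) :
    |Lo u P f z| ≤ 2 * G * C0 / j0 := by
  have hJ0 : 0 < br u P z := lt_of_lt_of_le hj hJ
  have hG : 0 ≤ G := (abs_nonneg _).trans hx
  have hC : 0 ≤ C0 := (abs_nonneg _).trans hPx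
  show |br f P z / br u P z| ≤ _
  rw [abs_div, abs_of_pos hJ0]
  have h1 : |br f P z| ≤ 2 * G * C0 := by
    show |dx f z * dy P z - dy f z * dx P z| ≤ _
    refine (abs_sub _ _).trans ?_
    rw [abs_mul, abs_mul]
    have a1 : |dx f z| * |dy P z| ≤ G * C0 := mul_le_mul hx hPy (abs_nonneg _) hG
    have a2 : |dy f z| * |dx P z| ≤ G * C0 := mul_le_mul hy hPx (abs_nonneg _) hG
    linarith
  calc |br f P z| / br u P z ≤ 2 * G * C0 / br u P z := by gcongr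
    _ ≤ 2 * G * C0 / j0 := by gcongr

theorem abs_No_le {C0 j0 G : ℝ} (hj : 0 < j0) (hJ : j0 ≤ br u P z) (hux : |dx u z| ≤ C0)
    (huy : |dy u z| ≤ C0) (hx : |dx f z| ≤ G) (hy : |dy f z| ≤ G) :
    |No u P f z| ≤ 2 * G * C0 / j0 := by
  have hJ0 : 0 < br u P z := lt_of_lt_of_le hj hJ
  have hG : 0 ≤ G := (abs_nonneg _).trans hx
  have hC : 0 ≤ C0 := (abs_nonneg _).trans hux
  show |br u f z / br u P z| ≤ _
  rw [abs_div, abs_of_pos hJ0]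
  have h1 : |br u f z| ≤ 2 * G * C0 := by
    show |dx u z * dy f z - dy u z * dx f z| ≤ _
    refine (abs_sub _ _).trans ?_
    rw [abs_mul, abs_mul]
    have a1 : |dx u z| * |dy f z| ≤ C0 * G := mul_le_mul hux hy (abs_nonneg _) hC
    have a2 : |dy u z| * |dx f z| ≤ C0 * G := mul_le_mul huy hx (abs_nonneg _) hC
    linarith
  calc |br u f z| / br u P z ≤ 2 * G * C0 / br u P z := by gcongr
    _ ≤ 2 * G * C0 / j0 := by gcongr

theorem isCompact_cdisc (R : ℝ) : IsCompact {z : ℝ × ℝ | z.1 ^ 2 + z.2 ^ 2 ≤ R ^ 2} := by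
  have hcl : IsClosed {z : ℝ × ℝ | z.1 ^ 2 + z.2 ^ 2 ≤ R ^ 2} :=
    isClosed_le (by fun_prop) (by fun_prop)
  refine IsCompact.of_isClosed_subset (isCompact_Icc (a := ((-|R|, -|R|) : ℝ × ℝ))
    (b := (|R|, |R|))) hcl ?_
  intro z hz
  have hz' : z.1 ^ 2 + z.2 ^ 2 ≤ R ^ 2 := hz
  have h1 : |z.1| ≤ |R| := sq_le_sq.1 (by nlinarith [sq_nonneg z.2])
  have h2 : |z.2| ≤ |R| := sq_le_sq.1 (by nlinarith [sq_nonneg z.1])
  rw [abs_le] at h1 h2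
  exact ⟨⟨h1.1, h2.1⟩, ⟨h1.2, h2.2⟩⟩

theorem tsupport_sub {F : ℝ × ℝ → ℝ} {R : ℝ}
    (h : ∀ z : ℝ × ℝ, R ^ 2 ≤ z.1 ^ 2 + z.2 ^ 2 → F z = 0) :
    tsupport F ⊆ {z : ℝ × ℝ | z.1 ^ 2 + z.2 ^ 2 ≤ R ^ 2} := by
  refine closure_minimal ?_ (isClosed_le (by fun_prop) (by fun_prop))
  intro z hz
  by_contra hcon
  have hcon' : ¬ (z.1 ^ 2 + z.2 ^ 2 ≤ R ^ 2) := hcon
  exact hz (h z (not_le.1 hcon').le)

theorem compact_of {F : ℝ × ℝ → ℝ} {R : ℝ}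
    (h : ∀ z : ℝ × ℝ, R ^ 2 ≤ z.1 ^ 2 + z.2 ^ 2 → F z = 0) : HasCompactSupport F :=
  (isCompact_cdisc R).of_isClosed_subset (isClosed_tsupport F) (tsupport_sub h)

theorem integrable_br {F g : ℝ × ℝ → ℝ} {U : Set (ℝ × ℝ)} (hU : IsOpen U) (hF : ContDiff ℝ 1 F)
    (hc : HasCompactSupport F) (hs : tsupport F ⊆ U) (hg : Sm U g) :
    Integrable (br F g) := by
  have hgx : ContDiffOn ℝ 0 (dx g) U := (hg.dx hU).of_le (by simp)
  have hgy : ContDiffOn ℝ 0 (dy g) U := (hg.dy hU).of_le (by simp)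
  have s1 : tsupport (dx F) ⊆ U := by
    refine (closure_minimal ?_ (isClosed_tsupport F)).trans hs
    intro z hz
    by_contra hcon
    exact hz (dx_eq_zero_of_notMem hcon)
  have s2 : tsupport (dy F) ⊆ U := by
    refine (closure_minimal ?_ (isClosed_tsupport F)).trans hs
    intro z hz
    by_contra hcon
    exact hz (dy_eq_zero_of_notMem hcon)
  have c1 : ContDiff ℝ 0 (fun z => dx F z * dy g z) :=
    contDiff_mul_of_tsupport (n := 0) hU (contDiff_zero.2 (continuous_dx hF)) s1 hgy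
  have c2 : ContDiff ℝ 0 (fun z => dy F z * dx g z) :=
    contDiff_mul_of_tsupport (n := 0) hU (contDiff_zero.2 (continuous_dy hF)) s2 hgx
  have i1 : Integrable (fun z => dx F z * dy g z) :=
    (contDiff_zero.1 c1).integrable_of_hasCompactSupport ((hasCompactSupport_dx hc).mul_right)
  have i2 : Integrable (fun z => dy F z * dx g z) :=
    (contDiff_zero.1 c2).integrable_of_hasCompactSupport ((hasCompactSupport_dy hc).mul_right)
  exact i1.sub i2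

theorem isOpen_Om {P : ℝ × ℝ → ℝ} (hP : Sm (disc 2) P) {t R : ℝ} (hR : |R| ≤ 2) :
    IsOpen (Om P t R) := by
  have hsub : disc R ⊆ disc 2 := by
    intro z hz
    have hz' : z.1 ^ 2 + z.2 ^ 2 < R ^ 2 := hz
    show z.1 ^ 2 + z.2 ^ 2 < 2 ^ 2
    have : R ^ 2 ≤ 2 ^ 2 := by rw [← sq_abs R]; exact pow_le_pow_left₀ (abs_nonneg _) hR 2
    linarith
  have h := (hP.continuousOn.mono hsub).isOpen_inter_preimage (isOpen_disc R)
    (isOpen_Ioi (a := t))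
  exact h

theorem integrableOn_Om {F : ℝ × ℝ → ℝ} (hF : Continuous F) {P : ℝ × ℝ → ℝ} {t R : ℝ} :
    IntegrableOn F (Om P t R) := by
  have h1 : IntegrableOn F {z : ℝ × ℝ | z.1 ^ 2 + z.2 ^ 2 ≤ R ^ 2} :=
    hF.continuousOn.integrableOn_compact (isCompact_cdisc R)
  refine h1.mono_set ?_
  rintro z ⟨hz, -⟩
  have hz' : z.1 ^ 2 + z.2 ^ 2 < R ^ 2 := hz
  exact hz'.le

theorem deriv_sT_zero {x : ℝ} (hx : x < 0 ∨ 1 < x) : deriv Real.smoothTransition x = 0 := by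
  rcases hx with hx | hx
  · have : Real.smoothTransition =ᶠ[nhds x] fun _ => 0 := by
      filter_upwards [Iio_mem_nhds hx] with y hy
      exact Real.smoothTransition.zero_of_nonpos (le_of_lt hy)
    rw [this.deriv_eq]; simp
  · have : Real.smoothTransition =ᶠ[nhds x] fun _ => 1 := by
      filter_upwards [Ioi_mem_nhds hx] with y hy
      exact Real.smoothTransition.one_of_one_le (le_of_lt hy)
    rw [this.deriv_eq]; simp

theorem abs_dx_cu_le {c : ℝ} (hc0 : 0 ≤ c) (hc : ∀ x, |deriv Real.smoothTransition x| ≤ c)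
    {a b β : ℝ} (hb : |b| ≤ β) {z : ℝ × ℝ} (hz : z ∈ disc 2) :
    |dx (cu a b) z| ≤ 4 * c * β ∧ |dy (cu a b) z| ≤ 4 * c * β := by
  have hz' : z.1 ^ 2 + z.2 ^ 2 < 2 ^ 2 := hz
  have h1 : |z.1| ≤ 2 := by
    have : z.1 ^ 2 ≤ 2 ^ 2 := by nlinarith [sq_nonneg z.2]
    exact abs_le_of_sq_le_sq' this (by norm_num) |> abs_le.2
  have h2 : |z.2| ≤ 2 := by
    have : z.2 ^ 2 ≤ 2 ^ 2 := by nlinarith [sq_nonneg z.1]
    exact abs_le_of_sq_le_sq' this (by norm_num) |> abs_le.2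
  have hβ : 0 ≤ β := (abs_nonneg b).trans hb
  constructor
  · rw [dx_cu, abs_mul, abs_mul, abs_mul, abs_two]
    calc |deriv Real.smoothTransition (a + b * (z.1 ^ 2 + z.2 ^ 2))| * (|b| * (2 * |z.1|))
        ≤ c * (β * (2 * 2)) := by
          refine mul_le_mul (hc _) ?_ (by positivity) hc0
          exact mul_le_mul hb (by linarith) (by positivity) hβ
      _ = 4 * c * β := by ring
  · rw [dy_cu, abs_mul, abs_mul, abs_mul, abs_two]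
    calc |deriv Real.smoothTransition (a + b * (z.1 ^ 2 + z.2 ^ 2))| * (|b| * (2 * |z.2|))
        ≤ c * (β * (2 * 2)) := by
          refine mul_le_mul (hc _) ?_ (by positivity) hc0
          exact mul_le_mul hb (by linarith) (by positivity) hβ
      _ = 4 * c * β := by ring

/-! ### the identity -/

/-- the first component -/
noncomputable def F1 (u P v θ θ2 : ℝ × ℝ → ℝ) (t K : ℝ) : ℝ × ℝ → ℝ := fun w =>
  (θ w * θ w) * -(Lo u P v w * ((max (P w - t) 0) ^ (2 + 2) * No u P v w -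
      2 * ((max (P w - t) 0) ^ (1 + 2) * v w))) +
    (θ2 w * θ2 w) * (K * ((max (P w - t) 0) ^ (1 + 2) * (v w * Lo u P v w)))

/-- the second component -/
noncomputable def F2 (u P κ v θ θ2 : ℝ × ℝ → ℝ) (t K : ℝ) : ℝ × ℝ → ℝ := fun w =>
  (θ w * θ w) * -((-(1 / 2)) * ((max (P w - t) 0) ^ (2 + 2) * (Lo u P v w * Lo u P v w)) +
      (1 / 2) * ((max (P w - t) 0) ^ (2 + 2) * (κ w * (No u P v w * No u P v w))) -
      2 * ((max (P w - t) 0) ^ (1 + 2) * (κ w * (v w * No u P v w))) +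
      3 * ((max (P w - t) 0) ^ (0 + 2) * (κ w * (v w * v w)))) +
    (θ2 w * θ2 w) * (K * ((max (P w - t) 0) ^ (1 + 2) * (κ w * (v w * No u P v w))))

theorem identity {u P κ v θ θ2 : ℝ × ℝ → ℝ} {C0 j0 : ℝ} (hj : 0 < j0) (hr : Reg C0 j0 u P κ)
    (hv : ContDiff ℝ ∞ v) (hθ : ContDiff ℝ ∞ θ) (hθ2 : ContDiff ℝ ∞ θ2) (t K : ℝ)
    {z : ℝ × ℝ} (hz : z ∈ disc 2) (θv t2 p k vv a b lθ nθ lt nt nk s : ℝ)
    (e1 : θ z = θv) (e2 : θ2 z = t2) (e3 : max (P z - t) 0 = p) (e4 : κ z = k) (e5 : v z = vv)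
    (e6 : No u P v z = a) (e7 : Lo u P v z = b) (e8 : Lo u P θ z = lθ) (e9 : No u P θ z = nθ)
    (e10 : Lo u P θ2 z = lt) (e11 : No u P θ2 z = nt) (e12 : No u P κ z = nk)
    (e13 : Op u P κ v z = s) :
    br (F1 u P v θ θ2 t K) P z + br u (F2 u P κ v θ θ2 t K) z = br u P z *
      (θv ^ 2 * (4 * p ^ 3 * b ^ 2 + 1 / 2 * p ^ 4 * nk * a ^ 2 -
        (6 * p * k + 3 * p ^ 2 * nk) * vv ^ 2) +
      (-(2 * θv * lθ * (b * (p ^ 4 * a - 2 * p ^ 3 * vv))) -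
        2 * θv * nθ * (-(1 / 2) * p ^ 4 * b ^ 2 + 1 / 2 * p ^ 4 * k * a ^ 2 -
          2 * p ^ 3 * k * vv * a + 3 * p ^ 2 * k * vv ^ 2)) +
      K * (t2 ^ 2 * p ^ 3 * b ^ 2 + t2 ^ 2 * p ^ 3 * k * a ^ 2 +
        vv * b * (2 * t2 * lt * p ^ 3) + k * vv * a * (2 * t2 * nt * p ^ 3 + 3 * t2 ^ 2 * p ^ 2)) +
      s * (K * (t2 ^ 2 * p ^ 3 * vv) - θv ^ 2 * (p ^ 4 * a - 2 * p ^ 3 * vv))) := by
  have hU := isOpen_disc 2
  have h0 : ∀ z ∈ disc 2, br u P z ≠ 0 := fun z hz => (lt_of_lt_of_le hj (hr.J z hz)).ne'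
  have h0z := h0 z hz
  have smv : Sm (disc 2) v := Sm.of_contDiff hv
  have sB : Sm (disc 2) (Lo u P v) := Sm.Lo hU hr.su hr.sP smv h0
  have sA : Sm (disc 2) (No u P v) := Sm.No hU hr.su hr.sP smv h0
  have hB : HL u P (Lo u P v) (Lo u P (Lo u P v) z) (No u P (Lo u P v) z) z := HL.of (sB.diff hU hz)
  have hA : HL u P (No u P v) (Lo u P (No u P v) z) (No u P (No u P v) z) z := HL.of (sA.diff hU hz)
  have hvv : HL u P v b a z := ⟨smv.diff hU hz, e7, e6⟩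
  have hk : HL u P κ (Lo u P κ z) nk z := ⟨hr.sk.diff hU hz, rfl, e12⟩
  have hθ' : HL u P θ lθ nθ z := ⟨(Sm.of_contDiff (U := disc 2) hθ).diff hU hz, e8, e9⟩
  have hθ2' : HL u P θ2 lt nt z := ⟨(Sm.of_contDiff (U := disc 2) hθ2).diff hU hz, e10, e11⟩
  have hPd : DifferentiableAt ℝ P z := hr.sP.diff hU hz
  have hPt : HL u P (fun w => P w - t) 0 1 z := by
    refine ⟨hPd.sub_const t, ?_, ?_⟩
    · have h := Lo_sub (u := u) (P := P) (f := P) (g := fun _ => t) hPd (differentiableAt_const t)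
      rw [h, Lo_P]
      have : Lo u P (fun _ => t) z = 0 := by
        simp only [Lo, br, dx_const, dy_const]; ring
      rw [this]; ring
    · have h := No_sub (u := u) (P := P) (f := P) (g := fun _ => t) hPd (differentiableAt_const t)
      rw [h, No_P h0z]
      have : No u P (fun _ => t) z = 0 := by
        simp only [No, br, dx_const, dy_const]; ring
      rw [this]; ring
  have hp4 : HL u P (fun w => (max (P w - t) 0) ^ (2 + 2)) _ _ z :=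
    HL.comp (φ := fun x => (max x 0) ^ (2 + 2)) (hasDerivAt_pos_pow 2 _) hPt
  have hp3 : HL u P (fun w => (max (P w - t) 0) ^ (1 + 2)) _ _ z :=
    HL.comp (φ := fun x => (max x 0) ^ (1 + 2)) (hasDerivAt_pos_pow 1 _) hPt
  have hp2 : HL u P (fun w => (max (P w - t) 0) ^ (0 + 2)) _ _ z :=
    HL.comp (φ := fun x => (max x 0) ^ (0 + 2)) (hasDerivAt_pos_pow 0 _) hPt
  have hF1 : HL u P (F1 u P v θ θ2 t K) _ _ z :=
    ((hθ'.mul hθ').mul (hB.mul ((hp4.mul hA).sub ((hp3.mul hvv).const_mul 2))).neg).add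
      ((hθ2'.mul hθ2').mul ((hp3.mul (hvv.mul hB)).const_mul K))
  have hF2 : HL u P (F2 u P κ v θ θ2 t K) _ _ z :=
    ((hθ'.mul hθ').mul ((((hp4.mul (hB.mul hB)).const_mul (-(1 / 2))).add
      ((hp4.mul (hk.mul (hA.mul hA))).const_mul (1 / 2))).sub
      ((hp3.mul (hk.mul (hvv.mul hA))).const_mul 2) |>.add
      ((hp2.mul (hk.mul (hvv.mul hvv))).const_mul 3)).neg).add
      ((hθ2'.mul hθ2').mul ((hp3.mul (hk.mul (hvv.mul hA))).const_mul K))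
  have hcomm : Lo u P (No u P v) z = No u P (Lo u P v) z := Lo_No_comm hU hr.su hr.sP smv h0 hz
  have hs : s = Lo u P (Lo u P v) z + (nk * a + k * No u P (No u P v) z) := by
    rw [← e13]
    unfold Op
    rw [No_mul (hr.sk.diff hU hz) (sA.diff hU hz), e12, e6, e4]
  rw [br_eq_mul_Lo (f := F1 u P v θ θ2 t K) h0z, br_eq_mul_No (f := F2 u P κ v θ θ2 t K) h0z,
    hF1.l, hF2.n, ← mul_add, hcomm, hs]
  congr 1
  rw [e1, e2, e3, e4, e5, e6, e7]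
  push_cast
  ring

/-! ### the two cutoffs -/

structure Cuts (g R G : ℝ) (θ θ2 : ℝ × ℝ → ℝ) : Prop where
  sm : ContDiff ℝ ∞ θ
  sm2 : ContDiff ℝ ∞ θ2
  nn : ∀ z, 0 ≤ θ z
  le : ∀ z, θ z ≤ 1
  nn2 : ∀ z, 0 ≤ θ2 z
  le2 : ∀ z, θ2 z ≤ 1
  one : ∀ z ∈ disc (R - g), θ z = 1
  out : ∀ z : ℝ × ℝ, R ^ 2 ≤ z.1 ^ 2 + z.2 ^ 2 → θ z = 0
  out2 : ∀ z : ℝ × ℝ, R ^ 2 ≤ z.1 ^ 2 + z.2 ^ 2 → θ2 z = 0
  gb : ∀ z ∈ disc 2, (|dx θ z| ≤ G ∧ |dy θ z| ≤ G) ∧ |dx θ2 z| ≤ G ∧ |dy θ2 z| ≤ G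
  grad : ∀ z, (dx θ z ≠ 0 ∨ dy θ z ≠ 0) → θ2 z = 1
  far : ∀ z, θ2 z ≠ 0 → z ∉ disc (11 / 10)

theorem exists_cuts (g : ℝ) (hg : 0 < g) : ∃ G : ℝ, 0 ≤ G ∧ ∀ R, 6 / 5 + g ≤ R → R ≤ 7 / 5 →
    ∃ θ θ2 : ℝ × ℝ → ℝ, Cuts g R G θ θ2 := by
  obtain ⟨c, hc0, hc⟩ := exists_deriv_bound
  set β : ℝ := 5 / (6 * g) + 10 with hβ
  have hβ0 : 0 ≤ β := by positivity
  refine ⟨8 * c * β, by positivity, fun R hR1 hR2 => ?_⟩
  set ρ1 : ℝ := (R - g / 2) ^ 2 with hρ1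
  set ρ0 : ℝ := (R - g) ^ 2 with hρ0
  set a0 : ℝ := 529 / 400 with ha0
  have d1 : 6 * g / 5 ≤ ρ1 - ρ0 := by rw [hρ1, hρ0]; nlinarith
  have d2 : 6 * g / 5 ≤ R ^ 2 - ρ1 := by rw [hρ1]; nlinarith
  have d3 : 1 / 10 ≤ ρ0 - a0 := by rw [hρ0, ha0]; nlinarith
  have p1 : 0 < ρ1 - ρ0 := lt_of_lt_of_le (by positivity) d1
  have p2 : 0 < R ^ 2 - ρ1 := lt_of_lt_of_le (by positivity) d2
  have p3 : 0 < ρ0 - a0 := lt_of_lt_of_le (by norm_num) d3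
  have hinv : ∀ x : ℝ, 6 * g / 5 ≤ x → |(-1) / x| ≤ β := by
    intro x hx
    have hx0 : 0 < x := lt_of_lt_of_le (by positivity) hx
    rw [abs_div, abs_neg, abs_one, abs_of_pos hx0]
    calc 1 / x ≤ 1 / (6 * g / 5) := by gcongr
      _ = 5 / (6 * g) := by field_simp
      _ ≤ β := by rw [hβ]; linarith
  have hb3 : |1 / (ρ0 - a0)| ≤ β := by
    rw [abs_of_pos (by positivity)]
    calc 1 / (ρ0 - a0) ≤ 1 / (1 / 10) := by gcongr
      _ = 10 := by norm_num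
      _ ≤ β := by
          rw [hβ]
          have : 0 < 5 / (6 * g) := by positivity
          linarith
  set θ := cu (ρ1 / (ρ1 - ρ0)) ((-1) / (ρ1 - ρ0)) with hθ
  set cA := cu (R ^ 2 / (R ^ 2 - ρ1)) ((-1) / (R ^ 2 - ρ1)) with hcA
  set cB := cu (-a0 / (ρ0 - a0)) (1 / (ρ0 - a0)) with hcB
  have vθ : ∀ z : ℝ × ℝ, θ z = Real.smoothTransition ((ρ1 - (z.1 ^ 2 + z.2 ^ 2)) / (ρ1 - ρ0)) := by
    intro z
    rw [hθ]; unfold cu; congr 1; field_simp; ring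
  have vA : ∀ z : ℝ × ℝ, cA z =
      Real.smoothTransition ((R ^ 2 - (z.1 ^ 2 + z.2 ^ 2)) / (R ^ 2 - ρ1)) := by
    intro z
    rw [hcA]; unfold cu; congr 1; field_simp; ring
  have vB : ∀ z : ℝ × ℝ, cB z =
      Real.smoothTransition ((z.1 ^ 2 + z.2 ^ 2 - a0) / (ρ0 - a0)) := by
    intro z
    rw [hcB]; unfold cu; congr 1; field_simp; ring
  refine ⟨θ, fun z => cA z * cB z, ?_⟩
  refine
    { sm := contDiff_cu _ _
      sm2 := (contDiff_cu _ _).mul (contDiff_cu _ _)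
      nn := fun z => cu_nonneg _ _ z
      le := fun z => cu_le_one _ _ z
      nn2 := fun z => mul_nonneg (cu_nonneg _ _ z) (cu_nonneg _ _ z)
      le2 := fun z => mul_le_one₀ (cu_le_one _ _ z) (cu_nonneg _ _ z) (cu_le_one _ _ z)
      one := ?_
      out := ?_
      out2 := ?_
      gb := ?_
      grad := ?_
      far := ?_ }
  · intro z hz
    have hz' : z.1 ^ 2 + z.2 ^ 2 < (R - g) ^ 2 := hz
    rw [vθ]
    refine Real.smoothTransition.one_of_one_le ?_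
    rw [le_div_iff₀ p1]
    rw [← hρ0] at hz'
    linarith
  · intro z hz
    rw [vθ]
    refine Real.smoothTransition.zero_of_nonpos ?_
    rw [div_nonpos_iff]
    right
    constructor <;> linarith
  · intro z hz
    have : cA z = 0 := by
      rw [vA]
      refine Real.smoothTransition.zero_of_nonpos ?_
      rw [div_nonpos_iff]
      right
      constructor <;> linarith
    show cA z * cB z = 0
    rw [this, zero_mul]
  · intro z hz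
    have h1 := abs_dx_cu_le (a := ρ1 / (ρ1 - ρ0)) hc0 hc (hinv _ d1) hz
    have h2 := abs_dx_cu_le (a := R ^ 2 / (R ^ 2 - ρ1)) hc0 hc (hinv _ d2) hz
    have h3 := abs_dx_cu_le (a := -a0 / (ρ0 - a0)) hc0 hc hb3 hz
    have hcβ : 0 ≤ c * β := by positivity
    have dA : DifferentiableAt ℝ cA z := (contDiff_cu _ _).differentiable (by simp) z
    have dB : DifferentiableAt ℝ cB z := (contDiff_cu _ _).differentiable (by simp) z
    have hA1 : |cA z| ≤ 1 := by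
      rw [abs_of_nonneg (cu_nonneg _ _ z)]; exact cu_le_one _ _ z
    have hB1 : |cB z| ≤ 1 := by
      rw [abs_of_nonneg (cu_nonneg _ _ z)]; exact cu_le_one _ _ z
    refine ⟨⟨by linarith [h1.1], by linarith [h1.2]⟩, ?_, ?_⟩
    · have e : dx (fun z => cA z * cB z) z = dx cA z * cB z + cA z * dx cB z := dx_mul dA dB
      rw [e]
      refine (abs_add_le _ _).trans ?_
      rw [abs_mul, abs_mul]
      have a1 : |dx cA z| * |cB z| ≤ (4 * c * β) * 1 :=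
        mul_le_mul h2.1 hB1 (abs_nonneg _) (by positivity)
      have a2 : |cA z| * |dx cB z| ≤ 1 * (4 * c * β) :=
        mul_le_mul hA1 h3.1 (abs_nonneg _) (by norm_num)
      linarith
    · have e : dy (fun z => cA z * cB z) z = dy cA z * cB z + cA z * dy cB z := dy_mul dA dB
      rw [e]
      refine (abs_add_le _ _).trans ?_
      rw [abs_mul, abs_mul]
      have a1 : |dy cA z| * |cB z| ≤ (4 * c * β) * 1 :=
        mul_le_mul h2.2 hB1 (abs_nonneg _) (by positivity)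
      have a2 : |cA z| * |dy cB z| ≤ 1 * (4 * c * β) :=
        mul_le_mul hA1 h3.2 (abs_nonneg _) (by norm_num)
      linarith
  · intro z hz
    have hne : deriv Real.smoothTransition
        (ρ1 / (ρ1 - ρ0) + (-1) / (ρ1 - ρ0) * (z.1 ^ 2 + z.2 ^ 2)) ≠ 0 := by
      intro h0
      rcases hz with hz | hz
      · rw [hθ, dx_cu, h0, zero_mul] at hz; exact hz rfl
      · rw [hθ, dy_cu, h0, zero_mul] at hz; exact hz rfl
    have e : ρ1 / (ρ1 - ρ0) + (-1) / (ρ1 - ρ0) * (z.1 ^ 2 + z.2 ^ 2) =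
        (ρ1 - (z.1 ^ 2 + z.2 ^ 2)) / (ρ1 - ρ0) := by field_simp; ring
    rw [e] at hne
    have h1 : 0 ≤ (ρ1 - (z.1 ^ 2 + z.2 ^ 2)) / (ρ1 - ρ0) := by
      by_contra h; exact hne (deriv_sT_zero (Or.inl (not_le.1 h)))
    have h2 : (ρ1 - (z.1 ^ 2 + z.2 ^ 2)) / (ρ1 - ρ0) ≤ 1 := by
      by_contra h; exact hne (deriv_sT_zero (Or.inr (not_le.1 h)))
    rw [le_div_iff₀ p1] at h1
    rw [div_le_one p1] at h2
    have hA : cA z = 1 := by
      rw [vA]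
      refine Real.smoothTransition.one_of_one_le ?_
      rw [le_div_iff₀ p2]; linarith
    have hB : cB z = 1 := by
      rw [vB]
      refine Real.smoothTransition.one_of_one_le ?_
      rw [le_div_iff₀ p3]; linarith
    show cA z * cB z = 1
    rw [hA, hB, one_mul]
  · intro z hz hz2
    apply hz
    have hz2' : z.1 ^ 2 + z.2 ^ 2 < (11 / 10) ^ 2 := hz2
    have : cB z = 0 := by
      rw [vB]
      refine Real.smoothTransition.zero_of_nonpos ?_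
      rw [div_nonpos_iff]
      right
      refine ⟨?_, p3.le⟩
      rw [ha0]; norm_num at hz2'; linarith
    show cA z * cB z = 0
    rw [this, mul_zero]

/-! ### smoothness of the two components -/

theorem smooth_pp {P : ℝ × ℝ → ℝ} (hP : Sm (disc 2) P) (t : ℝ) (k : ℕ) :
    ContDiffOn ℝ 1 (fun w => (max (P w - t) 0) ^ (k + 2)) (disc 2) := by
  have h1 : ContDiffOn ℝ 1 (fun w => P w - t) (disc 2) :=
    (hP.of_le (by norm_cast)).sub contDiffOn_const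
  exact (contDiff_pos_pow k).comp_contDiffOn h1

theorem smooth_F1 {u P κ v θ θ2 : ℝ × ℝ → ℝ} {C0 j0 g R G : ℝ} (hj : 0 < j0)
    (hr : Reg C0 j0 u P κ) (hv : ContDiff ℝ ∞ v) (hc : Cuts g R G θ θ2) (hR0 : 0 ≤ R)
    (hR : R ≤ 7 / 5) (t K : ℝ) :
    ContDiff ℝ 1 (F1 u P v θ θ2 t K) ∧
      (∀ z : ℝ × ℝ, R ^ 2 ≤ z.1 ^ 2 + z.2 ^ 2 → F1 u P v θ θ2 t K z = 0) := by
  have hU := isOpen_disc 2
  have h0 : ∀ z ∈ disc 2, br u P z ≠ 0 := fun z hz => (lt_of_lt_of_le hj (hr.J z hz)).ne'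
  have smv : Sm (disc 2) v := Sm.of_contDiff hv
  have sB : ContDiffOn ℝ 1 (Lo u P v) (disc 2) := (Sm.Lo hU hr.su hr.sP smv h0).of_le (by norm_cast)
  have sA : ContDiffOn ℝ 1 (No u P v) (disc 2) := (Sm.No hU hr.su hr.sP smv h0).of_le (by norm_cast)
  have sv : ContDiffOn ℝ 1 v (disc 2) := smv.of_le (by norm_cast)
  have sθ : ContDiff ℝ 1 (fun w => θ w * θ w) := (hc.sm.mul hc.sm).of_le (by norm_cast)
  have sθ2 : ContDiff ℝ 1 (fun w => θ2 w * θ2 w) := (hc.sm2.mul hc.sm2).of_le (by norm_cast)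
  have hsub : {z : ℝ × ℝ | z.1 ^ 2 + z.2 ^ 2 ≤ R ^ 2} ⊆ disc 2 := by
    intro z hz
    have hz' : z.1 ^ 2 + z.2 ^ 2 ≤ R ^ 2 := hz
    show z.1 ^ 2 + z.2 ^ 2 < 2 ^ 2
    nlinarith
  have t1 : tsupport (fun w => θ w * θ w) ⊆ disc 2 :=
    (tsupport_sub (fun z hz => by rw [hc.out z hz, zero_mul])).trans hsub
  have t2 : tsupport (fun w => θ2 w * θ2 w) ⊆ disc 2 :=
    (tsupport_sub (fun z hz => by rw [hc.out2 z hz, zero_mul])).trans hsub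
  refine ⟨?_, fun z hz => ?_⟩
  · refine ContDiff.add (contDiff_mul_of_tsupport (n := 1) hU sθ t1 ?_)
      (contDiff_mul_of_tsupport (n := 1) hU sθ2 t2 ?_)
    · exact (sB.mul (((smooth_pp hr.sP t 2).mul sA).sub
        (contDiffOn_const.mul ((smooth_pp hr.sP t 1).mul sv)))).neg
    · exact contDiffOn_const.mul ((smooth_pp hr.sP t 1).mul (sv.mul sB))
  · unfold F1
    rw [hc.out z hz, hc.out2 z hz]; ring

theorem smooth_F2 {u P κ v θ θ2 : ℝ × ℝ → ℝ} {C0 j0 g R G : ℝ} (hj : 0 < j0)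
    (hr : Reg C0 j0 u P κ) (hv : ContDiff ℝ ∞ v) (hc : Cuts g R G θ θ2) (hR0 : 0 ≤ R)
    (hR : R ≤ 7 / 5) (t K : ℝ) :
    ContDiff ℝ 1 (F2 u P κ v θ θ2 t K) ∧
      (∀ z : ℝ × ℝ, R ^ 2 ≤ z.1 ^ 2 + z.2 ^ 2 → F2 u P κ v θ θ2 t K z = 0) := by
  have hU := isOpen_disc 2
  have h0 : ∀ z ∈ disc 2, br u P z ≠ 0 := fun z hz => (lt_of_lt_of_le hj (hr.J z hz)).ne'
  have smv : Sm (disc 2) v := Sm.of_contDiff hv
  have sB : ContDiffOn ℝ 1 (Lo u P v) (disc 2) := (Sm.Lo hU hr.su hr.sP smv h0).of_le (by norm_cast)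
  have sA : ContDiffOn ℝ 1 (No u P v) (disc 2) := (Sm.No hU hr.su hr.sP smv h0).of_le (by norm_cast)
  have sv : ContDiffOn ℝ 1 v (disc 2) := smv.of_le (by norm_cast)
  have sk : ContDiffOn ℝ 1 κ (disc 2) := hr.sk.of_le (by norm_cast)
  have sθ : ContDiff ℝ 1 (fun w => θ w * θ w) := (hc.sm.mul hc.sm).of_le (by norm_cast)
  have sθ2 : ContDiff ℝ 1 (fun w => θ2 w * θ2 w) := (hc.sm2.mul hc.sm2).of_le (by norm_cast)
  have hsub : {z : ℝ × ℝ | z.1 ^ 2 + z.2 ^ 2 ≤ R ^ 2} ⊆ disc 2 := by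
    intro z hz
    have hz' : z.1 ^ 2 + z.2 ^ 2 ≤ R ^ 2 := hz
    show z.1 ^ 2 + z.2 ^ 2 < 2 ^ 2
    nlinarith
  have t1 : tsupport (fun w => θ w * θ w) ⊆ disc 2 :=
    (tsupport_sub (fun z hz => by rw [hc.out z hz, zero_mul])).trans hsub
  have t2 : tsupport (fun w => θ2 w * θ2 w) ⊆ disc 2 :=
    (tsupport_sub (fun z hz => by rw [hc.out2 z hz, zero_mul])).trans hsub
  refine ⟨?_, fun z hz => ?_⟩
  · refine ContDiff.add (contDiff_mul_of_tsupport (n := 1) hU sθ t1 ?_)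
      (contDiff_mul_of_tsupport (n := 1) hU sθ2 t2 ?_)
    · exact ((((contDiffOn_const.mul ((smooth_pp hr.sP t 2).mul (sB.mul sB))).add
        (contDiffOn_const.mul ((smooth_pp hr.sP t 2).mul (sk.mul (sA.mul sA))))).sub
        (contDiffOn_const.mul ((smooth_pp hr.sP t 1).mul (sk.mul (sv.mul sA))))).add
        (contDiffOn_const.mul ((smooth_pp hr.sP t 0).mul (sk.mul (sv.mul sv))))).neg
    · exact contDiffOn_const.mul ((smooth_pp hr.sP t 1).mul (sk.mul (sv.mul sA)))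
  · unfold F2
    rw [hc.out z hz, hc.out2 z hz]; ring

theorem sq_comb_le {a b x y C : ℝ} (hx : |x| ≤ C) (hy : |y| ≤ C) :
    (b * x + a * y) ^ 2 ≤ 2 * C ^ 2 * (a ^ 2 + b ^ 2) := by
  have u2 : x ^ 2 ≤ C ^ 2 := by
    rw [← sq_abs x]; exact pow_le_pow_left₀ (abs_nonneg _) hx 2
  have p2 : y ^ 2 ≤ C ^ 2 := by
    rw [← sq_abs y]; exact pow_le_pow_left₀ (abs_nonneg _) hy 2
  have m1 := mul_le_mul_of_nonneg_left u2 (sq_nonneg b)
  have m2 := mul_le_mul_of_nonneg_left p2 (sq_nonneg a)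
  have m3 := sq_nonneg (b * x - a * y)
  linarith

theorem grad_le {u P v : ℝ × ℝ → ℝ} {C0 : ℝ} {z : ℝ × ℝ} (h0z : br u P z ≠ 0)
    (hux : |dx u z| ≤ C0) (huy : |dy u z| ≤ C0) (hPx : |dx P z| ≤ C0) (hPy : |dy P z| ≤ C0) :
    dx v z ^ 2 + dy v z ^ 2 ≤ 4 * C0 ^ 2 * (No u P v z ^ 2 + Lo u P v z ^ 2) := by
  rw [dx_eq_Lo_No (u := u) (P := P) (f := v) h0z, dy_eq_Lo_No (u := u) (P := P) (f := v) h0z]
  have h1 := sq_comb_le (a := No u P v z) (b := Lo u P v z) hux hPx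
  have h2 := sq_comb_le (a := No u P v z) (b := Lo u P v z) huy hPy
  linarith

theorem br_le {u P : ℝ × ℝ → ℝ} {C0 : ℝ} {z : ℝ × ℝ} (hC : 0 ≤ C0)
    (hux : |dx u z| ≤ C0) (huy : |dy u z| ≤ C0) (hPx : |dx P z| ≤ C0) (hPy : |dy P z| ≤ C0) :
    br u P z ≤ 2 * C0 ^ 2 := by
  have h1 : |br u P z| ≤ C0 * C0 + C0 * C0 := by
    show |dx u z * dy P z - dy u z * dx P z| ≤ _
    refine (abs_sub _ _).trans ?_
    rw [abs_mul, abs_mul]
    exact add_le_add (mul_le_mul hux hPy (abs_nonneg _) hC)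
      (mul_le_mul huy hPx (abs_nonneg _) hC)
  have := le_abs_self (br u P z)
  linarith

/-- final comparison on the inner set -/
theorem final_inner {J j0 C0 C' c1 n0 g p a b D vz : ℝ} (hj : 0 < j0) (hJ : j0 ≤ J)
    (hJ2 : J ≤ 2 * C0 ^ 2) (hC : 0 < C0) (hC' : 0 ≤ C') (hg : 0 < g) (hn0 : 0 < n0)
    (hc1 : c1 = min (4 * g ^ 3) (1 / 2 * n0 * g ^ 4)) (hpg : g ≤ p)
    (hD : D ≤ 4 * C0 ^ 2 * (a ^ 2 + b ^ 2)) :
    j0 * c1 / (4 * C0 ^ 2) * D - 2 * C0 ^ 2 * C' * vz ^ 2 ≤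
      J * (1 ^ 2 * (4 * p ^ 3 * b ^ 2 + 1 / 2 * n0 * p ^ 4 * a ^ 2) - C' * vz ^ 2) := by
  have hJ0 : 0 < J := lt_of_lt_of_le hj hJ
  have e3 : g ^ 3 ≤ p ^ 3 := pow_le_pow_left₀ hg.le hpg 3
  have e4 : g ^ 4 ≤ p ^ 4 := pow_le_pow_left₀ hg.le hpg 4
  have hc10 : 0 < c1 := by rw [hc1]; exact lt_min (by positivity) (by positivity)
  have hc1a : c1 ≤ 4 * p ^ 3 := by
    rw [hc1]; exact (min_le_left _ _).trans (by linarith)
  have hc1b : c1 ≤ 1 / 2 * n0 * p ^ 4 := by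
    rw [hc1]; exact (min_le_right _ _).trans (mul_le_mul_of_nonneg_left e4 (by positivity))
  have h1 : c1 * (a ^ 2 + b ^ 2) ≤ 4 * p ^ 3 * b ^ 2 + 1 / 2 * n0 * p ^ 4 * a ^ 2 := by
    have a1 := mul_le_mul_of_nonneg_right hc1a (sq_nonneg b)
    have a2 := mul_le_mul_of_nonneg_right hc1b (sq_nonneg a)
    linarith
  have h2 : j0 * c1 / (4 * C0 ^ 2) * D ≤ j0 * (c1 * (a ^ 2 + b ^ 2)) := by
    calc j0 * c1 / (4 * C0 ^ 2) * D
        ≤ j0 * c1 / (4 * C0 ^ 2) * (4 * C0 ^ 2 * (a ^ 2 + b ^ 2)) :=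
          mul_le_mul_of_nonneg_left hD (by positivity)
      _ = _ := by field_simp
  have h3 : j0 * (c1 * (a ^ 2 + b ^ 2)) ≤ J * (c1 * (a ^ 2 + b ^ 2)) :=
    mul_le_mul_of_nonneg_right hJ (by positivity)
  have h4 : J * (c1 * (a ^ 2 + b ^ 2)) ≤
      J * (4 * p ^ 3 * b ^ 2 + 1 / 2 * n0 * p ^ 4 * a ^ 2) :=
    mul_le_mul_of_nonneg_left h1 hJ0.le
  have hJC : J * (C' * vz ^ 2) ≤ 2 * C0 ^ 2 * (C' * vz ^ 2) :=
    mul_le_mul_of_nonneg_right hJ2 (by positivity)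
  have h5 : J * (1 ^ 2 * (4 * p ^ 3 * b ^ 2 + 1 / 2 * n0 * p ^ 4 * a ^ 2) - C' * vz ^ 2) =
      J * (4 * p ^ 3 * b ^ 2 + 1 / 2 * n0 * p ^ 4 * a ^ 2) - J * (C' * vz ^ 2) := by ring
  rw [h5]
  linarith

/-- pointwise lower bound for the divergence -/
theorem pw {u P κ v θ θ2 : ℝ × ℝ → ℝ} {C0 j0 k1 n0 g R G t M k' : ℝ} (hC : 0 < C0) (hj : 0 < j0)
    (hk1 : 0 < k1) (hn0 : 0 < n0) (hg : 0 < g) (hG : 0 ≤ G)
    (hMdef : M = 1 + 2 * C0 + 2 * G * C0 / j0 + 2 * C0 * C0 / j0) (hk'def : k' = min 1 k1)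
    (hr : Reg C0 j0 u P κ) (hv : ContDiff ℝ ∞ v) (ht : |t| ≤ C0) (hR1 : 6 / 5 + g ≤ R)
    (hc : Cuts g R G θ θ2)
    (hk : ∀ z ∈ disc (3 / 2), z ∉ disc (11 / 10) → k1 ≤ κ z)
    (hn : ∀ z ∈ disc (3 / 2), t < P z → n0 ≤ No u P κ z)
    (hs : ∀ z ∈ disc (3 / 2), t < P z → Op u P κ v z = 0) {z : ℝ × ℝ} (hz : z ∈ disc (3 / 2)) :
    (z ∈ Om P (t + g) (R - g) → j0 * min (4 * g ^ 3) (1 / 2 * n0 * g ^ 4) / (4 * C0 ^ 2) *
        (dx v z ^ 2 + dy v z ^ 2) - 2 * C0 ^ 2 * (9 * M ^ 3 + 10 * M ^ 5 + 180 * M ^ 9 / k') *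
        v z ^ 2 ≤ br (F1 u P v θ θ2 t (12 * M ^ 3 / k')) P z +
          br u (F2 u P κ v θ θ2 t (12 * M ^ 3 / k')) z) ∧
    (-(2 * C0 ^ 2 * (9 * M ^ 3 + 10 * M ^ 5 + 180 * M ^ 9 / k') *
        v z ^ 2) ≤ br (F1 u P v θ θ2 t (12 * M ^ 3 / k')) P z +
          br u (F2 u P κ v θ θ2 t (12 * M ^ 3 / k')) z) ∧
    (z ∉ Om P t R → br (F1 u P v θ θ2 t (12 * M ^ 3 / k')) P z +
          br u (F2 u P κ v θ θ2 t (12 * M ^ 3 / k')) z = 0) := by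
  have hz' : z.1 ^ 2 + z.2 ^ 2 < (3 / 2) ^ 2 := hz
  have hz2 : z ∈ disc 2 := by
    show z.1 ^ 2 + z.2 ^ 2 < 2 ^ 2
    linarith
  have hJ := hr.J z hz2
  obtain ⟨-, hux, huy⟩ := hr.bu z hz2
  obtain ⟨hPb, hPx, hPy⟩ := hr.bP z hz2
  obtain ⟨hκb, hκx, hκy⟩ := hr.bk z hz2
  obtain ⟨⟨g1, g2⟩, g3, g4⟩ := hc.gb z hz2
  have i1 : 0 ≤ 2 * G * C0 / j0 := by positivity
  have i2 : 0 ≤ 2 * C0 * C0 / j0 := by positivity
  have hM1 : 1 ≤ M := by rw [hMdef]; linarith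
  have hM0 : 0 < M := by linarith
  have hMG : 2 * G * C0 / j0 ≤ M := by rw [hMdef]; linarith
  have hMC : 2 * C0 * C0 / j0 ≤ M := by rw [hMdef]; linarith
  have hM2 : 2 * C0 ≤ M := by rw [hMdef]; linarith
  have hk'0 : 0 < k' := by rw [hk'def]; exact lt_min one_pos hk1
  have hk'1 : k' ≤ 1 := by rw [hk'def]; exact min_le_left _ _
  have hk'2 : k' ≤ k1 := by rw [hk'def]; exact min_le_right _ _
  have hJ0 : 0 < br u P z := lt_of_lt_of_le hj hJ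
  have hJ2 : br u P z ≤ 2 * C0 ^ 2 := br_le hC.le hux huy hPx hPy
  have hid := identity hj hr hv hc.sm hc.sm2 t (12 * M ^ 3 / k') hz2 _ _ _ _ _ _ _ _ _ _ _ _ _
    rfl rfl rfl rfl rfl rfl rfl rfl rfl rfl rfl rfl rfl
  obtain ⟨p, hp⟩ : ∃ p, p = max (P z - t) 0 := ⟨_, rfl⟩
  rw [← hp] at hid
  have hp0 : 0 ≤ p := by rw [hp]; exact le_max_right _ _
  have hpM : p ≤ M := by
    rw [hp]
    refine max_le ?_ hM0.le
    have h1 := le_abs_self (P z)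
    have h2 := neg_abs_le t
    linarith
  have hpt : 0 < p → t < P z := by
    intro h
    rw [hp] at h
    rcases lt_max_iff.1 h with h | h
    · linarith
    · exact absurd h (lt_irrefl _)
  have al := alg M k' n0 (θ z) (θ2 z) p (κ z) (v z) (No u P v z) (Lo u P v z) (Lo u P θ z)
    (No u P θ z) (Lo u P θ2 z) (No u P θ2 z) (No u P κ z) (Op u P κ v z) hM1 hk'0 hk'1 (hc.nn z)
    (hc.le z) (hc.nn2 z) (hc.le2 z) hp0 hpM (by linarith) ((abs_No_le hj hJ hux huy hκx hκy).trans hMC)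
    ((abs_Lo_le hj hJ hPx hPy g1 g2).trans hMG) ((abs_No_le hj hJ hux huy g1 g2).trans hMG)
    ((abs_Lo_le hj hJ hPx hPy g3 g4).trans hMG) ((abs_No_le hj hJ hux huy g3 g4).trans hMG)
    (fun h => hk'2.trans (hk z hz (hc.far z h)))
    (fun h => hc.grad z (by
      by_contra hcon
      push Not at hcon
      have h1 : Lo u P θ z = 0 := by
        show (dx θ z * dy P z - dy θ z * dx P z) / br u P z = 0
        rw [hcon.1, hcon.2]; simp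
      have h2 : No u P θ z = 0 := by
        show (dx u z * dy θ z - dy u z * dx θ z) / br u P z = 0
        rw [hcon.1, hcon.2]; simp
      rcases h with h | h
      · exact h h1
      · exact h h2))
    (fun h => hn z hz (hpt h)) (fun h => hs z hz (hpt h))
  obtain ⟨a, ha⟩ : ∃ a, a = No u P v z := ⟨_, rfl⟩
  obtain ⟨b, hb⟩ : ∃ b, b = Lo u P v z := ⟨_, rfl⟩
  rw [← ha, ← hb] at al hid
  obtain ⟨C', hC'⟩ : ∃ C', C' = 9 * M ^ 3 + 10 * M ^ 5 + 180 * M ^ 9 / k' := ⟨_, rfl⟩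
  have hC'0 : 0 ≤ C' := by rw [hC']; positivity
  rw [← hC'] at al ⊢
  have hvz : 0 ≤ v z ^ 2 := sq_nonneg _
  rw [hid]
  have hJC : br u P z * (C' * v z ^ 2) ≤ 2 * C0 ^ 2 * (C' * v z ^ 2) :=
    mul_le_mul_of_nonneg_right hJ2 (by positivity)
  have al2 := mul_le_mul_of_nonneg_left al hJ0.le
  refine ⟨fun hS => ?_, ?_, fun hS => ?_⟩
  · refine le_trans ?_ al2
    have hθ1 : θ z = 1 := hc.one z hS.1
    have hpg : g ≤ p := by
      rw [hp]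
      have : t + g < P z := hS.2
      exact le_max_of_le_left (by linarith)
    have hD := grad_le (v := v) hJ0.ne' hux huy hPx hPy
    rw [← ha, ← hb] at hD
    rw [hθ1]
    exact final_inner hj hJ hJ2 hC hC'0 hg hn0 rfl hpg hD
  · refine le_trans ?_ al2
    have h1 : 0 ≤ θ z ^ 2 * (4 * p ^ 3 * b ^ 2 + 1 / 2 * n0 * p ^ 4 * a ^ 2) := by positivity
    have h2 := mul_nonneg hJ0.le h1
    have h5 : br u P z * (θ z ^ 2 * (4 * p ^ 3 * b ^ 2 + 1 / 2 * n0 * p ^ 4 * a ^ 2) -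
        C' * v z ^ 2) = br u P z * (θ z ^ 2 * (4 * p ^ 3 * b ^ 2 + 1 / 2 * n0 * p ^ 4 * a ^ 2)) -
          br u P z * (C' * v z ^ 2) := by ring
    rw [h5]
    linarith
  · by_cases hR : R ^ 2 ≤ z.1 ^ 2 + z.2 ^ 2
    · rw [hc.out z hR, hc.out2 z hR]; ring
    · have hp' : p = 0 := by
        rw [hp]
        refine max_eq_right ?_
        by_contra h
        exact hS ⟨not_le.1 hR, by linarith⟩
      rw [hp']; ring

end CaccAux

open CaccAux in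
theorem caccioppoli (C0 j0 k1 n0 g : ℝ) (hC : 0 < C0) (hj : 0 < j0) (hk : 0 < k1) (hn : 0 < n0)
    (hg : 0 < g) : ∃ A : ℝ, 0 < A ∧ ∀ (u P κ v : ℝ × ℝ → ℝ) (t R : ℝ),
      Reg C0 j0 u P κ → ContDiff ℝ ∞ v → |t| ≤ C0 → 6 / 5 + g ≤ R → R ≤ 7 / 5 →
      (∀ z ∈ disc (3 / 2), z ∉ disc (11 / 10) → k1 ≤ κ z) →
      (∀ z ∈ disc (3 / 2), t < P z → n0 ≤ No u P κ z) →
      (∀ z ∈ disc (3 / 2), t < P z → Op u P κ v z = 0) →
      ∫ z in Om P (t + g) (R - g), (dx v z ^ 2 + dy v z ^ 2) ≤ A * ∫ z in Om P t R, v z ^ 2 := by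
  obtain ⟨G, hG0, hcuts⟩ := exists_cuts g hg
  obtain ⟨M, hMdef⟩ : ∃ M, M = 1 + 2 * C0 + 2 * G * C0 / j0 + 2 * C0 * C0 / j0 := ⟨_, rfl⟩
  obtain ⟨k', hk'def⟩ : ∃ k', k' = min 1 k1 := ⟨_, rfl⟩
  have hM0 : 0 < M := by rw [hMdef]; positivity
  have hk'0 : 0 < k' := by rw [hk'def]; exact lt_min one_pos hk
  obtain ⟨C', hC'⟩ : ∃ C', C' = 9 * M ^ 3 + 10 * M ^ 5 + 180 * M ^ 9 / k' := ⟨_, rfl⟩
  have hC'0 : 0 < C' := by rw [hC']; positivity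
  obtain ⟨c1, hc1⟩ : ∃ c1, c1 = min (4 * g ^ 3) (1 / 2 * n0 * g ^ 4) := ⟨_, rfl⟩
  have hc10 : 0 < c1 := by rw [hc1]; exact lt_min (by positivity) (by positivity)
  refine ⟨2 * C0 ^ 2 * C' / (j0 * c1 / (4 * C0 ^ 2)), by positivity, ?_⟩
  intro u P κ v t R hr hv ht hR1 hR2 hk1 hn1 hs1
  obtain ⟨θ, θ2, hc⟩ := hcuts R hR1 hR2
  have hR0 : 0 ≤ R := by linarith
  obtain ⟨sF1, oF1⟩ := smooth_F1 hj hr hv hc hR0 hR2 t (12 * M ^ 3 / k')
  obtain ⟨sF2, oF2⟩ := smooth_F2 hj hr hv hc hR0 hR2 t (12 * M ^ 3 / k')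
  have hU := isOpen_disc 2
  have hsub : {z : ℝ × ℝ | z.1 ^ 2 + z.2 ^ 2 ≤ R ^ 2} ⊆ disc 2 := by
    intro z hz
    have hz' : z.1 ^ 2 + z.2 ^ 2 ≤ R ^ 2 := hz
    show z.1 ^ 2 + z.2 ^ 2 < 2 ^ 2
    nlinarith
  have i1 := integrable_br hU sF1 (compact_of oF1) ((tsupport_sub oF1).trans hsub) hr.sP
  have i2 := integrable_br hU sF2 (compact_of oF2) ((tsupport_sub oF2).trans hsub) hr.su
  have z1 := integral_br_eq_zero hU sF1 (compact_of oF1) ((tsupport_sub oF1).trans hsub) hr.sP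
  have z2 := integral_br_eq_zero hU sF2 (compact_of oF2) ((tsupport_sub oF2).trans hsub) hr.su
  have hanti : ∀ z, br u (F2 u P κ v θ θ2 t (12 * M ^ 3 / k')) z =
      - br (F2 u P κ v θ θ2 t (12 * M ^ 3 / k')) u z := fun z => br_antisymm
  set I : ℝ × ℝ → ℝ := fun z => br (F1 u P v θ θ2 t (12 * M ^ 3 / k')) P z +
    br u (F2 u P κ v θ θ2 t (12 * M ^ 3 / k')) z with hI
  have hIeq : I = fun z => br (F1 u P v θ θ2 t (12 * M ^ 3 / k')) P z -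
      br (F2 u P κ v θ θ2 t (12 * M ^ 3 / k')) u z := by
    funext z
    simp only [hI, hanti z]
    ring
  have hIint : Integrable I := by rw [hIeq]; exact i1.sub i2
  have hI0 : ∫ z, I z = 0 := by
    rw [hIeq, integral_sub i1 i2, z1, z2, sub_zero]
  -- the two indicator functions
  have mS1 : MeasurableSet (Om P (t + g) (R - g)) :=
    (isOpen_Om hr.sP (by rw [abs_of_nonneg (by linarith)]; linarith)).measurableSet
  have mS0 : MeasurableSet (Om P t R) :=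
    (isOpen_Om hr.sP (by rw [abs_of_nonneg hR0]; linarith)).measurableSet
  have cv : Continuous v := hv.continuous
  have cdx : Continuous (dx v) := continuous_dx (hv.of_le (by norm_cast))
  have cdy : Continuous (dy v) := continuous_dy (hv.of_le (by norm_cast))
  have cq : Continuous (fun z => dx v z ^ 2 + dy v z ^ 2) := (cdx.pow 2).add (cdy.pow 2)
  have iq : Integrable ((Om P (t + g) (R - g)).indicator (fun z => dx v z ^ 2 + dy v z ^ 2)) :=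
    (integrable_indicator_iff mS1).2 (integrableOn_Om cq)
  have ir : Integrable ((Om P t R).indicator (fun z => v z ^ 2)) :=
    (integrable_indicator_iff mS0).2 (integrableOn_Om (cv.pow 2))
  have hsubS : Om P (t + g) (R - g) ⊆ Om P t R := by
    rintro z ⟨h1, h2⟩
    have h1' : z.1 ^ 2 + z.2 ^ 2 < (R - g) ^ 2 := h1
    refine ⟨?_, by linarith⟩
    show z.1 ^ 2 + z.2 ^ 2 < R ^ 2
    have : (R - g) ^ 2 ≤ R ^ 2 := pow_le_pow_left₀ (by linarith) (by linarith) 2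
    linarith
  have hsubD : Om P t R ⊆ disc (3 / 2) := by
    rintro z ⟨h1, h2⟩
    have h1' : z.1 ^ 2 + z.2 ^ 2 < R ^ 2 := h1
    show z.1 ^ 2 + z.2 ^ 2 < (3 / 2) ^ 2
    nlinarith
  have key : ∀ z, (j0 * c1 / (4 * C0 ^ 2)) *
      (Om P (t + g) (R - g)).indicator (fun z => dx v z ^ 2 + dy v z ^ 2) z -
      (2 * C0 ^ 2 * C') * (Om P t R).indicator (fun z => v z ^ 2) z ≤ I z := by
    intro z
    by_cases hz : z ∈ disc (3 / 2)
    · obtain ⟨a1, a2, a3⟩ := pw hC hj hk hn hg hG0 hMdef hk'def hr hv ht hR1 hc hk1 hn1 hs1 hz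
      rw [← hC'] at a1 a2
      rw [← hc1] at a1
      by_cases hS0 : z ∈ Om P t R
      · rw [Set.indicator_of_mem hS0]
        by_cases hS1 : z ∈ Om P (t + g) (R - g)
        · rw [Set.indicator_of_mem hS1]
          exact a1 hS1
        · rw [Set.indicator_of_notMem hS1]
          have : (j0 * c1 / (4 * C0 ^ 2)) * 0 - (2 * C0 ^ 2 * C') * v z ^ 2 =
              -(2 * C0 ^ 2 * C' * v z ^ 2) := by ring
          rw [this]
          exact a2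
      · rw [Set.indicator_of_notMem hS0, Set.indicator_of_notMem (fun h => hS0 (hsubS h))]
        rw [mul_zero, mul_zero, sub_zero]
        exact (a3 hS0).ge
    · have hS0 : z ∉ Om P t R := fun h => hz (hsubD h)
      rw [Set.indicator_of_notMem hS0, Set.indicator_of_notMem (fun h => hS0 (hsubS h))]
      rw [mul_zero, mul_zero, sub_zero]
      have hzR : ¬ z.1 ^ 2 + z.2 ^ 2 ≤ R ^ 2 := by
        intro h
        apply hz
        show z.1 ^ 2 + z.2 ^ 2 < (3 / 2) ^ 2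
        nlinarith
      have n1 : z ∉ tsupport (F1 u P v θ θ2 t (12 * M ^ 3 / k')) :=
        fun h => hzR (tsupport_sub oF1 h)
      have n2 : z ∉ tsupport (F2 u P κ v θ θ2 t (12 * M ^ 3 / k')) :=
        fun h => hzR (tsupport_sub oF2 h)
      have : I z = 0 := by
        simp only [hI, br, dx_eq_zero_of_notMem n1, dy_eq_zero_of_notMem n1,
          dx_eq_zero_of_notMem n2, dy_eq_zero_of_notMem n2]
        ring
      rw [this]
  have j1 := iq.const_mul (j0 * c1 / (4 * C0 ^ 2))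
  have j2 := ir.const_mul (2 * C0 ^ 2 * C')
  have hint : Integrable (fun z => (j0 * c1 / (4 * C0 ^ 2)) *
      (Om P (t + g) (R - g)).indicator (fun z => dx v z ^ 2 + dy v z ^ 2) z -
      (2 * C0 ^ 2 * C') * (Om P t R).indicator (fun z => v z ^ 2) z) := j1.sub j2
  have hmono := integral_mono hint hIint key
  rw [hI0, integral_sub j1 j2, integral_const_mul, integral_const_mul, integral_indicator mS1,
    integral_indicator mS0] at hmono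
  have hpos : 0 < j0 * c1 / (4 * C0 ^ 2) := by positivity
  rw [div_mul_eq_mul_div, le_div_iff₀ hpos]
  linarith

end Vale.Agent.P229
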