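import Vale.Agent.P229.Defs

/-!
# P229: calculus API for `dx`, `dy`, `br`, `Lo`, `No`
-/

namespace Vale.Agent.P229

open MeasureTheory Set
open scoped ContDiff

variable {f g h P u : ℝ × ℝ → ℝ} {z : ℝ × ℝ} {U : Set (ℝ × ℝ)}

theorem isOpen_disc (R : ℝ) : IsOpen (disc R) := by
  unfold disc
  exact isOpen_lt (by fun_prop) (by fun_prop)

/-! ### pointwise rules -/

theorem dx_add (hf : DifferentiableAt ℝ f z) (hg : DifferentiableAt ℝ g z) :
    dx (fun w => f w + g w) z = dx f z + dx g z := by
  simp [dx, fderiv_fun_add hf hg]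

theorem dy_add (hf : DifferentiableAt ℝ f z) (hg : DifferentiableAt ℝ g z) :
    dy (fun w => f w + g w) z = dy f z + dy g z := by
  simp [dy, fderiv_fun_add hf hg]

theorem dx_sub (hf : DifferentiableAt ℝ f z) (hg : DifferentiableAt ℝ g z) :
    dx (fun w => f w - g w) z = dx f z - dx g z := by
  simp [dx, fderiv_fun_sub hf hg]

theorem dy_sub (hf : DifferentiableAt ℝ f z) (hg : DifferentiableAt ℝ g z) :
    dy (fun w => f w - g w) z = dy f z - dy g z := by
  simp [dy, fderiv_fun_sub hf hg]

theorem dx_neg : dx (fun w => - f w) z = - dx f z := by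
  simp [dx, fderiv_fun_neg]

theorem dy_neg : dy (fun w => - f w) z = - dy f z := by
  simp [dy, fderiv_fun_neg]

theorem dx_const (c : ℝ) : dx (fun _ => c) z = 0 := by simp [dx]

theorem dy_const (c : ℝ) : dy (fun _ => c) z = 0 := by simp [dy]

theorem dx_fst : dx (fun w => w.1) z = 1 := by
  have : HasFDerivAt (fun w : ℝ × ℝ => w.1) (ContinuousLinearMap.fst ℝ ℝ ℝ) z := hasFDerivAt_fst
  simp [dx, this.fderiv]

theorem dy_fst : dy (fun w => w.1) z = 0 := by
  have : HasFDerivAt (fun w : ℝ × ℝ => w.1) (ContinuousLinearMap.fst ℝ ℝ ℝ) z := hasFDerivAt_fst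
  simp [dy, this.fderiv]

theorem dx_snd : dx (fun w => w.2) z = 0 := by
  have : HasFDerivAt (fun w : ℝ × ℝ => w.2) (ContinuousLinearMap.snd ℝ ℝ ℝ) z := hasFDerivAt_snd
  simp [dx, this.fderiv]

theorem dy_snd : dy (fun w => w.2) z = 1 := by
  have : HasFDerivAt (fun w : ℝ × ℝ => w.2) (ContinuousLinearMap.snd ℝ ℝ ℝ) z := hasFDerivAt_snd
  simp [dy, this.fderiv]

theorem dx_mul (hf : DifferentiableAt ℝ f z) (hg : DifferentiableAt ℝ g z) :
    dx (fun w => f w * g w) z = dx f z * g z + f z * dx g z := by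
  simp [dx, fderiv_fun_mul hf hg]; ring

theorem dy_mul (hf : DifferentiableAt ℝ f z) (hg : DifferentiableAt ℝ g z) :
    dy (fun w => f w * g w) z = dy f z * g z + f z * dy g z := by
  simp [dy, fderiv_fun_mul hf hg]; ring

theorem dx_const_mul (c : ℝ) (hf : DifferentiableAt ℝ f z) :
    dx (fun w => c * f w) z = c * dx f z := by
  simp [dx, fderiv_const_mul hf]

theorem dy_const_mul (c : ℝ) (hf : DifferentiableAt ℝ f z) :
    dy (fun w => c * f w) z = c * dy f z := by
  simp [dy, fderiv_const_mul hf]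

theorem dx_comp {φ : ℝ → ℝ} {φ' : ℝ} (hφ : HasDerivAt φ φ' (f z)) (hf : DifferentiableAt ℝ f z) :
    dx (fun w => φ (f w)) z = φ' * dx f z := by
  have := (hφ.comp_hasFDerivAt z hf.hasFDerivAt)
  have h2 : HasFDerivAt (fun w => φ (f w)) (φ' • fderiv ℝ f z) z := this
  simp [dx, h2.fderiv]

theorem dy_comp {φ : ℝ → ℝ} {φ' : ℝ} (hφ : HasDerivAt φ φ' (f z)) (hf : DifferentiableAt ℝ f z) :
    dy (fun w => φ (f w)) z = φ' * dy f z := by
  have := (hφ.comp_hasFDerivAt z hf.hasFDerivAt)
  have h2 : HasFDerivAt (fun w => φ (f w)) (φ' • fderiv ℝ f z) z := this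
  simp [dy, h2.fderiv]

theorem dx_pow (n : ℕ) (hf : DifferentiableAt ℝ f z) :
    dx (fun w => f w ^ n) z = n * f z ^ (n - 1) * dx f z :=
  dx_comp (φ := fun t => t ^ n) (hasDerivAt_pow n (f z)) hf

theorem dy_pow (n : ℕ) (hf : DifferentiableAt ℝ f z) :
    dy (fun w => f w ^ n) z = n * f z ^ (n - 1) * dy f z :=
  dy_comp (φ := fun t => t ^ n) (hasDerivAt_pow n (f z)) hf

theorem dx_inv (hf : DifferentiableAt ℝ f z) (h0 : f z ≠ 0) :
    dx (fun w => (f w)⁻¹) z = - dx f z / f z ^ 2 := by
  rw [dx_comp (φ := fun t => t⁻¹) (hasDerivAt_inv h0) hf]; ring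

theorem dy_inv (hf : DifferentiableAt ℝ f z) (h0 : f z ≠ 0) :
    dy (fun w => (f w)⁻¹) z = - dy f z / f z ^ 2 := by
  rw [dy_comp (φ := fun t => t⁻¹) (hasDerivAt_inv h0) hf]; ring

theorem dx_div (hf : DifferentiableAt ℝ f z) (hg : DifferentiableAt ℝ g z) (h0 : g z ≠ 0) :
    dx (fun w => f w / g w) z = (dx f z * g z - f z * dx g z) / g z ^ 2 := by
  have h1 : (fun w => f w / g w) = fun w => f w * (g w)⁻¹ := by ext w; rw [div_eq_mul_inv]
  have h2 : DifferentiableAt ℝ (fun w => (g w)⁻¹) z := hg.inv h0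
  rw [h1, dx_mul hf h2, dx_inv hg h0]
  field_simp
  ring

theorem dy_div (hf : DifferentiableAt ℝ f z) (hg : DifferentiableAt ℝ g z) (h0 : g z ≠ 0) :
    dy (fun w => f w / g w) z = (dy f z * g z - f z * dy g z) / g z ^ 2 := by
  have h1 : (fun w => f w / g w) = fun w => f w * (g w)⁻¹ := by ext w; rw [div_eq_mul_inv]
  have h2 : DifferentiableAt ℝ (fun w => (g w)⁻¹) z := hg.inv h0
  rw [h1, dy_mul hf h2, dy_inv hg h0]
  field_simp
  ring

/-! ### congruence on open sets -/

theorem dx_congr (hU : IsOpen U) (h : ∀ w ∈ U, f w = g w) (hz : z ∈ U) : dx f z = dx g z := by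
  have : f =ᶠ[nhds z] g := Filter.eventually_of_mem (hU.mem_nhds hz) h
  simp [dx, this.fderiv_eq]

theorem dy_congr (hU : IsOpen U) (h : ∀ w ∈ U, f w = g w) (hz : z ∈ U) : dy f z = dy g z := by
  have : f =ᶠ[nhds z] g := Filter.eventually_of_mem (hU.mem_nhds hz) h
  simp [dy, this.fderiv_eq]

theorem br_congr {f' g' : ℝ × ℝ → ℝ} (hU : IsOpen U) (h : ∀ w ∈ U, f w = f' w)
    (h' : ∀ w ∈ U, g w = g' w) (hz : z ∈ U) : br f g z = br f' g' z := by
  simp [br, dx_congr hU h hz, dy_congr hU h hz, dx_congr hU h' hz, dy_congr hU h' hz]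

/-! ### smoothness -/

theorem Sm.contDiffAt (hU : IsOpen U) (hf : Sm U f) (hz : z ∈ U) : ContDiffAt ℝ ∞ f z :=
  (hf z hz).contDiffAt (hU.mem_nhds hz)

theorem Sm.diff (hU : IsOpen U) (hf : Sm U f) (hz : z ∈ U) : DifferentiableAt ℝ f z :=
  (hf.contDiffAt hU hz).differentiableAt (by simp)

theorem Sm.of_contDiff (hf : ContDiff ℝ ∞ f) : Sm U f := hf.contDiffOn

theorem Sm.mono {V : Set (ℝ × ℝ)} (hf : Sm U f) (h : V ⊆ U) : Sm V f := ContDiffOn.mono hf h

theorem Sm.fderiv_apply (hU : IsOpen U) (hf : Sm U f) (v : ℝ × ℝ) :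
    Sm U (fun z => fderiv ℝ f z v) := by
  have h1 : ContDiffOn ℝ ∞ (fun z => fderiv ℝ f z) U :=
    ContDiffOn.fderiv_of_isOpen hf hU (by simp)
  exact h1.clm_apply contDiffOn_const

theorem Sm.dx (hU : IsOpen U) (hf : Sm U f) : Sm U (dx f) := hf.fderiv_apply hU _
theorem Sm.dy (hU : IsOpen U) (hf : Sm U f) : Sm U (dy f) := hf.fderiv_apply hU _

theorem Sm.const (c : ℝ) : Sm U (fun _ => c) := contDiffOn_const
theorem Sm.add (hf : Sm U f) (hg : Sm U g) : Sm U (fun z => f z + g z) := ContDiffOn.add hf hg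
theorem Sm.sub (hf : Sm U f) (hg : Sm U g) : Sm U (fun z => f z - g z) := ContDiffOn.sub hf hg
theorem Sm.mul (hf : Sm U f) (hg : Sm U g) : Sm U (fun z => f z * g z) := ContDiffOn.mul hf hg
theorem Sm.neg (hf : Sm U f) : Sm U (fun z => - f z) := ContDiffOn.neg hf
theorem Sm.pow (hf : Sm U f) (n : ℕ) : Sm U (fun z => f z ^ n) := ContDiffOn.pow hf n
theorem Sm.div (hf : Sm U f) (hg : Sm U g) (h0 : ∀ z ∈ U, g z ≠ 0) :
    Sm U (fun z => f z / g z) := ContDiffOn.div hf hg h0

theorem Sm.br (hU : IsOpen U) (hf : Sm U f) (hg : Sm U g) : Sm U (br f g) :=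
  ((hf.dx hU).mul (hg.dy hU)).sub ((hf.dy hU).mul (hg.dx hU))

theorem Sm.Lo (hU : IsOpen U) (hu : Sm U u) (hP : Sm U P) (hf : Sm U f)
    (h0 : ∀ z ∈ U, P229.br u P z ≠ 0) : Sm U (Lo u P f) :=
  (Sm.br hU hf hP).div (Sm.br hU hu hP) h0

theorem Sm.No (hU : IsOpen U) (hu : Sm U u) (hP : Sm U P) (hf : Sm U f)
    (h0 : ∀ z ∈ U, P229.br u P z ≠ 0) : Sm U (No u P f) :=
  (Sm.br hU hu hf).div (Sm.br hU hu hP) h0

theorem contDiff_dx (hf : ContDiff ℝ ∞ f) : ContDiff ℝ ∞ (dx f) := by
  have := Sm.dx isOpen_univ (Sm.of_contDiff (U := univ) hf)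
  exact contDiffOn_univ.1 this

theorem contDiff_dy (hf : ContDiff ℝ ∞ f) : ContDiff ℝ ∞ (dy f) := by
  have := Sm.dy isOpen_univ (Sm.of_contDiff (U := univ) hf)
  exact contDiffOn_univ.1 this

theorem contDiff_Dw (hf : ContDiff ℝ ∞ f) (w : List Bool) : ContDiff ℝ ∞ (Dw w f) := by
  induction w with
  | nil => exact hf
  | cons b w ih => cases b <;> simp only [Dw]
                   · exact contDiff_dy ih
                   · exact contDiff_dx ih

/-- symmetry of second derivatives -/
theorem dx_dy_comm (hf : ContDiffAt ℝ 2 f z) : dx (dy f) z = dy (dx f) z := by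
  have hs : IsSymmSndFDerivAt ℝ f z := hf.isSymmSndFDerivAt (by simp)
  have hd : DifferentiableAt ℝ (fderiv ℝ f) z :=
    (hf.fderiv_right (m := 1) (by norm_num)).differentiableAt (by simp)
  have h1 : ∀ v w : ℝ × ℝ, fderiv ℝ (fun y => fderiv ℝ f y v) z w = fderiv ℝ (fderiv ℝ f) z w v := by
    intro v w
    have := (hd.hasFDerivAt.clm_apply (hasFDerivAt_const v z))
    rw [this.fderiv]
    simp
  unfold dx dy
  rw [h1, h1]
  exact hs _ _

theorem Sm.dx_dy_comm (hU : IsOpen U) (hf : Sm U f) (hz : z ∈ U) : P229.dx (P229.dy f) z = P229.dy (P229.dx f) z :=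
  P229.dx_dy_comm ((hf.contDiffAt hU hz).of_le (by norm_cast))

/-! ### integration -/

theorem continuous_dx (hf : ContDiff ℝ 1 f) : Continuous (dx f) := by
  have h1 : Continuous (fderiv ℝ f) := hf.continuous_fderiv (by simp)
  exact h1.clm_apply continuous_const

theorem continuous_dy (hf : ContDiff ℝ 1 f) : Continuous (dy f) := by
  have h1 : Continuous (fderiv ℝ f) := hf.continuous_fderiv (by simp)
  exact h1.clm_apply continuous_const

theorem hasCompactSupport_dx (hc : HasCompactSupport f) : HasCompactSupport (dx f) :=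
  hc.fderiv_apply ℝ (1, 0)

theorem hasCompactSupport_dy (hc : HasCompactSupport f) : HasCompactSupport (dy f) :=
  hc.fderiv_apply ℝ (0, 1)

theorem integral_fderiv_eq_zero (hf : ContDiff ℝ 1 f) (hc : HasCompactSupport f) (v : ℝ × ℝ) :
    ∫ z, fderiv ℝ f z v = 0 := by
  have hd : Differentiable ℝ f := hf.differentiable (by simp)
  have hc1 : Continuous (fun z => fderiv ℝ f z v) :=
    (hf.continuous_fderiv (by simp)).clm_apply continuous_const
  have hi1 : Integrable (fun z => fderiv ℝ f z v) :=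
    hc1.integrable_of_hasCompactSupport (hc.fderiv_apply ℝ v)
  have hi2 : Integrable f := hf.continuous.integrable_of_hasCompactSupport hc
  have key := integral_bilinear_hasLineDerivAt_right_eq_neg_left_of_integrable
    (μ := (volume : Measure (ℝ × ℝ))) (f := f) (f' := fun z => fderiv ℝ f z v)
    (g := fun _ => (1 : ℝ)) (g' := fun _ => (0 : ℝ)) (v := v)
    (B := ContinuousLinearMap.mul ℝ ℝ) (by simpa using hi1) (by simp) (by simpa using hi2)
    (fun x _ => (hd x).hasFDerivAt.hasLineDerivAt v) (fun x _ => by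
      simpa using (hasFDerivAt_const (1 : ℝ) x).hasLineDerivAt v)
  simpa using key.symm

theorem integral_dx_eq_zero (hf : ContDiff ℝ 1 f) (hc : HasCompactSupport f) :
    ∫ z, dx f z = 0 := integral_fderiv_eq_zero hf hc _

theorem integral_dy_eq_zero (hf : ContDiff ℝ 1 f) (hc : HasCompactSupport f) :
    ∫ z, dy f z = 0 := integral_fderiv_eq_zero hf hc _

/-- a `C^1` function with compact support inside the open set `U`, times a function that is
`C^1` on `U`, is `C^1` everywhere -/
theorem contDiff_mul_of_tsupport {n : ℕ∞} (hU : IsOpen U) (hf : ContDiff ℝ n f)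
    (hs : tsupport f ⊆ U) (hg : ContDiffOn ℝ n g U) : ContDiff ℝ n (fun z => f z * g z) := by
  rw [contDiff_iff_contDiffAt]
  intro z
  by_cases hz : z ∈ tsupport f
  · exact hf.contDiffAt.mul ((hg z (hs hz)).contDiffAt (hU.mem_nhds (hs hz)))
  · have h0 : f =ᶠ[nhds z] 0 := notMem_tsupport_iff_eventuallyEq.1 hz
    have h1 : (fun w => f w * g w) =ᶠ[nhds z] fun _ => 0 := by
      filter_upwards [h0] with w hw
      simp [hw]
    exact contDiffAt_const.congr_of_eventuallyEq h1

/-- outside the support everything vanishes -/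
theorem dx_eq_zero_of_notMem (hz : z ∉ tsupport f) : dx f z = 0 := by
  have h0 : f =ᶠ[nhds z] fun _ => 0 := notMem_tsupport_iff_eventuallyEq.1 hz
  simp [dx, h0.fderiv_eq]

theorem dy_eq_zero_of_notMem (hz : z ∉ tsupport f) : dy f z = 0 := by
  have h0 : f =ᶠ[nhds z] fun _ => 0 := notMem_tsupport_iff_eventuallyEq.1 hz
  simp [dy, h0.fderiv_eq]

/-- `∫ {f,g} = 0` for `f` compactly supported in `U`, `g` smooth on `U` -/
theorem integral_br_eq_zero (hU : IsOpen U) (hf : ContDiff ℝ 1 f) (hc : HasCompactSupport f)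
    (hs : tsupport f ⊆ U) (hg : Sm U g) : ∫ z, br f g z = 0 := by
  have hgx : ContDiffOn ℝ 1 (dx g) U := (hg.dx hU).of_le (by norm_cast)
  have hgy : ContDiffOn ℝ 1 (dy g) U := (hg.dy hU).of_le (by norm_cast)
  have h1 : ContDiff ℝ 1 (fun z => f z * dy g z) := contDiff_mul_of_tsupport (n := 1) hU hf hs hgy
  have h2 : ContDiff ℝ 1 (fun z => f z * dx g z) := contDiff_mul_of_tsupport (n := 1) hU hf hs hgx
  have c1 : HasCompactSupport (fun z => f z * dy g z) := hc.mul_right
  have c2 : HasCompactSupport (fun z => f z * dx g z) := hc.mul_right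
  have e : ∀ z, br f g z = dx (fun z => f z * dy g z) z - dy (fun z => f z * dx g z) z := by
    intro z
    by_cases hz : z ∈ tsupport f
    · have hzU := hs hz
      have hfd : DifferentiableAt ℝ f z := hf.differentiable (by simp) z
      have d1 : DifferentiableAt ℝ (dy g) z := (hg.dy hU).diff hU hzU
      have d2 : DifferentiableAt ℝ (dx g) z := (hg.dx hU).diff hU hzU
      rw [dx_mul hfd d1, dy_mul hfd d2, hg.dx_dy_comm hU hzU]
      simp only [br]
      ring
    · have h0 : f =ᶠ[nhds z] 0 := notMem_tsupport_iff_eventuallyEq.1 hz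
      have e1 : (fun w => f w * dy g w) =ᶠ[nhds z] fun _ => 0 := by
        filter_upwards [h0] with w hw
        simp [hw]
      have e2 : (fun w => f w * dx g w) =ᶠ[nhds z] fun _ => 0 := by
        filter_upwards [h0] with w hw
        simp [hw]
      have a1 : dx (fun w => f w * dy g w) z = 0 := by
        show fderiv ℝ (fun w => f w * dy g w) z (1, 0) = 0
        rw [e1.fderiv_eq]; simp
      have a2 : dy (fun w => f w * dx g w) z = 0 := by
        show fderiv ℝ (fun w => f w * dx g w) z (0, 1) = 0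
        rw [e2.fderiv_eq]; simp
      simp only [br, dx_eq_zero_of_notMem hz, dy_eq_zero_of_notMem hz, a1, a2]
      ring
  have i1 : Integrable (fun z => dx (fun z => f z * dy g z) z) :=
    (continuous_dx h1).integrable_of_hasCompactSupport (hasCompactSupport_dx c1)
  have i2 : Integrable (fun z => dy (fun z => f z * dx g z) z) :=
    (continuous_dy h2).integrable_of_hasCompactSupport (hasCompactSupport_dy c2)
  rw [integral_congr_ae (Filter.Eventually.of_forall e), integral_sub i1 i2,
    integral_dx_eq_zero h1 c1, integral_dy_eq_zero h2 c2, sub_zero]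

/-- bracket with a product in the first slot -/
theorem br_mul_left (hf : DifferentiableAt ℝ f z) (hg : DifferentiableAt ℝ g z) :
    br (fun w => f w * g w) P z = br f P z * g z + f z * br g P z := by
  simp only [br, dx_mul hf hg, dy_mul hf hg]; ring

theorem br_mul_right (hf : DifferentiableAt ℝ f z) (hg : DifferentiableAt ℝ g z) :
    br P (fun w => f w * g w) z = br P f z * g z + f z * br P g z := by
  simp only [br, dx_mul hf hg, dy_mul hf hg]; ring

theorem br_antisymm : br f g z = - br g f z := by simp only [br]; ring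

/-- integration by parts for brackets: `f` is `C^1` with compact support in `U`,
`g` is `C^1` on `U`, `P` smooth on `U`. -/
theorem integral_mul_br (hU : IsOpen U) (hf : ContDiff ℝ 1 f) (hc : HasCompactSupport f)
    (hs : tsupport f ⊆ U) (hg : ContDiffOn ℝ 1 g U) (hP : Sm U P) :
    ∫ z, f z * br g P z = - ∫ z, br f P z * g z := by
  have hfg : ContDiff ℝ 1 (fun z => f z * g z) := contDiff_mul_of_tsupport (n := 1) hU hf hs hg
  have cfg : HasCompactSupport (fun z => f z * g z) := hc.mul_right
  have sfg : tsupport (fun z => f z * g z) ⊆ U := (tsupport_mul_subset_left).trans hs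
  have h0 := integral_br_eq_zero hU hfg cfg sfg hP
  -- pointwise product rule
  have e : ∀ z, br (fun w => f w * g w) P z = br f P z * g z + f z * br g P z := by
    intro z
    by_cases hz : z ∈ tsupport f
    · exact br_mul_left (hf.differentiable (by simp) z)
        (((hg z (hs hz)).contDiffAt (hU.mem_nhds (hs hz))).differentiableAt (by simp))
    · have hz' : z ∉ tsupport (fun z => f z * g z) := fun h => hz (tsupport_mul_subset_left h)
      have f0 : f z = 0 := image_eq_zero_of_notMem_tsupport hz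
      simp only [br, dx_eq_zero_of_notMem hz, dy_eq_zero_of_notMem hz, dx_eq_zero_of_notMem hz',
        dy_eq_zero_of_notMem hz', f0]
      ring
  have hPx : ContDiffOn ℝ 0 (dx P) U := (hP.dx hU).of_le (by simp)
  have hPy : ContDiffOn ℝ 0 (dy P) U := (hP.dy hU).of_le (by simp)
  have hgx : ContinuousOn (dx g) U := by
    have : ContinuousOn (fun z => fderiv ℝ g z) U := hg.continuousOn_fderiv_of_isOpen hU (by simp)
    exact this.clm_apply continuousOn_const
  have hgy : ContinuousOn (dy g) U := by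
    have : ContinuousOn (fun z => fderiv ℝ g z) U := hg.continuousOn_fderiv_of_isOpen hU (by simp)
    exact this.clm_apply continuousOn_const
  have cont1 : ∀ {k m : ℝ × ℝ → ℝ}, Continuous k → (∀ z, z ∉ tsupport f → k z = 0) →
      ContinuousOn m U → Integrable (fun z => k z * m z) := by
    intro k m hk hk0 hm
    have hcont : Continuous (fun z => k z * m z) := by
      rw [continuous_iff_continuousAt]
      intro z
      by_cases hz : z ∈ tsupport f
      · exact hk.continuousAt.mul ((hm z (hs hz)).continuousAt (hU.mem_nhds (hs hz)))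
      · have hn : (tsupport f)ᶜ ∈ nhds z := (isClosed_tsupport f).isOpen_compl.mem_nhds hz
        have : (fun z => k z * m z) =ᶠ[nhds z] fun _ => 0 := by
          filter_upwards [hn] with w hw
          rw [hk0 w hw, zero_mul]
        exact (continuousAt_const).congr this.symm
    refine hcont.integrable_of_hasCompactSupport ?_
    refine HasCompactSupport.intro (K := tsupport f) hc.isCompact ?_
    intro z hz
    rw [hk0 z hz, zero_mul]
  have i1 : Integrable (fun z => br f P z * g z) := by
    have a1 : Integrable (fun z => dx f z * (dy P z * g z)) :=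
      cont1 (continuous_dx hf) (fun z hz => dx_eq_zero_of_notMem hz)
        ((contDiffOn_zero.1 hPy).mul hg.continuousOn)
    have a2 : Integrable (fun z => dy f z * (dx P z * g z)) :=
      cont1 (continuous_dy hf) (fun z hz => dy_eq_zero_of_notMem hz)
        ((contDiffOn_zero.1 hPx).mul hg.continuousOn)
    refine (a1.sub a2).congr (Filter.Eventually.of_forall fun z => ?_)
    show dx f z * (dy P z * g z) - dy f z * (dx P z * g z) = br f P z * g z
    simp only [br]; ring
  have i2 : Integrable (fun z => f z * br g P z) := by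
    refine cont1 hf.continuous (fun z hz => image_eq_zero_of_notMem_tsupport hz) ?_
    exact (hgx.mul (contDiffOn_zero.1 hPy)).sub (hgy.mul (contDiffOn_zero.1 hPx))
  rw [integral_congr_ae (Filter.Eventually.of_forall e), integral_add i1 i2] at h0
  linarith

/-! ### the operators `L = Lo u P`, `N = No u P` -/

theorem Lo_mul (hf : DifferentiableAt ℝ f z) (hg : DifferentiableAt ℝ g z) :
    Lo u P (fun w => f w * g w) z = Lo u P f z * g z + f z * Lo u P g z := by
  simp only [Lo, br_mul_left hf hg]; ring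

theorem No_mul (hf : DifferentiableAt ℝ f z) (hg : DifferentiableAt ℝ g z) :
    No u P (fun w => f w * g w) z = No u P f z * g z + f z * No u P g z := by
  simp only [No, br_mul_right hf hg]; ring

theorem Lo_add (hf : DifferentiableAt ℝ f z) (hg : DifferentiableAt ℝ g z) :
    Lo u P (fun w => f w + g w) z = Lo u P f z + Lo u P g z := by
  simp only [Lo, br, dx_add hf hg, dy_add hf hg]; ring

theorem No_add (hf : DifferentiableAt ℝ f z) (hg : DifferentiableAt ℝ g z) :
    No u P (fun w => f w + g w) z = No u P f z + No u P g z := by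
  simp only [No, br, dx_add hf hg, dy_add hf hg]; ring

theorem Lo_sub (hf : DifferentiableAt ℝ f z) (hg : DifferentiableAt ℝ g z) :
    Lo u P (fun w => f w - g w) z = Lo u P f z - Lo u P g z := by
  simp only [Lo, br, dx_sub hf hg, dy_sub hf hg]; ring

theorem No_sub (hf : DifferentiableAt ℝ f z) (hg : DifferentiableAt ℝ g z) :
    No u P (fun w => f w - g w) z = No u P f z - No u P g z := by
  simp only [No, br, dx_sub hf hg, dy_sub hf hg]; ring

theorem Lo_const_mul (c : ℝ) (hf : DifferentiableAt ℝ f z) :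
    Lo u P (fun w => c * f w) z = c * Lo u P f z := by
  simp only [Lo, br, dx_const_mul c hf, dy_const_mul c hf]; ring

theorem No_const_mul (c : ℝ) (hf : DifferentiableAt ℝ f z) :
    No u P (fun w => c * f w) z = c * No u P f z := by
  simp only [No, br, dx_const_mul c hf, dy_const_mul c hf]; ring

theorem Lo_comp {φ : ℝ → ℝ} {φ' : ℝ} (hφ : HasDerivAt φ φ' (f z)) (hf : DifferentiableAt ℝ f z) :
    Lo u P (fun w => φ (f w)) z = φ' * Lo u P f z := by
  simp only [Lo, br, dx_comp hφ hf, dy_comp hφ hf]; ring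

theorem No_comp {φ : ℝ → ℝ} {φ' : ℝ} (hφ : HasDerivAt φ φ' (f z)) (hf : DifferentiableAt ℝ f z) :
    No u P (fun w => φ (f w)) z = φ' * No u P f z := by
  simp only [No, br, dx_comp hφ hf, dy_comp hφ hf]; ring

theorem Lo_P : Lo u P P z = 0 := by
  have h : br P P z = 0 := by simp only [br]; ring
  simp only [Lo, h, zero_div]

theorem No_u : No u P u z = 0 := by
  have h : br u u z = 0 := by simp only [br]; ring
  simp only [No, h, zero_div]

theorem Lo_u (h0 : br u P z ≠ 0) : Lo u P u z = 1 := by simp only [Lo]; exact div_self h0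

theorem No_P (h0 : br u P z ≠ 0) : No u P P z = 1 := by simp only [No]; exact div_self h0

/-- the gradient in terms of `L`, `N` -/
theorem dx_eq_Lo_No (h0 : br u P z ≠ 0) : dx f z = Lo u P f z * dx u z + No u P f z * dx P z := by
  simp only [Lo, No]
  field_simp
  simp only [br]; ring

theorem dy_eq_Lo_No (h0 : br u P z ≠ 0) : dy f z = Lo u P f z * dy u z + No u P f z * dy P z := by
  simp only [Lo, No]
  field_simp
  simp only [br]; ring

theorem br_eq_mul_Lo (h0 : br u P z ≠ 0) : br f P z = br u P z * Lo u P f z := by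
  simp only [Lo]; field_simp

theorem br_eq_mul_No (h0 : br u P z ≠ 0) : br u f z = br u P z * No u P f z := by
  simp only [No]; field_simp

theorem dx_br (ax : DifferentiableAt ℝ (dx f) z) (ay : DifferentiableAt ℝ (dy f) z)
    (bx : DifferentiableAt ℝ (dx g) z) (by' : DifferentiableAt ℝ (dy g) z) :
    dx (br f g) z = dx (dx f) z * dy g z + dx f z * dx (dy g) z
        - (dx (dy f) z * dx g z + dy f z * dx (dx g) z) := by
  have e : br f g = fun z => dx f z * dy g z - dy f z * dx g z := rfl
  have h1 : DifferentiableAt ℝ (fun z => dx f z * dy g z) z := ax.mul by'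
  have h2 : DifferentiableAt ℝ (fun z => dy f z * dx g z) z := ay.mul bx
  rw [e, dx_sub h1 h2, dx_mul ax by', dx_mul ay bx]

theorem dy_br (ax : DifferentiableAt ℝ (dx f) z) (ay : DifferentiableAt ℝ (dy f) z)
    (bx : DifferentiableAt ℝ (dx g) z) (by' : DifferentiableAt ℝ (dy g) z) :
    dy (br f g) z = dy (dx f) z * dy g z + dx f z * dy (dy g) z
        - (dy (dy f) z * dx g z + dy f z * dy (dx g) z) := by
  have e : br f g = fun z => dx f z * dy g z - dy f z * dx g z := rfl
  have h1 : DifferentiableAt ℝ (fun z => dx f z * dy g z) z := ax.mul by'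
  have h2 : DifferentiableAt ℝ (fun z => dy f z * dx g z) z := ay.mul bx
  rw [e, dy_sub h1 h2, dy_mul ax by', dy_mul ay bx]

/-- `L` and `N` commute -/
theorem Lo_No_comm (hU : IsOpen U) (hu : Sm U u) (hP : Sm U P) (hf : Sm U f)
    (h0 : ∀ z ∈ U, br u P z ≠ 0) (hz : z ∈ U) :
    Lo u P (No u P f) z = No u P (Lo u P f) z := by
  have h0z := h0 z hz
  have dJ : DifferentiableAt ℝ (br u P) z := (hu.br hU hP).diff hU hz
  have d1 : DifferentiableAt ℝ (br u f) z := (hu.br hU hf).diff hU hz
  have d2 : DifferentiableAt ℝ (br f P) z := (hf.br hU hP).diff hU hz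
  have ux := (hu.dx hU).diff hU hz
  have uy := (hu.dy hU).diff hU hz
  have Px := (hP.dx hU).diff hU hz
  have Py := (hP.dy hU).diff hU hz
  have fx := (hf.dx hU).diff hU hz
  have fy := (hf.dy hU).diff hU hz
  have su := hu.dx_dy_comm hU hz
  have sP := hP.dx_dy_comm hU hz
  have sf := hf.dx_dy_comm hU hz
  have n1 : No u P f = fun z => br u f z / br u P z := rfl
  have n2 : Lo u P f = fun z => br f P z / br u P z := rfl
  have c1 : Lo u P (No u P f) z = (dx (No u P f) z * dy P z - dy (No u P f) z * dx P z) / br u P z := rfl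
  have c2 : No u P (Lo u P f) z = (dx u z * dy (Lo u P f) z - dy u z * dx (Lo u P f) z) / br u P z := rfl
  rw [c1, c2, n1, n2, dx_div d1 dJ h0z, dy_div d1 dJ h0z, dx_div d2 dJ h0z, dy_div d2 dJ h0z,
    dx_br ux uy fx fy, dy_br ux uy fx fy, dx_br ux uy Px Py, dy_br ux uy Px Py,
    dx_br fx fy Px Py, dy_br fx fy Px Py, su, sP, sf]
  have hJ : br u P z = dx u z * dy P z - dy u z * dx P z := rfl
  have hF1 : br u f z = dx u z * dy f z - dy u z * dx f z := rfl
  have hF2 : br f P z = dx f z * dy P z - dy f z * dx P z := rfl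
  rw [div_left_inj' h0z]
  rw [hF1, hF2]
  rw [hJ] at h0z ⊢
  field_simp
  ring

end Vale.Agent.P229
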