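import Vale.Agent.P229.Surf
import Vale.Agent.P229.BdAlg

/-!
# P229 [D]: finitely many classes of normalized triples
-/

namespace Vale.Agent.P229

open Set
open scoped ContDiff

namespace ClassesAux

/-- signature of a single bounded Lipschitz function -/
lemma sig_exists (C η : ℝ) (hC : 0 ≤ C) (hη : 0 < η) :
    ∃ K : ℕ, ∀ {ι : Type} (S : Finset ι) (F : ι → ℝ × ℝ → ℝ),
      (∀ i ∈ S, ∀ z ∈ disc 3, |F i z| ≤ C) →
      (∀ i ∈ S, ∀ z ∈ disc 3, ∀ w ∈ disc 3,
        |F i z - F i w| ≤ C * |z.1 - w.1| + C * |z.2 - w.2|) →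
      ∃ s : ι → Fin K, ∀ i ∈ S, ∀ j ∈ S, s i = s j → ∀ z ∈ disc 2, |F i z - F j z| ≤ η := by
  classical
  obtain ⟨m0, hm0⟩ := exists_nat_gt (2 * C / (η / 4))
  set m : ℕ := m0 + 1 with hm
  have hmpos : (0 : ℝ) < m := by rw [hm]; positivity
  have hmC : C * (1 / m) + C * (1 / m) ≤ η / 4 := by
    rw [div_lt_iff₀ (by positivity)] at hm0
    have : (m0 : ℝ) ≤ m := by rw [hm]; push_cast; linarith
    have h2 : 2 * C ≤ m * (η / 4) := hm0.le.trans (mul_le_mul_of_nonneg_right this (by positivity))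
    have : C * (1 / m) + C * (1 / m) = (2 * C) / m := by ring
    rw [this, div_le_iff₀ hmpos]
    linarith
  let N : ℕ := ⌊(2 * C) / (η / 2)⌋₊
  let q : ℝ → Fin (N + 1) := fun v => ⟨min ⌊(v + C) / (η / 2)⌋₊ N, by omega⟩
  have hq : ∀ v w : ℝ, |v| ≤ C → |w| ≤ C → q v = q w → |v - w| ≤ η / 2 := by
    intro v w hv hw h
    have hv' := abs_le.1 hv
    have hw' := abs_le.1 hw
    have b1 : ⌊(v + C) / (η / 2)⌋₊ ≤ N := by
      apply Nat.floor_le_floor
      apply div_le_div_of_nonneg_right _ (by positivity)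
      linarith
    have b2 : ⌊(w + C) / (η / 2)⌋₊ ≤ N := by
      apply Nat.floor_le_floor
      apply div_le_div_of_nonneg_right _ (by positivity)
      linarith
    have h1 : ⌊(v + C) / (η / 2)⌋₊ = ⌊(w + C) / (η / 2)⌋₊ := by
      have := congrArg Fin.val h
      simp only [q] at this
      omega
    have v0 : 0 ≤ (v + C) / (η / 2) := div_nonneg (by linarith) (by positivity)
    have w0 : 0 ≤ (w + C) / (η / 2) := div_nonneg (by linarith) (by positivity)
    have v1 := Nat.floor_le v0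
    have v2 := Nat.lt_floor_add_one ((v + C) / (η / 2))
    have w1 := Nat.floor_le w0
    have w2 := Nat.lt_floor_add_one ((w + C) / (η / 2))
    rw [h1] at v1 v2
    rw [le_div_iff₀ (by positivity)] at v1 w1
    rw [div_lt_iff₀ (by positivity)] at v2 w2
    rw [abs_le]
    constructor <;> nlinarith
  -- grid points
  let gp : Fin (4 * m + 1) × Fin (4 * m + 1) → ℝ × ℝ := fun a =>
    ((a.1 : ℝ) / m - 2, (a.2 : ℝ) / m - 2)
  have hgp1 : ∀ a : Fin (4 * m + 1), |(a : ℝ) / m - 2| ≤ 2 := by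
    intro a
    have ha : (a : ℝ) ≤ 4 * m := by
      have := a.2
      have h2 : (a : ℕ) ≤ 4 * m := by omega
      exact_mod_cast h2
    have h0 : (0 : ℝ) ≤ (a : ℝ) / m := by positivity
    have h4 : (a : ℝ) / m ≤ 4 := by rw [div_le_iff₀ hmpos]; linarith
    rw [abs_le]; constructor <;> linarith
  have hgp : ∀ a, gp a ∈ disc 3 := by
    intro a
    simp only [disc, mem_ofPred_eq, gp]
    have h1 := abs_le.1 (hgp1 a.1)
    have h2 := abs_le.1 (hgp1 a.2)
    nlinarith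
  have hnear1 : ∀ x : ℝ, |x| < 2 → ∃ a : Fin (4 * m + 1), |x - ((a : ℝ) / m - 2)| ≤ 1 / m := by
    intro x hx
    obtain ⟨hx1, hx2⟩ := abs_lt.1 hx
    have h0 : 0 ≤ (x + 2) * m := by apply mul_nonneg <;> linarith
    have h1 := Nat.floor_le h0
    have h2 := Nat.lt_floor_add_one ((x + 2) * m)
    have h3 : ⌊(x + 2) * m⌋₊ < 4 * m + 1 := by
      have : (⌊(x + 2) * m⌋₊ : ℝ) < 4 * m + 1 := by nlinarith
      exact_mod_cast this
    refine ⟨⟨⌊(x + 2) * m⌋₊, h3⟩, ?_⟩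
    simp only
    rw [abs_le]
    constructor
    · have : (⌊(x + 2) * m⌋₊ : ℝ) / m ≤ x + 2 := by rw [div_le_iff₀ hmpos]; exact h1
      have h5 : (0 : ℝ) < 1 / m := by positivity
      linarith
    · have : x + 2 - 1 / m ≤ (⌊(x + 2) * m⌋₊ : ℝ) / m := by
        rw [le_div_iff₀ hmpos]
        have : (x + 2 - 1 / m) * m = (x + 2) * m - 1 := by field_simp
        rw [this]; linarith
      linarith
  refine ⟨Fintype.card (Fin (4 * m + 1) × Fin (4 * m + 1) → Fin (N + 1)), ?_⟩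
  intro ι S F hb hL
  refine ⟨fun i => Fintype.equivFin _ (fun a => q (F i (gp a))), ?_⟩
  intro i hi j hj hs z hz
  have hs' := (Fintype.equivFin _).injective hs
  have hz' : z.1 ^ 2 + z.2 ^ 2 < 2 ^ 2 := hz
  have hz3 : z ∈ disc 3 := by
    simp only [disc, mem_ofPred_eq]; linarith
  have z1 : |z.1| < 2 := by
    apply abs_lt_of_sq_lt_sq _ (by norm_num)
    nlinarith [sq_nonneg z.2]
  have z2 : |z.2| < 2 := by
    apply abs_lt_of_sq_lt_sq _ (by norm_num)
    nlinarith [sq_nonneg z.1]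
  obtain ⟨a, ha⟩ := hnear1 z.1 z1
  obtain ⟨b, hb'⟩ := hnear1 z.2 z2
  have hg := hgp (a, b)
  have e1 := congrFun hs' (a, b)
  have e2 := hq _ _ (hb i hi _ hg) (hb j hj _ hg) e1
  have e3 := hL i hi z hz3 _ hg
  have e4 := hL j hj z hz3 _ hg
  have e5 : C * |z.1 - (gp (a, b)).1| + C * |z.2 - (gp (a, b)).2| ≤ η / 4 := by
    refine le_trans ?_ hmC
    exact add_le_add (mul_le_mul_of_nonneg_left ha hC) (mul_le_mul_of_nonneg_left hb' hC)
  have k1 := abs_le.1 (e3.trans e5)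
  have k2 := abs_le.1 (e4.trans e5)
  have k3 := abs_le.1 e2
  rw [abs_le]
  constructor <;> linarith [k1.1, k1.2, k2.1, k2.2, k3.1, k3.2]

lemma disc_sub {z : ℝ × ℝ} (hz : z ∈ disc 3) : |z.1| ≤ 3 ∧ |z.2| ≤ 3 := by
  have hz' : z.1 ^ 2 + z.2 ^ 2 < 3 ^ 2 := hz
  constructor
  · apply abs_le_of_sq_le_sq _ (by norm_num)
    nlinarith [sq_nonneg z.2]
  · apply abs_le_of_sq_le_sq _ (by norm_num)
    nlinarith [sq_nonneg z.1]

/-- signature for `Bd`-closeness -/
lemma sigBd (k : ℕ) (C η : ℝ) (hC : 0 ≤ C) (hη : 0 < η) :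
    ∃ K : ℕ, ∀ {ι : Type} (S : Finset ι) (F : ι → ℝ × ℝ → ℝ),
      (∀ i ∈ S, ContDiff ℝ ∞ (F i)) → (∀ i ∈ S, Bd (disc 3) (k + 1) C (F i)) →
      ∃ s : ι → Fin K, ∀ i ∈ S, ∀ j ∈ S, s i = s j →
        Bd (disc 2) k η (fun z => F i z - F j z) := by
  obtain ⟨K1, h1⟩ := sig_exists C η hC hη
  have hbase : ∀ {ι : Type} (S : Finset ι) (F : ι → ℝ × ℝ → ℝ) (k : ℕ),
      (∀ i ∈ S, ContDiff ℝ ∞ (F i)) → (∀ i ∈ S, Bd (disc 3) (k + 1) C (F i)) →
      ∃ s : ι → Fin K1, ∀ i ∈ S, ∀ j ∈ S, s i = s j → ∀ z ∈ disc 2, |F i z - F j z| ≤ η := by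
    intro ι S F k hc hb
    apply h1 S F
    · intro i hi z hz
      exact (hb i hi).bound hz
    · intro i hi z hz w hw
      exact abs_sub_le_disc (Sm.of_contDiff (hc i hi)) (fun z hz => (hb i hi).dx.bound hz)
        (fun z hz => (hb i hi).dy.bound hz) z hz w hw
  induction k with
  | zero =>
    refine ⟨K1, ?_⟩
    intro ι S F hc hb
    obtain ⟨s, hs⟩ := hbase S F 0 hc hb
    exact ⟨s, fun i hi j hj hij => hs i hi j hj hij⟩
  | succ k ih =>
    obtain ⟨K2, h2⟩ := ih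
    refine ⟨K1 * (K2 * K2), ?_⟩
    intro ι S F hc hb
    obtain ⟨s, hs⟩ := hbase S F (k + 1) hc hb
    obtain ⟨sx, hsx⟩ := h2 S (fun i => dx (F i)) (fun i hi => contDiff_dx (hc i hi))
      (fun i hi => (hb i hi).dx)
    obtain ⟨sy, hsy⟩ := h2 S (fun i => dy (F i)) (fun i hi => contDiff_dy (hc i hi))
      (fun i hi => (hb i hi).dy)
    refine ⟨fun i => finProdFinEquiv (s i, finProdFinEquiv (sx i, sy i)), ?_⟩
    intro i hi j hj hij
    have e1 := finProdFinEquiv.injective hij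
    have e2 : s i = s j := congrArg Prod.fst e1
    have e3 := finProdFinEquiv.injective (congrArg Prod.snd e1)
    have e4 : sx i = sx j := congrArg Prod.fst e3
    have e5 : sy i = sy j := congrArg Prod.snd e3
    refine ⟨hs i hi j hj e2, ?_, ?_⟩
    · refine Bd.congr (isOpen_disc 2) (fun z _ => ?_) (hsx i hi j hj e4)
      exact (dx_sub ((hc i hi).differentiable (by simp) z)
        ((hc j hj).differentiable (by simp) z)).symm
    · refine Bd.congr (isOpen_disc 2) (fun z _ => ?_) (hsy i hi j hj e5)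
      exact (dy_sub ((hc i hi).differentiable (by simp) z)
        ((hc j hj).differentiable (by simp) z)).symm

/-- uniform `C⁴` bounds from data at `0` and bounds on orders 2, 3, 4 -/
lemma bd_of_OB {M ε : ℝ} (hM : 1 ≤ M) (hε : 0 < ε) (hε1 : ε ≤ 1) {f : ℝ × ℝ → ℝ}
    (hf : ContDiff ℝ ∞ f) (h0 : f 0 = 0) (hx : |dx f 0| ≤ 1) (hy : |dy f 0| ≤ 1)
    (hO : OB M ε f) : Bd (disc 3) 4 (42 * M) f := by
  obtain ⟨o2, o3, o4⟩ := hO
  have hz0 : (0 : ℝ × ℝ) ∈ disc 3 := by simp [disc]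
  have e2 : M * ε ≤ M := by nlinarith
  have e3 : M * ε ^ 2 ≤ M := by
    have : ε ^ 2 ≤ 1 := pow_le_one₀ hε.le hε1
    nlinarith
  have e4 : M * ε ^ 3 ≤ M := by
    have : ε ^ 3 ≤ 1 := pow_le_one₀ hε.le hε1
    nlinarith
  have dxb : ∀ z ∈ disc 3, |dx f z| ≤ 7 * M := by
    intro z hz
    have h := abs_sub_le_disc (R := 3) (C := M) (D := M) (Sm.of_contDiff (contDiff_dx hf))
      (fun z hz => (o2 [true, true] rfl z hz).trans e2)
      (fun z hz => (o2 [false, true] rfl z hz).trans e2) z hz 0 hz0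
    simp only [Prod.fst_zero, Prod.snd_zero, sub_zero] at h
    obtain ⟨z1, z2⟩ := disc_sub hz
    have : |dx f z| ≤ |dx f z - dx f 0| + |dx f 0| := by
      have := abs_add_le (dx f z - dx f 0) (dx f 0)
      simpa using this
    nlinarith
  have dyb : ∀ z ∈ disc 3, |dy f z| ≤ 7 * M := by
    intro z hz
    have h := abs_sub_le_disc (R := 3) (C := M) (D := M) (Sm.of_contDiff (contDiff_dy hf))
      (fun z hz => (o2 [true, false] rfl z hz).trans e2)
      (fun z hz => (o2 [false, false] rfl z hz).trans e2) z hz 0 hz0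
    simp only [Prod.fst_zero, Prod.snd_zero, sub_zero] at h
    obtain ⟨z1, z2⟩ := disc_sub hz
    have : |dy f z| ≤ |dy f z - dy f 0| + |dy f 0| := by
      have := abs_add_le (dy f z - dy f 0) (dy f 0)
      simpa using this
    nlinarith
  have fb : ∀ z ∈ disc 3, |f z| ≤ 42 * M := by
    intro z hz
    have h := abs_sub_le_disc (R := 3) (C := 7 * M) (D := 7 * M) (Sm.of_contDiff hf)
      dxb dyb z hz 0 hz0
    simp only [Prod.fst_zero, Prod.snd_zero, sub_zero, h0] at h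
    obtain ⟨z1, z2⟩ := disc_sub hz
    nlinarith
  rw [Bd_iff_Dw]
  intro w hw z hz
  match w, hw with
  | [], _ => exact fb z hz
  | [true], _ => exact (dxb z hz).trans (by linarith)
  | [false], _ => exact (dyb z hz).trans (by linarith)
  | [a, b], _ => exact (o2 [a, b] rfl z hz).trans (by linarith)
  | [a, b, c], _ => exact (o3 [a, b, c] rfl z hz).trans (by linarith)
  | [a, b, c, d], _ => exact (o4 [a, b, c, d] rfl z hz).trans (by linarith)
  | (a :: b :: c :: d :: e :: l), hw => exact absurd hw (by simp only [List.length_cons]; omega)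

/-- pigeonhole -/
lemma pigeon {ι : Type} (S : Finset ι) (K : ℕ) (s : ι → Fin K) :
    ∃ S' ⊆ S, S.card ≤ K * S'.card ∧ ∀ i ∈ S', ∀ j ∈ S', s i = s j := by
  classical
  rcases S.eq_empty_or_nonempty with rfl | ⟨i0, hi0⟩
  · exact ⟨∅, subset_rfl, by simp, by simp⟩
  · have hne : (Finset.univ : Finset (Fin K)).Nonempty := ⟨s i0, Finset.mem_univ _⟩
    obtain ⟨y, -, hy⟩ := Finset.exists_max_image Finset.univ
      (fun y => (S.filter (fun i => s i = y)).card) hne
    refine ⟨S.filter (fun i => s i = y), Finset.filter_subset _ _, ?_, ?_⟩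
    · have h1 := Finset.card_eq_sum_card_fiberwise (f := s) (s := S) (t := Finset.univ)
        (fun i _ => Finset.mem_coe.2 (Finset.mem_univ _))
      rw [h1]
      refine (Finset.sum_le_card_nsmul _ _ _ (fun y' hy' => hy y' hy')).trans ?_
      simp
    · intro i hi j hj
      rw [(Finset.mem_filter.1 hi).2, (Finset.mem_filter.1 hj).2]

end ClassesAux

open ClassesAux in
theorem classes (M ε η : ℝ) (hM : 1 ≤ M) (hε : 0 < ε) (hε1 : ε ≤ 1) (hη : 0 < η) :
    ∃ K0 : ℕ, ∀ {ι : Type} (S : Finset ι) (T : ι → Tri) (e0 : ℝ), |e0| ≤ 1 →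
      (∀ i ∈ S, Nrm M ε e0 (T i)) →
      ∃ S' ⊆ S, S.card ≤ K0 * S'.card ∧ ∀ i ∈ S', ∀ j ∈ S', Close3 η (T i) (T j) := by
  obtain ⟨K, hK⟩ := sigBd 3 (42 * M) η (by linarith) hη
  refine ⟨K * (K * K), ?_⟩
  intro ι S T e0 he0 hN
  have z1 : |(0 : ℝ)| ≤ 1 := by simp
  obtain ⟨sa, ha⟩ := hK S (fun i => (T i).a) (fun i _ => (T i).ha) (fun i hi =>
    bd_of_OB hM hε hε1 (T i).ha (hN i hi).a0 (by rw [(hN i hi).ax]; exact he0)
      (by rw [(hN i hi).ay]; exact z1) (hN i hi).oa)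
  obtain ⟨sb, hb⟩ := hK S (fun i => (T i).b) (fun i _ => (T i).hb) (fun i hi =>
    bd_of_OB hM hε hε1 (T i).hb (hN i hi).b0 (by rw [(hN i hi).bx]; exact z1)
      (by rw [(hN i hi).by']; exact he0) (hN i hi).ob)
  obtain ⟨sh, hh⟩ := hK S (fun i => (T i).h) (fun i _ => (T i).hh) (fun i hi =>
    bd_of_OB hM hε hε1 (T i).hh (hN i hi).h0 (by rw [(hN i hi).hx]; exact z1)
      (by rw [(hN i hi).hy]; exact z1) (hN i hi).oh)
  obtain ⟨S', hS', hcard, hsame⟩ := pigeon S (K * (K * K))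
    (fun i => finProdFinEquiv (sa i, finProdFinEquiv (sb i, sh i)))
  refine ⟨S', hS', hcard, ?_⟩
  intro i hi j hj
  have e1 := finProdFinEquiv.injective (hsame i hi j hj)
  have e2 : sa i = sa j := congrArg Prod.fst e1
  have e3 := finProdFinEquiv.injective (congrArg Prod.snd e1)
  have e4 : sb i = sb j := congrArg Prod.fst e3
  have e5 : sh i = sh j := congrArg Prod.snd e3
  exact ⟨ha i (hS' hi) j (hS' hj) e2, hb i (hS' hi) j (hS' hj) e4, hh i (hS' hi) j (hS' hj) e5⟩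

end Vale.Agent.P229
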