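import Vale.Agent.P229.BdAlg

/-! P229, module F: closeness of the derived quantities for `C^3`-close triples. -/

namespace Vale.Agent.P229

open MeasureTheory Set
open scoped ContDiff

theorem close_facts (M ε C0 j0 : ℝ) (hM : 1 ≤ M) (hε : 0 < ε) (hC : 0 < C0) (hj : 0 < j0) :
    ∃ C : ℝ, 0 < C ∧ ∀ (T T' : Tri) (η : ℝ), 0 ≤ η → Basic M ε C0 j0 T → Basic M ε C0 j0 T' →
      Close3 η T T' → ∀ z ∈ disc 2, |Pf T z - Pf T' z| ≤ C * η ∧ |kf T z - kf T' z| ≤ C * η ∧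
        |No T.a (Pf T) (kf T) z - No T'.a (Pf T') (kf T') z| ≤ C * η := by
  obtain ⟨D1, hD1, H1⟩ := Bd.br_sub 2 C0
  obtain ⟨D2, hD2, H2⟩ := Bd.div_sub 2 (2 * (2 ^ 2 * C0 * C0)) (9 / 10) (by norm_num)
  obtain ⟨D3, hD3, H3⟩ := Bd.br_sub 1 C0
  obtain ⟨D4, hD4, H4⟩ := Bd.div_sub 1 (2 * (2 ^ 2 * C0 * C0)) (9 / 10) (by norm_num)
  obtain ⟨D5, hD5, H5⟩ := Bd.br_sub 0 C0
  obtain ⟨D6, hD6, H6⟩ := Bd.div_sub 0 (2 * (2 ^ 0 * C0 * C0)) j0 hj
  -- sizes
  set E2 : ℝ := D2 * D1 with hE2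
  set E3 : ℝ := D3 * E2 + D1 with hE3
  set E4 : ℝ := D4 * E3 with hE4
  set E5 : ℝ := E4 + E2 + 1 with hE5
  set E7 : ℝ := D6 * (D5 * E5) with hE7
  have p2 : 0 < E2 := by positivity
  have p3 : 0 < E3 := by positivity
  have p4 : 0 < E4 := by positivity
  have p5 : 0 < E5 := by positivity
  have p7 : 0 < E7 := by positivity
  refine ⟨E2 + E4 + E7, by positivity, fun T T' η hη hB hB' hc => ?_⟩
  obtain ⟨ca, cb, ch⟩ := hc
  have hU := isOpen_disc 2
  have sa : Sm (disc 2) T.a := Sm.of_contDiff T.ha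
  have sb : Sm (disc 2) T.b := Sm.of_contDiff T.hb
  have sh : Sm (disc 2) T.h := Sm.of_contDiff T.hh
  have sa' : Sm (disc 2) T'.a := Sm.of_contDiff T'.ha
  have sb' : Sm (disc 2) T'.b := Sm.of_contDiff T'.hb
  have sh' : Sm (disc 2) T'.h := Sm.of_contDiff T'.hh
  have sp := hB.sp
  have sP := hB.reg.sP
  have sk := hB.reg.sk
  have sp' := hB'.sp
  have sP' := hB'.reg.sP
  have sk' := hB'.reg.sk
  have jab := H1 _ _ _ _ _ _ hU sa sb sa' sb' hη hB.bda hB.bdb hB'.bda hB'.bdb ca cb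
  have jah := H1 _ _ _ _ _ _ hU sa sh sa' sh' hη hB.bda hB.bdh hB'.bda hB'.bdh ca ch
  have jhb := H1 _ _ _ _ _ _ hU sh sb sh' sb' hη hB.bdh hB.bdb hB'.bdh hB'.bdb ch cb
  have bab := Bd.br hU sa sb hB.bda hB.bdb
  have bah := Bd.br hU sa sh hB.bda hB.bdh
  have bhb := Bd.br hU sh sb hB.bdh hB.bdb
  have bab' := Bd.br hU sa' sb' hB'.bda hB'.bdb
  have bah' := Bd.br hU sa' sh' hB'.bda hB'.bdh
  have bhb' := Bd.br hU sh' sb' hB'.bdh hB'.bdb
  have sab := Sm.br hU sa sb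
  have sab' := Sm.br hU sa' sb'
  have cP : Bd (disc 2) 2 (E2 * η) (fun z => Pf T z - Pf T' z) := by
    have := H2 _ _ _ _ _ _ hU (Sm.br hU sa sh) sab (Sm.br hU sa' sh') sab' (by positivity)
      bah bab bah' bab' hB.J0l hB'.J0l jah jab
    exact this.mono subset_rfl (by rw [hE2]; linarith)
  have cp : Bd (disc 2) 2 (E2 * η) (fun z => pf T z - pf T' z) := by
    have := H2 _ _ _ _ _ _ hU (Sm.br hU sh sb) sab (Sm.br hU sh' sb') sab' (by positivity)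
      bhb bab bhb' bab' hB.J0l hB'.J0l jhb jab
    exact this.mono subset_rfl (by rw [hE2]; linarith)
  have ck : Bd (disc 2) 1 (E4 * η) (fun z => kf T z - kf T' z) := by
    have e1 := H3 _ _ _ _ _ _ hU sp sP sp' sP' (by positivity) hB.bdp hB.bdP hB'.bdp hB'.bdP
      cp cP
    have a1 : D3 * (E2 * η) ≤ E3 * η := by rw [hE3]; nlinarith
    have a2 : D1 * η ≤ E3 * η := by rw [hE3]; nlinarith [mul_nonneg (mul_pos hD3 p2).le hη]
    have a3 : 2 * (2 ^ 1 * C0 * C0) ≤ 2 * (2 ^ 2 * C0 * C0) := by nlinarith [mul_pos hC hC]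
    have := H4 _ _ _ _ _ (E3 * η) hU (Sm.br hU sp sP) sab (Sm.br hU sp' sP') sab' (by positivity)
      ((Bd.br hU sp sP hB.bdp hB.bdP).mono subset_rfl a3) (bab.of_le one_le_two)
      ((Bd.br hU sp' sP' hB'.bdp hB'.bdP).mono subset_rfl a3) (bab'.of_le one_le_two)
      hB.J0l hB'.J0l (e1.mono subset_rfl a1) ((jab.of_le one_le_two).mono subset_rfl a2)
    exact this.mono subset_rfl (by rw [hE4]; linarith)
  have cN : Bd (disc 2) 0 (E7 * η)
      (fun z => No T.a (Pf T) (kf T) z - No T'.a (Pf T') (kf T') z) := by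
    have a1 : η ≤ E5 * η := by rw [hE5]; nlinarith [mul_nonneg p4.le hη, mul_nonneg p2.le hη]
    have a2 : E2 * η ≤ E5 * η := by rw [hE5]; nlinarith [mul_nonneg p4.le hη, mul_nonneg p2.le hη]
    have a3 : E4 * η ≤ E5 * η := by rw [hE5]; nlinarith [mul_nonneg p4.le hη, mul_nonneg p2.le hη]
    have ba := hB.bda.of_le (m := 1) (by norm_num)
    have ba' := hB'.bda.of_le (m := 1) (by norm_num)
    have bP := hB.bdP.of_le (m := 1) (by norm_num)
    have bP' := hB'.bdP.of_le (m := 1) (by norm_num)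
    have e1 := H5 _ _ _ _ _ (E5 * η) hU sa sk sa' sk' (by positivity) ba hB.bdk ba' hB'.bdk
      ((ca.of_le (m := 1) (by norm_num)).mono subset_rfl a1) (ck.mono subset_rfl a3)
    have e2 := H5 _ _ _ _ _ (E5 * η) hU sa sP sa' sP' (by positivity) ba bP ba' bP'
      ((ca.of_le (m := 1) (by norm_num)).mono subset_rfl a1)
      ((cP.of_le (m := 1) (by norm_num)).mono subset_rfl a2)
    have := H6 _ _ _ _ _ (D5 * (E5 * η)) hU (Sm.br hU sa sk) (Sm.br hU sa sP) (Sm.br hU sa' sk')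
      (Sm.br hU sa' sP') (by positivity) (Bd.br hU sa sk ba hB.bdk) (Bd.br hU sa sP ba bP)
      (Bd.br hU sa' sk' ba' hB'.bdk) (Bd.br hU sa' sP' ba' bP') hB.reg.J hB'.reg.J e1 e2
    exact this.mono subset_rfl (by rw [hE7]; linarith)
  intro z hz
  have q2 := mul_nonneg p2.le hη
  have q4 := mul_nonneg p4.le hη
  have q7 := mul_nonneg p7.le hη
  refine ⟨(cP.bound hz).trans ?_, (ck.bound hz).trans ?_, (cN.bound hz).trans ?_⟩ <;>
    linarith

end Vale.Agent.P229
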