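import Mathlib

/-!
# P229: shared definitions
Partial derivatives, brackets, discs and the calculus objects used in the disproof.
-/

namespace Vale.Agent.P229

open MeasureTheory Set
open scoped ContDiff

/-- partial derivative in the first variable -/
noncomputable def dx (f : ℝ × ℝ → ℝ) : ℝ × ℝ → ℝ := fun z => fderiv ℝ f z (1, 0)
/-- partial derivative in the second variable -/
noncomputable def dy (f : ℝ × ℝ → ℝ) : ℝ × ℝ → ℝ := fun z => fderiv ℝ f z (0, 1)
/-- Poisson bracket `{f,g} = f_x g_y - f_y g_x` -/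
noncomputable def br (f g : ℝ × ℝ → ℝ) : ℝ × ℝ → ℝ := fun z => dx f z * dy g z - dy f z * dx g z

/-- open Euclidean disc of radius `R` about the origin -/
def disc (R : ℝ) : Set (ℝ × ℝ) := {z | z.1 ^ 2 + z.2 ^ 2 < R ^ 2}

/-- smooth on an (open) set -/
def Sm (U : Set (ℝ × ℝ)) (f : ℝ × ℝ → ℝ) : Prop := ContDiffOn ℝ ∞ f U

/-- `Bd U k C f`: all partial derivatives of `f` of order `≤ k` are bounded by `C` on `U` -/
def Bd (U : Set (ℝ × ℝ)) : ℕ → ℝ → (ℝ × ℝ → ℝ) → Prop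
  | 0, C, f => ∀ z ∈ U, |f z| ≤ C
  | k + 1, C, f => (∀ z ∈ U, |f z| ≤ C) ∧ Bd U k C (dx f) ∧ Bd U k C (dy f)

/-- iterated partial derivative along a word (`true` = `d/dx`, `false` = `d/dy`) -/
noncomputable def Dw : List Bool → (ℝ × ℝ → ℝ) → (ℝ × ℝ → ℝ)
  | [], f => f
  | true :: w, f => dx (Dw w f)
  | false :: w, f => dy (Dw w f)

/-- all partial derivatives of `f` of order exactly `k` are bounded by `C` on `U` -/
def OrdBd (U : Set (ℝ × ℝ)) (k : ℕ) (C : ℝ) (f : ℝ × ℝ → ℝ) : Prop :=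
  ∀ w : List Bool, w.length = k → ∀ z ∈ U, |Dw w f z| ≤ C

/-- multiplication operator quotients: `L f = {f,P}/{u,P}` -/
noncomputable def Lo (u P f : ℝ × ℝ → ℝ) : ℝ × ℝ → ℝ := fun z => br f P z / br u P z
/-- `N f = {u,f}/{u,P}` -/
noncomputable def No (u P f : ℝ × ℝ → ℝ) : ℝ × ℝ → ℝ := fun z => br u f z / br u P z

end Vale.Agent.P229
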