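import Vale.Agent.P229.DownFive

/-!
# P229, module B: energy estimate near the bump
-/

namespace Vale.Agent.P229

open MeasureTheory Set
open scoped ContDiff

namespace DownAux

section
variable {C0 j0 ρ0 κ0 c c' b K : ℝ} {u P κ v : ℝ × ℝ → ℝ} {z : ℝ × ℝ}

/-- `|u| ≤ |x| + (|x|+|y|)/50` -/
theorem Dat.u_abs (D : Dat C0 j0 ρ0 κ0 c b u P κ v) (hz : z ∈ disc 2) :
    |u z| ≤ |z.1| + (|z.1| + |z.2|) / 50 := by
  have h := D.geo.ux z hz
  have h1 := abs_sub_abs_le_abs_sub (u z) (z.1)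
  linarith

theorem Dat.geoA (D : Dat C0 j0 ρ0 κ0 c b u P κ v) (hc : c = 2 * C0 + 1) :
    ∀ z ∈ disc b, ta κ0 c b u P z ≤ 0 := by
  intro z hz
  have hb1 : b ≤ 1 := by have := D.b_le; have := D.hκ1; linarith
  have hz2 : z ∈ disc 2 := disc_mono D.hb.le (by linarith) hz
  have hxy := abs_le_of_disc D.hb.le hz
  have hu := D.u_abs hz2
  have hP := (le_abs_self _).trans (D.P_abs hz2)
  have hs := sqrt_le_add (x := u z) D.hb
  have hκ := D.hκ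
  have hκ1 := D.hκ1
  have hC := D.hC
  have hb := D.hb
  have h1 : κ0 / 10 * Real.sqrt ((u z) ^ 2 + b ^ 2) ≤ 1 / 10 * (|u z| + b) :=
    mul_le_mul (by linarith) hs (Real.sqrt_nonneg _) (by norm_num)
  have h2 : 0 ≤ 4 * (κ0 / 10) * (u z) ^ 2 := by positivity
  have h3 : C0 * (|z.1| + |z.2|) ≤ C0 * (b + b) :=
    mul_le_mul_of_nonneg_left (add_le_add hxy.1 hxy.2) hC.le
  unfold ta zt
  rw [hc]
  nlinarith [hxy.1, hxy.2]

theorem Dat.geoB (D : Dat C0 j0 ρ0 κ0 c b u P κ v) {C3 : ℝ} (hc : c = -C3) :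
    ∀ z ∈ disc b, ta κ0 c b u P z ≤ (2 * C0 + C3 + 1) * b := by
  intro z hz
  have hb1 : b ≤ 1 := by have := D.b_le; have := D.hκ1; linarith
  have hz2 : z ∈ disc 2 := disc_mono D.hb.le (by linarith) hz
  have hxy := abs_le_of_disc D.hb.le hz
  have hu := D.u_abs hz2
  have hP := (le_abs_self _).trans (D.P_abs hz2)
  have hs := sqrt_le_add (x := u z) D.hb
  have hκ := D.hκ
  have hκ1 := D.hκ1
  have hC := D.hC
  have hb := D.hb
  have h1 : κ0 / 10 * Real.sqrt ((u z) ^ 2 + b ^ 2) ≤ 1 / 10 * (|u z| + b) :=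
    mul_le_mul (by linarith) hs (Real.sqrt_nonneg _) (by norm_num)
  have h2 : 0 ≤ 4 * (κ0 / 10) * (u z) ^ 2 := by positivity
  have h3 : C0 * (|z.1| + |z.2|) ≤ C0 * (b + b) :=
    mul_le_mul_of_nonneg_left (add_le_add hxy.1 hxy.2) hC.le
  unfold ta zt
  rw [hc]
  nlinarith [hxy.1, hxy.2]

theorem Dat.geoC (D : Dat C0 j0 ρ0 κ0 c b u P κ v) {C1 : ℝ} (hC1 : 1 ≤ C1)
    (hc : c = -(2 * C0 * C1 + 2)) (h1 : C1 ^ 2 * b ≤ 1) (h2 : 150 * C0 * C1 * b ≤ κ0) :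
    disc (C1 * b) ⊆ Si κ0 c b u P := by
  intro z hz
  have hκ := D.hκ
  have hκ1 := D.hκ1
  have hC := D.hC
  have hb := D.hb
  have hC1b : 0 < C1 * b := by positivity
  have hC1b1 : C1 * b ≤ 1 := by nlinarith
  have hz1 : z ∈ disc 1 := disc_mono hC1b.le hC1b1 hz
  have hz2 : z ∈ disc 2 := disc_mono (by norm_num) (by norm_num) hz1
  have hxy := abs_le_of_disc hC1b.le hz
  have hu := D.u_abs hz2
  have hP := D.P_abs hz2
  have h3 : C0 * (|z.1| + |z.2|) ≤ C0 * (C1 * b + C1 * b) :=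
    mul_le_mul_of_nonneg_left (add_le_add hxy.1 hxy.2) hC.le
  refine ⟨hz1, ?_, ?_⟩
  · have hu' : |u z| ≤ 52 / 50 * (C1 * b) := by linarith [hxy.1, hxy.2]
    have h4 : (u z) ^ 2 ≤ (52 / 50 * (C1 * b)) ^ 2 := by
      rw [← sq_abs (u z)]; exact pow_le_pow_left₀ (abs_nonneg _) hu' 2
    have h5 : (C1 * b) ^ 2 ≤ b := by
      have : (C1 * b) ^ 2 = (C1 ^ 2 * b) * b := by ring
      rw [this]
      nlinarith
    have h6 : 4 * (κ0 / 10) * (u z) ^ 2 ≤ b := by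
      have h7 : (u z) ^ 2 ≤ 52 / 50 * (52 / 50) * b := by
        have : (52 / 50 * (C1 * b)) ^ 2 = 52 / 50 * (52 / 50) * (C1 * b) ^ 2 := by ring
        rw [this] at h4
        linarith
      have h8 : 4 * (κ0 / 10) * (u z) ^ 2 ≤ 4 * (1 / 10) * (u z) ^ 2 :=
        mul_le_mul_of_nonneg_right (by linarith) (sq_nonneg _)
      linarith
    have h7 : 0 ≤ κ0 / 10 * Real.sqrt ((u z) ^ 2 + b ^ 2) := by positivity
    have h8 := neg_abs_le (P z)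
    unfold ta zt
    rw [hc]
    linarith
  · have h8 := le_abs_self (P z)
    linarith

theorem Dat.geoD (D : Dat C0 j0 ρ0 κ0 c b u P κ v) {C1 C' : ℝ} (hc : 0 ≤ c)
    (hC' : C' = 20 * (c + 1) / κ0) (hC1 : C1 = 3 * C' + 3 * (c + 1) / ρ0 + 1)
    (hz : z ∈ disc (1 / 10)) (hn : z ∉ disc (C1 * b)) (hP0 : 0 ≤ P z) (hP1 : P z ≤ κ0 / 75) :
    z ∈ Si κ0 c b u P := by
  have hκ := D.hκ
  have hκ1 := D.hκ1
  have hC := D.hC
  have hb := D.hb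
  have hρ := D.hρ
  have hz1 : z ∈ disc 1 := disc_mono (by norm_num) (by norm_num) hz
  have hz2 : z ∈ disc 2 := disc_mono (by norm_num) (by norm_num) hz1
  have hxy := abs_le_of_disc (by norm_num) hz
  have hu := D.u_abs hz2
  have hs := abs_le_sqrt (x := u z) (b := b)
  have hu1 : |u z| ≤ 11 / 100 := by linarith [hxy.1, hxy.2]
  have hlow : κ0 / 10 * (56 / 100 * |u z|)
      ≤ κ0 / 10 * Real.sqrt ((u z) ^ 2 + b ^ 2) - 4 * (κ0 / 10) * (u z) ^ 2 := by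
    have h1 : (u z) ^ 2 ≤ 11 / 100 * |u z| := by
      rw [← sq_abs (u z)]; nlinarith [abs_nonneg (u z)]
    have h2 : 56 / 100 * |u z| ≤ Real.sqrt ((u z) ^ 2 + b ^ 2) - 4 * (u z) ^ 2 := by linarith
    have h3 := mul_le_mul_of_nonneg_left h2 (show 0 ≤ κ0 / 10 by positivity)
    linarith
  refine ⟨hz1, ?_, hP1⟩
  have hc1 : 0 < c + 1 := by linarith
  have hC'pos : 0 ≤ C' := by rw [hC']; positivity
  have hgoal : (c + 1) * b ≤ P z + κ0 / 10 * (56 / 100 * |u z|) := by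
    by_cases h : C' * b ≤ |u z|
    · have h1 : (c + 1) * b ≤ κ0 / 10 * (56 / 100 * (C' * b)) := by
        have : κ0 / 10 * (56 / 100 * (C' * b)) = 112 / 100 * ((c + 1) * b) := by
          rw [hC']; field_simp; norm_num
        rw [this]
        have : 0 ≤ (c + 1) * b := by positivity
        linarith
      have h2 : κ0 / 10 * (56 / 100 * (C' * b)) ≤ κ0 / 10 * (56 / 100 * |u z|) := by
        refine mul_le_mul_of_nonneg_left ?_ (by positivity)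
        linarith
      linarith
    · have h := not_le.1 h
      -- `|z| ≤ 3|u| + 3|P|/ρ0`
      have hx0 : (z.1, (0 : ℝ)) ∈ disc 2 := by
        have := mem_disc_vert (x := z.1) (y := z.2) (t := 0) hz2 (by nlinarith [sq_nonneg z.2])
        exact this
      have hv := D.P_vert (x := z.1) (y := z.2) hz2
      have hh := D.P_horiz hx0
      have hux := D.geo.ux z hz2
      have hy : |z.2| ≤ |P z| / ρ0 + |z.1| := by
        have h1 : ρ0 * |z.2| ≤ |P z| + ρ0 * |z.1| := by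
          have : P (z.1, z.2) = P z := rfl
          linarith
        rw [← sub_le_iff_le_add, le_div_iff₀ hρ]
        linarith
      have hx : |z.1| ≤ |u z| + (|z.1| + |z.2|) / 50 := by
        have h1 := abs_sub_abs_le_abs_sub (z.1) (u z)
        rw [abs_sub_comm] at h1
        linarith
      have hPρ : 0 ≤ |P z| / ρ0 := by positivity
      have hsum : |z.1| + |z.2| ≤ 3 * |u z| + 3 * (|P z| / ρ0) := by
        linarith [abs_nonneg (u z), abs_nonneg z.1, abs_nonneg z.2]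
      have hnorm : C1 * b ≤ |z.1| + |z.2| := by
        by_contra h3
        have h3 := not_le.1 h3
        refine hn ?_
        simp only [disc, mem_ofPred_eq]
        have h4 : z.1 ^ 2 + z.2 ^ 2 ≤ (|z.1| + |z.2|) ^ 2 := by
          nlinarith [sq_abs z.1, sq_abs z.2, mul_nonneg (abs_nonneg z.1) (abs_nonneg z.2)]
        refine lt_of_le_of_lt h4 ?_
        have h5 : 0 ≤ |z.1| + |z.2| := by positivity
        nlinarith
      have h5 : C1 * b = 3 * (C' * b) + 3 * ((c + 1) * b / ρ0) + b := by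
        rw [hC1]; ring
      have h6 : (c + 1) * b / ρ0 ≤ |P z| / ρ0 := by linarith
      have h7 : (c + 1) * b ≤ |P z| := (div_le_div_iff_of_pos_right hρ).1 h6
      rw [abs_of_nonneg hP0] at h7
      have h8 : 0 ≤ κ0 / 10 * (56 / 100 * |u z|) := by positivity
      linarith
  unfold ta zt
  linarith

/-- reflected data -/
theorem Dat.refl (D : Dat C0 j0 ρ0 κ0 c b u P κ v) :
    Dat C0 j0 ρ0 κ0 c b (fun w => u (rf w)) (fun w => - P (rf w)) (fun w => κ (rf w))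
      (fun w => v (rf w)) where
  hC := D.hC
  hj := D.hj
  hρ := D.hρ
  hκ := D.hκ
  hκ1 := D.hκ1
  hκρ := D.hκρ
  hb := D.hb
  hcb := D.hcb
  reg := D.reg.rf
  geo := D.geo.rf D.reg
  hv := D.hv.comp ReflectAux.contDiff_rf

theorem qf_rf (hv : ContDiff ℝ ∞ v) (z : ℝ × ℝ) : qf (fun w => v (rf w)) z = qf v (rf z) := by
  have hd : DifferentiableAt ℝ v (rf z) := (hv.differentiable (by simp)) _
  unfold qf
  rw [dx_rf hd, dy_rf hd]
  ring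

theorem int_Rs_rf (hv : ContDiff ℝ ∞ v) :
    ∫ z in Rs κ0 (fun w => - P (rf w)), qf (fun w => v (rf w)) z = ∫ z in Rs κ0 P, qf v z := by
  have e : Rs κ0 (fun w => - P (rf w)) = {z | rf z ∈ Rs κ0 P} := by
    ext z
    simp only [Rs, mem_ofPred_eq, abs_neg, ReflectAux.rf_mem_disc]
  rw [e, ← integral_rf (qf v) (Rs κ0 P)]
  congr 1
  ext z
  exact qf_rf hv z

/-- estimate (ii), integrated -/
theorem Dat.first (D : Dat C0 j0 ρ0 κ0 c b u P κ v) (D' : Dat C0 j0 ρ0 κ0 c' b u P κ v)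
    {Dw d S m T X : ℝ} (hD : ∀ p, |deriv (om κ0) p| ≤ Dw)
    (hd : ∫ z in Rs κ0 P, qf v z ≤ d ^ 2)
    (hs0 : ∀ z ∈ disc 1, z ∉ disc b → Op u P κ v z = 0)
    (hS : ∫ z in disc b, Op u P κ v z ^ 2 ≤ S ^ 2)
    (hm : 0 ≤ m) (hc : c - c' ≤ m - 1) (hT : 0 ≤ T) (hta : ∀ z ∈ disc b, ta κ0 c' b u P z ≤ T)
    (hX : ∫ z in Si κ0 c b u P, (v z ^ 2 + No u P v z ^ 2) ≤ X) :
    ∫ z in disc 1, Vd C0 j0 κ0 c' b u P v z
      ≤ 2 * ((m * b) ^ 2 / (2 * κ0 ^ 2)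
        * (32 / κ0 ^ 2 * (2 * C0 * C0 * (T ^ 3 * Em C0 j0 κ0) * S ^ 2)
          + 16 * E1 C0 j0 κ0 Dw * d ^ 2)
        + Qc C0 j0 κ0 * X
        + Qc C0 j0 κ0 * (2 * C0 ^ 2 / j0 ^ 2) * d ^ 2) + 2 * E2 C0 j0 κ0 Dw * d ^ 2 := by
  have hb := D.hb
  have hκ := D.hκ
  have hC := D.hC
  have hE := Em_pos (C0 := C0) (j0 := j0) (κ0 := κ0)
  have g0 := D'.energy_int hD hd
  have g1 := D'.Q_source hT hta (Sm.cont D'.sOp) hs0
  have g2 := D.Q_ii D' hm hc hd hX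
  have g3 := D'.zero_int hD hd
  have k1 := g1.trans (mul_le_mul_of_nonneg_left hS
    (show 0 ≤ 2 * C0 * C0 * (T ^ 3 * Em C0 j0 κ0) by positivity))
  have k2 := mul_le_mul_of_nonneg_left k1 (show 0 ≤ 32 / κ0 ^ 2 by positivity)
  have k3 := mul_le_mul_of_nonneg_left (g0.trans (add_le_add_left k2 _))
    (show 0 ≤ (m * b) ^ 2 / (2 * κ0 ^ 2) by positivity)
  linarith

/-- algebra for the first conclusion -/
theorem arith_first {m e1 q x e2 a em S d A1 A2 Z T2 : ℝ} (hb : 0 < b) (hb1 : b ≤ 1)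
    (hj : 0 < j0) (hκ : 0 < κ0) (he1 : 0 ≤ e1) (hq : 0 ≤ q) (he2 : 0 ≤ e2)
    (ha : 0 ≤ a) (hx : 0 ≤ x) (hZ : 0 ≤ Z) (hA10 : 0 ≤ A1) (hA20 : 0 ≤ A2)
    (hA1 : A1 = 1 / (2 * j0) * (m ^ 2 / κ0 ^ 2 * (32 / κ0 ^ 2 * (2 * C0 * C0 * (T2 ^ 3 * em)))))
    (hA2 : A2 = 1 / (2 * j0) * (m ^ 2 / κ0 ^ 2 * (16 * e1) + 2 * q * x + 2 * q * a + 2 * e2)) :
    1 / (2 * j0 * b) * (2 * ((m * b) ^ 2 / (2 * κ0 ^ 2)
        * (32 / κ0 ^ 2 * (2 * C0 * C0 * ((T2 * b) ^ 3 * em) * S ^ 2) + 16 * e1 * d ^ 2)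
        + q * (x * d ^ 2 / b) + q * a * d ^ 2) + 2 * e2 * d ^ 2)
      ≤ (A1 + A2 + Z) * (b ^ 4 * S ^ 2 + d ^ 2 / b ^ 2) := by
  have _ := hx
  have hdb : d ^ 2 / b ≤ d ^ 2 / b ^ 2 :=
    div_le_div_of_nonneg_left (sq_nonneg d) (by positivity) (by nlinarith)
  have hd1 : d ^ 2 ≤ d ^ 2 / b ^ 2 := by
    rw [le_div_iff₀ (by positivity)]
    have : b ^ 2 ≤ 1 := by nlinarith
    nlinarith [sq_nonneg d]
  have hdb2 : d ^ 2 * b ≤ d ^ 2 / b ^ 2 := by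
    have : d ^ 2 * b ≤ d ^ 2 := by nlinarith [sq_nonneg d]
    linarith
  have k6 : 1 / (2 * j0 * b) * (2 * ((m * b) ^ 2 / (2 * κ0 ^ 2)
        * (32 / κ0 ^ 2 * (2 * C0 * C0 * ((T2 * b) ^ 3 * em) * S ^ 2) + 16 * e1 * d ^ 2)
        + q * (x * d ^ 2 / b) + q * a * d ^ 2) + 2 * e2 * d ^ 2)
        = A1 * (b ^ 4 * S ^ 2)
          + 1 / (2 * j0) * (m ^ 2 / κ0 ^ 2 * (16 * e1)) * (d ^ 2 * b)
          + 1 / (2 * j0) * (2 * q * x) * (d ^ 2 / b ^ 2)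
          + 1 / (2 * j0) * (2 * q * a) * (d ^ 2 / b)
          + 1 / (2 * j0) * (2 * e2) * (d ^ 2 / b) := by
    rw [hA1]
    field_simp
  have l1 := mul_le_mul_of_nonneg_left hdb2
    (show 0 ≤ 1 / (2 * j0) * (m ^ 2 / κ0 ^ 2 * (16 * e1)) by positivity)
  have l2 := mul_le_mul_of_nonneg_left hdb (show 0 ≤ 1 / (2 * j0) * (2 * q * a) by positivity)
  have l3 := mul_le_mul_of_nonneg_left hdb (show 0 ≤ 1 / (2 * j0) * (2 * e2) by positivity)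
  have l4 : A2 * (d ^ 2 / b ^ 2)
      = 1 / (2 * j0) * (m ^ 2 / κ0 ^ 2 * (16 * e1)) * (d ^ 2 / b ^ 2)
        + 1 / (2 * j0) * (2 * q * x) * (d ^ 2 / b ^ 2)
        + 1 / (2 * j0) * (2 * q * a) * (d ^ 2 / b ^ 2)
        + 1 / (2 * j0) * (2 * e2) * (d ^ 2 / b ^ 2) := by
    rw [hA2]; ring
  have l7 : 0 ≤ (Z + A1) * (d ^ 2 / b ^ 2) := by positivity
  have l8 : 0 ≤ (A2 + Z) * (b ^ 4 * S ^ 2) := by positivity
  have l9 : (A1 + A2 + Z) * (b ^ 4 * S ^ 2 + d ^ 2 / b ^ 2)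
      = A1 * (b ^ 4 * S ^ 2) + A2 * (d ^ 2 / b ^ 2)
        + (Z + A1) * (d ^ 2 / b ^ 2) + (A2 + Z) * (b ^ 4 * S ^ 2) := by ring
  rw [k6, l9]
  linarith

/-- algebra for the second conclusion -/
theorem arith_second {b d x Y : ℝ} (hb : 0 < b) (hb1 : b ≤ 1) (hx : 0 ≤ x) (hY : 0 ≤ Y) :
    2 * (x * d ^ 2 / b) + d ^ 2 ≤ (Y + (2 * x + 1)) * (d ^ 2 / b ^ 2) := by
  have hdb : d ^ 2 / b ≤ d ^ 2 / b ^ 2 :=
    div_le_div_of_nonneg_left (sq_nonneg d) (by positivity) (by nlinarith)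
  have hd1 : d ^ 2 ≤ d ^ 2 / b ^ 2 := by
    rw [le_div_iff₀ (by positivity)]
    have : b ^ 2 ≤ 1 := by nlinarith
    nlinarith [sq_nonneg d]
  have hCd : x * d ^ 2 / b ≤ x * (d ^ 2 / b ^ 2) := by
    rw [mul_div_assoc]
    exact mul_le_mul_of_nonneg_left hdb hx
  have l5 : 0 ≤ Y * (d ^ 2 / b ^ 2) := by positivity
  have l6 : (Y + (2 * x + 1)) * (d ^ 2 / b ^ 2)
      = Y * (d ^ 2 / b ^ 2) + 2 * (x * (d ^ 2 / b ^ 2)) + d ^ 2 / b ^ 2 := by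
    ring
  rw [l6]
  linarith

/-- the zero order part of estimate (i) -/
theorem Dat.step_i' (D : Dat C0 j0 ρ0 κ0 c b u P κ v) {Dw d : ℝ}
    (hD : ∀ p, |deriv (om κ0) p| ≤ Dw) (hd : ∫ z in Rs κ0 P, qf v z ≤ d ^ 2)
    (hs0 : ∀ z ∈ disc 1, z ∉ disc b → Op u P κ v z = 0)
    (hta : ∀ z ∈ disc b, ta κ0 c b u P z ≤ 0) :
    ∫ z in Si κ0 c b u P, v z ^ 2 ≤ Ci C0 j0 κ0 Dw * d ^ 2 / b := by
  refine le_trans ?_ (D.step_i hD hd hs0 hta)
  have s1 : Si κ0 c b u P ⊆ disc 1 := fun z hz => hz.1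
  refine setIntegral_mono_on ((int_on ((Sm.cont D.sv).pow 2)).mono_set s1)
    ((int_on (((Sm.cont D.sv).pow 2).add ((Sm.cont D.sA).pow 2))).mono_set s1) D.meas_Si
    (fun z _ => ?_)
  show v z ^ 2 ≤ v z ^ 2 + No u P v z ^ 2
  nlinarith [sq_nonneg (No u P v z)]

theorem union_le {f : ℝ × ℝ → ℝ} (hf : Continuous f) (h0 : ∀ z, 0 ≤ f z) {X Y : Set (ℝ × ℝ)}
    (hY : MeasurableSet Y) (hX1 : X ⊆ disc 1) (hY1 : Y ⊆ disc 1) :
    ∫ z in X ∪ Y, f z ≤ (∫ z in X, f z) + ∫ z in Y, f z := by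
  have hI : IntegrableOn f (disc 1) := int_on hf.continuousOn
  have e : X ∪ Y = (X \ Y) ∪ Y := by simp
  rw [e, setIntegral_union disjoint_sdiff_left hY (hI.mono_set (sdiff_subset.trans hX1))
    (hI.mono_set hY1)]
  have : ∫ z in X \ Y, f z ≤ ∫ z in X, f z :=
    setIntegral_mono_set (hI.mono_set hX1) (Filter.Eventually.of_forall h0)
      (Filter.Eventually.of_forall sdiff_subset)
  linarith

/-- the second conclusion -/
theorem Dat.second (D : Dat C0 j0 ρ0 κ0 c b u P κ v) {Dw d C1 C' : ℝ}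
    (hD : ∀ p, |deriv (om κ0) p| ≤ Dw) (hd : ∫ z in Rs κ0 P, qf v z ≤ d ^ 2)
    (hs0 : ∀ z ∈ disc 1, z ∉ disc b → Op u P κ v z = 0) (hc : c = 2 * C0 + 1)
    (hC' : C' = 20 * (c + 1) / κ0) (hC1 : C1 = 3 * C' + 3 * (c + 1) / ρ0 + 1) :
    ∫ z in {z | z ∈ disc (1 / 10) ∧ z ∉ disc (C1 * b)}, v z ^ 2
      ≤ 2 * (Ci C0 j0 κ0 Dw * d ^ 2 / b) + d ^ 2 := by
  have hv := D.hv
  have hc0 : 0 ≤ c := by rw [hc]; linarith [D.hC]
  have DR := D.refl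
  have hdR : ∫ z in Rs κ0 (fun w => - P (rf w)), qf (fun w => v (rf w)) z ≤ d ^ 2 := by
    rw [int_Rs_rf hv]; exact hd
  have hs0R : ∀ z ∈ disc 1, z ∉ disc b → Op (fun w => u (rf w)) (fun w => - P (rf w))
      (fun w => κ (rf w)) (fun w => v (rf w)) z = 0 := by
    intro z hz hn
    rw [Op_rf D.hj D.reg hv z (disc_mono (by norm_num) (by norm_num) hz)]
    exact hs0 _ (ReflectAux.rf_mem_disc.2 hz) (fun h => hn (ReflectAux.rf_mem_disc.1 h))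
  have i1 := D.step_i' hD hd hs0 (D.geoA hc)
  have iR := DR.step_i' hD hdR hs0R (DR.geoA hc)
  set X1 := Si κ0 c b u P with hX1
  set Y2 := Si κ0 c b (fun w => u (rf w)) (fun w => - P (rf w)) with hY2
  set X2 := {z | rf z ∈ Y2} with hX2
  set X3 := Rs κ0 P with hX3
  have m1 : MeasurableSet X1 := D.meas_Si
  have m2 : MeasurableSet X2 :=
    DR.meas_Si.preimage (ReflectAux.contDiff_rf.continuous.measurable)
  have m3 : MeasurableSet X3 := meas_Rs (Sm.cont D.reg.sP)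
  have s1 : X1 ⊆ disc 1 := fun z hz => hz.1
  have s2 : X2 ⊆ disc 1 := fun z hz => ReflectAux.rf_mem_disc.1 hz.1
  have s3 : X3 ⊆ disc 1 := fun z hz => hz.1
  have hcont : Continuous (fun z => v z ^ 2) := hv.continuous.pow 2
  have hI : IntegrableOn (fun z => v z ^ 2) (disc 1) := int_on hcont.continuousOn
  have hcover : {z | z ∈ disc (1 / 10) ∧ z ∉ disc (C1 * b)} ⊆ (X1 ∪ X2) ∪ X3 := by
    rintro z ⟨hz, hn⟩
    have hz1 : z ∈ disc 1 := disc_mono (by norm_num) (by norm_num) hz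
    by_cases h3 : z ∈ X3
    · exact Or.inr h3
    have hPle : |P z| ≤ κ0 / 75 := by
      by_contra h
      exact h3 ⟨hz1, not_le.1 h⟩
    left
    rcases le_total 0 (P z) with hP | hP
    · left
      exact D.geoD hc0 hC' hC1 hz hn hP ((le_abs_self _).trans hPle)
    · right
      have hzr : rf z ∈ disc (1 / 10) := ReflectAux.rf_mem_disc.2 hz
      have hnr : rf z ∉ disc (C1 * b) := fun h => hn (ReflectAux.rf_mem_disc.1 h)
      refine DR.geoD hc0 hC' hC1 hzr hnr ?_ ?_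
      · show 0 ≤ - P (rf (rf z))
        rw [ReflectAux.rf_rf]; linarith
      · show - P (rf (rf z)) ≤ κ0 / 75
        rw [ReflectAux.rf_rf]
        linarith [neg_abs_le (P z)]
  have hU : ∫ z in {z | z ∈ disc (1 / 10) ∧ z ∉ disc (C1 * b)}, v z ^ 2
      ≤ ∫ z in (X1 ∪ X2) ∪ X3, v z ^ 2 :=
    setIntegral_mono_set (hI.mono_set (union_subset (union_subset s1 s2) s3))
      (Filter.Eventually.of_forall (fun z => sq_nonneg _)) (Filter.Eventually.of_forall hcover)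
  have u1 := union_le hcont (fun z => sq_nonneg _) m3 (union_subset s1 s2) s3
  have u2 := union_le hcont (fun z => sq_nonneg _) m2 s1 s2
  have i2 : ∫ z in X2, v z ^ 2 ≤ Ci C0 j0 κ0 Dw * d ^ 2 / b := by
    have e : ∫ z in X2, v z ^ 2 = ∫ z in Y2, v (rf z) ^ 2 := by
      have := integral_rf (fun z => v (rf z) ^ 2) Y2
      simp only [ReflectAux.rf_rf] at this
      exact this
    rw [e]
    exact iR
  have i3 : ∫ z in X3, v z ^ 2 ≤ d ^ 2 := by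
    refine le_trans ?_ hd
    refine setIntegral_mono_on (hI.mono_set s3)
      ((int_on (qf_cont hv).continuousOn).mono_set s3) m3 (fun z _ => ?_)
    unfold qf; nlinarith [sq_nonneg (dx v z), sq_nonneg (dy v z)]
  linarith

end

end DownAux

open DownAux in
theorem bump_bound (C0 j0 ρ0 κ0 : ℝ) (hC : 0 < C0) (hj : 0 < j0) (hρ : 0 < ρ0) (hκ : 0 < κ0)
    (hκ1 : κ0 ≤ 1) (hκρ : κ0 ≤ 2 * ρ0) :
    ∃ C1 C b0 : ℝ, 1 ≤ C1 ∧ 0 < C ∧ 0 < b0 ∧ ∀ (u P κ v : ℝ × ℝ → ℝ) (b d S : ℝ),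
      0 < b → b < b0 → 0 ≤ d → 0 ≤ S → Reg C0 j0 u P κ → Geo ρ0 κ0 u P κ → ContDiff ℝ ∞ v →
      (∀ z ∈ disc 1, z ∉ disc b → Op u P κ v z = 0) →
      (∫ z in disc b, Op u P κ v z ^ 2 ≤ S ^ 2) →
      (∫ z in {z | z ∈ disc 1 ∧ κ0 / 75 < |P z|}, (v z ^ 2 + dx v z ^ 2 + dy v z ^ 2) ≤ d ^ 2) →
      (∫ z in disc (C1 * b), v z ^ 2 ≤ C * (b ^ 4 * S ^ 2 + d ^ 2 / b ^ 2)) ∧
      (∫ z in {z | z ∈ disc (1 / 10) ∧ z ∉ disc (C1 * b)}, v z ^ 2 ≤ C * (d ^ 2 / b ^ 2)) := by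
  obtain ⟨Dw, hDw, hD⟩ := om_deriv_bound hκ
  -- constants
  obtain ⟨c2, hc2⟩ : ∃ c2 : ℝ, c2 = 2 * C0 + 1 := ⟨_, rfl⟩
  have hc20 : 0 < c2 := by rw [hc2]; positivity
  obtain ⟨C', hC'⟩ : ∃ C' : ℝ, C' = 20 * (c2 + 1) / κ0 := ⟨_, rfl⟩
  obtain ⟨C1, hC1⟩ : ∃ C1 : ℝ, C1 = 3 * C' + 3 * (c2 + 1) / ρ0 + 1 := ⟨_, rfl⟩
  have hC'0 : 0 < C' := by rw [hC']; positivity
  have hC11 : 1 ≤ C1 := by
    rw [hC1]
    have : 0 < 3 * (c2 + 1) / ρ0 := by positivity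
    linarith
  obtain ⟨c3, hc3⟩ : ∃ c3 : ℝ, c3 = 2 * C0 * C1 + 2 := ⟨_, rfl⟩
  have hc30 : 0 < c3 := by rw [hc3]; positivity
  obtain ⟨m, hm⟩ : ∃ m : ℝ, m = c2 + c3 + 1 := ⟨_, rfl⟩
  have hm0 : 0 < m := by rw [hm]; positivity
  obtain ⟨T2, hT2⟩ : ∃ T2 : ℝ, T2 = 2 * C0 + c3 + 1 := ⟨_, rfl⟩
  have hT20 : 0 < T2 := by rw [hT2]; positivity
  have hE1 : 0 ≤ E1 C0 j0 κ0 Dw := by
    have h1 : 0 ≤ Hm C0 j0 κ0 := Hm_nonneg
    unfold E1; positivity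
  have hE2 : 0 ≤ E2 C0 j0 κ0 Dw := by
    have h1 : 0 ≤ Hm C0 j0 κ0 := Hm_nonneg
    unfold E2; positivity
  have hEm : 0 < Em C0 j0 κ0 := Em_pos
  have hQc : 0 ≤ Qc C0 j0 κ0 := by unfold Qc; positivity
  have hCi : 0 ≤ Ci C0 j0 κ0 Dw := by unfold Ci; positivity
  obtain ⟨A1, hA1⟩ : ∃ A1 : ℝ, A1 = 1 / (2 * j0) * (m ^ 2 / κ0 ^ 2 * (32 / κ0 ^ 2
    * (2 * C0 * C0 * (T2 ^ 3 * Em C0 j0 κ0)))) := ⟨_, rfl⟩
  obtain ⟨A2, hA2⟩ : ∃ A2 : ℝ, A2 = 1 / (2 * j0) * (m ^ 2 / κ0 ^ 2 * (16 * E1 C0 j0 κ0 Dw)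
    + 2 * Qc C0 j0 κ0 * Ci C0 j0 κ0 Dw + 2 * Qc C0 j0 κ0 * (2 * C0 ^ 2 / j0 ^ 2)
    + 2 * E2 C0 j0 κ0 Dw) := ⟨_, rfl⟩
  have hA10 : 0 ≤ A1 := by rw [hA1]; positivity
  have hA20 : 0 ≤ A2 := by rw [hA2]; positivity
  refine ⟨C1, A1 + A2 + (2 * Ci C0 j0 κ0 Dw + 1),
    min (min (κ0 / (5000 * (c2 + 1))) (κ0 / (5000 * (c3 + 1)))) (min (1 / C1 ^ 2)
      (κ0 / (150 * C0 * C1))), hC11, by positivity, by positivity, ?_⟩
  intro u P κ v b d S hb hb0 _ _ hreg hgeo hv hs0 hS hd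
  have hb1 : (c2 + 1) * b ≤ κ0 / 5000 := by
    have h1 := (lt_of_lt_of_le hb0 ((min_le_left _ _).trans (min_le_left _ _))).le
    rw [le_div_iff₀ (by positivity)] at h1
    rw [le_div_iff₀ (by norm_num)]
    linarith
  have hb2 : (c3 + 1) * b ≤ κ0 / 5000 := by
    have h1 := (lt_of_lt_of_le hb0 ((min_le_left _ _).trans (min_le_right _ _))).le
    rw [le_div_iff₀ (by positivity)] at h1
    rw [le_div_iff₀ (by norm_num)]
    linarith
  have hb3 : C1 ^ 2 * b ≤ 1 := by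
    have h1 := (lt_of_lt_of_le hb0 ((min_le_right _ _).trans (min_le_left _ _))).le
    rw [le_div_iff₀ (by positivity)] at h1
    linarith
  have hb4 : 150 * C0 * C1 * b ≤ κ0 := by
    have h1 := (lt_of_lt_of_le hb0 ((min_le_right _ _).trans (min_le_right _ _))).le
    rw [le_div_iff₀ (by positivity)] at h1
    linarith
  have D : Dat C0 j0 ρ0 κ0 c2 b u P κ v :=
    ⟨hC, hj, hρ, hκ, hκ1, hκρ, hb, by rw [abs_of_pos hc20]; exact hb1, hreg, hgeo, hv⟩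
  have D' : Dat C0 j0 ρ0 κ0 (-c3) b u P κ v :=
    ⟨hC, hj, hρ, hκ, hκ1, hκρ, hb, by rw [abs_neg, abs_of_pos hc30]; exact hb2, hreg, hgeo, hv⟩
  have hble : b ≤ 1 := by
    have := D.b_le
    linarith
  have hd' : ∫ z in Rs κ0 P, qf v z ≤ d ^ 2 := hd
  constructor
  · have hi := D.step_i hD hd' hs0 (D.geoA hc2)
    have k4 := D.first D' (m := m) (T := T2 * b) hD hd' hs0 hS hm0.le
      (by rw [hm]; linarith) (by positivity) (fun z hz => by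
        have := D'.geoB (C3 := c3) rfl z hz
        rw [hT2]; exact this) hi
    have hsub := D'.geoC hC11 (by rw [hc3]) hb3 hb4
    have g4 : ∫ z in disc (C1 * b), v z ^ 2
        ≤ ∫ z in disc 1, 1 / (2 * j0 * b) * Vd C0 j0 κ0 (-c3) b u P v z :=
      int_comp ((Sm.cont D'.sv).pow 2) (continuousOn_const.mul D'.cV)
        (isOpen_disc _).measurableSet (fun z hz => (hsub hz).1) (fun z hz => D'.V_low (hsub hz))
        (fun z hz => mul_nonneg (by positivity)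
          (D'.V_nonneg (disc_mono (by norm_num) (by norm_num) hz)))
    rw [integral_const_mul] at g4
    have k5 := mul_le_mul_of_nonneg_left k4 (show 0 ≤ 1 / (2 * j0 * b) by positivity)
    refine g4.trans (k5.trans ?_)
    exact arith_first hb hble hj hκ hE1 hQc hE2 (by positivity) hCi (by positivity) hA10 hA20
      hA1 hA2
  · exact (D.second hD hd' hs0 hc2 hC' hC1).trans (arith_second hb hble hCi (by positivity))

end Vale.Agent.P229
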