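import Vale.Agent.P229.DownFour

/-!
# P229, module B, part 5: from densities to the two estimates
-/

namespace Vale.Agent.P229.DownAux

open MeasureTheory Set
open scoped ContDiff

section
variable {C0 j0 ρ0 κ0 c c' b K : ℝ} {u P κ v : ℝ × ℝ → ℝ} {z : ℝ × ℝ}

theorem Hc_le2 {K t T T' : ℝ} (hK : 0 ≤ K) (hT : t ≤ T) (hT0 : 0 ≤ T) (hT' : t ≤ T') :
    Hc K t ≤ T ^ 3 * Real.exp (K * T') := by
  unfold Hc
  have h0 : 0 ≤ max t 0 := le_max_right _ _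
  have h1 : max t 0 ≤ T := max_le hT hT0
  have h3 : (max t 0) ^ 3 ≤ T ^ 3 := pow_le_pow_left₀ h0 h1 3
  have h4 : Real.exp (K * t) ≤ Real.exp (K * T') := Real.exp_le_exp.2 (by nlinarith)
  exact mul_le_mul h3 h4 (Real.exp_pos _).le (by positivity)

/-- the exponential bound -/
noncomputable def Em (C0 j0 κ0 : ℝ) : ℝ := Real.exp (Kc C0 j0 κ0 * (2 * C0 + 2))

theorem Em_pos : 0 < Em C0 j0 κ0 := Real.exp_pos _

/-- source term -/
theorem Dat.Q_source (D : Dat C0 j0 ρ0 κ0 c b u P κ v) {T : ℝ} (hT : 0 ≤ T)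
    (hta : ∀ z ∈ disc b, ta κ0 c b u P z ≤ T) {s : ℝ × ℝ → ℝ} (hs : ContinuousOn s (disc 2))
    (hs0 : ∀ z ∈ disc 1, z ∉ disc b → s z = 0) :
    ∫ z in disc 1, Qd C0 j0 κ0 c b u P s z
      ≤ 2 * C0 * C0 * (T ^ 3 * Em C0 j0 κ0) * ∫ z in disc b, s z ^ 2 := by
  have hb1 : b ≤ 1 := by have := D.b_le; have := D.hκ1; linarith
  have hsub : disc b ⊆ disc 1 := disc_mono D.hb.le hb1
  have hmeas : MeasurableSet (disc b) := (isOpen_disc b).measurableSet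
  have hC := D.hC
  have hE := Em_pos (C0 := C0) (j0 := j0) (κ0 := κ0)
  have hpt : ∀ z ∈ disc 1, Qd C0 j0 κ0 c b u P s z
      ≤ 2 * C0 * C0 * (T ^ 3 * Em C0 j0 κ0) * (disc b).indicator (fun z => s z ^ 2) z := by
    intro z hz
    have hz2 : z ∈ disc 2 := disc_mono (by norm_num) (by norm_num) hz
    by_cases h : z ∈ disc b
    · rw [indicator_of_mem h]
      have h1 : Hc (Kc C0 j0 κ0) (ta κ0 c b u P z) ≤ T ^ 3 * Em C0 j0 κ0 :=
        Hc_le2 (Kc_nonneg D.hj) (hta z h) hT (D.ta_le hz2)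
      have h2 := Hc_nonneg (Kc C0 j0 κ0) (ta κ0 c b u P z)
      have h3 := om_nonneg κ0 (P z)
      have h4 := om_le_one κ0 (P z)
      have h5 := D.J_le hz2
      have h6 := (D.Jpos hz2).le
      unfold Qd
      have e1 : om κ0 (P z) * (Hc (Kc C0 j0 κ0) (ta κ0 c b u P z) * s z ^ 2)
          ≤ 1 * (T ^ 3 * Em C0 j0 κ0 * s z ^ 2) :=
        mul_le_mul h4 (mul_le_mul_of_nonneg_right h1 (sq_nonneg _))
          (mul_nonneg h2 (sq_nonneg _)) (by norm_num)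
      have e2 := mul_le_mul h5 e1 (mul_nonneg h3 (mul_nonneg h2 (sq_nonneg _))) (by positivity)
      calc _ ≤ _ := e2
        _ = _ := by ring
    · rw [indicator_of_notMem h]
      unfold Qd
      rw [hs0 z hz h]; simp
  have i1 := int_on (D.cQ hs)
  have i2 : IntegrableOn (fun z => 2 * C0 * C0 * (T ^ 3 * Em C0 j0 κ0)
      * (disc b).indicator (fun z => s z ^ 2) z) (disc 1) :=
    (int_ind_on (hs.pow 2) hmeas).const_mul _
  have h := setIntegral_mono_on i1 i2 (isOpen_disc 1).measurableSet hpt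
  rw [integral_const_mul, int_ind hmeas hsub] at h
  exact h

/-- crude estimate for the cubic term -/
theorem Dat.Q_crude (D : Dat C0 j0 ρ0 κ0 c b u P κ v) {T : ℝ} (hT0 : 0 ≤ T) (hz : z ∈ disc 2)
    (hT : ta κ0 c b u P z ≤ T) :
    Qd C0 j0 κ0 c b u P (No u P v) z ≤ T ^ 2 / (2 * κ0 ^ 2) * Gd C0 j0 κ0 c b u P v z := by
  have h1 := Hc_le (Kc_nonneg (C0 := C0) (κ0 := κ0) D.hj) hT hT0
  have h2 := Hd_nonneg (Kc_nonneg (C0 := C0) (κ0 := κ0) D.hj) (ta κ0 c b u P z)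
  have h3 := om_nonneg κ0 (P z)
  have h6 := (D.Jpos hz).le
  have hκ := D.hκ
  unfold Qd Gd
  set h := Hd (Kc C0 j0 κ0) (ta κ0 c b u P z)
  set w := om κ0 (P z)
  set J := br u P z
  set A := No u P v z
  set B := Lo u P v z
  have e1 : J * (w * (Hc (Kc C0 j0 κ0) (ta κ0 c b u P z) * A ^ 2))
      ≤ J * (w * (T ^ 2 / 2 * h * A ^ 2)) :=
    mul_le_mul_of_nonneg_left (mul_le_mul_of_nonneg_left
      (mul_le_mul_of_nonneg_right h1 (sq_nonneg _)) h3) h6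
  have e2 : T ^ 2 / (2 * κ0 ^ 2) * (J * (h * w * (B ^ 2 + κ0 ^ 2 * A ^ 2)))
      = J * (w * (T ^ 2 / 2 * h * A ^ 2)) + T ^ 2 / (2 * κ0 ^ 2) * (J * (h * w * B ^ 2)) := by
    field_simp; ring
  have e3 : 0 ≤ T ^ 2 / (2 * κ0 ^ 2) * (J * (h * w * B ^ 2)) := by positivity
  rw [e2]
  linarith

/-- the set where the weight is large -/
def Si (κ0 c b : ℝ) (u P : ℝ × ℝ → ℝ) : Set (ℝ × ℝ) :=
  {z | z ∈ disc 1 ∧ b ≤ ta κ0 c b u P z ∧ P z ≤ κ0 / 75}

theorem Dat.meas_Si (D : Dat C0 j0 ρ0 κ0 c b u P κ v) : MeasurableSet (Si κ0 c b u P) := by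
  have h1 := meas_le D.cta b
  have h2 := meas_le (Sm.cont D.reg.sP).neg (-(κ0 / 75))
  have e : Si κ0 c b u P = {z | z ∈ disc 1 ∧ b ≤ ta κ0 c b u P z} ∩
      {z | z ∈ disc 1 ∧ -(κ0 / 75) ≤ (-P) z} := by
    ext z
    simp only [Si, mem_ofPred_eq, mem_inter_iff, Pi.neg_apply, neg_le_neg_iff]
    tauto
  rw [e]
  exact h1.inter h2

/-- lower bound for the weight -/
theorem Dat.weight_low (D : Dat C0 j0 ρ0 κ0 c b u P κ v) (hz : z ∈ Si κ0 c b u P) :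
    2 * j0 * b ≤ br u P z * (Hd (Kc C0 j0 κ0) (ta κ0 c b u P z) * om κ0 (P z)) := by
  have hz2 : z ∈ disc 2 := disc_mono (by norm_num) (by norm_num) hz.1
  have h1 : om κ0 (P z) = 1 := om_eq_one D.hκ (hz.2.2.trans (by
    have := D.hκ
    rw [div_le_div_iff₀ (by norm_num) (by norm_num)]; linarith))
  have h2 := two_mul_le_Hd (Kc_nonneg (C0 := C0) (κ0 := κ0) D.hj) (ta κ0 c b u P z)
  have h3 := hz.2.1
  rw [h1, mul_one]
  have hb := D.hb
  have hj := D.hj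
  have h4 := mul_le_mul (D.reg.J z hz2) (show 2 * b ≤ Hd (Kc C0 j0 κ0) (ta κ0 c b u P z) by linarith)
    (by positivity) (D.Jpos hz2).le
  linarith

theorem Dat.V_low (D : Dat C0 j0 ρ0 κ0 c b u P κ v) (hz : z ∈ Si κ0 c b u P) :
    v z ^ 2 ≤ 1 / (2 * j0 * b) * Vd C0 j0 κ0 c b u P v z := by
  have h := D.weight_low hz
  have hb := D.hb
  have hj := D.hj
  rw [one_div, inv_mul_eq_div, le_div_iff₀ (by positivity)]
  unfold Vd
  have := mul_le_mul_of_nonneg_left h (sq_nonneg (v z))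
  calc _ ≤ _ := this
    _ = _ := by ring

theorem Dat.G_low (D : Dat C0 j0 ρ0 κ0 c b u P κ v) (hz : z ∈ Si κ0 c b u P) :
    No u P v z ^ 2 ≤ 1 / (2 * j0 * b * κ0 ^ 2) * Gd C0 j0 κ0 c b u P v z := by
  have h := D.weight_low hz
  have hb := D.hb
  have hj := D.hj
  have hκ := D.hκ
  have hz2 : z ∈ disc 2 := disc_mono (by norm_num) (by norm_num) hz.1
  rw [one_div, inv_mul_eq_div, le_div_iff₀ (by positivity)]
  unfold Gd
  have h2 := Hd_nonneg (Kc_nonneg (C0 := C0) (κ0 := κ0) D.hj) (ta κ0 c b u P z)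
  have h3 := om_nonneg κ0 (P z)
  have h6 := (D.Jpos hz2).le
  have := mul_le_mul_of_nonneg_left h (show 0 ≤ κ0 ^ 2 * No u P v z ^ 2 by positivity)
  have h7 : 0 ≤ br u P z * (Hd (Kc C0 j0 κ0) (ta κ0 c b u P z) * om κ0 (P z) * Lo u P v z ^ 2) := by
    positivity
  calc No u P v z ^ 2 * (2 * j0 * b * κ0 ^ 2) = κ0 ^ 2 * No u P v z ^ 2 * (2 * j0 * b) := by ring
    _ ≤ _ := this
    _ ≤ κ0 ^ 2 * No u P v z ^ 2 * (br u P z * (Hd (Kc C0 j0 κ0) (ta κ0 c b u P z) * om κ0 (P z)))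
        + br u P z * (Hd (Kc C0 j0 κ0) (ta κ0 c b u P z) * om κ0 (P z) * Lo u P v z ^ 2) := by
      linarith
    _ = _ := by ring

/-- comparison of integrals -/
theorem int_comp {f g : ℝ × ℝ → ℝ} {S : Set (ℝ × ℝ)} (hf : ContinuousOn f (disc 2))
    (hg : ContinuousOn g (disc 2)) (hS : MeasurableSet S) (hS1 : S ⊆ disc 1)
    (h : ∀ z ∈ S, f z ≤ g z) (h0 : ∀ z ∈ disc 1, 0 ≤ g z) :
    ∫ z in S, f z ≤ ∫ z in disc 1, g z := by
  have h1 : ∫ z in S, f z ≤ ∫ z in S, g z :=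
    setIntegral_mono_on ((int_on hf).mono_set hS1) ((int_on hg).mono_set hS1) hS h
  refine h1.trans (setIntegral_mono_set (int_on hg) ?_ (Filter.Eventually.of_forall hS1))
  exact (ae_restrict_iff' (isOpen_disc 1).measurableSet).2 (Filter.Eventually.of_forall h0)

/-- constant of the first estimate -/
noncomputable def Ci (C0 j0 κ0 Dw : ℝ) : ℝ :=
  1 / (2 * j0) * (2 * ((2 * C0 + 2) ^ 2 / (2 * κ0 ^ 2) * (16 * E1 C0 j0 κ0 Dw))
    + 2 * E2 C0 j0 κ0 Dw + 1 / κ0 ^ 2 * (16 * E1 C0 j0 κ0 Dw))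

theorem Dat.E1_nonneg (D : Dat C0 j0 ρ0 κ0 c b u P κ v) {Dw : ℝ} (hDw : 0 ≤ Dw) :
    0 ≤ E1 C0 j0 κ0 Dw := by
  have h1 : 0 ≤ Hm C0 j0 κ0 := Hm_nonneg
  have hC := D.hC
  have hj := D.hj
  unfold E1; positivity

theorem Dat.E2_nonneg (D : Dat C0 j0 ρ0 κ0 c b u P κ v) {Dw : ℝ} (hDw : 0 ≤ Dw) :
    0 ≤ E2 C0 j0 κ0 Dw := by
  have h1 : 0 ≤ Hm C0 j0 κ0 := Hm_nonneg
  have hC := D.hC
  unfold E2; positivity

/-- estimate (i) -/
theorem Dat.step_i (D : Dat C0 j0 ρ0 κ0 c b u P κ v) {Dw d : ℝ}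
    (hD : ∀ p, |deriv (om κ0) p| ≤ Dw) (hd : ∫ z in Rs κ0 P, qf v z ≤ d ^ 2)
    (hs0 : ∀ z ∈ disc 1, z ∉ disc b → Op u P κ v z = 0)
    (hta : ∀ z ∈ disc b, ta κ0 c b u P z ≤ 0) :
    ∫ z in Si κ0 c b u P, (v z ^ 2 + No u P v z ^ 2) ≤ Ci C0 j0 κ0 Dw * d ^ 2 / b := by
  have hDw : 0 ≤ Dw := (abs_nonneg _).trans (hD 0)
  have hE1 := D.E1_nonneg hDw
  have hE2 := D.E2_nonneg hDw
  have hb := D.hb
  have hj := D.hj
  have hκ := D.hκ
  have hC := D.hC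
  have g1 := D.energy_int hD hd
  have g2 := D.Q_source (T := 0) le_rfl hta (Sm.cont D.sOp) hs0
  have g3 := D.zero_int hD hd
  have g4 : ∫ z in disc 1, Qd C0 j0 κ0 c b u P (No u P v) z
      ≤ (2 * C0 + 2) ^ 2 / (2 * κ0 ^ 2) * ∫ z in disc 1, Gd C0 j0 κ0 c b u P v z := by
    rw [← integral_const_mul]
    refine setIntegral_mono_on (int_on (D.cQ (Sm.cont D.sA))) ((int_on D.cG).const_mul _)
      (isOpen_disc 1).measurableSet (fun z hz => ?_)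
    have hz2 : z ∈ disc 2 := disc_mono (by norm_num) (by norm_num) hz
    exact D.Q_crude (by linarith) hz2 (D.ta_le hz2)
  set IG := ∫ z in disc 1, Gd C0 j0 κ0 c b u P v z
  set IV := ∫ z in disc 1, Vd C0 j0 κ0 c b u P v z with hIV
  have k1 : IG ≤ 16 * E1 C0 j0 κ0 Dw * d ^ 2 := by
    have h0 : ∫ z in disc 1, Qd C0 j0 κ0 c b u P (Op u P κ v) z ≤ 0 := by simpa using g2
    have h1 : 32 / κ0 ^ 2 * (∫ z in disc 1, Qd C0 j0 κ0 c b u P (Op u P κ v) z) ≤ 0 :=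
      mul_nonpos_of_nonneg_of_nonpos (by positivity) h0
    linarith
  have k2 : IV ≤ 2 * ((2 * C0 + 2) ^ 2 / (2 * κ0 ^ 2) * (16 * E1 C0 j0 κ0 Dw * d ^ 2))
      + 2 * E2 C0 j0 κ0 Dw * d ^ 2 := by
    have h1 : (2 * C0 + 2) ^ 2 / (2 * κ0 ^ 2) * IG
        ≤ (2 * C0 + 2) ^ 2 / (2 * κ0 ^ 2) * (16 * E1 C0 j0 κ0 Dw * d ^ 2) :=
      mul_le_mul_of_nonneg_left k1 (by positivity)
    linarith
  have cV := D.cV
  have cG := D.cG
  have cg : ContinuousOn (fun z => 1 / (2 * j0 * b) * Vd C0 j0 κ0 c b u P v z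
      + 1 / (2 * j0 * b * κ0 ^ 2) * Gd C0 j0 κ0 c b u P v z) (disc 2) :=
    (continuousOn_const.mul cV).add (continuousOn_const.mul cG)
  have cf : ContinuousOn (fun z => v z ^ 2 + No u P v z ^ 2) (disc 2) :=
    ((Sm.cont D.sv).pow 2).add ((Sm.cont D.sA).pow 2)
  have key := int_comp cf cg D.meas_Si (fun z hz => hz.1)
    (fun z hz => add_le_add (D.V_low hz) (D.G_low hz))
    (fun z hz => by
      have hz2 : z ∈ disc 2 := disc_mono (by norm_num) (by norm_num) hz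
      have h1 := D.V_nonneg hz2
      have h2 := D.G_nonneg hz2
      positivity)
  have i1 : IntegrableOn (fun z => 1 / (2 * j0 * b) * Vd C0 j0 κ0 c b u P v z) (disc 1) :=
    (int_on cV).const_mul _
  have i2 : IntegrableOn (fun z => 1 / (2 * j0 * b * κ0 ^ 2) * Gd C0 j0 κ0 c b u P v z) (disc 1) :=
    (int_on cG).const_mul _
  rw [integral_add i1 i2, integral_const_mul, integral_const_mul] at key
  refine key.trans ?_
  have m1 := mul_le_mul_of_nonneg_left k2 (show 0 ≤ 1 / (2 * j0 * b) by positivity)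
  have m2 := mul_le_mul_of_nonneg_left k1 (show 0 ≤ 1 / (2 * j0 * b * κ0 ^ 2) by positivity)
  refine (add_le_add m1 m2).trans (le_of_eq ?_)
  unfold Ci
  field_simp

/-- constant for the second estimate, cubic term -/
noncomputable def Qc (C0 j0 κ0 : ℝ) : ℝ := 2 * C0 * C0 * ((2 * C0 + 2) ^ 3 * Em C0 j0 κ0)

/-- estimate (ii), integrated cubic term -/
theorem Dat.Q_ii (D : Dat C0 j0 ρ0 κ0 c b u P κ v) (D' : Dat C0 j0 ρ0 κ0 c' b u P κ v) {m d X : ℝ}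
    (hm : 0 ≤ m) (hc : c - c' ≤ m - 1) (hd : ∫ z in Rs κ0 P, qf v z ≤ d ^ 2)
    (hX : ∫ z in Si κ0 c b u P, (v z ^ 2 + No u P v z ^ 2) ≤ X) :
    ∫ z in disc 1, Qd C0 j0 κ0 c' b u P (No u P v) z
      ≤ (m * b) ^ 2 / (2 * κ0 ^ 2) * (∫ z in disc 1, Gd C0 j0 κ0 c' b u P v z)
        + Qc C0 j0 κ0 * X + Qc C0 j0 κ0 * (2 * C0 ^ 2 / j0 ^ 2) * d ^ 2 := by
  have hb := D.hb
  have hj := D.hj
  have hκ := D.hκ
  have hC := D.hC
  have hE := Em_pos (C0 := C0) (j0 := j0) (κ0 := κ0)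
  have hQ0 : 0 ≤ Qc C0 j0 κ0 := by unfold Qc; positivity
  have hRm : MeasurableSet (Rs κ0 P) := meas_Rs (Sm.cont D.reg.sP)
  have hq := (qf_cont D.hv).continuousOn (s := disc 2)
  have cf : ContinuousOn (fun z => v z ^ 2 + No u P v z ^ 2) (disc 2) :=
    ((Sm.cont D.sv).pow 2).add ((Sm.cont D.sA).pow 2)
  have hpt : ∀ z ∈ disc 1, Qd C0 j0 κ0 c' b u P (No u P v) z
      ≤ (m * b) ^ 2 / (2 * κ0 ^ 2) * Gd C0 j0 κ0 c' b u P v z
        + Qc C0 j0 κ0 * (Si κ0 c b u P).indicator (fun z => v z ^ 2 + No u P v z ^ 2) z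
        + Qc C0 j0 κ0 * (2 * C0 ^ 2 / j0 ^ 2) * (Rs κ0 P).indicator (qf v) z := by
    intro z hz
    have hz2 : z ∈ disc 2 := disc_mono (by norm_num) (by norm_num) hz
    have hG := D'.G_nonneg hz2
    have hGc : 0 ≤ (m * b) ^ 2 / (2 * κ0 ^ 2) * Gd C0 j0 κ0 c' b u P v z := by positivity
    have hI1 : 0 ≤ (Si κ0 c b u P).indicator (fun z => v z ^ 2 + No u P v z ^ 2) z :=
      indicator_nonneg (fun w _ => by positivity) z
    have hI2 : 0 ≤ (Rs κ0 P).indicator (qf v) z := indicator_nonneg (fun w _ => qf_nonneg v w) z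
    have hI1' := mul_nonneg hQ0 hI1
    have hI2' := mul_nonneg (mul_nonneg hQ0 (show 0 ≤ 2 * C0 ^ 2 / j0 ^ 2 by positivity)) hI2
    by_cases h : ta κ0 c' b u P z ≤ m * b
    · have := D'.Q_crude (by positivity) hz2 h
      linarith
    have hbig : b ≤ ta κ0 c b u P z := by
      have h1 := not_le.1 h
      have h2 : ta κ0 c b u P z = ta κ0 c' b u P z - (c - c') * b := by unfold ta zt; ring
      rw [h2]
      nlinarith
    have hcr : Qd C0 j0 κ0 c' b u P (No u P v) z ≤ Qc C0 j0 κ0 * No u P v z ^ 2 := by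
      have h1 : Hc (Kc C0 j0 κ0) (ta κ0 c' b u P z) ≤ (2 * C0 + 2) ^ 3 * Em C0 j0 κ0 :=
        Hc_le' (Kc_nonneg D.hj) (D'.ta_le hz2) (by linarith)
      have h2 := Hc_nonneg (Kc C0 j0 κ0) (ta κ0 c' b u P z)
      have h3 := om_nonneg κ0 (P z)
      have h4 := om_le_one κ0 (P z)
      have h5 := D.J_le hz2
      have h6 := (D.Jpos hz2).le
      unfold Qd Qc
      have e1 : om κ0 (P z) * (Hc (Kc C0 j0 κ0) (ta κ0 c' b u P z) * No u P v z ^ 2)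
          ≤ 1 * ((2 * C0 + 2) ^ 3 * Em C0 j0 κ0 * No u P v z ^ 2) :=
        mul_le_mul h4 (mul_le_mul_of_nonneg_right h1 (sq_nonneg _))
          (mul_nonneg h2 (sq_nonneg _)) (by norm_num)
      have e2 := mul_le_mul h5 e1 (mul_nonneg h3 (mul_nonneg h2 (sq_nonneg _))) (by positivity)
      calc _ ≤ _ := e2
        _ = _ := by ring
    by_cases hP : P z ≤ κ0 / 75
    · have hmem : z ∈ Si κ0 c b u P := ⟨hz, hbig, hP⟩
      rw [indicator_of_mem hmem]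
      have : Qc C0 j0 κ0 * No u P v z ^ 2 ≤ Qc C0 j0 κ0 * (v z ^ 2 + No u P v z ^ 2) :=
        mul_le_mul_of_nonneg_left (by nlinarith [sq_nonneg (v z)]) hQ0
      linarith
    · have hmem : z ∈ Rs κ0 P := ⟨hz, lt_of_lt_of_le (not_le.1 hP) (le_abs_self _)⟩
      rw [indicator_of_mem hmem]
      have hA := D.A_le hz2
      have hq' : dx v z ^ 2 + dy v z ^ 2 ≤ qf v z := by unfold qf; nlinarith [sq_nonneg (v z)]
      have h3 : 2 * C0 ^ 2 / j0 ^ 2 * (dx v z ^ 2 + dy v z ^ 2) ≤ 2 * C0 ^ 2 / j0 ^ 2 * qf v z :=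
        mul_le_mul_of_nonneg_left hq' (by positivity)
      have h4 := mul_le_mul_of_nonneg_left (hA.trans h3) hQ0
      have h5 : Qc C0 j0 κ0 * (2 * C0 ^ 2 / j0 ^ 2 * qf v z)
          = Qc C0 j0 κ0 * (2 * C0 ^ 2 / j0 ^ 2) * qf v z := by ring
      linarith
  have i0 := int_on (D'.cQ (Sm.cont D.sA))
  have i1 : IntegrableOn (fun z => (m * b) ^ 2 / (2 * κ0 ^ 2) * Gd C0 j0 κ0 c' b u P v z)
      (disc 1) := (int_on D'.cG).const_mul _
  have i2 : IntegrableOn (fun z => Qc C0 j0 κ0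
      * (Si κ0 c b u P).indicator (fun z => v z ^ 2 + No u P v z ^ 2) z) (disc 1) :=
    (int_ind_on cf D.meas_Si).const_mul _
  have i3 : IntegrableOn (fun z => Qc C0 j0 κ0 * (2 * C0 ^ 2 / j0 ^ 2)
      * (Rs κ0 P).indicator (qf v) z) (disc 1) := (int_ind_on hq hRm).const_mul _
  have h := setIntegral_mono_on i0 ((i1.add i2).add i3) (isOpen_disc 1).measurableSet hpt
  have hsplit := integral_add (i1.add i2) i3
  have hsplit2 := integral_add i1 i2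
  simp only [Pi.add_apply] at h hsplit hsplit2
  rw [hsplit, hsplit2, integral_const_mul, integral_const_mul, integral_const_mul,
    int_ind hRm (fun z hz => hz.1), int_ind D.meas_Si (fun z hz => hz.1)] at h
  have m1 := mul_le_mul_of_nonneg_left hX hQ0
  have m2 := mul_le_mul_of_nonneg_left hd
    (mul_nonneg hQ0 (show 0 ≤ 2 * C0 ^ 2 / j0 ^ 2 by positivity))
  linarith

end

end Vale.Agent.P229.DownAux
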