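import Vale.Agent.P229.BdAlg
import Vale.Agent.P229.Reflect

/-!
# P229, module B (energy estimate near the bump), part 1: one-variable functions
-/

namespace Vale.Agent.P229.DownAux

open MeasureTheory Set
open scoped ContDiff

/-! ### the cutoff in `P` -/

/-- cutoff: `1` for `p ≤ κ0/60`, `0` for `p ≥ κ0/50` -/
noncomputable def om (κ0 p : ℝ) : ℝ := Real.smoothTransition ((κ0 / 50 - p) / (κ0 / 300))

theorem om_contDiff (κ0 : ℝ) : ContDiff ℝ ∞ (om κ0) := by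
  have h : ContDiff ℝ ∞ (fun p : ℝ => (κ0 / 50 - p) / (κ0 / 300)) :=
    (contDiff_const.sub contDiff_id).div_const _
  exact (Real.smoothTransition.contDiff (n := ⊤)).comp h

theorem om_nonneg (κ0 p : ℝ) : 0 ≤ om κ0 p := Real.smoothTransition.nonneg _

theorem om_le_one (κ0 p : ℝ) : om κ0 p ≤ 1 := Real.smoothTransition.le_one _

theorem om_eq_one {κ0 p : ℝ} (hκ : 0 < κ0) (hp : p ≤ κ0 / 60) : om κ0 p = 1 := by
  refine Real.smoothTransition.one_of_one_le ?_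
  rw [le_div_iff₀ (by positivity)]
  linarith

theorem om_eq_zero {κ0 p : ℝ} (hκ : 0 < κ0) (hp : κ0 / 50 ≤ p) : om κ0 p = 0 := by
  refine Real.smoothTransition.zero_of_nonpos ?_
  refine div_nonpos_of_nonpos_of_nonneg (by linarith) (by positivity)

theorem om_hasDerivAt (κ0 p : ℝ) : HasDerivAt (om κ0) (deriv (om κ0) p) p :=
  (((om_contDiff κ0).differentiable (by simp)) p).hasDerivAt

theorem om_deriv_eq_zero {κ0 p : ℝ} (hκ : 0 < κ0) (hp : p ≤ κ0 / 75) : deriv (om κ0) p = 0 := by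
  have h : om κ0 =ᶠ[nhds p] fun _ => 1 := by
    have hp' : p < κ0 / 60 := lt_of_le_of_lt hp (by
      rw [div_lt_div_iff₀ (by norm_num) (by norm_num)]; linarith)
    filter_upwards [Iio_mem_nhds hp'] with q hq
    exact om_eq_one hκ (le_of_lt hq)
  rw [h.deriv_eq]; simp

theorem om_deriv_bound {κ0 : ℝ} (hκ : 0 < κ0) : ∃ D : ℝ, 0 ≤ D ∧ ∀ p, |deriv (om κ0) p| ≤ D := by
  have hc : Continuous (deriv (om κ0)) := (om_contDiff κ0).continuous_deriv (by simp)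
  obtain ⟨D, hD⟩ := (isCompact_Icc (a := κ0 / 75) (b := κ0 / 50)).exists_bound_of_continuousOn
    hc.continuousOn
  refine ⟨max D 0, le_max_right _ _, fun p => ?_⟩
  by_cases h1 : p ≤ κ0 / 75
  · rw [om_deriv_eq_zero hκ h1, abs_zero]; exact le_max_right _ _
  · by_cases h2 : p ≤ κ0 / 50
    · exact (hD p ⟨(not_le.1 h1).le, h2⟩).trans (le_max_left _ _)
    · have h : om κ0 =ᶠ[nhds p] fun _ => 0 := by
        filter_upwards [Ioi_mem_nhds (not_le.1 h2)] with q hq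
        exact om_eq_zero hκ (le_of_lt hq)
      rw [h.deriv_eq]; simp

/-! ### the weight -/

/-- `H(t) = (t₊)² e^{Kt}` -/
noncomputable def Hf (K t : ℝ) : ℝ := (max t 0) ^ 2 * Real.exp (K * t)
/-- its derivative -/
noncomputable def Hd (K t : ℝ) : ℝ := (2 * max t 0 + K * (max t 0) ^ 2) * Real.exp (K * t)

theorem hasDerivAt_sq (t : ℝ) : HasDerivAt (fun s : ℝ => (max s 0) ^ 2) (2 * max t 0) t := by
  rcases lt_trichotomy t 0 with h | h | h
  · have e : (fun s : ℝ => (max s 0) ^ 2) =ᶠ[nhds t] fun _ => 0 := by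
      filter_upwards [Iio_mem_nhds h] with s hs
      rw [max_eq_right (le_of_lt hs)]; simp
    rw [max_eq_right h.le, mul_zero]
    exact (hasDerivAt_const t (0 : ℝ)).congr_of_eventuallyEq e
  · subst h
    rw [max_self, mul_zero]
    have hb : ∀ s : ℝ, |(max s 0) ^ 2| ≤ 1 * |s| ^ 2 := by
      intro s
      rw [abs_of_nonneg (by positivity), one_mul]
      refine pow_le_pow_left₀ (le_max_right _ _) (max_le (le_abs_self s) (abs_nonneg s)) 2
    rw [hasDerivAt_iff_isLittleO_nhds_zero]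
    simp only [zero_add, max_self, smul_zero, sub_zero, ne_eq, OfNat.ofNat_ne_zero,
      not_false_eq_true, zero_pow]
    refine Asymptotics.IsBigO.trans_isLittleO (g := fun s : ℝ => s ^ 2) ?_ ?_
    · refine Asymptotics.IsBigO.of_bound 1 (Filter.Eventually.of_forall fun s => ?_)
      simpa [Real.norm_eq_abs, abs_pow] using hb s
    · exact (Asymptotics.isLittleO_pow_id (n := 2) (by norm_num))
  · have e : (fun s : ℝ => (max s 0) ^ 2) =ᶠ[nhds t] fun s => s ^ 2 := by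
      filter_upwards [Ioi_mem_nhds h] with s hs
      rw [max_eq_left (le_of_lt hs)]
    rw [max_eq_left h.le]
    have := (hasDerivAt_pow 2 t)
    simp only [Nat.cast_ofNat, Nat.add_one_sub_one, pow_one] at this
    exact this.congr_of_eventuallyEq e

theorem Hf_hasDerivAt (K t : ℝ) : HasDerivAt (Hf K) (Hd K t) t := by
  have h1 := hasDerivAt_sq t
  have h2 : HasDerivAt (fun s : ℝ => Real.exp (K * s)) (Real.exp (K * t) * K) t := by
    have := ((hasDerivAt_id t).const_mul K).exp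
    simpa using this
  have := h1.mul h2
  refine this.congr_deriv ?_
  simp only [Hd]; ring

theorem Hd_continuous (K : ℝ) : Continuous (Hd K) := by
  unfold Hd; fun_prop

theorem Hf_contDiff (K : ℝ) : ContDiff ℝ 1 (Hf K) := by
  rw [contDiff_one_iff_deriv]
  refine ⟨fun t => (Hf_hasDerivAt K t).differentiableAt, ?_⟩
  have : deriv (Hf K) = Hd K := by ext t; exact (Hf_hasDerivAt K t).deriv
  rw [this]; exact Hd_continuous K

theorem Hf_nonneg (K t : ℝ) : 0 ≤ Hf K t := by unfold Hf; positivity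

theorem Hd_nonneg {K : ℝ} (hK : 0 ≤ K) (t : ℝ) : 0 ≤ Hd K t := by
  unfold Hd
  have : 0 ≤ max t 0 := le_max_right _ _
  positivity

theorem Hf_of_nonpos {K t : ℝ} (h : t ≤ 0) : Hf K t = 0 := by simp [Hf, max_eq_right h]

theorem Hd_of_nonpos {K t : ℝ} (h : t ≤ 0) : Hd K t = 0 := by simp [Hd, max_eq_right h]

theorem mul_Hf_le_Hd (K t : ℝ) : K * Hf K t ≤ Hd K t := by
  unfold Hf Hd
  have h0 : 0 ≤ max t 0 := le_max_right _ _
  have := Real.exp_pos (K * t)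
  nlinarith [mul_nonneg h0 this.le]

theorem two_mul_le_Hd {K : ℝ} (hK : 0 ≤ K) (t : ℝ) : 2 * t ≤ Hd K t := by
  by_cases h : t ≤ 0
  · rw [Hd_of_nonpos h]; linarith
  · have h' : 0 < t := not_le.1 h
    unfold Hd
    rw [max_eq_left h'.le]
    have h1 : 1 ≤ Real.exp (K * t) := Real.one_le_exp (by positivity)
    have h2 : 0 ≤ K * t ^ 2 := by positivity
    nlinarith

/-- the quantity `t₊³ e^{Kt}` -/
noncomputable def Hc (K t : ℝ) : ℝ := (max t 0) ^ 3 * Real.exp (K * t)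

theorem Hc_continuous (K : ℝ) : Continuous (Hc K) := by
  unfold Hc; fun_prop

theorem Hc_nonneg (K t : ℝ) : 0 ≤ Hc K t := by
  unfold Hc
  have : 0 ≤ max t 0 := le_max_right _ _
  positivity

theorem Hc_of_nonpos {K t : ℝ} (h : t ≤ 0) : Hc K t = 0 := by simp [Hc, max_eq_right h]

/-- `t₊³ e^{Kt} ≤ (T²/2) H'` for `t ≤ T` -/
theorem Hc_le {K t T : ℝ} (hK : 0 ≤ K) (hT : t ≤ T) (hT0 : 0 ≤ T) :
    Hc K t ≤ T ^ 2 / 2 * Hd K t := by
  unfold Hc Hd
  have h0 : 0 ≤ max t 0 := le_max_right _ _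
  have h1 : max t 0 ≤ T := max_le hT hT0
  have he := Real.exp_pos (K * t)
  have h2 : (max t 0) ^ 3 ≤ T ^ 2 / 2 * (2 * max t 0 + K * (max t 0) ^ 2) := by
    have h3 : (max t 0) ^ 2 ≤ T ^ 2 := pow_le_pow_left₀ h0 h1 2
    have h4 : (max t 0) ^ 3 ≤ T ^ 2 * max t 0 := by
      have := mul_le_mul_of_nonneg_right h3 h0
      calc (max t 0) ^ 3 = (max t 0) ^ 2 * max t 0 := by ring
        _ ≤ _ := this
    have h5 : 0 ≤ T ^ 2 / 2 * (K * (max t 0) ^ 2) := by positivity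
    linarith
  calc (max t 0) ^ 3 * Real.exp (K * t)
      ≤ (T ^ 2 / 2 * (2 * max t 0 + K * (max t 0) ^ 2)) * Real.exp (K * t) :=
        mul_le_mul_of_nonneg_right h2 he.le
    _ = _ := by ring

theorem Hc_le' {K t T : ℝ} (hK : 0 ≤ K) (hT : t ≤ T) (hT0 : 0 ≤ T) :
    Hc K t ≤ T ^ 3 * Real.exp (K * T) := by
  unfold Hc
  have h0 : 0 ≤ max t 0 := le_max_right _ _
  have h1 : max t 0 ≤ T := max_le hT hT0
  have h3 : (max t 0) ^ 3 ≤ T ^ 3 := pow_le_pow_left₀ h0 h1 3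
  have h4 : Real.exp (K * t) ≤ Real.exp (K * T) := Real.exp_le_exp.2 (by nlinarith)
  exact mul_le_mul h3 h4 (Real.exp_pos _).le (by positivity)

theorem Hf_le' {K t T : ℝ} (hK : 0 ≤ K) (hT : t ≤ T) (hT0 : 0 ≤ T) :
    Hf K t ≤ T ^ 2 * Real.exp (K * T) := by
  unfold Hf
  have h0 : 0 ≤ max t 0 := le_max_right _ _
  have h1 : max t 0 ≤ T := max_le hT hT0
  have h3 : (max t 0) ^ 2 ≤ T ^ 2 := pow_le_pow_left₀ h0 h1 2
  have h4 : Real.exp (K * t) ≤ Real.exp (K * T) := Real.exp_le_exp.2 (by nlinarith)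
  exact mul_le_mul h3 h4 (Real.exp_pos _).le (by positivity)

/-- absorbing the source: `s H A ≤ (κ²/16) H' A² + (2/κ²) Hc s²` -/
theorem source_absorb {K t κ0 s A : ℝ} (hK : 0 ≤ K) (hκ : 0 < κ0) :
    s * Hf K t * A ≤ κ0 ^ 2 / 16 * (Hd K t * A ^ 2) + 2 / κ0 ^ 2 * (Hc K t * s ^ 2) := by
  have h0 : 0 ≤ max t 0 := le_max_right _ _
  have he := Real.exp_pos (K * t)
  set m := max t 0 with hm
  set E := Real.exp (K * t) with hE
  have key : s * m ^ 2 * A ≤ κ0 ^ 2 / 8 * (m * A ^ 2) + 2 / κ0 ^ 2 * (m ^ 3 * s ^ 2) := by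
    have h1 : 0 ≤ m * (κ0 * A / 2 - 2 / κ0 * (m * s)) ^ 2 := by positivity
    have h2 : m * (κ0 * A / 2 - 2 / κ0 * (m * s)) ^ 2
        = κ0 ^ 2 / 4 * (m * A ^ 2) - 2 * (s * m ^ 2 * A) + 4 / κ0 ^ 2 * (m ^ 3 * s ^ 2) := by
      field_simp
      ring
    have h3 : 2 / κ0 ^ 2 * (m ^ 3 * s ^ 2) = (4 / κ0 ^ 2 * (m ^ 3 * s ^ 2)) / 2 := by
      field_simp; ring
    rw [h3]
    linarith
  have h4 : s * Hf K t * A = (s * m ^ 2 * A) * E := by unfold Hf; ring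
  have h5 : κ0 ^ 2 / 8 * (m * A ^ 2) * E ≤ κ0 ^ 2 / 16 * (Hd K t * A ^ 2) := by
    have : Hd K t * A ^ 2 = 2 * (m * A ^ 2) * E + K * m ^ 2 * E * A ^ 2 := by unfold Hd; ring
    rw [this]
    have h6 : 0 ≤ κ0 ^ 2 / 16 * (K * m ^ 2 * E * A ^ 2) := by positivity
    linarith
  have h7 : 2 / κ0 ^ 2 * (Hc K t * s ^ 2) = 2 / κ0 ^ 2 * (m ^ 3 * s ^ 2) * E := by
    unfold Hc; ring
  rw [h4, h7]
  have := mul_le_mul_of_nonneg_right key he.le
  linarith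

/-- `2 H |v||A| ≤ (1/2) H' v² + Hc A²` -/
theorem cross_absorb {K t v A : ℝ} (hK : 0 ≤ K) :
    -(2 * Hf K t * v * A) ≤ 1 / 2 * (Hd K t * v ^ 2) + Hc K t * A ^ 2 := by
  have h0 : 0 ≤ max t 0 := le_max_right _ _
  have he := Real.exp_pos (K * t)
  set m := max t 0 with hm
  set E := Real.exp (K * t) with hE
  have key : -(2 * m ^ 2 * v * A) ≤ m * v ^ 2 + m ^ 3 * A ^ 2 := by
    have h1 : 0 ≤ m * (v + m * A) ^ 2 := by positivity
    nlinarith
  have h5 : m * v ^ 2 * E ≤ 1 / 2 * (Hd K t * v ^ 2) := by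
    have : Hd K t * v ^ 2 = 2 * (m * v ^ 2) * E + K * m ^ 2 * E * v ^ 2 := by unfold Hd; ring
    rw [this]
    have h6 : 0 ≤ 1 / 2 * (K * m ^ 2 * E * v ^ 2) := by positivity
    linarith
  have h4 : -(2 * Hf K t * v * A) = -(2 * m ^ 2 * v * A) * E := by unfold Hf; ring
  have h7 : Hc K t * A ^ 2 = m ^ 3 * A ^ 2 * E := by unfold Hc; ring
  rw [h4, h7]
  have := mul_le_mul_of_nonneg_right key he.le
  linarith

/-! ### the profile `ζ` -/

/-- `ζ_c(x) = c b - (κ0/10) √(x²+b²) + 4 (κ0/10) x²` -/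
noncomputable def zt (κ0 c b x : ℝ) : ℝ :=
  c * b - κ0 / 10 * Real.sqrt (x ^ 2 + b ^ 2) + 4 * (κ0 / 10) * x ^ 2
/-- its derivative -/
noncomputable def zd (κ0 b x : ℝ) : ℝ :=
  - (κ0 / 10) * (x / Real.sqrt (x ^ 2 + b ^ 2)) + 8 * (κ0 / 10) * x

theorem zt_contDiff {κ0 c b : ℝ} (hb : 0 < b) : ContDiff ℝ ∞ (zt κ0 c b) := by
  unfold zt
  have h1 : ContDiff ℝ ∞ (fun x : ℝ => Real.sqrt (x ^ 2 + b ^ 2)) := by
    refine ContDiff.sqrt (by fun_prop) (fun x => ?_)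
    positivity
  fun_prop

theorem zt_hasDerivAt {κ0 c b : ℝ} (hb : 0 < b) (x : ℝ) :
    HasDerivAt (zt κ0 c b) (zd κ0 b x) x := by
  have hpos : 0 < x ^ 2 + b ^ 2 := by positivity
  have h1 : HasDerivAt (fun x : ℝ => x ^ 2 + b ^ 2) (2 * x) x := by
    have := (hasDerivAt_pow 2 x).add_const (b ^ 2)
    simpa using this
  have h2 := h1.sqrt hpos.ne'
  have h3 : HasDerivAt (fun x : ℝ => c * b - κ0 / 10 * Real.sqrt (x ^ 2 + b ^ 2)
      + 4 * (κ0 / 10) * x ^ 2) (0 - κ0 / 10 * (2 * x / (2 * Real.sqrt (x ^ 2 + b ^ 2)))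
      + 4 * (κ0 / 10) * (2 * x)) x := by
    have h4 := (hasDerivAt_pow 2 x).const_mul (4 * (κ0 / 10))
    simp only [Nat.cast_ofNat, Nat.add_one_sub_one, pow_one] at h4
    exact ((hasDerivAt_const x (c * b)).sub (h2.const_mul (κ0 / 10))).add h4
  refine h3.congr_deriv ?_
  unfold zd
  have : Real.sqrt (x ^ 2 + b ^ 2) ≠ 0 := (Real.sqrt_pos.2 hpos).ne'
  field_simp
  ring

theorem sqrt_le_add {x b : ℝ} (hb : 0 < b) : Real.sqrt (x ^ 2 + b ^ 2) ≤ |x| + b := by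
  rw [Real.sqrt_le_left (by positivity)]
  nlinarith [abs_nonneg x, sq_abs x]

theorem abs_le_sqrt {x b : ℝ} : |x| ≤ Real.sqrt (x ^ 2 + b ^ 2) := by
  rw [← Real.sqrt_sq_eq_abs]
  exact Real.sqrt_le_sqrt (by nlinarith [sq_nonneg b])

theorem zt_lower {κ0 c b : ℝ} (hκ : 0 < κ0) (hκ1 : κ0 ≤ 1) (hb : 0 < b)
    (hcb : (|c| + 1) * b ≤ κ0 / 5000) (x : ℝ) : -(κ0 / 150) < zt κ0 c b x := by
  unfold zt
  set s := Real.sqrt (x ^ 2 + b ^ 2) with hs
  have hs2 : s ^ 2 = x ^ 2 + b ^ 2 := Real.sq_sqrt (by positivity)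
  have h1 : 4 * (κ0 / 10) * x ^ 2 = 4 * (κ0 / 10) * (s ^ 2 - b ^ 2) := by rw [hs2]; ring
  have h2 : -(|c| * b) ≤ c * b := by
    have := neg_abs_le c
    nlinarith
  have h3 : 0 ≤ |c| * b := by positivity
  have hb1 : b ≤ κ0 / 5000 := by linarith
  have h4 : κ0 * b ^ 2 ≤ κ0 / 5000 * (1 / 5000) := by
    have : b ^ 2 ≤ 1 / 5000 * (1 / 5000) := by nlinarith
    nlinarith
  have h5 : 0 ≤ κ0 * (s - 1 / 8) ^ 2 := by positivity
  rw [h1]
  nlinarith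

theorem zt_far {κ0 c b x : ℝ} (hκ : 0 < κ0) (hκ1 : κ0 ≤ 1) (hb : 0 < b)
    (hcb : (|c| + 1) * b ≤ κ0 / 5000) (hx : 9 / 20 ≤ |x|) : κ0 / 50 ≤ zt κ0 c b x := by
  unfold zt
  have h1 := sqrt_le_add (x := x) hb
  have h2 : -(|c| * b) ≤ c * b := by
    have := neg_abs_le c
    nlinarith
  have h3 : 0 ≤ |c| * b := by positivity
  have hb1 : b ≤ κ0 / 5000 := by linarith
  have h4 : κ0 * Real.sqrt (x ^ 2 + b ^ 2) ≤ κ0 * (|x| + b) := mul_le_mul_of_nonneg_left h1 hκ.le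
  have h5 : x ^ 2 = |x| ^ 2 := (sq_abs x).symm
  have h6 : κ0 * (9 / 20 * (4 / 5)) ≤ κ0 * (|x| * (4 * |x| - 1)) := by
    refine mul_le_mul_of_nonneg_left ?_ hκ.le
    nlinarith
  have h7 : κ0 * b ≤ κ0 / 5000 := by nlinarith
  have h8 : 4 * (κ0 / 10) * x ^ 2 = 4 * (κ0 / 10) * |x| ^ 2 := by rw [h5]
  rw [h8]
  nlinarith

theorem zd_bound {κ0 b x : ℝ} (hκ : 0 < κ0) (hx : |x| ≤ 9 / 20) :
    |zd κ0 b x| ≤ κ0 / 2 := by
  unfold zd
  have h1 := abs_le_sqrt (x := x) (b := b)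
  have h2 : |x / Real.sqrt (x ^ 2 + b ^ 2)| ≤ 1 := by
    rw [abs_div, abs_of_nonneg (Real.sqrt_nonneg _)]
    exact div_le_one_of_le₀ h1 (Real.sqrt_nonneg _)
  have h3 : |-(κ0 / 10) * (x / Real.sqrt (x ^ 2 + b ^ 2))| ≤ κ0 / 10 := by
    rw [abs_mul, abs_neg, abs_of_pos (by positivity : (0 : ℝ) < κ0 / 10)]
    exact mul_le_of_le_one_right (by positivity) h2
  have h4 : |8 * (κ0 / 10) * x| ≤ 8 * (κ0 / 10) * (9 / 20) := by
    rw [abs_mul, abs_of_pos (by positivity : (0 : ℝ) < 8 * (κ0 / 10))]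
    exact mul_le_mul_of_nonneg_left hx (by positivity)
  have h5 := abs_add_le (-(κ0 / 10) * (x / Real.sqrt (x ^ 2 + b ^ 2))) (8 * (κ0 / 10) * x)
  linarith

end Vale.Agent.P229.DownAux
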