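import Vale.Agent.P229.DownTwo

/-!
# P229, module B, part 3: integrated energy inequalities
-/

namespace Vale.Agent.P229.DownAux

open MeasureTheory Set
open scoped ContDiff

/-! ### integration on the unit disc -/

theorem isCompact_cdisc (R : ℝ) : IsCompact {z : ℝ × ℝ | z.1 ^ 2 + z.2 ^ 2 ≤ R ^ 2} := by
  have hcl : IsClosed {z : ℝ × ℝ | z.1 ^ 2 + z.2 ^ 2 ≤ R ^ 2} :=
    isClosed_le (by fun_prop) continuous_const
  refine (isCompact_Icc (a := (-|R|, -|R|)) (b := (|R|, |R|))).of_isClosed_subset hcl ?_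
  intro z hz
  have hz : z.1 ^ 2 + z.2 ^ 2 ≤ R ^ 2 := hz
  have h1 : |z.1| ≤ |R| := sq_le_sq.1 (by nlinarith [sq_nonneg z.2])
  have h2 : |z.2| ≤ |R| := sq_le_sq.1 (by nlinarith [sq_nonneg z.1])
  exact ⟨⟨(abs_le.1 h1).1, (abs_le.1 h2).1⟩, ⟨(abs_le.1 h1).2, (abs_le.1 h2).2⟩⟩

theorem int_on {f : ℝ × ℝ → ℝ} (hf : ContinuousOn f (disc 2)) : IntegrableOn f (disc 1) := by
  have h1 : IntegrableOn f {z : ℝ × ℝ | z.1 ^ 2 + z.2 ^ 2 ≤ 1 ^ 2} := by
    refine (hf.mono ?_).integrableOn_compact (isCompact_cdisc 1)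
    intro z hz
    have hz : z.1 ^ 2 + z.2 ^ 2 ≤ 1 ^ 2 := hz
    simp only [disc, mem_ofPred_eq]
    linarith
  exact h1.mono_set (fun z hz => le_of_lt (show z.1 ^ 2 + z.2 ^ 2 < 1 ^ 2 from hz))

theorem int_ind {f : ℝ × ℝ → ℝ} {S : Set (ℝ × ℝ)} (hS : MeasurableSet S) (hS1 : S ⊆ disc 1) :
    ∫ z in disc 1, S.indicator f z = ∫ z in S, f z := by
  rw [setIntegral_indicator hS, inter_eq_right.2 hS1]

theorem int_ind_on {f : ℝ × ℝ → ℝ} (hf : ContinuousOn f (disc 2)) {S : Set (ℝ × ℝ)}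
    (hS : MeasurableSet S) : IntegrableOn (S.indicator f) (disc 1) := (int_on hf).indicator hS

/-- smooth cutoff -/
noncomputable def th (z : ℝ × ℝ) : ℝ :=
  Real.smoothTransition ((9 / 25 - (z.1 ^ 2 + z.2 ^ 2)) / (11 / 100))

theorem th_contDiff : ContDiff ℝ 1 th := by
  have h : ContDiff ℝ 1 (fun z : ℝ × ℝ => (9 / 25 - (z.1 ^ 2 + z.2 ^ 2)) / (11 / 100)) := by
    fun_prop
  exact (Real.smoothTransition.contDiff (n := 1)).comp h

theorem th_one {z : ℝ × ℝ} (hz : z ∈ disc (12 / 25)) : th z = 1 := by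
  have hz : z.1 ^ 2 + z.2 ^ 2 < (12 / 25) ^ 2 := hz
  refine Real.smoothTransition.one_of_one_le ?_
  rw [le_div_iff₀ (by norm_num)]
  linarith

theorem th_tsupport : tsupport th ⊆ {z : ℝ × ℝ | z.1 ^ 2 + z.2 ^ 2 ≤ (3 / 5) ^ 2} := by
  have hcl : IsClosed {z : ℝ × ℝ | z.1 ^ 2 + z.2 ^ 2 ≤ (3 / 5) ^ 2} :=
    isClosed_le (by fun_prop) continuous_const
  refine closure_minimal ?_ hcl
  intro z hz
  by_contra h
  have h : ¬ z.1 ^ 2 + z.2 ^ 2 ≤ (3 / 5) ^ 2 := h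
  refine hz ?_
  refine Real.smoothTransition.zero_of_nonpos ?_
  refine div_nonpos_of_nonpos_of_nonneg (by linarith [not_le.1 h]) (by norm_num)

/-- brackets integrate to zero -/
theorem int_br {g Q : ℝ × ℝ → ℝ} (hg : ContDiffOn ℝ 1 g (disc 2)) (hQ : Sm (disc 2) Q)
    (h0 : ∀ z ∈ disc 1, z ∉ disc (12 / 25) → g z = 0) : ∫ z in disc 1, br g Q z = 0 := by
  have hs2 : tsupport th ⊆ disc 2 := by
    intro z hz
    have := th_tsupport hz
    have this : z.1 ^ 2 + z.2 ^ 2 ≤ (3 / 5) ^ 2 := this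
    simp only [disc, mem_ofPred_eq]
    linarith
  have hc : HasCompactSupport th :=
    HasCompactSupport.of_support_subset_isCompact (isCompact_cdisc (3 / 5))
      ((subset_tsupport th).trans th_tsupport)
  have hF : ContDiff ℝ 1 (fun z => th z * g z) :=
    contDiff_mul_of_tsupport (n := 1) (isOpen_disc 2) th_contDiff hs2 hg
  have hFc : HasCompactSupport (fun z => th z * g z) := hc.mul_right
  have hFs : tsupport (fun z => th z * g z) ⊆ tsupport th := tsupport_mul_subset_left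
  have key := integral_br_eq_zero (isOpen_disc 2) hF hFc (hFs.trans hs2) hQ
  have h1 : ∀ z ∈ disc 1, br g Q z = br (fun z => th z * g z) Q z := by
    intro z hz
    refine br_congr (isOpen_disc 1) (fun w hw => ?_) (fun w _ => rfl) hz
    by_cases h : w ∈ disc (12 / 25)
    · rw [th_one h, one_mul]
    · rw [h0 w hw h, mul_zero]
  rw [setIntegral_congr_fun (isOpen_disc 1).measurableSet h1,
    setIntegral_eq_integral_of_forall_compl_eq_zero, key]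
  intro z hz
  have hz' : z ∉ tsupport (fun z => th z * g z) := by
    intro h
    have := th_tsupport (hFs h)
    have this : z.1 ^ 2 + z.2 ^ 2 ≤ (3 / 5) ^ 2 := this
    refine hz ?_
    simp only [disc, mem_ofPred_eq]
    linarith
  simp only [br, dx_eq_zero_of_notMem hz', dy_eq_zero_of_notMem hz']
  ring

theorem int_br' {g Q : ℝ × ℝ → ℝ} (hg : ContDiffOn ℝ 1 g (disc 2)) (hQ : Sm (disc 2) Q)
    (h0 : ∀ z ∈ disc 1, z ∉ disc (12 / 25) → g z = 0) : ∫ z in disc 1, br Q g z = 0 := by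
  have h1 : ∀ z ∈ disc 1, br Q g z = - br g Q z := fun z _ => br_antisymm
  rw [setIntegral_congr_fun (isOpen_disc 1).measurableSet h1, integral_neg, int_br hg hQ h0, neg_zero]

theorem cont_dx {g : ℝ × ℝ → ℝ} (hg : ContDiffOn ℝ 1 g (disc 2)) : ContinuousOn (dx g) (disc 2) := by
  have : ContinuousOn (fun z => fderiv ℝ g z) (disc 2) :=
    hg.continuousOn_fderiv_of_isOpen (isOpen_disc 2) (by simp)
  exact this.clm_apply continuousOn_const

theorem cont_dy {g : ℝ × ℝ → ℝ} (hg : ContDiffOn ℝ 1 g (disc 2)) : ContinuousOn (dy g) (disc 2) := by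
  have : ContinuousOn (fun z => fderiv ℝ g z) (disc 2) :=
    hg.continuousOn_fderiv_of_isOpen (isOpen_disc 2) (by simp)
  exact this.clm_apply continuousOn_const

theorem cont_br {f g : ℝ × ℝ → ℝ} (hf : ContDiffOn ℝ 1 f (disc 2)) (hg : ContDiffOn ℝ 1 g (disc 2)) :
    ContinuousOn (br f g) (disc 2) :=
  ((cont_dx hf).mul (cont_dy hg)).sub ((cont_dy hf).mul (cont_dx hg))

theorem c1 {f : ℝ × ℝ → ℝ} (hf : Sm (disc 2) f) : ContDiffOn ℝ 1 f (disc 2) :=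
  ContDiffOn.of_le hf (by norm_cast)

theorem Sm.cont {f : ℝ × ℝ → ℝ} (hf : Sm (disc 2) f) : ContinuousOn f (disc 2) :=
  ContDiffOn.continuousOn hf

/-! ### the set where the hypothesis gives control -/

/-- the integrand in the hypothesis -/
noncomputable def qf (v : ℝ × ℝ → ℝ) (z : ℝ × ℝ) : ℝ := v z ^ 2 + dx v z ^ 2 + dy v z ^ 2

/-- the region in the hypothesis -/
def Rs (κ0 : ℝ) (P : ℝ × ℝ → ℝ) : Set (ℝ × ℝ) := {z | z ∈ disc 1 ∧ κ0 / 75 < |P z|}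

theorem qf_nonneg (v : ℝ × ℝ → ℝ) (z : ℝ × ℝ) : 0 ≤ qf v z := by unfold qf; positivity

theorem qf_cont {v : ℝ × ℝ → ℝ} (hv : ContDiff ℝ ∞ v) : Continuous (qf v) := by
  have h1 := (contDiff_dx hv).continuous
  have h2 := (contDiff_dy hv).continuous
  have h3 := hv.continuous
  unfold qf
  exact ((h3.pow 2).add (h1.pow 2)).add (h2.pow 2)

/-- measurability of sets cut out by continuous functions on the unit disc -/
theorem meas_lt {f : ℝ × ℝ → ℝ} (hf : ContinuousOn f (disc 2)) (t : ℝ) :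
    MeasurableSet {z | z ∈ disc 1 ∧ t < f z} := by
  have h := (hf.mono (disc_mono (by norm_num) (by norm_num : (1 : ℝ) ≤ 2))).isOpen_inter_preimage
    (isOpen_disc 1) (isOpen_Ioi (a := t))
  exact h.measurableSet

theorem meas_le {f : ℝ × ℝ → ℝ} (hf : ContinuousOn f (disc 2)) (t : ℝ) :
    MeasurableSet {z | z ∈ disc 1 ∧ t ≤ f z} := by
  have h := (hf.mono (disc_mono (by norm_num) (by norm_num : (1 : ℝ) ≤ 2))).isOpen_inter_preimage
    (isOpen_disc 1) (isOpen_Iio (a := t))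
  have e : {z | z ∈ disc 1 ∧ t ≤ f z} = disc 1 \ (disc 1 ∩ f ⁻¹' Iio t) := by
    ext z
    simp only [mem_ofPred_eq, mem_sdiff, mem_inter_iff, mem_preimage, mem_Iio, not_and, not_lt]
    tauto
  rw [e]
  exact (isOpen_disc 1).measurableSet.diff h.measurableSet

theorem meas_Rs {κ0 : ℝ} {P : ℝ × ℝ → ℝ} (hP : ContinuousOn P (disc 2)) :
    MeasurableSet (Rs κ0 P) := meas_lt hP.abs _

section
variable {C0 j0 ρ0 κ0 c b K : ℝ} {u P κ v : ℝ × ℝ → ℝ} {z : ℝ × ℝ}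

theorem sq_quot_bound {X a a' p q' J j : ℝ} (hj : 0 < j) (hJ : j ≤ J) (_ha : 0 ≤ a)
    (h : |X| ≤ a * (|p| + |q'|)) (_h' : a' = 2 * a ^ 2 / j ^ 2) :
    (X / J) ^ 2 ≤ a' * (p ^ 2 + q' ^ 2) := by
  have hJ0 : 0 < J := lt_of_lt_of_le hj hJ
  rw [div_pow, div_le_iff₀ (by positivity), _h']
  have h1 : X ^ 2 ≤ (a * (|p| + |q'|)) ^ 2 := by
    rw [← sq_abs X]; exact pow_le_pow_left₀ (abs_nonneg _) h 2
  have h2 : (a * (|p| + |q'|)) ^ 2 ≤ a ^ 2 * (2 * (p ^ 2 + q' ^ 2)) := by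
    rw [mul_pow]
    refine mul_le_mul_of_nonneg_left ?_ (by positivity)
    nlinarith [sq_nonneg (|p| - |q'|), sq_abs p, sq_abs q']
  have h3 : j ^ 2 ≤ J ^ 2 := pow_le_pow_left₀ hj.le hJ 2
  have h4 : a ^ 2 * (2 * (p ^ 2 + q' ^ 2)) = 2 * a ^ 2 / j ^ 2 * (p ^ 2 + q' ^ 2) * j ^ 2 := by
    field_simp
  have h5 : 2 * a ^ 2 / j ^ 2 * (p ^ 2 + q' ^ 2) * j ^ 2
      ≤ 2 * a ^ 2 / j ^ 2 * (p ^ 2 + q' ^ 2) * J ^ 2 :=
    mul_le_mul_of_nonneg_left h3 (by positivity)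
  linarith

theorem Dat.A_le (D : Dat C0 j0 ρ0 κ0 c b u P κ v) (hz : z ∈ disc 2) :
    No u P v z ^ 2 ≤ 2 * C0 ^ 2 / j0 ^ 2 * (dx v z ^ 2 + dy v z ^ 2) := by
  refine sq_quot_bound D.hj (D.reg.J z hz) D.hC.le ?_ rfl
  have h := D.reg.bu z hz
  simp only [br]
  have h5 : |dx u z * dy v z| ≤ C0 * |dy v z| := by
    rw [abs_mul]; exact mul_le_mul_of_nonneg_right h.2.1 (abs_nonneg _)
  have h6 : |dy u z * dx v z| ≤ C0 * |dx v z| := by
    rw [abs_mul]; exact mul_le_mul_of_nonneg_right h.2.2 (abs_nonneg _)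
  have h7 := abs_sub (dx u z * dy v z) (dy u z * dx v z)
  linarith

theorem Dat.B_le (D : Dat C0 j0 ρ0 κ0 c b u P κ v) (hz : z ∈ disc 2) :
    Lo u P v z ^ 2 ≤ 2 * C0 ^ 2 / j0 ^ 2 * (dx v z ^ 2 + dy v z ^ 2) := by
  refine sq_quot_bound D.hj (D.reg.J z hz) D.hC.le ?_ rfl
  have h := D.reg.bP z hz
  simp only [br]
  have h5 : |dx v z * dy P z| ≤ |dx v z| * C0 := by
    rw [abs_mul]; exact mul_le_mul_of_nonneg_left h.2.2 (abs_nonneg _)
  have h6 : |dy v z * dx P z| ≤ |dy v z| * C0 := by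
    rw [abs_mul]; exact mul_le_mul_of_nonneg_left h.2.1 (abs_nonneg _)
  have h7 := abs_sub (dx v z * dy P z) (dy v z * dx P z)
  linarith

theorem Dat.Nk_le (D : Dat C0 j0 ρ0 κ0 c b u P κ v) (hz : z ∈ disc 2) :
    |No u P κ z| ≤ 2 * C0 ^ 2 / j0 := by
  have h := D.reg.bu z hz
  have h' := D.reg.bk z hz
  have hJ := D.reg.J z hz
  have h1 := br_bound h.2.1 h.2.2 h'.2.1 h'.2.2
  simp only [No]
  rw [abs_div, abs_of_pos (D.Jpos hz)]
  have h2 : |br u κ z| ≤ 2 * C0 ^ 2 := by linarith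
  exact div_le_div₀ (by positivity) h2 D.hj hJ

/-- the exponent used in the weight -/
noncomputable def Kc (C0 j0 κ0 : ℝ) : ℝ := 8 * C0 ^ 2 / (j0 * κ0 ^ 2)

theorem Kc_nonneg (hj : 0 < j0) : 0 ≤ Kc C0 j0 κ0 := by unfold Kc; positivity

/-- bound for the weight -/
noncomputable def Hm (C0 j0 κ0 : ℝ) : ℝ :=
  (2 * C0 + 2) ^ 2 * Real.exp (Kc C0 j0 κ0 * (2 * C0 + 2))

/-- (a) main part of the energy inequality -/
theorem Dat.main_a (D : Dat C0 j0 ρ0 κ0 c b u P κ v) (hz : z ∈ disc 1) (A B : ℝ) :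
    1 / 8 * (Hd (Kc C0 j0 κ0) (ta κ0 c b u P z) * om κ0 (P z) * (B ^ 2 + κ0 ^ 2 * A ^ 2))
      ≤ 1 / 2 * (Hd (Kc C0 j0 κ0) (ta κ0 c b u P z) * om κ0 (P z)) * (B ^ 2 - κ z * A ^ 2)
        + zd κ0 b (u z) * (Hd (Kc C0 j0 κ0) (ta κ0 c b u P z) * om κ0 (P z)) * (A * B)
        + 1 / 2 * (Hf (Kc C0 j0 κ0) (ta κ0 c b u P z) * om κ0 (P z)) * No u P κ z * A ^ 2 := by
  have hz2 : z ∈ disc 2 := disc_mono (by norm_num) (by norm_num) hz
  by_cases h1 : ta κ0 c b u P z ≤ 0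
  · rw [Hd_of_nonpos h1, Hf_of_nonpos h1]; simp
  by_cases h2 : P z < κ0 / 50
  swap
  · rw [om_eq_zero D.hκ (not_lt.1 h2)]; simp
  obtain ⟨hd, hu⟩ := D.support hz (not_le.1 h1) h2
  have hk : κ z ≤ -κ0 ^ 2 := D.geo.kneg z (disc_mono (by norm_num) (by norm_num) hd)
  have hzd := zd_bound (b := b) D.hκ hu.le
  have hNk := D.Nk_le hz2
  have hKK : 2 * C0 ^ 2 / j0 * Hf (Kc C0 j0 κ0) (ta κ0 c b u P z)
      ≤ κ0 ^ 2 / 4 * Hd (Kc C0 j0 κ0) (ta κ0 c b u P z) := by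
    have h3 := mul_Hf_le_Hd (Kc C0 j0 κ0) (ta κ0 c b u P z)
    have h4 : 2 * C0 ^ 2 / j0 = κ0 ^ 2 / 4 * Kc C0 j0 κ0 := by
      have := D.hj.ne'
      have := D.hκ.ne'
      unfold Kc; field_simp; ring
    rw [h4, mul_assoc]
    exact mul_le_mul_of_nonneg_left h3 (by positivity)
  set h := Hd (Kc C0 j0 κ0) (ta κ0 c b u P z) with hh
  set f := Hf (Kc C0 j0 κ0) (ta κ0 c b u P z) with hf
  set w := om κ0 (P z) with hw
  set N := No u P κ z with hN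
  set ζ := zd κ0 b (u z) with hζ
  have hh0 : 0 ≤ h := Hd_nonneg (Kc_nonneg D.hj) _
  have hf0 : 0 ≤ f := Hf_nonneg _ _
  have hw0 : 0 ≤ w := om_nonneg _ _
  have t1 : B ^ 2 + κ0 ^ 2 * A ^ 2 ≤ B ^ 2 - κ z * A ^ 2 := by nlinarith [sq_nonneg A]
  have t2 : -(1 / 4 * (B ^ 2 + κ0 ^ 2 * A ^ 2)) ≤ ζ * (A * B) := by
    have h3 : |ζ * (A * B)| ≤ κ0 / 2 * (|A| * |B|) := by
      rw [abs_mul, abs_mul]
      exact mul_le_mul_of_nonneg_right hzd (by positivity)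
    have h4 : κ0 / 2 * (|A| * |B|) ≤ 1 / 4 * (B ^ 2 + κ0 ^ 2 * A ^ 2) := by
      nlinarith [sq_nonneg (|B| - κ0 * |A|), sq_abs A, sq_abs B]
    linarith [neg_abs_le (ζ * (A * B))]
  have t3 : -(κ0 ^ 2 / 4 * h * A ^ 2) ≤ f * N * A ^ 2 := by
    have h3 : -(2 * C0 ^ 2 / j0 * f) ≤ f * N := by
      have := neg_abs_le N
      nlinarith
    nlinarith [sq_nonneg A]
  have hhw : 0 ≤ h * w := mul_nonneg hh0 hw0
  have s1 := mul_le_mul_of_nonneg_left t1 hhw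
  have s2 := mul_le_mul_of_nonneg_left t2 hhw
  have s3 := mul_le_mul_of_nonneg_left t3 hw0
  have s4 : 0 ≤ h * w * B ^ 2 := by positivity
  nlinarith

/-- (b) the error part of the energy inequality -/
theorem Dat.main_b (D : Dat C0 j0 ρ0 κ0 c b u P κ v) {Dw : ℝ}
    (hD : ∀ p, |deriv (om κ0) p| ≤ Dw) (hz : z ∈ disc 1) :
    -(1 / 2 * (Hf (Kc C0 j0 κ0) (ta κ0 c b u P z) * deriv (om κ0) (P z))
      * (Lo u P v z ^ 2 - κ z * No u P v z ^ 2))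
      ≤ (Hm C0 j0 κ0 * Dw * (1 + C0) * (2 * C0 ^ 2 / j0 ^ 2)) * (Rs κ0 P).indicator (qf v) z := by
  have hz2 : z ∈ disc 2 := disc_mono (by norm_num) (by norm_num) hz
  by_cases hR : z ∈ Rs κ0 P
  swap
  · have hp : P z ≤ κ0 / 75 := by
      by_contra h
      exact hR ⟨hz, lt_of_lt_of_le (not_le.1 h) (le_abs_self _)⟩
    rw [indicator_of_notMem hR, om_deriv_eq_zero D.hκ hp]
    simp
  rw [indicator_of_mem hR]
  have hA := D.A_le hz2
  have hB := D.B_le hz2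
  have hq : dx v z ^ 2 + dy v z ^ 2 ≤ qf v z := by unfold qf; nlinarith [sq_nonneg (v z)]
  have hk := (D.reg.bk z hz2).1
  have hH : Hf (Kc C0 j0 κ0) (ta κ0 c b u P z) ≤ Hm C0 j0 κ0 :=
    Hf_le' (Kc_nonneg D.hj) (D.ta_le hz2) (by linarith [D.hC])
  have hH0 : 0 ≤ Hf (Kc C0 j0 κ0) (ta κ0 c b u P z) := Hf_nonneg _ _
  have hC := D.hC
  have hj := D.hj
  set f := Hf (Kc C0 j0 κ0) (ta κ0 c b u P z)
  set e := deriv (om κ0) (P z)
  have he : |e| ≤ Dw := hD _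
  set M := Hm C0 j0 κ0
  set A := No u P v z
  set B := Lo u P v z
  set a := 2 * C0 ^ 2 / j0 ^ 2
  have ha : 0 ≤ a := by positivity
  have hX : |B ^ 2 - κ z * A ^ 2| ≤ (1 + C0) * (a * qf v z) := by
    have h1 : |κ z * A ^ 2| ≤ C0 * A ^ 2 := by
      rw [abs_mul, abs_of_nonneg (sq_nonneg A)]
      exact mul_le_mul_of_nonneg_right hk (sq_nonneg A)
    have h2 := abs_sub (B ^ 2) (κ z * A ^ 2)
    rw [abs_of_nonneg (sq_nonneg B)] at h2
    have h3 : a * (dx v z ^ 2 + dy v z ^ 2) ≤ a * qf v z := mul_le_mul_of_nonneg_left hq ha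
    have h4 : C0 * A ^ 2 ≤ C0 * (a * qf v z) := mul_le_mul_of_nonneg_left (hA.trans h3) hC.le
    linarith
  have hfe : |f * e| ≤ M * Dw := by
    rw [abs_mul, abs_of_nonneg hH0]
    exact mul_le_mul hH he (abs_nonneg _) (hH0.trans hH)
  have hfin : |f * e * (B ^ 2 - κ z * A ^ 2)| ≤ M * Dw * ((1 + C0) * (a * qf v z)) := by
    rw [abs_mul]
    exact mul_le_mul hfe hX (abs_nonneg _) ((abs_nonneg _).trans hfe)
  have h5 := neg_abs_le (f * e * (B ^ 2 - κ z * A ^ 2))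
  have h6 : 0 ≤ |f * e * (B ^ 2 - κ z * A ^ 2)| := abs_nonneg _
  have h7 : -(1 / 2 * (f * e) * (B ^ 2 - κ z * A ^ 2))
      ≤ |f * e * (B ^ 2 - κ z * A ^ 2)| := by
    have : -(1 / 2 * (f * e) * (B ^ 2 - κ z * A ^ 2))
      = -(1 / 2) * (f * e * (B ^ 2 - κ z * A ^ 2)) := by ring
    rw [this]
    linarith
  calc _ ≤ _ := h7
    _ ≤ _ := hfin
    _ = _ := by ring

end

end Vale.Agent.P229.DownAux
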