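import Vale.Agent.P229.DownOne

/-!
# P229, module B, part 2: pointwise identities and the geometry of the weight
-/

namespace Vale.Agent.P229.DownAux

open MeasureTheory Set
open scoped ContDiff

/-- the data of the energy estimate -/
structure Dat (C0 j0 ρ0 κ0 c b : ℝ) (u P κ v : ℝ × ℝ → ℝ) : Prop where
  hC : 0 < C0
  hj : 0 < j0
  hρ : 0 < ρ0
  hκ : 0 < κ0
  hκ1 : κ0 ≤ 1
  hκρ : κ0 ≤ 2 * ρ0
  hb : 0 < b
  hcb : (|c| + 1) * b ≤ κ0 / 5000
  reg : Reg C0 j0 u P κ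
  geo : Geo ρ0 κ0 u P κ
  hv : ContDiff ℝ ∞ v

/-- `τ = P - ζ_c(u)` -/
noncomputable def ta (κ0 c b : ℝ) (u P : ℝ × ℝ → ℝ) (z : ℝ × ℝ) : ℝ := P z - zt κ0 c b (u z)

/-- the weight `H(τ) ω(P)` -/
noncomputable def Wf (K κ0 c b : ℝ) (u P : ℝ × ℝ → ℝ) (z : ℝ × ℝ) : ℝ :=
  Hf K (ta κ0 c b u P z) * om κ0 (P z)

section
variable {C0 j0 ρ0 κ0 c b K : ℝ} {u P κ v : ℝ × ℝ → ℝ} {z : ℝ × ℝ}

theorem Dat.b_le (D : Dat C0 j0 ρ0 κ0 c b u P κ v) : b ≤ κ0 / 5000 := by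
  have := D.hcb
  have h1 : 0 ≤ |c| * b := mul_nonneg (abs_nonneg c) D.hb.le
  linarith

theorem Dat.J0 (D : Dat C0 j0 ρ0 κ0 c b u P κ v) : ∀ z ∈ disc 2, br u P z ≠ 0 :=
  fun z hz => ne_of_gt (lt_of_lt_of_le D.hj (D.reg.J z hz))

theorem Dat.Jpos (D : Dat C0 j0 ρ0 κ0 c b u P κ v) (hz : z ∈ disc 2) : 0 < br u P z :=
  lt_of_lt_of_le D.hj (D.reg.J z hz)

theorem br_bound {f g : ℝ × ℝ → ℝ} {a a' : ℝ} (h1 : |dx f z| ≤ a) (h2 : |dy f z| ≤ a)
    (h3 : |dx g z| ≤ a') (h4 : |dy g z| ≤ a') : |br f g z| ≤ 2 * a * a' := by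
  have ha : 0 ≤ a := (abs_nonneg _).trans h1
  simp only [br]
  have h5 : |dx f z * dy g z| ≤ a * a' := by
    rw [abs_mul]; exact mul_le_mul h1 h4 (abs_nonneg _) ha
  have h6 : |dy f z * dx g z| ≤ a * a' := by
    rw [abs_mul]; exact mul_le_mul h2 h3 (abs_nonneg _) ha
  have h7 := abs_sub (dx f z * dy g z) (dy f z * dx g z)
  linarith

theorem Dat.J_le (D : Dat C0 j0 ρ0 κ0 c b u P κ v) (hz : z ∈ disc 2) :
    br u P z ≤ 2 * C0 * C0 :=
  (le_abs_self _).trans (br_bound (D.reg.bu z hz).2.1 (D.reg.bu z hz).2.2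
    (D.reg.bP z hz).2.1 (D.reg.bP z hz).2.2)

theorem Dat.sv (D : Dat C0 j0 ρ0 κ0 c b u P κ v) : Sm (disc 2) v := Sm.of_contDiff D.hv

theorem Dat.sA (D : Dat C0 j0 ρ0 κ0 c b u P κ v) : Sm (disc 2) (No u P v) :=
  Sm.No (isOpen_disc 2) D.reg.su D.reg.sP D.sv D.J0

theorem Dat.sB (D : Dat C0 j0 ρ0 κ0 c b u P κ v) : Sm (disc 2) (Lo u P v) :=
  Sm.Lo (isOpen_disc 2) D.reg.su D.reg.sP D.sv D.J0

theorem Dat.sOp (D : Dat C0 j0 ρ0 κ0 c b u P κ v) : Sm (disc 2) (Op u P κ v) :=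
  (Sm.Lo (isOpen_disc 2) D.reg.su D.reg.sP D.sB D.J0).add
    (Sm.No (isOpen_disc 2) D.reg.su D.reg.sP (D.reg.sk.mul D.sA) D.J0)

theorem Dat.sJ (D : Dat C0 j0 ρ0 κ0 c b u P κ v) : Sm (disc 2) (br u P) :=
  Sm.br (isOpen_disc 2) D.reg.su D.reg.sP

theorem Dat.sta (D : Dat C0 j0 ρ0 κ0 c b u P κ v) : Sm (disc 2) (ta κ0 c b u P) := by
  have h1 : ContDiffOn ℝ ∞ (fun z => zt κ0 c b (u z)) (disc 2) :=
    (zt_contDiff D.hb).comp_contDiffOn D.reg.su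
  exact ContDiffOn.sub D.reg.sP h1

theorem Dat.sW (D : Dat C0 j0 ρ0 κ0 c b u P κ v) (K : ℝ) :
    ContDiffOn ℝ 1 (Wf K κ0 c b u P) (disc 2) := by
  have h1 : ContDiffOn ℝ 1 (fun z => Hf K (ta κ0 c b u P z)) (disc 2) :=
    (Hf_contDiff K).comp_contDiffOn (D.sta.of_le (by norm_cast))
  have h2 : ContDiffOn ℝ 1 (fun z => om κ0 (P z)) (disc 2) :=
    ((om_contDiff κ0).of_le (by norm_cast)).comp_contDiffOn
      ((show ContDiffOn ℝ ∞ P (disc 2) from D.reg.sP).of_le (by norm_cast))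
  exact h1.mul h2

theorem Dat.dta (D : Dat C0 j0 ρ0 κ0 c b u P κ v) (hz : z ∈ disc 2) :
    DifferentiableAt ℝ (ta κ0 c b u P) z := D.sta.diff (isOpen_disc 2) hz

theorem Dat.Lo_ta (D : Dat C0 j0 ρ0 κ0 c b u P κ v) (hz : z ∈ disc 2) :
    Lo u P (ta κ0 c b u P) z = - zd κ0 b (u z) := by
  have hu := D.reg.su.diff (isOpen_disc 2) hz
  have hP := D.reg.sP.diff (isOpen_disc 2) hz
  have h1 : DifferentiableAt ℝ (fun w => zt κ0 c b (u w)) z :=
    (zt_hasDerivAt D.hb (u z)).differentiableAt.comp z hu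
  have e : ta κ0 c b u P = fun w => P w - zt κ0 c b (u w) := rfl
  rw [e, Lo_sub hP h1, Lo_P, Lo_comp (zt_hasDerivAt D.hb (u z)) hu, Lo_u (D.J0 z hz)]
  ring

theorem Dat.No_ta (D : Dat C0 j0 ρ0 κ0 c b u P κ v) (hz : z ∈ disc 2) :
    No u P (ta κ0 c b u P) z = 1 := by
  have hu := D.reg.su.diff (isOpen_disc 2) hz
  have hP := D.reg.sP.diff (isOpen_disc 2) hz
  have h1 : DifferentiableAt ℝ (fun w => zt κ0 c b (u w)) z :=
    (zt_hasDerivAt D.hb (u z)).differentiableAt.comp z hu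
  have e : ta κ0 c b u P = fun w => P w - zt κ0 c b (u w) := rfl
  rw [e, No_sub hP h1, No_P (D.J0 z hz), No_comp (zt_hasDerivAt D.hb (u z)) hu, No_u]
  ring

theorem Dat.Lo_W (D : Dat C0 j0 ρ0 κ0 c b u P κ v) (K : ℝ) (hz : z ∈ disc 2) :
    Lo u P (Wf K κ0 c b u P) z
      = - (zd κ0 b (u z) * (Hd K (ta κ0 c b u P z) * om κ0 (P z))) := by
  have hP := D.reg.sP.diff (isOpen_disc 2) hz
  have h1 : DifferentiableAt ℝ (fun w => Hf K (ta κ0 c b u P w)) z :=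
    (Hf_hasDerivAt K _).differentiableAt.comp z (D.dta hz)
  have h2 : DifferentiableAt ℝ (fun w => om κ0 (P w)) z :=
    (om_hasDerivAt κ0 _).differentiableAt.comp z hP
  have e : Wf K κ0 c b u P = fun w => Hf K (ta κ0 c b u P w) * om κ0 (P w) := rfl
  rw [e, Lo_mul h1 h2, Lo_comp (Hf_hasDerivAt K _) (D.dta hz), Lo_comp (om_hasDerivAt κ0 _) hP,
    Lo_P, D.Lo_ta hz]
  ring

theorem Dat.No_W (D : Dat C0 j0 ρ0 κ0 c b u P κ v) (K : ℝ) (hz : z ∈ disc 2) :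
    No u P (Wf K κ0 c b u P) z
      = Hd K (ta κ0 c b u P z) * om κ0 (P z)
        + Hf K (ta κ0 c b u P z) * deriv (om κ0) (P z) := by
  have hP := D.reg.sP.diff (isOpen_disc 2) hz
  have h1 : DifferentiableAt ℝ (fun w => Hf K (ta κ0 c b u P w)) z :=
    (Hf_hasDerivAt K _).differentiableAt.comp z (D.dta hz)
  have h2 : DifferentiableAt ℝ (fun w => om κ0 (P w)) z :=
    (om_hasDerivAt κ0 _).differentiableAt.comp z hP
  have e : Wf K κ0 c b u P = fun w => Hf K (ta κ0 c b u P w) * om κ0 (P w) := rfl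
  rw [e, No_mul h1 h2, No_comp (Hf_hasDerivAt K _) (D.dta hz), No_comp (om_hasDerivAt κ0 _) hP,
    No_P (D.J0 z hz), D.No_ta hz]
  ring

/-- the first energy identity -/
theorem energy_identity {W A B : ℝ × ℝ → ℝ} (h0 : br u P z ≠ 0) (hW : DifferentiableAt ℝ W z)
    (hA : DifferentiableAt ℝ A z) (hB : DifferentiableAt ℝ B z) (hk : DifferentiableAt ℝ κ z)
    (hAB : Lo u P A z = No u P B z) :
    br u P z * ((Lo u P B z + No u P (fun w => κ w * A w) z) * W z * A z)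
      = br (fun w => W w * (A w * B w)) P z
        + br u (fun w => W w * (1 / 2 * (κ w * (A w * A w) - B w * B w))) z
        + br u P z * (1 / 2 * No u P W z * (B z ^ 2 - κ z * A z ^ 2)
          - Lo u P W z * (A z * B z) + 1 / 2 * W z * No u P κ z * A z ^ 2) := by
  have hAB' : DifferentiableAt ℝ (fun w => A w * B w) z := hA.mul hB
  have hAA : DifferentiableAt ℝ (fun w => A w * A w) z := hA.mul hA
  have hBB : DifferentiableAt ℝ (fun w => B w * B w) z := hB.mul hB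
  have hkAA : DifferentiableAt ℝ (fun w => κ w * (A w * A w)) z := hk.mul hAA
  have hd : DifferentiableAt ℝ (fun w => κ w * (A w * A w) - B w * B w) z := hkAA.sub hBB
  have hd2 : DifferentiableAt ℝ (fun w => 1 / 2 * (κ w * (A w * A w) - B w * B w)) z :=
    hd.const_mul _
  rw [br_eq_mul_Lo (f := fun w => W w * (A w * B w)) h0,
    br_eq_mul_No (f := fun w => W w * (1 / 2 * (κ w * (A w * A w) - B w * B w))) h0,
    Lo_mul hW hAB', Lo_mul hA hB, No_mul hW hd2,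
    No_const_mul _ hd, No_sub hkAA hBB, No_mul hk hAA, No_mul hA hA, No_mul hB hB, No_mul hk hA,
    hAB]
  ring

/-- the second identity -/
theorem second_identity {W : ℝ × ℝ → ℝ} (h0 : br u P z ≠ 0) (hW : DifferentiableAt ℝ W z)
    (hv : DifferentiableAt ℝ v z) :
    br u (fun w => W w * (v w * v w)) z
      = br u P z * (No u P W z * v z ^ 2 + 2 * W z * v z * No u P v z) := by
  have hvv : DifferentiableAt ℝ (fun w => v w * v w) z := hv.mul hv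
  rw [br_eq_mul_No (f := fun w => W w * (v w * v w)) h0, No_mul hW hvv, No_mul hv hv]
  ring

/-! ### geometry -/

theorem hasDerivAt_vert {f : ℝ × ℝ → ℝ} {x t : ℝ} (hf : DifferentiableAt ℝ f (x, t)) :
    HasDerivAt (fun s => f (x, s)) (dy f (x, t)) t := by
  have h1 : HasDerivAt (fun s : ℝ => (x, s)) ((0 : ℝ), (1 : ℝ)) t :=
    (hasDerivAt_const t x).prodMk (hasDerivAt_id t)
  exact hf.hasFDerivAt.comp_hasDerivAt t h1

theorem mem_disc_vert {R : ℝ} {x y t : ℝ} (h : (x, y) ∈ disc R) (ht : t ^ 2 ≤ y ^ 2) :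
    (x, t) ∈ disc R := by
  simp only [disc, mem_ofPred_eq] at h ⊢
  linarith

theorem Dat.P_up (D : Dat C0 j0 ρ0 κ0 c b u P κ v) {x y : ℝ} (hz : (x, y) ∈ disc 2) (hy : 0 ≤ y) :
    ρ0 * y ≤ P (x, y) - P (x, 0) := by
  have hd : ∀ t ∈ Icc 0 y, HasDerivAt (fun s => P (x, s)) (dy P (x, t)) t := fun t ht =>
    hasDerivAt_vert (D.reg.sP.diff (isOpen_disc 2)
      (mem_disc_vert hz (pow_le_pow_left₀ ht.1 ht.2 2)))
  have := Convex.mul_sub_le_image_sub_of_le_deriv (convex_Icc 0 y)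
    (fun t ht => (hd t ht).continuousAt.continuousWithinAt)
    (fun t ht => (hd t (interior_subset ht)).differentiableAt.differentiableWithinAt)
    (C := ρ0) (fun t ht => by
      have ht' := interior_subset ht
      rw [(hd t ht').deriv]
      exact D.geo.Py _ (mem_disc_vert hz (pow_le_pow_left₀ ht'.1 ht'.2 2)))
    0 ⟨le_refl _, hy⟩ y ⟨hy, le_refl _⟩ hy
  simpa using this

theorem Dat.P_down (D : Dat C0 j0 ρ0 κ0 c b u P κ v) {x y : ℝ} (hz : (x, y) ∈ disc 2)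
    (hy : y ≤ 0) : ρ0 * (-y) ≤ P (x, 0) - P (x, y) := by
  have hsq : ∀ t ∈ Icc y 0, t ^ 2 ≤ y ^ 2 := fun t ht => by nlinarith [ht.1, ht.2]
  have hd : ∀ t ∈ Icc y 0, HasDerivAt (fun s => P (x, s)) (dy P (x, t)) t := fun t ht =>
    hasDerivAt_vert (D.reg.sP.diff (isOpen_disc 2) (mem_disc_vert hz (hsq t ht)))
  have := Convex.mul_sub_le_image_sub_of_le_deriv (convex_Icc y 0)
    (fun t ht => (hd t ht).continuousAt.continuousWithinAt)
    (fun t ht => (hd t (interior_subset ht)).differentiableAt.differentiableWithinAt)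
    (C := ρ0) (fun t ht => by
      have ht' := interior_subset ht
      rw [(hd t ht').deriv]
      exact D.geo.Py _ (mem_disc_vert hz (hsq t ht')))
    y ⟨le_refl _, hy⟩ 0 ⟨hy, le_refl _⟩ hy
  simpa using this

/-- `ρ0 |y| ≤ |P(x,y)| + |P(x,0)|` -/
theorem Dat.P_vert (D : Dat C0 j0 ρ0 κ0 c b u P κ v) {x y : ℝ} (hz : (x, y) ∈ disc 2) :
    ρ0 * |y| ≤ |P (x, y)| + |P (x, 0)| := by
  rcases le_total 0 y with hy | hy
  · have := D.P_up hz hy
    rw [abs_of_nonneg hy]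
    linarith [le_abs_self (P (x, y)), neg_abs_le (P (x, 0))]
  · have := D.P_down hz hy
    rw [abs_of_nonpos hy]
    linarith [le_abs_self (P (x, 0)), neg_abs_le (P (x, y))]

/-- `|P(x,0)| ≤ ρ0 |x|` -/
theorem Dat.P_horiz (D : Dat C0 j0 ρ0 κ0 c b u P κ v) {x : ℝ} (hz : (x, (0 : ℝ)) ∈ disc 2) :
    |P (x, 0)| ≤ ρ0 * |x| := by
  have h0 : (0 : ℝ × ℝ) ∈ disc 2 := by simp [disc]
  have := abs_sub_le_disc D.reg.sP (fun z hz => D.geo.Px z hz) (fun z hz => (D.reg.bP z hz).2.2)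
    (x, 0) hz 0 h0
  rw [D.geo.P0] at this
  simpa using this

/-- `|P(z)| ≤ C0 (|x| + |y|)` -/
theorem Dat.P_abs (D : Dat C0 j0 ρ0 κ0 c b u P κ v) (hz : z ∈ disc 2) :
    |P z| ≤ C0 * (|z.1| + |z.2|) := by
  have h0 : (0 : ℝ × ℝ) ∈ disc 2 := by simp [disc]
  have := abs_sub_le_disc D.reg.sP (fun z hz => (D.reg.bP z hz).2.1)
    (fun z hz => (D.reg.bP z hz).2.2) z hz 0 h0
  rw [D.geo.P0] at this
  simp at this
  linarith

theorem abs_le_of_disc {R : ℝ} (hR : 0 ≤ R) (hz : z ∈ disc R) : |z.1| ≤ R ∧ |z.2| ≤ R := by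
  simp only [disc, mem_ofPred_eq] at hz
  exact ⟨abs_le_of_sq_le_sq (by nlinarith [sq_nonneg z.2]) hR,
    abs_le_of_sq_le_sq (by nlinarith [sq_nonneg z.1]) hR⟩

theorem disc_mono {R R' : ℝ} (hR : 0 ≤ R) (h : R ≤ R') : disc R ⊆ disc R' := by
  intro z hz
  simp only [disc, mem_ofPred_eq] at hz ⊢
  exact lt_of_lt_of_le hz (pow_le_pow_left₀ hR h 2)

/-- where the weight lives -/
theorem Dat.support (D : Dat C0 j0 ρ0 κ0 c b u P κ v) (hz : z ∈ disc 1)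
    (ht : 0 < ta κ0 c b u P z) (hP : P z < κ0 / 50) : z ∈ disc (12 / 25) ∧ |u z| < 9 / 20 := by
  have hz2 : z ∈ disc 2 := disc_mono (by norm_num) (by norm_num) hz
  unfold ta at ht
  have hu : |u z| < 9 / 20 := by
    by_contra h
    have := zt_far D.hκ D.hκ1 D.hb D.hcb (not_lt.1 h)
    linarith
  refine ⟨?_, hu⟩
  have hlow := zt_lower D.hκ D.hκ1 D.hb D.hcb (u z)
  have hPa : |P z| ≤ κ0 / 50 := by
    rw [abs_le]; constructor <;> linarith [D.hκ]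
  have hz1 := abs_le_of_disc (by norm_num) hz
  have hline : |P (z.1, 0)| ≤ κ0 / 1500 := D.geo.line z.1 (by linarith [hz1.1])
  have hv := D.P_vert (x := z.1) (y := z.2) hz2
  have hy : |z.2| ≤ 31 / 750 := by
    by_contra h
    have h := not_le.1 h
    have h1 : ρ0 * (31 / 750) < ρ0 * |z.2| := mul_lt_mul_of_pos_left h D.hρ
    have h2 : ρ0 * |z.2| ≤ κ0 / 50 + κ0 / 1500 := hv.trans (add_le_add hPa hline)
    have := D.hκρ
    linarith
  have hux := D.geo.ux z hz2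
  have hx : |z.1| ≤ 47 / 100 := by
    have h1 : |z.1| ≤ |u z| + |u z - z.1| := by
      have := abs_sub_abs_le_abs_sub (z.1) (u z)
      rw [abs_sub_comm] at this
      linarith
    linarith
  simp only [disc, mem_ofPred_eq]
  have h1 : z.1 ^ 2 ≤ (47 / 100) ^ 2 := by rw [← sq_abs z.1]; exact pow_le_pow_left₀ (abs_nonneg _) hx 2
  have h2 : z.2 ^ 2 ≤ (31 / 750) ^ 2 := by rw [← sq_abs z.2]; exact pow_le_pow_left₀ (abs_nonneg _) hy 2
  nlinarith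

theorem Dat.W_zero (D : Dat C0 j0 ρ0 κ0 c b u P κ v) (K : ℝ) (hz : z ∈ disc 1)
    (hn : z ∉ disc (12 / 25)) : Wf K κ0 c b u P z = 0 := by
  unfold Wf
  by_cases h1 : ta κ0 c b u P z ≤ 0
  · rw [Hf_of_nonpos h1, zero_mul]
  · by_cases h2 : P z < κ0 / 50
    · exact absurd (D.support hz (not_le.1 h1) h2).1 hn
    · rw [om_eq_zero D.hκ (not_lt.1 h2), mul_zero]

/-- upper bound for `τ` -/
theorem Dat.ta_le (D : Dat C0 j0 ρ0 κ0 c b u P κ v) (hz : z ∈ disc 2) :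
    ta κ0 c b u P z ≤ 2 * C0 + 2 := by
  unfold ta zt
  have h1 := sqrt_le_add (x := u z) D.hb
  have h2 : -(|c| * b) ≤ c * b := by
    have := neg_abs_le c
    nlinarith [D.hb]
  have h3 : (|c| + 1) * b ≤ κ0 / 5000 := D.hcb
  have h4 : P z ≤ C0 := (le_abs_self _).trans (D.reg.bP z hz).1
  have h5 : |u z| ≤ C0 := (D.reg.bu z hz).1
  have h6 : κ0 / 10 * Real.sqrt ((u z) ^ 2 + b ^ 2) ≤ 1 * (|u z| + b) :=
    mul_le_mul (by linarith [D.hκ1]) h1 (Real.sqrt_nonneg _) (by norm_num)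
  have h7 : 0 ≤ 4 * (κ0 / 10) * (u z) ^ 2 := by
    have := D.hκ
    positivity
  have h8 := D.b_le
  have h9 := D.hκ1
  nlinarith [D.hb, D.hκ]

end

end Vale.Agent.P229.DownAux
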