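import Vale.Agent.P229.Surf

/-!
# P229 [C]: metric entropy chain
-/

namespace Vale.Agent.P229

open MeasureTheory Set
open scoped ContDiff

namespace EntropyAux

/-- Cauchy-Schwarz against constants. -/
theorem sq_integral_le {α : Type*} [MeasurableSpace α] (μ : Measure α) [IsFiniteMeasure μ]
    (h : α → ℝ) (h1 : Integrable h μ) (h2 : Integrable (fun x => h x ^ 2) μ) :
    (∫ x, h x ∂μ) ^ 2 ≤ μ.real univ * ∫ x, h x ^ 2 ∂μ := by
  rcases eq_or_lt_of_le (measureReal_nonneg (μ := μ) (s := univ)) with h0 | h0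
  · have : μ = 0 := by
      rw [eq_comm, measureReal_eq_zero_iff] at h0
      exact Measure.measure_univ_eq_zero.1 h0
    subst this
    simp
  · set M := μ.real univ with hM
    set c := (∫ x, h x ∂μ) / M with hc
    have h3 : 0 ≤ ∫ x, (h x - c) ^ 2 ∂μ := integral_nonneg fun x => sq_nonneg _
    have h4 : ∫ x, (h x - c) ^ 2 ∂μ = (∫ x, h x ^ 2 ∂μ) - 2 * c * (∫ x, h x ∂μ) + c ^ 2 * M := by
      have : (fun x => (h x - c) ^ 2) = fun x => (h x ^ 2 - 2 * c * h x) + c ^ 2 := by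
        ext x; ring
      have e1 : Integrable (fun x => h x ^ 2 - 2 * c * h x) μ := h2.sub (h1.const_mul _)
      rw [this, integral_add e1 (integrable_const _),
        integral_sub h2 (h1.const_mul _), integral_const_mul, integral_const, smul_eq_mul]
      ring
    rw [h4] at h3
    have h5 : (∫ x, h x ∂μ) = c * M := by rw [hc]; field_simp
    rw [h5] at h3 ⊢
    nlinarith

theorem real_Ico (a q : ℝ) (hq : 0 < q) :
    (volume.restrict (Ico a (a + q))).real univ = q := by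
  simp [Measure.real, hq.le]

theorem integrableOn_Ico {G : ℝ → ℝ} (hG : Continuous G) (a q : ℝ) :
    IntegrableOn G (Ico a (a + q)) :=
  (hG.continuousOn.integrableOn_compact isCompact_Icc).mono_set Ico_subset_Icc_self

/-- one-dimensional estimate -/
theorem sq_sub_le {G G' : ℝ → ℝ} (hG : ∀ x, HasDerivAt G (G' x) x) (hG' : Continuous G')
    (a q : ℝ) (hq : 0 < q) {x x' : ℝ} (hx : x ∈ Ico a (a + q)) (hx' : x' ∈ Ico a (a + q)) :
    (G x - G x') ^ 2 ≤ q * ∫ s in Ico a (a + q), G' s ^ 2 := by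
  have h1 : ∫ s in x'..x, G' s = G x - G x' :=
    intervalIntegral.integral_eq_sub_of_hasDerivAt (fun s _ => hG s)
      (hG'.intervalIntegrable _ _)
  have h2 : |G x - G x'| ≤ ∫ s in Ico a (a + q), |G' s| := by
    rw [← h1]
    have h0 := intervalIntegral.norm_integral_le_integral_norm_uIoc (f := G') (a := x') (b := x)
      (μ := volume)
    simp only [Real.norm_eq_abs] at h0
    refine h0.trans ?_
    refine setIntegral_mono_set (integrableOn_Ico hG'.abs a q) ?_ ?_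
    · exact Filter.Eventually.of_forall fun s => abs_nonneg _
    · have h3 : uIoc x' x ⊆ Icc a (a + q) := by
        intro s hs
        rw [mem_uIoc] at hs
        rcases hs with hs | hs
        · exact ⟨hx'.1.trans hs.1.le, hs.2.trans hx.2.le⟩
        · exact ⟨hx.1.trans hs.1.le, hs.2.trans hx'.2.le⟩
      exact (LE.le.eventuallyLE h3).trans Ico_ae_eq_Icc.symm.le
  have h3 := sq_integral_le (volume.restrict (Ico a (a + q))) (fun s => |G' s|)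
    (integrableOn_Ico hG'.abs a q) (integrableOn_Ico (hG'.abs.pow 2) a q)
  rw [real_Ico a q hq] at h3
  simp only [sq_abs] at h3
  calc (G x - G x') ^ 2 = |G x - G x'| ^ 2 := (sq_abs _).symm
    _ ≤ (∫ s in Ico a (a + q), |G' s|) ^ 2 := by gcongr
    _ ≤ _ := h3

/-- half-open square -/
def sqr (a b q : ℝ) : Set (ℝ × ℝ) := Ico a (a + q) ×ˢ Ico b (b + q)

theorem measurableSet_sqr (a b q : ℝ) : MeasurableSet (sqr a b q) :=
  measurableSet_Ico.prod measurableSet_Ico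

theorem restrict_sqr (a b q : ℝ) : (volume : Measure (ℝ × ℝ)).restrict (sqr a b q) =
    (volume.restrict (Ico a (a + q))).prod (volume.restrict (Ico b (b + q))) := by
  rw [Measure.prod_restrict]; rfl

theorem isFiniteMeasure_sqr (a b q : ℝ) :
    IsFiniteMeasure ((volume : Measure (ℝ × ℝ)).restrict (sqr a b q)) := by
  rw [restrict_sqr]; infer_instance

theorem integrableOn_sqr {H : ℝ × ℝ → ℝ} (hH : Continuous H) (a b q : ℝ) :
    IntegrableOn H (sqr a b q) :=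
  (hH.continuousOn.integrableOn_compact (isCompact_Icc.prod isCompact_Icc)).mono_set
    (prod_mono Ico_subset_Icc_self Ico_subset_Icc_self)

theorem real_sqr (a b q : ℝ) (hq : 0 < q) :
    ((volume : Measure (ℝ × ℝ)).restrict (sqr a b q)).real univ = q ^ 2 := by
  rw [restrict_sqr, ← univ_prod_univ, measureReal_prod_prod, real_Ico a q hq, real_Ico b q hq]
  ring

/-- Poincare inequality on a square -/
theorem poincare {F : ℝ × ℝ → ℝ} (hF : ContDiff ℝ ∞ F) (a b q : ℝ) (hq : 0 < q) :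
    ∫ z in sqr a b q, F z ^ 2 ≤ 2 * q ^ 2 * (∫ z in sqr a b q, (dx F z ^ 2 + dy F z ^ 2)) +
      (∫ z in sqr a b q, F z) ^ 2 / q ^ 2 := by
  have hFc : Continuous F := hF.continuous
  have hfin := isFiniteMeasure_sqr a b q
  have hdx : Continuous (dx F) := continuous_dx (hF.of_le (by simp))
  have hdy : Continuous (dy F) := continuous_dy (hF.of_le (by simp))
  have hd : ∀ z, DifferentiableAt ℝ F z := fun z => (hF.differentiable (by simp)).differentiableAt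
  set μ : Measure ℝ := volume.restrict (Ico a (a + q)) with hμ
  set ν : Measure ℝ := volume.restrict (Ico b (b + q)) with hν
  set Φ : ℝ → ℝ := fun y => ∫ s in Ico a (a + q), dx F (s, y) ^ 2 with hΦ
  set Ψ : ℝ → ℝ := fun x => ∫ s in Ico b (b + q), dy F (x, s) ^ 2 with hΨ
  set Ex := ∫ z in sqr a b q, dx F z ^ 2 with hEx
  set Ey := ∫ z in sqr a b q, dy F z ^ 2 with hEy
  set I := ∫ z in sqr a b q, F z with hI
  have ix : IntegrableOn (fun z => dx F z ^ 2) (sqr a b q) := integrableOn_sqr (hdx.pow 2) a b q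
  have iy : IntegrableOn (fun z => dy F z ^ 2) (sqr a b q) := integrableOn_sqr (hdy.pow 2) a b q
  have ix' : Integrable (fun z => dx F z ^ 2) (μ.prod ν) := by rw [← restrict_sqr]; exact ix
  have iy' : Integrable (fun z => dy F z ^ 2) (μ.prod ν) := by rw [← restrict_sqr]; exact iy
  have hΨint : ∫ x, Ψ x ∂μ = Ey := by
    rw [hEy, restrict_sqr, integral_prod _ iy']
  have hΦint : ∫ y, Φ y ∂ν = Ex := by
    rw [hEx, restrict_sqr, integral_prod_symm _ ix']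
  have hΨi : Integrable Ψ μ := iy'.integral_prod_left
  have hΦi : Integrable Φ ν := ix'.integral_prod_right
  -- one-dimensional estimates
  have h1 : ∀ x ∈ Ico a (a + q), ∀ x' ∈ Ico a (a + q), ∀ y,
      (F (x, y) - F (x', y)) ^ 2 ≤ q * Φ y := by
    intro x hx x' hx' y
    refine sq_sub_le (G := fun s => F (s, y)) (G' := fun s => dx F (s, y)) (fun s => ?_)
      (hdx.comp (by fun_prop)) a q hq hx hx'
    have e1 : HasDerivAt (fun s : ℝ => (s, y)) (1, 0) s :=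
      (hasDerivAt_id s).prodMk (hasDerivAt_const s y)
    exact (hd (s, y)).hasFDerivAt.comp_hasDerivAt s e1
  have h2 : ∀ y ∈ Ico b (b + q), ∀ y' ∈ Ico b (b + q), ∀ x,
      (F (x, y) - F (x, y')) ^ 2 ≤ q * Ψ x := by
    intro y hy y' hy' x
    refine sq_sub_le (G := fun s => F (x, s)) (G' := fun s => dy F (x, s)) (fun s => ?_)
      (hdy.comp (by fun_prop)) b q hq hy hy'
    have e1 : HasDerivAt (fun s : ℝ => (x, s)) (0, 1) s :=
      (hasDerivAt_const s x).prodMk (hasDerivAt_id s)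
    exact (hd (x, s)).hasFDerivAt.comp_hasDerivAt s e1
  -- pointwise estimate
  have h3 : ∀ z ∈ sqr a b q, (q ^ 2 * F z - I) ^ 2 ≤ q ^ 2 * (2 * q ^ 3 * Φ z.2 + 2 * q ^ 2 * Ey) := by
    rintro ⟨x, y⟩ ⟨hx, hy⟩
    simp only at hx hy
    have e1 : q ^ 2 * F (x, y) - I = ∫ w in sqr a b q, (F (x, y) - F w) := by
      rw [integral_sub (integrable_const _) (integrableOn_sqr hFc a b q), integral_const,
        real_sqr a b q hq, smul_eq_mul]
    have e2 := sq_integral_le (volume.restrict (sqr a b q)) (fun w => F (x, y) - F w)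
      (integrableOn_sqr (by fun_prop) a b q) (integrableOn_sqr (by fun_prop) a b q)
    rw [real_sqr a b q hq] at e2
    rw [e1]
    refine e2.trans (mul_le_mul_of_nonneg_left ?_ (by positivity))
    have e3 : ∫ w in sqr a b q, (F (x, y) - F w) ^ 2 ≤
        ∫ w in sqr a b q, (2 * q * Φ y + 2 * q * Ψ w.1) := by
      refine setIntegral_mono_on (integrableOn_sqr (by fun_prop) a b q) ?_
        (measurableSet_sqr a b q) ?_
      · have : Integrable (fun w : ℝ × ℝ => Ψ w.1) (μ.prod ν) := hΨi.comp_fst ν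
        change Integrable _ (volume.restrict (sqr a b q))
        rw [restrict_sqr]
        exact (integrable_const _).add (this.const_mul _)
      · rintro ⟨x', y'⟩ ⟨hx', hy'⟩
        simp only at hx' hy' ⊢
        have e4 := h1 x hx x' hx' y
        have e5 := h2 y hy y' hy' x'
        nlinarith [sq_nonneg ((F (x, y) - F (x', y)) - (F (x', y) - F (x', y')))]
    refine e3.trans (le_of_eq ?_)
    have e6 : Integrable (fun w : ℝ × ℝ => Ψ w.1) (μ.prod ν) := hΨi.comp_fst ν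
    rw [restrict_sqr, integral_add (integrable_const _) (e6.const_mul _), integral_const,
      integral_const_mul, integral_fun_fst, hΨint, ← restrict_sqr, real_sqr a b q hq,
      real_Ico b q hq, smul_eq_mul, smul_eq_mul]
    ring
  -- integrate
  have h4 : ∫ z in sqr a b q, (q ^ 2 * F z - I) ^ 2 ≤
      ∫ z in sqr a b q, q ^ 2 * (2 * q ^ 3 * Φ z.2 + 2 * q ^ 2 * Ey) := by
    refine setIntegral_mono_on (integrableOn_sqr (by fun_prop) a b q) ?_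
      (measurableSet_sqr a b q) h3
    have : Integrable (fun w : ℝ × ℝ => Φ w.2) (μ.prod ν) := hΦi.comp_snd μ
    change Integrable _ (volume.restrict (sqr a b q))
    rw [restrict_sqr]
    exact ((this.const_mul _).add (integrable_const _)).const_mul _
  have h5 : ∫ z in sqr a b q, q ^ 2 * (2 * q ^ 3 * Φ z.2 + 2 * q ^ 2 * Ey) =
      2 * q ^ 6 * (Ex + Ey) := by
    have e6 : Integrable (fun w : ℝ × ℝ => Φ w.2) (μ.prod ν) := hΦi.comp_snd μ
    rw [integral_const_mul, restrict_sqr, integral_add (e6.const_mul _) (integrable_const _),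
      integral_const, integral_const_mul, integral_fun_snd, hΦint, ← restrict_sqr,
      real_sqr a b q hq, real_Ico a q hq, smul_eq_mul, smul_eq_mul]
    ring
  have h6 : ∫ z in sqr a b q, (q ^ 2 * F z - I) ^ 2 =
      q ^ 4 * (∫ z in sqr a b q, F z ^ 2) - q ^ 2 * I ^ 2 := by
    have : (fun z => (q ^ 2 * F z - I) ^ 2) =
        fun z => (q ^ 4 * F z ^ 2 - 2 * q ^ 2 * I * F z) + I ^ 2 := by
      ext z; ring
    have e1 : IntegrableOn (fun z => q ^ 4 * F z ^ 2 - 2 * q ^ 2 * I * F z) (sqr a b q) :=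
      integrableOn_sqr (by fun_prop) a b q
    rw [this, integral_add e1 (integrable_const _),
      integral_sub (integrableOn_sqr (by fun_prop) a b q) (integrableOn_sqr (by fun_prop) a b q),
      integral_const_mul, integral_const_mul, integral_const, real_sqr a b q hq, smul_eq_mul, ← hI]
    ring
  have h7 : ∫ z in sqr a b q, (dx F z ^ 2 + dy F z ^ 2) = Ex + Ey := integral_add ix iy
  rw [h7]
  rw [h6, h5] at h4
  have h8 : (∫ z in sqr a b q, F z ^ 2) * q ^ 4 ≤ (2 * q ^ 2 * (Ex + Ey) + I ^ 2 / q ^ 2) * q ^ 4 := by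
    have : (2 * q ^ 2 * (Ex + Ey) + I ^ 2 / q ^ 2) * q ^ 4 =
        2 * q ^ 6 * (Ex + Ey) + q ^ 2 * I ^ 2 := by
      field_simp
    rw [this]; linarith
  exact le_of_mul_le_mul_right h8 (by positivity)

/-- grid squares -/
def cell (q : ℝ) (c : ℤ × ℤ) : Set (ℝ × ℝ) := sqr (c.1 * q) (c.2 * q) q

theorem mem_cell_iff {q : ℝ} (hq : 0 < q) (c : ℤ × ℤ) (z : ℝ × ℝ) :
    z ∈ cell q c ↔ ⌊z.1 / q⌋ = c.1 ∧ ⌊z.2 / q⌋ = c.2 := by
  simp only [cell, sqr, mem_prod, mem_Ico, Int.floor_eq_iff, le_div_iff₀ hq, div_lt_iff₀ hq,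
    add_mul, one_mul]

theorem cell_disjoint {q : ℝ} (hq : 0 < q) {c c' : ℤ × ℤ} (h : c ≠ c') :
    Disjoint (cell q c) (cell q c') := by
  rw [Set.disjoint_left]
  intro z h1 h2
  rw [mem_cell_iff hq] at h1 h2
  exact h (Prod.ext (h1.1.symm.trans h2.1) (h1.2.symm.trans h2.2))

theorem integrableOn_of_subset_disc {H : ℝ × ℝ → ℝ} (hH : Continuous H) {U : Set (ℝ × ℝ)}
    (hU : U ⊆ disc 2) : IntegrableOn H U := by
  refine (hH.continuousOn.integrableOn_compact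
    ((isCompact_Icc (a := (-2 : ℝ)) (b := 2)).prod (isCompact_Icc (a := (-2 : ℝ)) (b := 2)))).mono_set
    (hU.trans ?_)
  intro z hz
  have hz' : z.1 ^ 2 + z.2 ^ 2 < 2 ^ 2 := hz
  rw [mem_prod, mem_Icc, mem_Icc]
  refine ⟨⟨?_, ?_⟩, ⟨?_, ?_⟩⟩ <;> nlinarith [sq_nonneg z.1, sq_nonneg z.2]

/-- pigeonhole -/
theorem pigeonhole {ι β : Type} [DecidableEq β] (S : Finset ι) (T : Finset β) (F : ι → β)
    (h : ∀ i ∈ S, F i ∈ T) : ∃ S' ⊆ S, S.card ≤ S'.card * T.card ∧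
      ∀ i ∈ S', ∀ j ∈ S', F i = F j := by
  classical
  rcases S.eq_empty_or_nonempty with rfl | ⟨i0, hi0⟩
  · exact ⟨∅, Finset.Subset.refl _, by simp, by simp⟩
  · obtain ⟨y, hy, hmax⟩ := Finset.exists_max_image T (fun y => (S.filter fun i => F i = y).card)
      ⟨F i0, h i0 hi0⟩
    refine ⟨S.filter fun i => F i = y, Finset.filter_subset _ _, ?_, ?_⟩
    · rw [Finset.card_eq_sum_card_fiberwise h, mul_comm, ← smul_eq_mul]
      exact Finset.sum_le_card_nsmul _ _ _ hmax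
    · intro i hi j hj
      rw [Finset.mem_filter] at hi hj
      rw [hi.2, hj.2]

theorem code_mem {k : ℕ} {q D : ℝ} (hq : 0 < q) (hqk : q * (k : ℝ) ^ 3 = 1)
    (hD : 0 < D) {U : Set (ℝ × ℝ)} (hU2 : U ⊆ disc 2) {F : ℝ × ℝ → ℝ} (hF : Continuous F)
    (hFD : ∫ z in U, F z ^ 2 ≤ D ^ 2) {c : ℤ × ℤ} (hc : cell q c ⊆ U) :
    ⌊(∫ z in cell q c, F z) / (q ^ 3 * D)⌋ ∈ Finset.Icc (-((k : ℤ) ^ 6)) ((k : ℤ) ^ 6) := by
  have hfin : IsFiniteMeasure ((volume : Measure (ℝ × ℝ)).restrict (cell q c)) :=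
    isFiniteMeasure_sqr (c.1 * q) (c.2 * q) q
  have e1 := sq_integral_le (volume.restrict (cell q c)) F
    (integrableOn_sqr hF _ _ _) (integrableOn_sqr (hF.pow 2) _ _ _)
  have e2 : (volume.restrict (cell q c)).real univ = q ^ 2 := real_sqr _ _ _ hq
  rw [e2] at e1
  have e3 : ∫ z in cell q c, F z ^ 2 ≤ D ^ 2 := by
    refine le_trans ?_ hFD
    exact setIntegral_mono_set (integrableOn_of_subset_disc (hF.pow 2) hU2)
      (Filter.Eventually.of_forall fun z => sq_nonneg _)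
      (LE.le.eventuallyLE hc)
  have e4 : (∫ z in cell q c, F z) ^ 2 ≤ (q * D) ^ 2 := by
    calc (∫ z in cell q c, F z) ^ 2 ≤ q ^ 2 * ∫ z in cell q c, F z ^ 2 := e1
      _ ≤ q ^ 2 * D ^ 2 := by gcongr
      _ = (q * D) ^ 2 := by ring
  have e5 : |∫ z in cell q c, F z| ≤ q * D := abs_le_of_sq_le_sq e4 (by positivity)
  have e6 : |(∫ z in cell q c, F z) / (q ^ 3 * D)| ≤ (k : ℝ) ^ 6 := by
    rw [abs_div, abs_of_pos (show 0 < q ^ 3 * D by positivity), div_le_iff₀ (by positivity)]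
    have : (k : ℝ) ^ 6 * (q ^ 3 * D) = q * D := by
      have : (k : ℝ) ^ 6 * (q ^ 3 * D) = (q * (k : ℝ) ^ 3) ^ 2 * (q * D) := by ring
      rw [this, hqk]; ring
    rw [this]; exact e5
  rw [abs_le] at e6
  rw [Finset.mem_Icc]
  constructor
  · rw [Int.le_floor]; push_cast; exact e6.1
  · have h7 : (⌊(∫ z in cell q c, F z) / (q ^ 3 * D)⌋ : ℝ) ≤ (k : ℝ) ^ 6 :=
      (Int.floor_le _).trans e6.2
    exact_mod_cast h7

theorem floor_mem {k : ℕ} (hk : 2 ≤ k) {q : ℝ} (hq : 0 < q) (hqk : q * (k : ℝ) ^ 3 = 1) {x : ℝ}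
    (hx : |x| ≤ 7 / 5) : ⌊x / q⌋ ∈ Finset.Icc (-(2 * (k : ℤ) ^ 3)) (2 * (k : ℤ) ^ 3) := by
  rw [abs_le] at hx
  have hkR : (2 : ℝ) ≤ k := by exact_mod_cast hk
  have hk3 : (8 : ℝ) ≤ (k : ℝ) ^ 3 := by
    calc (8 : ℝ) = 2 ^ 3 := by norm_num
      _ ≤ (k : ℝ) ^ 3 := by gcongr
  have hxq : x / q = x * (k : ℝ) ^ 3 := by
    rw [div_eq_iff hq.ne', mul_assoc, mul_comm _ q, hqk, mul_one]
  rw [Finset.mem_Icc, hxq]
  constructor
  · rw [Int.le_floor]; push_cast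
    nlinarith
  · have h7 : (⌊x * (k : ℝ) ^ 3⌋ : ℝ) ≤ x * (k : ℝ) ^ 3 := Int.floor_le _
    have h8 : (⌊x * (k : ℝ) ^ 3⌋ : ℝ) ≤ 2 * (k : ℝ) ^ 3 := by nlinarith
    exact_mod_cast h8

/-- the grid squares inside `V` -/
noncomputable def grid (k : ℕ) (q : ℝ) (V : Set (ℝ × ℝ)) : Finset (ℤ × ℤ) := by
  classical
  exact ((Finset.Icc (-(2 * (k : ℤ) ^ 3)) (2 * (k : ℤ) ^ 3)) ×ˢ
    (Finset.Icc (-(2 * (k : ℤ) ^ 3)) (2 * (k : ℤ) ^ 3))).filter fun c => cell q c ⊆ V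

theorem mem_grid {k : ℕ} {q : ℝ} {V : Set (ℝ × ℝ)} {c : ℤ × ℤ} : c ∈ grid k q V ↔
    (c.1 ∈ Finset.Icc (-(2 * (k : ℤ) ^ 3)) (2 * (k : ℤ) ^ 3) ∧
      c.2 ∈ Finset.Icc (-(2 * (k : ℤ) ^ 3)) (2 * (k : ℤ) ^ 3)) ∧ cell q c ⊆ V := by
  classical
  rw [grid, Finset.mem_filter, Finset.mem_product]

theorem card_grid (k : ℕ) (q : ℝ) (V : Set (ℝ × ℝ)) : (grid k q V).card ≤ (4 * k ^ 3 + 1) ^ 2 := by
  classical
  refine (Finset.card_filter_le _ _).trans ?_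
  rw [Finset.card_product, Int.card_Icc]
  have : (2 * (k : ℤ) ^ 3 + 1 - -(2 * (k : ℤ) ^ 3)).toNat = 4 * k ^ 3 + 1 := by
    have : (2 * (k : ℤ) ^ 3 + 1 - -(2 * (k : ℤ) ^ 3)) = ((4 * k ^ 3 + 1 : ℕ) : ℤ) := by
      push_cast; ring
    rw [this, Int.toNat_natCast]
  rw [this, sq]

theorem subset_grid {k : ℕ} (hk : 2 ≤ k) {q : ℝ} (hq : 0 < q) (hqk : q * (k : ℝ) ^ 3 = 1)
    {V W : Set (ℝ × ℝ)} (hW2 : W ⊆ disc (7 / 5))
    (hcov : ∀ z ∈ W, ∀ w : ℝ × ℝ, |w.1 - z.1| ≤ q → |w.2 - z.2| ≤ q → w ∈ V) :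
    W ⊆ ⋃ c ∈ grid k q V, cell q c := by
  intro z hz
  have hz2 : z.1 ^ 2 + z.2 ^ 2 < (7 / 5) ^ 2 := hW2 hz
  have hz1 : |z.1| ≤ 7 / 5 := abs_le_of_sq_le_sq (by nlinarith [sq_nonneg z.2]) (by norm_num)
  have hz3 : |z.2| ≤ 7 / 5 := abs_le_of_sq_le_sq (by nlinarith [sq_nonneg z.1]) (by norm_num)
  rw [mem_iUnion₂]
  have hzc : z ∈ cell q (⌊z.1 / q⌋, ⌊z.2 / q⌋) := (mem_cell_iff hq _ _).2 ⟨rfl, rfl⟩
  refine ⟨(⌊z.1 / q⌋, ⌊z.2 / q⌋), ?_, hzc⟩
  rw [mem_grid]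
  refine ⟨⟨floor_mem hk hq hqk hz1, floor_mem hk hq hqk hz3⟩, fun w hw => hcov z hz w ?_ ?_⟩
  · have h1 := hw.1
    have h2 := hzc.1
    simp only [mem_Ico] at h1 h2
    rw [abs_le]; constructor <;> linarith
  · have h1 := hw.2
    have h2 := hzc.2
    simp only [mem_Ico] at h1 h2
    rw [abs_le]; constructor <;> linarith

theorem integral_le {k : ℕ} (hk : 2 ≤ k) {q : ℝ} (hq : 0 < q) (hqk : q * (k : ℝ) ^ 3 = 1)
    {V W : Set (ℝ × ℝ)} (hV2 : V ⊆ disc 2) (hW2 : W ⊆ disc (7 / 5))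
    (hcov : ∀ z ∈ W, ∀ w : ℝ × ℝ, |w.1 - z.1| ≤ q → |w.2 - z.2| ≤ q → w ∈ V)
    {A D : ℝ} {F : ℝ × ℝ → ℝ} (hF : ContDiff ℝ ∞ F)
    (hVD : ∫ z in V, (dx F z ^ 2 + dy F z ^ 2) ≤ A * D ^ 2)
    (hcell : ∀ c ∈ grid k q V, |∫ z in cell q c, F z| ≤ q ^ 3 * D) :
    ∫ z in W, F z ^ 2 ≤ (2 * A + 25) * q ^ 2 * D ^ 2 := by
  have hkR : (2 : ℝ) ≤ k := by exact_mod_cast hk
  have hUn : (⋃ c ∈ grid k q V, cell q c) ⊆ V := iUnion₂_subset fun c hc => (mem_grid.1 hc).2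
  have hpair : (grid k q V : Set (ℤ × ℤ)).Pairwise (Function.onFun Disjoint (cell q)) :=
    fun c _ c' _ h => cell_disjoint hq h
  have hdx := (contDiff_dx hF).continuous
  have hdy := (contDiff_dy hF).continuous
  have hcE : Continuous fun z => (dx F z ^ 2 + dy F z ^ 2) := by fun_prop
  have hcF : Continuous fun z => F z ^ 2 := hF.continuous.pow 2
  have s1 : ∫ z in W, F z ^ 2 ≤ ∫ z in ⋃ c ∈ grid k q V, cell q c, F z ^ 2 :=
    setIntegral_mono_set (integrableOn_of_subset_disc hcF (hUn.trans hV2))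
          (Filter.Eventually.of_forall fun z => sq_nonneg _)
          (LE.le.eventuallyLE (subset_grid hk hq hqk hW2 hcov))
  have s2 : ∫ z in ⋃ c ∈ grid k q V, cell q c, F z ^ 2 =
      ∑ c ∈ grid k q V, ∫ z in cell q c, F z ^ 2 :=
    integral_biUnion_finset _ (fun c _ => measurableSet_sqr _ _ _) hpair
          (fun c _ => integrableOn_sqr hcF _ _ _)
  have s3 : ∑ c ∈ grid k q V, ∫ z in cell q c, F z ^ 2 ≤ ∑ c ∈ grid k q V,
      (2 * q ^ 2 * (∫ z in cell q c, (dx F z ^ 2 + dy F z ^ 2)) + q ^ 4 * D ^ 2) := by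
    refine Finset.sum_le_sum fun c hc => ?_
    have e1 := poincare hF (c.1 * q) (c.2 * q) q hq
    refine e1.trans (add_le_add le_rfl ?_)
    have e2 := hcell c hc
    have e3 : (∫ z in cell q c, F z) ^ 2 ≤ (q ^ 3 * D) ^ 2 := by
      rw [← sq_abs]; gcongr
    rw [div_le_iff₀ (by positivity)]
    calc _ ≤ (q ^ 3 * D) ^ 2 := e3
      _ = q ^ 4 * D ^ 2 * q ^ 2 := by ring
  have s4 : ∑ c ∈ grid k q V,
      (2 * q ^ 2 * (∫ z in cell q c, (dx F z ^ 2 + dy F z ^ 2)) + q ^ 4 * D ^ 2) =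
      2 * q ^ 2 * (∫ z in ⋃ c ∈ grid k q V, cell q c, (dx F z ^ 2 + dy F z ^ 2)) +
          (grid k q V).card * (q ^ 4 * D ^ 2) := by
    have s2' : ∫ z in ⋃ c ∈ grid k q V, cell q c, (dx F z ^ 2 + dy F z ^ 2) =
        ∑ c ∈ grid k q V, ∫ z in cell q c, (dx F z ^ 2 + dy F z ^ 2) :=
      integral_biUnion_finset _ (fun c _ => measurableSet_sqr _ _ _) hpair
          (fun c _ => integrableOn_sqr hcE _ _ _)
    rw [Finset.sum_add_distrib, ← Finset.mul_sum, Finset.sum_const, nsmul_eq_mul, s2']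
  have e1 : ∫ z in ⋃ c ∈ grid k q V, cell q c, (dx F z ^ 2 + dy F z ^ 2) ≤ A * D ^ 2 := by
    refine le_trans ?_ hVD
    exact setIntegral_mono_set (integrableOn_of_subset_disc hcE hV2)
      (Filter.Eventually.of_forall fun z => by positivity) (LE.le.eventuallyLE hUn)
  have e2 : ((grid k q V).card : ℝ) ≤ 25 * (k : ℝ) ^ 6 := by
    have h1 : ((grid k q V).card : ℝ) ≤ ((4 * k ^ 3 + 1) ^ 2 : ℕ) := by
      exact_mod_cast card_grid k q V
    refine h1.trans ?_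
    push_cast
    have h2 : (1 : ℝ) ≤ (k : ℝ) ^ 3 := one_le_pow₀ (by linarith)
    have h3 : (4 * (k : ℝ) ^ 3 + 1) ^ 2 ≤ (5 * (k : ℝ) ^ 3) ^ 2 := by gcongr; linarith
    calc _ ≤ _ := h3
      _ = _ := by ring
  have s5 : 2 * q ^ 2 * (∫ z in ⋃ c ∈ grid k q V, cell q c, (dx F z ^ 2 + dy F z ^ 2)) +
          (grid k q V).card * (q ^ 4 * D ^ 2) ≤
        2 * q ^ 2 * (A * D ^ 2) + (25 * (k : ℝ) ^ 6) * (q ^ 4 * D ^ 2) := by
    gcongr
  have s6 : 2 * q ^ 2 * (A * D ^ 2) + (25 * (k : ℝ) ^ 6) * (q ^ 4 * D ^ 2) =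
      (2 * A + 25) * q ^ 2 * D ^ 2 := by
    have : (25 * (k : ℝ) ^ 6) * (q ^ 4 * D ^ 2) =
        25 * (q * (k : ℝ) ^ 3) ^ 2 * (q ^ 2 * D ^ 2) := by ring
    rw [this, hqk]; ring
  linarith

theorem step {ι : Type} (S : Finset ι) (f : ι → ℝ × ℝ → ℝ) (hf : ∀ i ∈ S, ContDiff ℝ ∞ (f i))
    (k : ℕ) (hk : 2 ≤ k) (U V W : Set (ℝ × ℝ)) (hVU : V ⊆ U) (hU2 : U ⊆ disc 2)
    (hW2 : W ⊆ disc (7 / 5))
    (hcov : ∀ z ∈ W, ∀ w : ℝ × ℝ, |w.1 - z.1| ≤ 1 / (k : ℝ) ^ 3 → |w.2 - z.2| ≤ 1 / (k : ℝ) ^ 3 →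
      w ∈ V) (A D : ℝ) (hD : 0 < D)
    (hUD : ∀ i ∈ S, ∀ j ∈ S, ∫ z in U, (f i z - f j z) ^ 2 ≤ D ^ 2)
    (hVD : ∀ i ∈ S, ∀ j ∈ S,
      ∫ z in V, ((dx (f i) z - dx (f j) z) ^ 2 + (dy (f i) z - dy (f j) z) ^ 2) ≤ A * D ^ 2) :
    ∃ S' ⊆ S, S.card ≤ S'.card * (2 * k ^ 6 + 1) ^ ((4 * k ^ 3 + 1) ^ 2) ∧
      ∀ i ∈ S', ∀ j ∈ S', ∫ z in W, (f i z - f j z) ^ 2 ≤
        (2 * A + 25) * (1 / (k : ℝ) ^ 3) ^ 2 * D ^ 2 := by
  classical
  rcases S.eq_empty_or_nonempty with rfl | ⟨i0, hi0⟩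
  · exact ⟨∅, Finset.Subset.refl _, by simp, by simp⟩
  have hkR : (2 : ℝ) ≤ k := by exact_mod_cast hk
  have hk0 : (0 : ℝ) < k := by linarith
  obtain ⟨q, hqdef⟩ : ∃ q : ℝ, q = 1 / (k : ℝ) ^ 3 := ⟨_, rfl⟩
  rw [← hqdef] at hcov ⊢
  have hq : 0 < q := by rw [hqdef]; positivity
  have hqk : q * (k : ℝ) ^ 3 = 1 := by rw [hqdef]; field_simp
  -- codes
  obtain ⟨code, hcode⟩ : ∃ code : ι → (grid k q V → ℤ), ∀ i c, code i c =
    ⌊(∫ z in cell q c.1, (f i z - f i0 z)) / (q ^ 3 * D)⌋ := ⟨_, fun _ _ => rfl⟩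
  have hTcard : (Fintype.piFinset fun _ : grid k q V =>
      Finset.Icc (-((k : ℤ) ^ 6)) ((k : ℤ) ^ 6)).card ≤
      (2 * k ^ 6 + 1) ^ ((4 * k ^ 3 + 1) ^ 2) := by
    rw [Fintype.card_piFinset]
    have : ((k : ℤ) ^ 6 + 1 - -((k : ℤ) ^ 6)).toNat = 2 * k ^ 6 + 1 := by
      have : ((k : ℤ) ^ 6 + 1 - -((k : ℤ) ^ 6)) = ((2 * k ^ 6 + 1 : ℕ) : ℤ) := by
        push_cast; ring
      rw [this, Int.toNat_natCast]
    simp only [Int.card_Icc, this, Finset.prod_const, Finset.card_univ, Fintype.card_coe]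
    exact Nat.pow_le_pow_right (by omega) (card_grid k q V)
  have hcodeT : ∀ i ∈ S, code i ∈ (Fintype.piFinset fun _ : grid k q V =>
      Finset.Icc (-((k : ℤ) ^ 6)) ((k : ℤ) ^ 6)) := by
    intro i hi
    rw [Fintype.mem_piFinset]
    rintro ⟨c, hc⟩
    rw [hcode]
    exact code_mem hq hqk hD hU2 ((hf i hi).continuous.sub (hf i0 hi0).continuous)
      (hUD i hi i0 hi0) ((mem_grid.1 hc).2.trans hVU)
  obtain ⟨S', hS', hcard, heq⟩ := pigeonhole S _ code hcodeT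
  refine ⟨S', hS', hcard.trans (Nat.mul_le_mul_left _ hTcard), fun i hi j hj => ?_⟩
  have hiS := hS' hi
  have hjS := hS' hj
  have hF : ContDiff ℝ ∞ (fun z => f i z - f j z) := (hf i hiS).sub (hf j hjS)
  refine integral_le hk hq hqk (hVU.trans hU2) hW2 hcov hF ?_ ?_
  · have hdxs : ∀ z, dx (fun z => f i z - f j z) z = dx (f i) z - dx (f j) z := fun z =>
      dx_sub ((hf i hiS).differentiable (by simp)).differentiableAt
        ((hf j hjS).differentiable (by simp)).differentiableAt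
    have hdys : ∀ z, dy (fun z => f i z - f j z) z = dy (f i) z - dy (f j) z := fun z =>
      dy_sub ((hf i hiS).differentiable (by simp)).differentiableAt
        ((hf j hjS).differentiable (by simp)).differentiableAt
    simp only [hdxs, hdys]
    exact hVD i hiS j hjS
  · intro c hc
    have e0 := congr_fun (heq i hi j hj) ⟨c, hc⟩
    rw [hcode, hcode] at e0
    have e1 : ∫ z in cell q c, (f i z - f j z) =
        (∫ z in cell q c, (f i z - f i0 z)) - ∫ z in cell q c, (f j z - f i0 z) := by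
      rw [← integral_sub]
      · congr 1; ext z; ring
      · exact integrableOn_sqr ((hf i hiS).continuous.sub (hf i0 hi0).continuous) _ _ _
      · exact integrableOn_sqr ((hf j hjS).continuous.sub (hf i0 hi0).continuous) _ _ _
    rw [e1]
    simp only at e0
    generalize (∫ z in cell q c, (f i z - f i0 z)) = α at *
    generalize (∫ z in cell q c, (f j z - f i0 z)) = β at *
    have e2 := Int.floor_le (α / (q ^ 3 * D))
    have e3 := Int.lt_floor_add_one (α / (q ^ 3 * D))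
    have e4 := Int.floor_le (β / (q ^ 3 * D))
    have e5 := Int.lt_floor_add_one (β / (q ^ 3 * D))
    rw [e0] at e2 e3
    have e6 : |α / (q ^ 3 * D) - β / (q ^ 3 * D)| ≤ 1 := by
      rw [abs_le]; constructor <;> linarith
    rw [← sub_div, abs_div, abs_of_pos (show 0 < q ^ 3 * D by positivity),
      div_le_iff₀ (by positivity), one_mul] at e6
    exact e6

theorem disc_mono {r R : ℝ} (h0 : 0 ≤ r) (h : r ≤ R) : disc r ⊆ disc R := by
  intro z hz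
  have hz' : z.1 ^ 2 + z.2 ^ 2 < r ^ 2 := hz
  have : r ^ 2 ≤ R ^ 2 := by gcongr
  exact lt_of_lt_of_le hz' this

theorem disc_add {r q g : ℝ} (h0 : 0 ≤ r) (hq : 0 ≤ q) (hg : 2 * q ≤ g) {z w : ℝ × ℝ}
    (hz : z ∈ disc r) (h1 : |w.1 - z.1| ≤ q) (h2 : |w.2 - z.2| ≤ q) : w ∈ disc (r + g) := by
  have hz' : z.1 ^ 2 + z.2 ^ 2 < r ^ 2 := hz
  have hz1 : |z.1| ≤ r := abs_le_of_sq_le_sq (by nlinarith [sq_nonneg z.2]) h0
  have hz2 : |z.2| ≤ r := abs_le_of_sq_le_sq (by nlinarith [sq_nonneg z.1]) h0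
  change w.1 ^ 2 + w.2 ^ 2 < (r + g) ^ 2
  have e1 : w.1 ^ 2 ≤ z.1 ^ 2 + 2 * r * q + q ^ 2 := by
    have : w.1 = z.1 + (w.1 - z.1) := by ring
    have h3 : z.1 * (w.1 - z.1) ≤ r * q := by
      calc z.1 * (w.1 - z.1) ≤ |z.1 * (w.1 - z.1)| := le_abs_self _
        _ = |z.1| * |w.1 - z.1| := abs_mul _ _
        _ ≤ r * q := by gcongr
    have h4 : (w.1 - z.1) ^ 2 ≤ q ^ 2 := by rw [← sq_abs]; gcongr
    nlinarith
  have e2 : w.2 ^ 2 ≤ z.2 ^ 2 + 2 * r * q + q ^ 2 := by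
    have : w.2 = z.2 + (w.2 - z.2) := by ring
    have h3 : z.2 * (w.2 - z.2) ≤ r * q := by
      calc z.2 * (w.2 - z.2) ≤ |z.2 * (w.2 - z.2)| := le_abs_self _
        _ = |z.2| * |w.2 - z.2| := abs_mul _ _
        _ ≤ r * q := by gcongr
    have h4 : (w.2 - z.2) ^ 2 ≤ q ^ 2 := by rw [← sq_abs]; gcongr
    nlinarith
  have e3 : (r + 2 * q) ^ 2 ≤ (r + g) ^ 2 := by gcongr
  nlinarith [mul_nonneg h0 hq, sq_nonneg q]

theorem convex_disc (R : ℝ) : Convex ℝ (disc R) := by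
  intro z hz w hw a b ha hb hab
  have hz' : z.1 ^ 2 + z.2 ^ 2 < R ^ 2 := hz
  have hw' : w.1 ^ 2 + w.2 ^ 2 < R ^ 2 := hw
  change (a * z.1 + b * w.1) ^ 2 + (a * z.2 + b * w.2) ^ 2 < R ^ 2
  have h1 : z.1 * w.1 + z.2 * w.2 ≤ (z.1 ^ 2 + z.2 ^ 2 + w.1 ^ 2 + w.2 ^ 2) / 2 := by
    nlinarith [sq_nonneg (z.1 - w.1), sq_nonneg (z.2 - w.2)]
  have h2 : (a * z.1 + b * w.1) ^ 2 + (a * z.2 + b * w.2) ^ 2 ≤
      a * (z.1 ^ 2 + z.2 ^ 2) + b * (w.1 ^ 2 + w.2 ^ 2) := by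
    have h3 : (a * z.1 + b * w.1) ^ 2 + (a * z.2 + b * w.2) ^ 2 =
      a ^ 2 * (z.1 ^ 2 + z.2 ^ 2) + b ^ 2 * (w.1 ^ 2 + w.2 ^ 2) +
        2 * (a * b) * (z.1 * w.1 + z.2 * w.2) := by ring
    have h4 : b = 1 - a := by linarith
    rw [h3]
    have h5 : 2 * (a * b) * (z.1 * w.1 + z.2 * w.2) ≤
        2 * (a * b) * ((z.1 ^ 2 + z.2 ^ 2 + w.1 ^ 2 + w.2 ^ 2) / 2) := by gcongr
    refine (add_le_add le_rfl h5).trans (le_of_eq ?_)
    rw [h4]; ring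
  rcases eq_or_lt_of_le ha with h | h
  · subst h
    have : b = 1 := by linarith
    subst this
    simpa using hw'
  · nlinarith

theorem abs_sub_le {C0 : ℝ} (hC : 0 ≤ C0) {P : ℝ × ℝ → ℝ} (hP : Sm (disc 2) P)
    (hb : ∀ z ∈ disc 2, |dx P z| ≤ C0 ∧ |dy P z| ≤ C0) {q : ℝ} {z w : ℝ × ℝ}
    (hz : z ∈ disc 2) (hw : w ∈ disc 2)
    (h1 : |w.1 - z.1| ≤ q) (h2 : |w.2 - z.2| ≤ q) : |P w - P z| ≤ 2 * C0 * q := by
  have hd : ∀ x ∈ disc 2, DifferentiableAt ℝ P x := fun x hx =>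
    Sm.diff (isOpen_disc 2) hP hx
  have hbound : ∀ x ∈ disc 2, ‖fderiv ℝ P x‖ ≤ 2 * C0 := by
    intro x hx
    refine ContinuousLinearMap.opNorm_le_bound _ (by positivity) fun v => ?_
    have e1 : fderiv ℝ P x v = v.1 * dx P x + v.2 * dy P x := by
      have : v = v.1 • ((1 : ℝ), (0 : ℝ)) + v.2 • ((0 : ℝ), (1 : ℝ)) := by
        ext <;> simp
      conv_lhs => rw [this]
      rw [map_add, map_smul, map_smul, smul_eq_mul, smul_eq_mul]
      rfl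
    rw [e1, Real.norm_eq_abs]
    have h3 := hb x hx
    have h4 : |v.1| ≤ ‖v‖ := norm_fst_le v
    have h5 : |v.2| ≤ ‖v‖ := norm_snd_le v
    calc |v.1 * dx P x + v.2 * dy P x| ≤ |v.1 * dx P x| + |v.2 * dy P x| := abs_add_le _ _
      _ = |v.1| * |dx P x| + |v.2| * |dy P x| := by rw [abs_mul, abs_mul]
      _ ≤ ‖v‖ * C0 + ‖v‖ * C0 := by
          have := h3.1
          have := h3.2
          gcongr
      _ = 2 * C0 * ‖v‖ := by ring
  have h := (convex_disc 2).norm_image_sub_le_of_norm_fderiv_le hd hbound hz hw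
  rw [Real.norm_eq_abs] at h
  refine h.trans ?_
  have : ‖w - z‖ ≤ q := by
    rw [Prod.norm_def]
    exact max_le h1 h2
  gcongr

theorem card_factor {k : ℕ} (hk : 2 ≤ k) :
    (2 * k ^ 6 + 1) ^ ((4 * k ^ 3 + 1) ^ 2) ≤ k ^ (200 * k ^ 6) := by
  have hk1 : 1 ≤ k := by omega
  have h1 : 2 * k ^ 6 + 1 ≤ k ^ 8 := by
    have h2 : 1 ≤ k ^ 6 := Nat.one_le_pow _ _ hk1
    have h3 : 4 ≤ k ^ 2 := by nlinarith
    calc 2 * k ^ 6 + 1 ≤ 4 * k ^ 6 := by omega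
      _ ≤ k ^ 2 * k ^ 6 := Nat.mul_le_mul_right _ h3
      _ = k ^ 8 := by ring
  have h4 : (4 * k ^ 3 + 1) ^ 2 ≤ 25 * k ^ 6 := by
    have h2 : 1 ≤ k ^ 3 := Nat.one_le_pow _ _ hk1
    calc (4 * k ^ 3 + 1) ^ 2 ≤ (5 * k ^ 3) ^ 2 := Nat.pow_le_pow_left (by omega) 2
      _ = 25 * k ^ 6 := by ring
  calc (2 * k ^ 6 + 1) ^ ((4 * k ^ 3 + 1) ^ 2) ≤ (k ^ 8) ^ ((4 * k ^ 3 + 1) ^ 2) :=
        Nat.pow_le_pow_left h1 _
    _ ≤ (k ^ 8) ^ (25 * k ^ 6) := Nat.pow_le_pow_right (Nat.pos_of_ne_zero (by positivity)) h4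
    _ = k ^ (200 * k ^ 6) := by rw [← pow_mul]; congr 1; ring

theorem base_bound {C0 t R : ℝ} (hR0 : 0 ≤ R) (hR2 : R ≤ 2) (Ps f h : ℝ × ℝ → ℝ)
    (hf : ∀ z ∈ disc 2, |f z| ≤ C0) (hh : ∀ z ∈ disc 2, |h z| ≤ C0) :
    ∫ z in Om Ps t R, (f z - h z) ^ 2 ≤ (8 * C0) ^ 2 := by
  have hsub : Om Ps t R ⊆ disc 2 := fun z hz => disc_mono hR0 hR2 hz.1
  have hsub2 : disc 2 ⊆ sqr (-2) (-2) 4 := by
    intro z hz
    have hz' : z.1 ^ 2 + z.2 ^ 2 < 2 ^ 2 := hz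
    refine ⟨⟨?_, ?_⟩, ⟨?_, ?_⟩⟩ <;> nlinarith [sq_nonneg z.1, sq_nonneg z.2]
  have hvol : (volume : Measure (ℝ × ℝ)) (sqr (-2) (-2) 4) < ⊤ := by
    have := isFiniteMeasure_sqr (-2) (-2) 4
    have h := this.measure_univ_lt_top
    rwa [Measure.restrict_apply_univ] at h
  have hreal : (volume : Measure (ℝ × ℝ)).real (sqr (-2) (-2) 4) = 16 := by
    have := real_sqr (-2) (-2) 4 (by norm_num)
    rw [measureReal_restrict_apply_univ] at this
    rw [this]; norm_num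
  have h1 := norm_setIntegral_le_of_norm_le_const (μ := volume)
    (s := Om Ps t R) (f := fun z => (f z - h z) ^ 2) (C := (2 * C0) ^ 2)
    (lt_of_le_of_lt (measure_mono (hsub.trans hsub2)) hvol) (by
      intro z hz
      have h3 := hf z (hsub hz)
      have h4 := hh z (hsub hz)
      rw [Real.norm_eq_abs, abs_of_nonneg (sq_nonneg _), ← sq_abs]
      have h5 : |f z - h z| ≤ 2 * C0 := by
        calc |f z - h z| ≤ |f z| + |h z| := abs_sub _ _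
          _ ≤ 2 * C0 := by linarith
      gcongr)
  refine (le_abs_self _).trans (h1.trans ?_)
  have h2 : (volume : Measure (ℝ × ℝ)).real (Om Ps t R) ≤ 16 := by
    rw [← hreal]
    exact measureReal_mono (hsub.trans hsub2) hvol.ne
  nlinarith [sq_nonneg C0]

theorem step2 {ι : Type} (S : Finset ι) (f : ι → ℝ × ℝ → ℝ) (hf : ∀ i ∈ S, ContDiff ℝ ∞ (f i))
    (k : ℕ) (hk : 2 ≤ k) (Ps : ℝ × ℝ → ℝ) (hPs : Sm (disc 2) Ps) {C0 g A t R : ℝ} (hC : 0 < C0)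
    (hg : 0 < g) (hA : 0 < A) (hPb : ∀ z ∈ disc 2, |dx Ps z| ≤ C0 ∧ |dy Ps z| ≤ C0)
    (hq1 : 2 * (1 / (k : ℝ) ^ 3) ≤ g) (hq2 : 2 * C0 * (1 / (k : ℝ) ^ 3) ≤ g)
    (hR : R ≤ 7 / 5) (hR' : 1 ≤ R - 3 * g) {D : ℝ} (hD : 0 < D)
    (hb : ∀ i ∈ S, ∀ j ∈ S, ∫ z in Om Ps t R, (f i z - f j z) ^ 2 ≤ D ^ 2)
    (hE : ∀ i ∈ S, ∀ j ∈ S, ∫ z in Om Ps (t + 2 * g) (R - 2 * g),
          ((dx (f i) z - dx (f j) z) ^ 2 + (dy (f i) z - dy (f j) z) ^ 2)
        ≤ A * ∫ z in Om Ps t R, (f i z - f j z) ^ 2) :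
    ∃ S' ⊆ S, S.card ≤ S'.card * k ^ (200 * k ^ 6) ∧ ∀ i ∈ S', ∀ j ∈ S',
      ∫ z in Om Ps (t + 3 * g) (R - 3 * g), (f i z - f j z) ^ 2 ≤
        (D * ((A + 13) / (k : ℝ) ^ 3)) ^ 2 := by
  have hkR : (2 : ℝ) ≤ k := by exact_mod_cast hk
  have hk0 : (0 : ℝ) < k := by linarith
  have hq : 0 < 1 / (k : ℝ) ^ 3 := by positivity
  have hVU : Om Ps (t + 2 * g) (R - 2 * g) ⊆ Om Ps t R := by
    intro z hz
    exact ⟨disc_mono (by linarith) (by linarith) hz.1, lt_trans (by linarith) hz.2⟩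
  have hU2 : Om Ps t R ⊆ disc 2 := fun z hz => disc_mono (by linarith) (by linarith) hz.1
  have hW2 : Om Ps (t + 3 * g) (R - 3 * g) ⊆ disc (7 / 5) :=
    fun z hz => disc_mono (by linarith) (by linarith) hz.1
  have hcov : ∀ z ∈ Om Ps (t + 3 * g) (R - 3 * g), ∀ w : ℝ × ℝ, |w.1 - z.1| ≤ 1 / (k : ℝ) ^ 3 →
      |w.2 - z.2| ≤ 1 / (k : ℝ) ^ 3 → w ∈ Om Ps (t + 2 * g) (R - 2 * g) := by
    intro z hz w h1 h2
    have hwd := disc_add (by linarith) hq.le hq1 hz.1 h1 h2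
    have hz2 : z ∈ disc 2 := disc_mono (by linarith) (by linarith) hz.1
    have hw2 : w ∈ disc 2 := disc_mono (by linarith) (by linarith) hwd
    have h3 := abs_sub_le hC.le hPs hPb hz2 hw2 h1 h2
    rw [abs_le] at h3
    have h4 : t + 3 * g < Ps z := hz.2
    refine ⟨?_, ?_⟩
    · have : R - 3 * g + g = R - 2 * g := by ring
      rwa [this] at hwd
    · linarith [h3.1]
  obtain ⟨S2, hS2, hc2, hb2⟩ := step S f hf k hk _ _ _ hVU hU2 hW2 hcov A D hD hb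
    (fun i hi j hj => (hE i hi j hj).trans (mul_le_mul_of_nonneg_left (hb i hi j hj) hA.le))
  refine ⟨S2, hS2, hc2.trans (Nat.mul_le_mul_left _ (card_factor hk)),
    fun i hi j hj => (hb2 i hi j hj).trans ?_⟩
  have h1 : 2 * A + 25 ≤ (A + 13) ^ 2 := by nlinarith [sq_nonneg A]
  have h2 : (D * ((A + 13) / (k : ℝ) ^ 3)) ^ 2 =
      (A + 13) ^ 2 * (1 / (k : ℝ) ^ 3) ^ 2 * D ^ 2 := by ring
  rw [h2]
  gcongr

end EntropyAux

open EntropyAux

theorem entropy_chain (C0 g A t R : ℝ) (l : ℕ) (hl : 1 ≤ l) (hC : 0 < C0) (hg : 0 < g) (hA : 0 < A)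
    (hR : R ≤ 7 / 5) (hR' : 6 / 5 ≤ R - 3 * (l + 1) * g) :
    ∃ (C : ℝ) (c k0 : ℕ), 0 < C ∧ ∀ {ι : Type} (S : Finset ι) (f : ι → ℝ × ℝ → ℝ)
      (Ps : ℝ × ℝ → ℝ) (k : ℕ), k0 ≤ k → Sm (disc 2) Ps →
      (∀ z ∈ disc 2, |dx Ps z| ≤ C0 ∧ |dy Ps z| ≤ C0) →
      (∀ i ∈ S, ContDiff ℝ ∞ (f i)) → (∀ i ∈ S, ∀ z ∈ disc 2, |f i z| ≤ C0) →
      (∀ m < l, ∀ i ∈ S, ∀ j ∈ S,
        ∫ z in Om Ps (t + (3 * m + 2) * g) (R - (3 * m + 2) * g),
          ((dx (f i) z - dx (f j) z) ^ 2 + (dy (f i) z - dy (f j) z) ^ 2)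
        ≤ A * ∫ z in Om Ps (t + 3 * m * g) (R - 3 * m * g), (f i z - f j z) ^ 2) →
      ∃ S' ⊆ S, S.card ≤ S'.card * k ^ (c * k ^ 6) ∧ ∀ i ∈ S', ∀ j ∈ S',
        ∫ z in Om Ps (t + 3 * l * g) (R - 3 * l * g), (f i z - f j z) ^ 2
          ≤ (C / (k : ℝ) ^ 3) ^ (2 * l) := by
  refine ⟨(8 * C0 + 1) * (A + 13), 200 * l, max 2 ⌈(2 + 2 * C0) / g⌉₊, by positivity, ?_⟩
  intro ι S f Ps k hk hPs hPb hf hfb hE
  have hk2 : 2 ≤ k := (le_max_left _ _).trans hk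
  have hkg : (2 + 2 * C0) / g ≤ k := (Nat.le_ceil _).trans (by exact_mod_cast (le_max_right _ _).trans hk)
  have hkR : (2 : ℝ) ≤ k := by exact_mod_cast hk2
  have hk0 : (0 : ℝ) < k := by linarith
  have hq : 0 < 1 / (k : ℝ) ^ 3 := by positivity
  have hqk : 1 / (k : ℝ) ^ 3 ≤ 1 / k := by
    apply one_div_le_one_div_of_le hk0
    calc (k : ℝ) = (k : ℝ) ^ 1 := (pow_one _).symm
      _ ≤ (k : ℝ) ^ 3 := pow_le_pow_right₀ (by linarith) (by norm_num)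
  have hqg : (2 + 2 * C0) * (1 / (k : ℝ) ^ 3) ≤ g := by
    rw [div_le_iff₀ hg] at hkg
    calc (2 + 2 * C0) * (1 / (k : ℝ) ^ 3) ≤ (2 + 2 * C0) * (1 / k) := by gcongr
      _ = (2 + 2 * C0) / k := by ring
      _ ≤ g := by rw [div_le_iff₀ hk0]; linarith
  have hq0 : 0 ≤ C0 * (1 / (k : ℝ) ^ 3) := by positivity
  have hq1 : 2 * (1 / (k : ℝ) ^ 3) ≤ g := by linarith
  have hq2 : 2 * C0 * (1 / (k : ℝ) ^ 3) ≤ g := by linarith
  have key : ∀ m : ℕ, m ≤ l → ∃ S' ⊆ S, S.card ≤ S'.card * k ^ (200 * m * k ^ 6) ∧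
      ∀ i ∈ S', ∀ j ∈ S', ∫ z in Om Ps (t + 3 * m * g) (R - 3 * m * g), (f i z - f j z) ^ 2
        ≤ (8 * C0 * ((A + 13) / (k : ℝ) ^ 3) ^ m) ^ 2 := by
    intro m
    induction m with
    | zero =>
      intro _
      refine ⟨S, Finset.Subset.refl _, by simp, fun i hi j hj => ?_⟩
      rw [pow_zero, mul_one]
      have : 0 ≤ 3 * ((l : ℝ) + 1) * g := by positivity
      refine base_bound ?_ ?_ Ps (f i) (f j) (hfb i hi) (hfb j hj)
      · simp only [Nat.cast_zero, mul_zero, zero_mul, sub_zero]; linarith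
      · simp only [Nat.cast_zero, mul_zero, zero_mul, sub_zero]; linarith
    | succ m ih =>
      intro hm
      obtain ⟨S1, hS1, hc1, hb1⟩ := ih (by omega)
      have hml : (m : ℝ) + 1 ≤ l := by exact_mod_cast hm
      have hmg : ((m : ℝ) + 1) * g ≤ l * g := by gcongr
      have hm0 : (0 : ℝ) ≤ 3 * (m : ℝ) * g := by positivity
      have e1 : t + (3 * (m : ℝ) + 2) * g = (t + 3 * m * g) + 2 * g := by ring
      have e2 : R - (3 * (m : ℝ) + 2) * g = (R - 3 * m * g) - 2 * g := by ring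
      have e3 : t + 3 * ((m + 1 : ℕ) : ℝ) * g = (t + 3 * m * g) + 3 * g := by push_cast; ring
      have e4 : R - 3 * ((m + 1 : ℕ) : ℝ) * g = (R - 3 * m * g) - 3 * g := by push_cast; ring
      have hE' := hE m (by omega)
      rw [e1, e2] at hE'
      rw [e3, e4]
      obtain ⟨S2, hS2, hc2, hb2⟩ := step2 S1 f (fun i hi => hf i (hS1 hi)) k hk2 Ps hPs hC hg hA
        hPb hq1 hq2 (R := R - 3 * m * g) (t := t + 3 * m * g) (by linarith) (by linarith)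
        (D := 8 * C0 * ((A + 13) / (k : ℝ) ^ 3) ^ m) (by positivity) hb1
        (fun i hi j hj => hE' i (hS1 hi) j (hS1 hj))
      refine ⟨S2, hS2.trans hS1, ?_, fun i hi j hj => (hb2 i hi j hj).trans (le_of_eq ?_)⟩
      · calc S.card ≤ S1.card * k ^ (200 * m * k ^ 6) := hc1
          _ ≤ (S2.card * k ^ (200 * k ^ 6)) * k ^ (200 * m * k ^ 6) := Nat.mul_le_mul_right _ hc2
          _ = S2.card * k ^ (200 * (m + 1) * k ^ 6) := by
              rw [mul_assoc, ← pow_add]; congr 2; ring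
      · rw [pow_succ ((A + 13) / (k : ℝ) ^ 3) m, mul_assoc (8 * C0)]
  obtain ⟨S', hS', hc, hb⟩ := key l le_rfl
  refine ⟨S', hS', hc, fun i hi j hj => (hb i hi j hj).trans ?_⟩
  have h1 : 8 * C0 ≤ (8 * C0 + 1) ^ l := by
    calc 8 * C0 ≤ (8 * C0 + 1) ^ 1 := by linarith
      _ ≤ (8 * C0 + 1) ^ l := pow_le_pow_right₀ (by linarith) hl
  have h2 : ((8 * C0 + 1) * (A + 13) / (k : ℝ) ^ 3) ^ (2 * l) =
      ((8 * C0 + 1) ^ l * ((A + 13) / (k : ℝ) ^ 3) ^ l) ^ 2 := by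
    rw [← mul_pow, ← pow_mul, mul_comm l 2, mul_div_assoc]
  rw [h2]
  gcongr

end Vale.Agent.P229
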