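import Vale.Agent.P229.KeyF
import Vale.Agent.P229.Cacc
import Vale.Agent.P229.Down
import Vale.Agent.P229.Entropy
import Vale.Agent.P229.Classes
import Vale.Agent.P229.Basic
import Vale.Agent.P229.Close
import Vale.Agent.P229.Align
import Vale.Agent.P229.Pattern
import Vale.Agent.P229.Contra

/-!
# P229: the key lemma
-/

namespace Vale.Agent.P229

open MeasureTheory Set Filter
open scoped ContDiff

namespace KeyAux

theorem exists_k (N1 N2 N3 : ℕ) (q CK X : ℝ) (hq : 0 < q) (hCK : 0 < CK) :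
    ∃ k : ℕ, N1 ≤ k ∧ N2 ≤ k ∧ N3 ≤ k ∧ 1 ≤ k ∧ 1 / (k : ℝ) < q ∧ X * (1 / (k : ℝ)) < 1 ∧
      CK * (1 / (k : ℝ)) < 3 / 4 := by
  have t : Tendsto (fun k : ℕ => 1 / (k : ℝ)) atTop (nhds 0) := tendsto_one_div_atTop_nhds_zero_nat
  have t1 : ∀ᶠ k : ℕ in atTop, 1 / (k : ℝ) < q := t.eventually_lt_const hq
  have t2 : ∀ᶠ k : ℕ in atTop, X * (1 / (k : ℝ)) < 1 := by
    have := t.const_mul X
    rw [mul_zero] at this
    exact this.eventually_lt_const (by norm_num)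
  have t3 : ∀ᶠ k : ℕ in atTop, CK * (1 / (k : ℝ)) < 3 / 4 := by
    have := t.const_mul CK
    rw [mul_zero] at this
    exact this.eventually_lt_const (by norm_num)
  obtain ⟨k, h⟩ := (t1.and (t2.and (t3.and (((eventually_ge_atTop N1).and
    (eventually_ge_atTop N2)).and ((eventually_ge_atTop N3).and (eventually_ge_atTop 1)))))).exists
  exact ⟨k, h.2.2.2.1.1, h.2.2.2.1.2, h.2.2.2.2.1, h.2.2.2.2.2, h.1, h.2.1, h.2.2.1⟩



/-- The heart of the assembly: all constants are fixed, every pattern is realized, and the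
conclusion is a contradiction. -/
theorem core {M ε C0 j0 δ n0 C1 CB CK cK CS C2 CE CF A g t0 η b b0 amp : ℝ} {l m c k0 K0 k : ℕ}
    {ψ : Finset ℕ → ℝ × ℝ → ℝ} {T : Finset ℕ → Tri}
    (hM : 1 ≤ M) (hε : 0 < ε) (hC0 : 0 < C0) (hj0 : 0 < j0) (hδ : 0 < δ) (hδ3 : δ ≤ 1 / 200)
    (hB : ∀ (e0 : ℝ) (T : Tri), 99 / 100 ≤ e0 → e0 ≤ 1 → Nrm M ε e0 T → Basic M ε C0 j0 T)
    (hn0 : 0 < n0) (hκC : Real.sqrt (δ / 2) ≤ C0)
    (hbb : BBProp C0 j0 (ε / (2 * M)) (Real.sqrt (δ / 2)) C1 CB b0)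
    (hbc : BCProp M ε C0 j0 (Real.sqrt (δ / 2)) C1 cK CK b0)
    (hCB : 0 < CB) (hcK : 0 < cK) (hCK : 0 < CK) (hCS : 0 < CS) (hC2 : 0 < C2) (hCE : 0 < CE)
    (hsb : ∀ (T T' : Tri) (ψ ψ' : ℝ × ℝ → ℝ) (S0 : ℝ), ContDiff ℝ ∞ ψ →
      ContDiff ℝ ∞ ψ' → IsImm ψ T → IsImm ψ' T' → Basic M ε C0 j0 (T.mean T') →
      Bd (disc 2) 2 S0 (fun z => Real.exp (2 * ψ z) - Real.exp (2 * ψ' z)) →
      ∀ z ∈ disc 2, |Op (T.mean T').a (Pf (T.mean T')) (kf (T.mean T'))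
        (fun w => T.h w - T'.h w) z| ≤ CS * S0)
    (hcl : CloseProp M ε C0 j0 CF)
    (hl : l = m + 281) (ht0 : t0 = Real.sqrt (δ / 2) / 150) (hgpos : 0 < g)
    (hg1 : (3 * (l : ℝ) + 6) * g ≤ t0) (hg2 : (3 * (l : ℝ) + 6) * g ≤ 1 / 5)
    (hA : 0 < A) (hcac : CacProp C0 j0 (δ / 6) (n0 / 2) g A)
    (hη : 0 < η) (hη1 : CF * η ≤ g / 2) (hη2 : CF * η ≤ n0 / 2) (hη3 : CF * η ≤ δ / 30)
    (hη4 : CF * η ≤ Real.sqrt (δ / 2) / 3000)
    (hcls : ∀ {ι : Type} (S : Finset ι) (T : ι → Tri) (e0 : ℝ), |e0| ≤ 1 →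
      (∀ i ∈ S, Nrm M ε e0 (T i)) →
      ∃ S' ⊆ S, S.card ≤ K0 * S'.card ∧ ∀ i ∈ S', ∀ j ∈ S', Close3 η (T i) (T j))
    (hent : EntProp C0 g A (t0 + g / 2) (7 / 5) CE l c k0)
    (hk2 : k0 ≤ k) (hk3 : 2 * c + K0 + 1 ≤ k) (hk4 : 1 ≤ k)
    (hk6 : CK * Real.sqrt CB * (2 * CS * C2 + 2 * (Real.sqrt (2 * (1 + A)) * CE ^ l)) *
      (1 / (k : ℝ)) < cK * (27 / 64))
    (hk7 : CK * (1 / (k : ℝ)) < 3 / 4)
    (hamp1 : 1 / (k : ℝ) ^ m ≤ amp)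
    (hb : b = 1 / (k : ℝ) ^ 64) (hbb0 : b < b0) (hbC : 2 * C0 * b < t0)
    (hψ : ∀ σ ∈ (Finset.range (k ^ 8)).powerset, ContDiff ℝ ∞ (ψ σ))
    (hdiff : ∀ σ ∈ (Finset.range (k ^ 8)).powerset, ∀ σ' ∈ (Finset.range (k ^ 8)).powerset,
      σ ≠ σ' → BumpDiff amp (C2 * amp * (k : ℝ) ^ 152) (1 / (k : ℝ) ^ 64)
        (3 / (4 * (k : ℝ) ^ 136))
          (fun z => Real.exp (2 * ψ σ z) - Real.exp (2 * ψ σ' z)))
    (hT : ∀ σ ∈ (Finset.range (k ^ 8)).powerset,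
      Nrm M ε (Real.exp (-δ)) (T σ) ∧ IsImm (ψ σ) (T σ))
    (hAF : ∀ σ ∈ (Finset.range (k ^ 8)).powerset, AF δ n0 (T σ)) : False := by
  have hkR : (1 : ℝ) ≤ k := by exact_mod_cast hk4
  have hx0 : 0 < 1 / (k : ℝ) := by positivity
  have hx1 : 1 / (k : ℝ) ≤ 1 := by
    rw [div_le_one (by linarith)]
    exact hkR
  have hbx : b = (1 / (k : ℝ)) ^ 64 := by rw [hb, one_div_pow]
  have hb0 : 0 < b := by rw [hbx]; positivity
  have hb1 : b ≤ 1 := by rw [hbx]; exact pow_le_one₀ hx0.le hx1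
  have hκpos : 0 < Real.sqrt (δ / 2) := Real.sqrt_pos.2 (by linarith)
  have ht0pos : 0 < t0 := by rw [ht0]; positivity
  have he1 : Real.exp (-δ) ≤ 1 := Real.exp_le_one_iff.2 (by linarith)
  have he0 : 99 / 100 ≤ Real.exp (-δ) := by
    have := Real.add_one_le_exp (-δ)
    linarith
  have hBas : ∀ σ ∈ (Finset.range (k ^ 8)).powerset, Basic M ε C0 j0 (T σ) := fun σ hσ =>
    hB _ _ he0 he1 (hT σ hσ).1
  have hg3 : g ≤ t0 / 6 := by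
    have : (0 : ℝ) ≤ (l : ℝ) * g := by positivity
    linarith
  have h2t : 2 * (t0 + g / 2) ≤ C0 := by
    rw [ht0] at hg3 ⊢
    linarith
  -- first pigeonhole: classes
  obtain ⟨S1, hS1, hcard1, hclose⟩ := hcls (Finset.range (k ^ 8)).powerset T (Real.exp (-δ))
    (by rw [abs_of_pos (Real.exp_pos _)]; exact he1) (fun σ hσ => (hT σ hσ).1)
  rw [Finset.card_powerset, Finset.card_range] at hcard1
  have hS1ne : S1.Nonempty := by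
    rw [← Finset.card_pos]
    by_contra h
    have h0 : S1.card = 0 := by omega
    rw [h0, mul_zero] at hcard1
    have : 0 < 2 ^ k ^ 8 := by positivity
    omega
  obtain ⟨σ0, hσ0⟩ := hS1ne
  have hMean : ∀ i ∈ S1, ∀ j ∈ S1, Nrm M ε (Real.exp (-δ)) ((T i).mean (T j)) := fun i hi j hj =>
    Nrm_mean (hT i (hS1 hi)).1 (hT j (hS1 hj)).1
  have hBm : ∀ i ∈ S1, ∀ j ∈ S1, Basic M ε C0 j0 ((T i).mean (T j)) := fun i hi j hj =>
    hB _ _ he0 he1 (hMean i hi j hj)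
  have hout : ∀ i ∈ S1, ∀ j ∈ S1, ∀ z, z ∉ disc b →
      Real.exp (2 * ψ i z) - Real.exp (2 * ψ j z) = 0 := by
    intro i hi j hj z hz
    by_cases hij : i = j
    · rw [hij]; ring
    · rw [hb] at hz
      exact (hdiff i (hS1 hi) j (hS1 hj) hij).out z hz
  have hop : ∀ i ∈ S1, ∀ j ∈ S1, ∀ z ∈ disc 2, z ∉ disc b →
      Op ((T i).mean (T j)).a (Pf ((T i).mean (T j))) (kf ((T i).mean (T j)))
        (fun w => (T i).h w - (T j).h w) z = 0 :=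
    fun i hi j hj => source_zero M ε C0 j0 hM hε hC0 hj0 (T i) (T j) (ψ i) (ψ j) (hψ i (hS1 hi))
      (hψ j (hS1 hj)) (hT i (hS1 hi)).2 (hT j (hS1 hj)).2 (hBm i hi j hj) b hb0.le
      (hout i hi j hj)
  have MD : ∀ i ∈ S1, ∀ j ∈ S1, MeanData C0 j0 (δ / 6) (n0 / 2) g (t0 + g / 2) (Real.sqrt (δ / 2))
      (ε / (2 * M)) b (Pf (T σ0)) ((T i).mean (T j)).a (Pf ((T i).mean (T j)))
      (kf ((T i).mean (T j))) (fun w => (T i).h w - (T j).h w) := by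
    intro i hi j hj
    rw [ht0]
    refine meanData hδ hn0 hη.le hj0 hcl hη1 hη2 hη3 hη4 (hMean i hi j hj) (hBas i (hS1 hi))
      (hBas σ0 (hS1 hσ0)) (hBm i hi j hj) (hAF i (hS1 hi)) ?_ ?_ ((T i).hh.sub (T j).hh)
      (hop i hi j hj) hb0.le (by linarith) (by rw [← ht0]; exact hbC) hC0 hgpos
    · exact Close3_mean (hclose i hi i hi) (hclose j hj i hi)
    · exact Close3_mean (hclose i hi σ0 hσ0) (hclose j hj σ0 hσ0)
  -- entropy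
  obtain ⟨i, hi, j, hj, hij, hU, hL⟩ := two_entropy hent hk2 hk3 S1 hcard1 (fun i => (T i).h)
    (Pf (T σ0)) (hBas σ0 (hS1 hσ0)).reg.sP
    (fun z hz => ((hBas σ0 (hS1 hσ0)).reg.bP z hz).2) (fun i _ => (T i).hh)
    (fun i hi z hz => (hBas i (hS1 hi)).bdh.1 z hz)
    (fun m hm i hi j hj => chain_step h2t hgpos hA ht0pos hg1 hg2 hm.le hcac (MD i hi j hj).up)
    (fun m hm i hi j hj => chain_step h2t hgpos hA ht0pos hg1 hg2 hm.le hcac (MD i hi j hj).lo)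
  have hU' := last_step h2t hgpos hA ht0pos hg1 hg2 hcac (MD i hi j hj).up hU
  have hL' := last_step h2t hgpos hA ht0pos hg1 hg2 hcac (MD i hi j hj).lo hL
  have hlg : 0 ≤ (l : ℝ) * g := by positivity
  have hsm := small_all (MD i hi j hj) (tf := t0 + g / 2 + (3 * l + 2) * g)
    (Rf := 7 / 5 - (3 * l + 2) * g) (by rw [ht0] at hg1 ⊢; linarith) hκpos (by linarith)
    (by linarith) hU' hL'
  -- the size `d`
  have hDeq : 2 * ((1 + A) * (CE / (k : ℝ) ^ 3) ^ (2 * l))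
      = (Real.sqrt (2 * (1 + A)) * CE ^ l * (1 / (k : ℝ)) ^ (3 * l)) ^ 2 := by
    have hs : Real.sqrt (2 * (1 + A)) ^ 2 = 2 * (1 + A) := Real.sq_sqrt (by linarith)
    rw [mul_pow, mul_pow, hs, ← pow_mul, ← pow_mul, div_pow, one_div_pow, ← pow_mul]
    have e1 : 3 * (2 * l) = 3 * l * 2 := by ring
    have e2 : 2 * l = l * 2 := by ring
    rw [e1, e2]
    ring
  rw [hDeq] at hsm
  have hBD := hdiff i (hS1 hi) j (hS1 hj) hij
  have hamp0 : 0 < amp := lt_of_lt_of_le (by positivity) hamp1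
  have hS0 : 0 ≤ C2 * amp * (k : ℝ) ^ 152 := by positivity
  rw [← hb] at hBD
  have hβpos : (0 : ℝ) < 3 / (4 * (k : ℝ) ^ 136) := by positivity
  have hβx : 3 / (4 * (k : ℝ) ^ 136) = 3 / 4 * (1 / (k : ℝ)) ^ 136 := by
    rw [one_div_pow]; field_simp
  have hCKb : CK * b ^ 2 ≤ 3 / (4 * (k : ℝ) ^ 136) / b := by
    rw [hβx, hbx]
    have e1 : 3 / 4 * (1 / (k : ℝ)) ^ 136 / (1 / (k : ℝ)) ^ 64 = 3 / 4 * (1 / (k : ℝ)) ^ 72 := by
      have h := pow_ne_zero 64 hx0.ne'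
      rw [div_eq_iff h]
      ring
    rw [e1]
    have e2 : ((1 / (k : ℝ)) ^ 64) ^ 2 ≤ (1 / (k : ℝ)) * (1 / (k : ℝ)) ^ 72 := by
      rw [← pow_mul, ← pow_succ']
      exact pow_le_pow_of_le_one hx0.le hx1 (by norm_num)
    calc CK * ((1 / (k : ℝ)) ^ 64) ^ 2 ≤ CK * ((1 / (k : ℝ)) * (1 / (k : ℝ)) ^ 72) :=
          mul_le_mul_of_nonneg_left e2 hCK.le
      _ = CK * (1 / (k : ℝ)) * (1 / (k : ℝ)) ^ 72 := by ring
      _ ≤ 3 / 4 * (1 / (k : ℝ)) ^ 72 := mul_le_mul_of_nonneg_right hk7.le (by positivity)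
  have hBd2 : Bd (disc 2) 2 (C2 * amp * (k : ℝ) ^ 152)
      (fun z => Real.exp (2 * ψ i z) - Real.exp (2 * ψ j z)) :=
    Bd.mono hBD.bd (subset_univ _) le_rfl
  have fin := pair_final hbb hbc hCS.le hCB.le hS0 (by positivity) hamp0.le (hψ i (hS1 hi))
    (hψ j (hS1 hj)) (hT i (hS1 hi)).2 (hT j (hS1 hj)).2 (hMean i hi j hj) (hBm i hi j hj) he0 he1
    (hsb (T i) (T j) (ψ i) (ψ j) _ (hψ i (hS1 hi)) (hψ j (hS1 hj)) (hT i (hS1 hi)).2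
      (hT j (hS1 hj)).2 (hBm i hi j hj) hBd2)
    (hop i hi j hj) (MD i hi j hj) hBD hb0 hbb0 hb1 hβpos hCKb hsm
  have num := numeric (cK := cK) (CK := CK) (CB := CB) (CS := CS) (C2 := C2)
    (Dc := Real.sqrt (2 * (1 + A)) * CE ^ l) (amp := amp) (x := 1 / (k : ℝ)) (m := m) (l := l)
    hx0 hx1 (by omega) hcK hCK hCB hCS hC2 (by positivity) (by rw [one_div_pow]; exact hamp1) hk6
  rw [hβx, hbx] at fin
  have e152 : (k : ℝ) ^ 152 = (1 / (1 / (k : ℝ))) ^ 152 := by rw [one_div_one_div]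
  rw [e152] at fin
  exact absurd fin (not_le.2 num)

end KeyAux

open KeyAux

theorem key_lemma (M : ℝ) (hM : 1 ≤ M) : ∃ ε0 : ℝ, 0 < ε0 ∧ ∀ ε, 0 < ε → ε < ε0 →
    ∀ (N : ℕ) (τ : ℝ), 0 < τ → ∃ ψ : ℝ × ℝ → ℝ, ContDiff ℝ ∞ ψ ∧ Radial ψ ∧
      (∀ z, z ∉ disc 2 → ψ z = 0) ∧ (∀ z, ψ z ≤ 0) ∧ ψ 0 < 0 ∧
      (∀ i ≤ N, ∀ z, ‖iteratedFDeriv ℝ i ψ z‖ ≤ τ) ∧
      ∀ T : Tri, Nrm M ε (Real.exp (ψ 0)) T → ¬ IsImm ψ T := by
  obtain ⟨Cs, hCs, hpat⟩ := patterns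
  obtain ⟨ε1, hε1, hal⟩ := align Cs M hCs hM
  obtain ⟨ε2, hε2, hbas⟩ := basic_facts M hM
  refine ⟨min (min ε1 ε2) 1, by positivity, ?_⟩
  intro ε hε hεlt N τ hτ
  have hM0 : 0 < M := by linarith
  have hεa : ε < ε1 := lt_of_lt_of_le hεlt ((min_le_left _ _).trans (min_le_left _ _))
  have hεb : ε < ε2 := lt_of_lt_of_le hεlt ((min_le_left _ _).trans (min_le_right _ _))
  have hεc : ε ≤ 1 := (lt_of_lt_of_le hεlt (min_le_right _ _)).le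
  obtain ⟨C0, j0, hC0, hj0, hB⟩ := hbas ε hε hεb
  obtain ⟨δa, hδa, hal⟩ := hal ε hε hεa C0 j0 hC0 hj0
  obtain ⟨δb, hδb, hpat⟩ := hpat N τ hτ
  -- choice of `δ`
  obtain ⟨δ, hδ, hδ1, hδ2, hδ3, hδ4, hδ5⟩ : ∃ δ : ℝ, 0 < δ ∧ δ < δa ∧ δ < δb ∧ δ ≤ 1 / 200 ∧
      δ / 2 ≤ (ε / M) ^ 2 ∧ δ / 2 ≤ C0 ^ 2 := by
    have h1 : 0 < (ε / M) ^ 2 := by positivity
    have h2 : 0 < C0 ^ 2 := by positivity
    refine ⟨min (min (δa / 2) (δb / 2)) (min (1 / 200) (min ((ε / M) ^ 2) (C0 ^ 2))),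
      by positivity, ?_, ?_, ?_, ?_, ?_⟩
    · exact lt_of_le_of_lt ((min_le_left _ _).trans (min_le_left _ _)) (by linarith)
    · exact lt_of_le_of_lt ((min_le_left _ _).trans (min_le_right _ _)) (by linarith)
    · exact (min_le_right _ _).trans (min_le_left _ _)
    · have : min (min (δa / 2) (δb / 2)) (min (1 / 200) (min ((ε / M) ^ 2) (C0 ^ 2)))
          ≤ (ε / M) ^ 2 := (min_le_right _ _).trans ((min_le_right _ _).trans (min_le_left _ _))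
      linarith
    · have : min (min (δa / 2) (δb / 2)) (min (1 / 200) (min ((ε / M) ^ 2) (C0 ^ 2)))
          ≤ C0 ^ 2 := (min_le_right _ _).trans ((min_le_right _ _).trans (min_le_right _ _))
      linarith
  obtain ⟨k0p, m, C2, hC2, hpat⟩ := hpat δ hδ hδ2
  obtain ⟨n0, b0a, hn0, hb0a, hal⟩ := hal δ hδ hδ1
  set κ0 := Real.sqrt (δ / 2) with hκ0
  have hκpos : 0 < κ0 := Real.sqrt_pos.2 (by linarith)
  have hκsq : κ0 ^ 2 = δ / 2 := Real.sq_sqrt (by linarith)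
  have hκ1 : κ0 ≤ 1 := by nlinarith
  have hκρ : κ0 ≤ 2 * (ε / (2 * M)) := by
    have : 2 * (ε / (2 * M)) = ε / M := by field_simp
    rw [this]
    exact abs_le_of_sq_le_sq' (by rw [hκsq]; exact hδ4) (by positivity) |>.2
  have hκC : κ0 ≤ C0 := abs_le_of_sq_le_sq' (by rw [hκsq]; exact hδ5) hC0.le |>.2
  have hρ : 0 < ε / (2 * M) := by positivity
  obtain ⟨C1, CB, b0b, hC1, hCB, hb0b, hbb⟩ :=
    bump_bound C0 j0 (ε / (2 * M)) κ0 hC0 hj0 hρ hκpos hκ1 hκρ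
  obtain ⟨cK, CK, b0c, hcK, hCK, hb0c, hbc⟩ :=
    bump_contra M ε C0 j0 κ0 C1 hM hε hC0 hj0 hκpos hC1
  obtain ⟨CS, hCS, hsb⟩ := source_bound M ε C0 j0 hM hε hC0 hj0
  obtain ⟨CF, hCF, hcl⟩ := close_facts M ε C0 j0 hM hε hC0 hj0
  obtain ⟨l, hl⟩ : ∃ l : ℕ, l = m + 281 := ⟨_, rfl⟩
  obtain ⟨t0, ht0⟩ : ∃ t0 : ℝ, t0 = κ0 / 150 := ⟨_, rfl⟩
  have ht0pos : 0 < t0 := by rw [ht0]; positivity
  obtain ⟨g, hg⟩ : ∃ g : ℝ, g = min t0 (1 / 5) / (3 * l + 6) := ⟨_, rfl⟩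
  have hl1 : 1 ≤ l := by omega
  have hlR : (0 : ℝ) < 3 * l + 6 := by positivity
  have hgpos : 0 < g := by rw [hg]; positivity
  have hg1 : (3 * l + 6) * g ≤ t0 := by
    rw [hg, mul_div_cancel₀ _ hlR.ne']
    exact min_le_left _ _
  have hg2 : (3 * l + 6) * g ≤ 1 / 5 := by
    rw [hg, mul_div_cancel₀ _ hlR.ne']
    exact min_le_right _ _
  obtain ⟨A, hA, hcac⟩ := caccioppoli C0 j0 (δ / 6) (n0 / 2) g hC0 hj0 (by linarith) (by linarith)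
    hgpos
  -- choice of `η`
  obtain ⟨η, hη, hη1, hη2, hη3, hη4⟩ : ∃ η : ℝ, 0 < η ∧ CF * η ≤ g / 2 ∧ CF * η ≤ n0 / 2 ∧
      CF * η ≤ δ / 30 ∧ CF * η ≤ κ0 / 3000 := by
    refine ⟨min (min (g / 2) (n0 / 2)) (min (δ / 30) (κ0 / 3000)) / CF, by positivity, ?_, ?_, ?_, ?_⟩
      <;> rw [mul_div_cancel₀ _ hCF.ne']
    · exact (min_le_left _ _).trans (min_le_left _ _)
    · exact (min_le_left _ _).trans (min_le_right _ _)
    · exact (min_le_right _ _).trans (min_le_left _ _)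
    · exact (min_le_right _ _).trans (min_le_right _ _)
  obtain ⟨K0, hcls⟩ := classes M ε η hM hε hεc hη
  obtain ⟨CE, c, k0e, hCE, hent⟩ := entropy_chain C0 g A (t0 + g / 2) (7 / 5) l hl1 hC0 hgpos hA
    (by norm_num) (by push_cast; nlinarith)
  -- choice of `k`
  set q := min (min (min b0a b0b) b0c) (min 1 (t0 / (2 * C0))) with hq
  have hqpos : 0 < q := by positivity
  obtain ⟨X, hX⟩ : ∃ X : ℝ, X = CK * Real.sqrt CB *
      (2 * CS * C2 + 2 * (Real.sqrt (2 * (1 + A)) * CE ^ l)) / (cK * (27 / 64)) := ⟨_, rfl⟩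
  obtain ⟨k, hk1, hk2, hk3, hk4, hk5, hk6, hk7⟩ :=
    exists_k k0p k0e (2 * c + K0 + 1) q CK X hqpos hCK
  obtain ⟨amp, ψ, hamp1, hamp2, hψ, hdiff⟩ := hpat k hk1
  by_contra hcon
  push Not at hcon
  have hkR : (1 : ℝ) ≤ k := by exact_mod_cast hk4
  have hx0 : 0 < 1 / (k : ℝ) := by positivity
  have hx1 : 1 / (k : ℝ) ≤ 1 := by
    rw [div_le_one (by linarith)]
    exact hkR
  obtain ⟨b, hb⟩ : ∃ b : ℝ, b = 1 / (k : ℝ) ^ 64 := ⟨_, rfl⟩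
  have hbx : b = (1 / (k : ℝ)) ^ 64 := by rw [hb, one_div_pow]
  have hb0 : 0 < b := by rw [hbx]; positivity
  have hbx' : b ≤ 1 / (k : ℝ) := by
    rw [hbx]
    calc (1 / (k : ℝ)) ^ 64 ≤ (1 / (k : ℝ)) ^ 1 := pow_le_pow_of_le_one hx0.le hx1 (by norm_num)
      _ = 1 / (k : ℝ) := pow_one _
  have hbq : b < q := lt_of_le_of_lt hbx' hk5
  have hba : b < b0a := lt_of_lt_of_le hbq
    ((min_le_left _ _).trans ((min_le_left _ _).trans (min_le_left _ _)))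
  have hbb0 : b < min b0b b0c := lt_min
    (lt_of_lt_of_le hbq ((min_le_left _ _).trans ((min_le_left _ _).trans (min_le_right _ _))))
    (lt_of_lt_of_le hbq ((min_le_left _ _).trans (min_le_right _ _)))
  have hbC : 2 * C0 * b < t0 := by
    have : b < t0 / (2 * C0) := lt_of_lt_of_le hbq ((min_le_right _ _).trans (min_le_right _ _))
    rw [lt_div_iff₀ (by positivity)] at this
    linarith
  -- every pattern is realized
  have hex : ∀ σ ∈ (Finset.range (k ^ 8)).powerset, ∃ T : Tri,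
      Nrm M ε (Real.exp (-δ)) T ∧ IsImm (ψ σ) T := by
    intro σ hσ
    rw [Finset.mem_powerset] at hσ
    obtain ⟨hI, hrad, h2, hNτ⟩ := hψ σ hσ
    have := hcon (ψ σ) hI.sm hrad h2 hI.le0 (by rw [hI.at0]; linarith) hNτ
    obtain ⟨T, hT1, hT2⟩ := this
    rw [hI.at0] at hT1
    exact ⟨T, hT1, hT2⟩
  choose! T hT using hex
  have he1 : Real.exp (-δ) ≤ 1 := Real.exp_le_one_iff.2 (by linarith)
  have he0 : 99 / 100 ≤ Real.exp (-δ) := by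
    have := Real.add_one_le_exp (-δ)
    linarith
  have hAF : ∀ σ ∈ (Finset.range (k ^ 8)).powerset, AF δ n0 (T σ) := by
    intro σ hσ
    have hI := (hψ σ (Finset.mem_powerset.1 hσ)).1
    rw [← hb] at hI
    obtain ⟨a1, a2, a3, a4, a5⟩ := hal b (ψ σ) (T σ) hb0 hba hI
      (hT σ hσ).1 (hB _ _ he0 he1 (hT σ hσ).1) (hT σ hσ).2
    exact ⟨a1, a2, a3, a4, a5⟩
  have hk6' : CK * Real.sqrt CB * (2 * CS * C2 + 2 * (Real.sqrt (2 * (1 + A)) * CE ^ l)) *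
      (1 / (k : ℝ)) < cK * (27 / 64) := by
    have hc : 0 < cK * (27 / 64) := by positivity
    rw [hX, div_mul_eq_mul_div, div_lt_one hc] at hk6
    exact hk6
  refine core (ψ := ψ) (T := T) (b0 := min b0b b0c) (C1 := C1) hM hε hC0 hj0 hδ hδ3 hB hn0 hκC
    ?_ ?_ hCB hcK hCK hCS hC2 hCE hsb hcl hl ht0 hgpos hg1 hg2 hA hcac hη hη1 hη2 hη3 hη4 hcls
    hent hk2 hk3 hk4 hk6' hk7 hamp1 hb hbb0 hbC
    (fun σ hσ => (hψ σ (Finset.mem_powerset.1 hσ)).1.sm)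
    (fun σ hσ σ' hσ' => hdiff σ (Finset.mem_powerset.1 hσ) σ' (Finset.mem_powerset.1 hσ')) hT hAF
  · intro u P κ v b d S hb h1
    exact hbb u P κ v b d S hb (lt_of_lt_of_le h1 (min_le_left _ _))
  · intro T e0 v w0 b β amp S0 V1 V2 h1 h2 h3 h4 h5 h6 h7 h8 h9 h10
    exact hbc T e0 v w0 b β amp S0 V1 V2 h1 h2 h3 h4 h5 h6 h7 h8 h9
      (lt_of_lt_of_le h10 (min_le_right _ _))

end Vale.Agent.P229
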