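import Vale.Agent.P229.Surf

/-!
# P229 blueprint: exact statements of all pieces (this file is only a reference, not imported)
-/

namespace Vale.Agent.P229.Skel

open Vale.Agent.P229
open MeasureTheory Set
open scoped ContDiff RealInnerProductSpace

/-! ## [S] BdAlg.lean : closure properties of `Bd` (first priority, imported by E F G J K) -/

section S
variable {U V : Set (ℝ × ℝ)} {f g f' g' : ℝ × ℝ → ℝ} {k m : ℕ} {C D c R : ℝ} {z : ℝ × ℝ}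

theorem Bd.mono (h : Bd U k C f) (hV : V ⊆ U) (hCD : C ≤ D) : Bd V k D f := sorry
theorem Bd.of_le (h : Bd U k C f) (hm : m ≤ k) : Bd U m C f := sorry
theorem Bd.bound (h : Bd U k C f) (hz : z ∈ U) : |f z| ≤ C := sorry
theorem Bd.dx (h : Bd U (k + 1) C f) : Bd U k C (P229.dx f) := sorry
theorem Bd.dy (h : Bd U (k + 1) C f) : Bd U k C (P229.dy f) := sorry
theorem Bd.congr (hU : IsOpen U) (h : ∀ z ∈ U, f z = g z) (hf : Bd U k C f) : Bd U k C g := sorry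
theorem Bd.const (h : |c| ≤ C) : Bd U k C (fun _ => c) := sorry
theorem Bd.neg (hf : Bd U k C f) : Bd U k C (fun z => - f z) := sorry
theorem Bd.add (hU : IsOpen U) (sf : Sm U f) (sg : Sm U g) (hf : Bd U k C f) (hg : Bd U k D g) :
    Bd U k (C + D) (fun z => f z + g z) := sorry
theorem Bd.sub (hU : IsOpen U) (sf : Sm U f) (sg : Sm U g) (hf : Bd U k C f) (hg : Bd U k D g) :
    Bd U k (C + D) (fun z => f z - g z) := sorry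
theorem Bd.mul (hU : IsOpen U) (sf : Sm U f) (sg : Sm U g) (hf : Bd U k C f) (hg : Bd U k D g) :
    Bd U k (2 ^ k * C * D) (fun z => f z * g z) := sorry
theorem Bd.br (hU : IsOpen U) (sf : Sm U f) (sg : Sm U g) (hf : Bd U (k + 1) C f)
    (hg : Bd U (k + 1) D g) : Bd U k (2 * (2 ^ k * C * D)) (P229.br f g) := sorry
theorem Bd.div (k : ℕ) (C c : ℝ) (hc : 0 < c) : ∃ D : ℝ, 0 < D ∧ ∀ (U : Set (ℝ × ℝ))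
    (f g : ℝ × ℝ → ℝ), IsOpen U → Sm U f → Sm U g → Bd U k C f → Bd U k C g →
    (∀ z ∈ U, c ≤ g z) → Bd U k D (fun z => f z / g z) := sorry
/-- closeness of quotients: `e` is the (small) size of the differences -/
theorem Bd.div_sub (k : ℕ) (C c : ℝ) (hc : 0 < c) : ∃ D : ℝ, 0 < D ∧ ∀ (U : Set (ℝ × ℝ))
    (f g f' g' : ℝ × ℝ → ℝ) (e : ℝ), IsOpen U → Sm U f → Sm U g → Sm U f' → Sm U g' → 0 ≤ e →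
    Bd U k C f → Bd U k C g → Bd U k C f' → Bd U k C g' →
    (∀ z ∈ U, c ≤ g z) → (∀ z ∈ U, c ≤ g' z) →
    Bd U k e (fun z => f z - f' z) → Bd U k e (fun z => g z - g' z) →
    Bd U k (D * e) (fun z => f z / g z - f' z / g' z) := sorry
/-- closeness of brackets -/
theorem Bd.br_sub (k : ℕ) (C : ℝ) : ∃ D : ℝ, 0 < D ∧ ∀ (U : Set (ℝ × ℝ))
    (f g f' g' : ℝ × ℝ → ℝ) (e : ℝ), IsOpen U → Sm U f → Sm U g → Sm U f' → Sm U g' → 0 ≤ e →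
    Bd U (k + 1) C f → Bd U (k + 1) C g → Bd U (k + 1) C f' → Bd U (k + 1) C g' →
    Bd U (k + 1) e (fun z => f z - f' z) → Bd U (k + 1) e (fun z => g z - g' z) →
    Bd U k (D * e) (fun z => P229.br f g z - P229.br f' g' z) := sorry
theorem Bd_iff_Dw : Bd U k C f ↔ ∀ w : List Bool, w.length ≤ k → ∀ z ∈ U, |Dw w f z| ≤ C := sorry
/-- mean value inequality on a disc -/
theorem abs_sub_le_disc (hf : Sm (disc R) f) (hx : ∀ z ∈ disc R, |dx f z| ≤ C)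
    (hy : ∀ z ∈ disc R, |dy f z| ≤ D) :
    ∀ z ∈ disc R, ∀ w ∈ disc R, |f z - f w| ≤ C * |z.1 - w.1| + D * |z.2 - w.2| := sorry

end S

/-! ## [R] Reflect.lean -/

section R
variable {z : ℝ × ℝ}
/-- reflection `y ↦ -y` -/
def rf (z : ℝ × ℝ) : ℝ × ℝ := (z.1, -z.2)
variable {f g u P κ v : ℝ × ℝ → ℝ}

theorem dx_rf (hf : DifferentiableAt ℝ f (rf z)) : dx (fun w => f (rf w)) z = dx f (rf z) := sorry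
theorem dy_rf (hf : DifferentiableAt ℝ f (rf z)) : dy (fun w => f (rf w)) z = -dy f (rf z) := sorry
theorem Sm.rf {R : ℝ} (hf : Sm (disc R) f) : Sm (disc R) (fun w => f (rf w)) := sorry
theorem Reg.rf {C0 j0 : ℝ} (h : Reg C0 j0 u P κ) :
    Reg C0 j0 (fun w => u (rf w)) (fun w => - P (rf w)) (fun w => κ (rf w)) := sorry
theorem Geo.rf {ρ0 κ0 C0 j0 : ℝ} (hr : Reg C0 j0 u P κ) (h : Geo ρ0 κ0 u P κ) :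
    Geo ρ0 κ0 (fun w => u (rf w)) (fun w => - P (rf w)) (fun w => κ (rf w)) := sorry
theorem Op_rf {C0 j0 : ℝ} (hj : 0 < j0) (h : Reg C0 j0 u P κ) (hv : ContDiff ℝ ∞ v) :
    ∀ z ∈ disc 2, Op (fun w => u (rf w)) (fun w => - P (rf w)) (fun w => κ (rf w))
      (fun w => v (rf w)) z = Op u P κ v (rf z) := sorry
theorem No_rf {C0 j0 : ℝ} (hj : 0 < j0) (h : Reg C0 j0 u P κ) :
    ∀ z ∈ disc 2, No (fun w => u (rf w)) (fun w => - P (rf w)) (fun w => κ (rf w)) z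
      = - No u P κ (rf z) := sorry
/-- change of variables -/
theorem integral_rf (F : ℝ × ℝ → ℝ) (A : Set (ℝ × ℝ)) :
    ∫ z in {z | rf z ∈ A}, F (rf z) = ∫ z in A, F z := sorry
end R

/-! ## [A] Cacc.lean -/

theorem caccioppoli (C0 j0 k1 n0 g : ℝ) (hC : 0 < C0) (hj : 0 < j0) (hk : 0 < k1) (hn : 0 < n0)
    (hg : 0 < g) : ∃ A : ℝ, 0 < A ∧ ∀ (u P κ v : ℝ × ℝ → ℝ) (t R : ℝ),
      Reg C0 j0 u P κ → ContDiff ℝ ∞ v → |t| ≤ C0 → 6 / 5 + g ≤ R → R ≤ 7 / 5 →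
      (∀ z ∈ disc (3 / 2), z ∉ disc (11 / 10) → k1 ≤ κ z) →
      (∀ z ∈ disc (3 / 2), t < P z → n0 ≤ No u P κ z) →
      (∀ z ∈ disc (3 / 2), t < P z → Op u P κ v z = 0) →
      ∫ z in Om P (t + g) (R - g), (dx v z ^ 2 + dy v z ^ 2) ≤ A * ∫ z in Om P t R, v z ^ 2 :=
  sorry

/-! ## [B] Down.lean -/

theorem bump_bound (C0 j0 ρ0 κ0 : ℝ) (hC : 0 < C0) (hj : 0 < j0) (hρ : 0 < ρ0) (hκ : 0 < κ0)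
    (hκ1 : κ0 ≤ 1) (hκρ : κ0 ≤ 2 * ρ0) :
    ∃ C1 C b0 : ℝ, 1 ≤ C1 ∧ 0 < C ∧ 0 < b0 ∧ ∀ (u P κ v : ℝ × ℝ → ℝ) (b d S : ℝ),
      0 < b → b < b0 → 0 ≤ d → 0 ≤ S → Reg C0 j0 u P κ → Geo ρ0 κ0 u P κ → ContDiff ℝ ∞ v →
      (∀ z ∈ disc 1, z ∉ disc b → Op u P κ v z = 0) →
      (∫ z in disc b, Op u P κ v z ^ 2 ≤ S ^ 2) →
      (∫ z in {z | z ∈ disc 1 ∧ κ0 / 75 < |P z|}, (v z ^ 2 + dx v z ^ 2 + dy v z ^ 2) ≤ d ^ 2) →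
      (∫ z in disc (C1 * b), v z ^ 2 ≤ C * (b ^ 4 * S ^ 2 + d ^ 2 / b ^ 2)) ∧
      (∫ z in {z | z ∈ disc (1 / 10) ∧ z ∉ disc (C1 * b)}, v z ^ 2 ≤ C * (d ^ 2 / b ^ 2)) :=
  sorry

/-! ## [C] Entropy.lean -/

theorem entropy_chain (C0 g A t R : ℝ) (l : ℕ) (hl : 1 ≤ l) (hC : 0 < C0) (hg : 0 < g) (hA : 0 < A)
    (hR : R ≤ 7 / 5) (hR' : 6 / 5 ≤ R - 3 * (l + 1) * g) :
    ∃ (C : ℝ) (c k0 : ℕ), 0 < C ∧ ∀ {ι : Type} (S : Finset ι) (f : ι → ℝ × ℝ → ℝ)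
      (Ps : ℝ × ℝ → ℝ) (k : ℕ), k0 ≤ k → Sm (disc 2) Ps →
      (∀ z ∈ disc 2, |dx Ps z| ≤ C0 ∧ |dy Ps z| ≤ C0) →
      (∀ i ∈ S, ContDiff ℝ ∞ (f i)) → (∀ i ∈ S, ∀ z ∈ disc 2, |f i z| ≤ C0) →
      (∀ m < l, ∀ i ∈ S, ∀ j ∈ S,
        ∫ z in Om Ps (t + (3 * m + 2) * g) (R - (3 * m + 2) * g),
          ((dx (f i) z - dx (f j) z) ^ 2 + (dy (f i) z - dy (f j) z) ^ 2)
        ≤ A * ∫ z in Om Ps (t + 3 * m * g) (R - 3 * m * g), (f i z - f j z) ^ 2) →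
      ∃ S' ⊆ S, S.card ≤ S'.card * k ^ (c * k ^ 6) ∧ ∀ i ∈ S', ∀ j ∈ S',
        ∫ z in Om Ps (t + 3 * l * g) (R - 3 * l * g), (f i z - f j z) ^ 2
          ≤ (C / (k : ℝ) ^ 3) ^ (2 * l) :=
  sorry

/-! ## [D] Classes.lean -/

theorem classes (M ε η : ℝ) (hM : 1 ≤ M) (hε : 0 < ε) (hε1 : ε ≤ 1) (hη : 0 < η) :
    ∃ K0 : ℕ, ∀ {ι : Type} (S : Finset ι) (T : ι → Tri) (e0 : ℝ), |e0| ≤ 1 →
      (∀ i ∈ S, Nrm M ε e0 (T i)) →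
      ∃ S' ⊆ S, S.card ≤ K0 * S'.card ∧ ∀ i ∈ S', ∀ j ∈ S', Close3 η (T i) (T j) :=
  sorry

/-! ## [E] Basic.lean -/

theorem basic_facts (M : ℝ) (hM : 1 ≤ M) : ∃ ε0 : ℝ, 0 < ε0 ∧ ∀ ε, 0 < ε → ε < ε0 →
    ∃ C0 j0 : ℝ, 0 < C0 ∧ 0 < j0 ∧ ∀ (e0 : ℝ) (T : Tri), 99 / 100 ≤ e0 → e0 ≤ 1 →
      Nrm M ε e0 T → Basic M ε C0 j0 T :=
  sorry

/-! ## [F] Close.lean -/

theorem close_facts (M ε C0 j0 : ℝ) (hM : 1 ≤ M) (hε : 0 < ε) (hC : 0 < C0) (hj : 0 < j0) :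
    ∃ C : ℝ, 0 < C ∧ ∀ (T T' : Tri) (η : ℝ), 0 ≤ η → Basic M ε C0 j0 T → Basic M ε C0 j0 T' →
      Close3 η T T' → ∀ z ∈ disc 2, |Pf T z - Pf T' z| ≤ C * η ∧ |kf T z - kf T' z| ≤ C * η ∧
        |No T.a (Pf T) (kf T) z - No T'.a (Pf T') (kf T') z| ≤ C * η :=
  sorry

/-! ## [G] Pair.lean -/

theorem Op_eq_Mo (T : Tri) {U : Set (ℝ × ℝ)} (hU : IsOpen U) (h0 : ∀ z ∈ U, br T.a T.b z ≠ 0)
    (hJ : ∀ z ∈ U, br T.a (Pf T) z ≠ 0) (v : ℝ × ℝ → ℝ) (hv : Sm U v) :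
    ∀ z ∈ U, br T.a (Pf T) z * Op T.a (Pf T) (kf T) v z = br T.a T.b z * Mo T v z :=
  sorry

theorem Mo_diff (T T' : Tri) (ψ ψ' : ℝ × ℝ → ℝ) (hψ : ContDiff ℝ ∞ ψ) (hψ' : ContDiff ℝ ∞ ψ')
    (hI : IsImm ψ T) (hI' : IsImm ψ' T')
    (h0 : ∀ z ∈ disc 2, br (T.mean T').a (T.mean T').b z ≠ 0) :
    ∀ z ∈ disc 2, Mo (T.mean T') (fun w => T.h w - T'.h w) z =
      -(1 / 2) * (No (T.mean T').a (T.mean T').b (No (T.mean T').a (T.mean T').b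
          (fun w => (Real.exp (2 * ψ w) - Real.exp (2 * ψ' w)) * g11 (T.mean T') w)) z
        - 2 * Lo (T.mean T').a (T.mean T').b (No (T.mean T').a (T.mean T').b
          (fun w => (Real.exp (2 * ψ w) - Real.exp (2 * ψ' w)) * g12 (T.mean T') w)) z
        + Lo (T.mean T').a (T.mean T').b (Lo (T.mean T').a (T.mean T').b
          (fun w => (Real.exp (2 * ψ w) - Real.exp (2 * ψ' w)) * g22 (T.mean T') w)) z) :=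
  sorry

theorem weak_form (T T' : Tri) (ψ ψ' : ℝ × ℝ → ℝ) (hψ : ContDiff ℝ ∞ ψ) (hψ' : ContDiff ℝ ∞ ψ')
    (hI : IsImm ψ T) (hI' : IsImm ψ' T')
    (h0 : ∀ z ∈ disc 2, br (T.mean T').a (T.mean T').b z ≠ 0) (w : ℝ × ℝ → ℝ)
    (hw : ContDiff ℝ 2 w) (hc : HasCompactSupport w) (hs : tsupport w ⊆ disc 2) :
    ∫ z, br (T.mean T').a (T.mean T').b z * ((T.h z - T'.h z) * Mo (T.mean T') w z) =
      -(1 / 2) * ∫ z, br (T.mean T').a (T.mean T').b z *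
        ((Real.exp (2 * ψ z) - Real.exp (2 * ψ' z)) *
          (g11 (T.mean T') z * No (T.mean T').a (T.mean T').b (No (T.mean T').a (T.mean T').b w) z
           - 2 * g12 (T.mean T') z * Lo (T.mean T').a (T.mean T').b
              (No (T.mean T').a (T.mean T').b w) z
           + g22 (T.mean T') z * Lo (T.mean T').a (T.mean T').b
              (Lo (T.mean T').a (T.mean T').b w) z)) :=
  sorry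

theorem source_bound (M ε C0 j0 : ℝ) (hM : 1 ≤ M) (hε : 0 < ε) (hC : 0 < C0) (hj : 0 < j0) :
    ∃ C : ℝ, 0 < C ∧ ∀ (T T' : Tri) (ψ ψ' : ℝ × ℝ → ℝ) (S0 : ℝ), ContDiff ℝ ∞ ψ →
      ContDiff ℝ ∞ ψ' → IsImm ψ T → IsImm ψ' T' → Basic M ε C0 j0 (T.mean T') →
      Bd (disc 2) 2 S0 (fun z => Real.exp (2 * ψ z) - Real.exp (2 * ψ' z)) →
      ∀ z ∈ disc 2, |Op (T.mean T').a (Pf (T.mean T')) (kf (T.mean T'))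
        (fun w => T.h w - T'.h w) z| ≤ C * S0 :=
  sorry

theorem source_zero (M ε C0 j0 : ℝ) (hM : 1 ≤ M) (hε : 0 < ε) (hC : 0 < C0) (hj : 0 < j0)
    (T T' : Tri) (ψ ψ' : ℝ × ℝ → ℝ) (hψ : ContDiff ℝ ∞ ψ) (hψ' : ContDiff ℝ ∞ ψ')
    (hI : IsImm ψ T) (hI' : IsImm ψ' T') (hB : Basic M ε C0 j0 (T.mean T')) (b : ℝ) (hb : 0 ≤ b)
    (h : ∀ z, z ∉ disc b → Real.exp (2 * ψ z) - Real.exp (2 * ψ' z) = 0) :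
    ∀ z ∈ disc 2, z ∉ disc b → Op (T.mean T').a (Pf (T.mean T')) (kf (T.mean T'))
        (fun w => T.h w - T'.h w) z = 0 :=
  sorry

/-! ## [H] Gauss.lean -/

/-- components of `F_x × F_y` -/
noncomputable def n1 (T : Tri) : ℝ × ℝ → ℝ := fun z => dx T.b z * dy T.h z - dx T.h z * dy T.b z
noncomputable def n2 (T : Tri) : ℝ × ℝ → ℝ := fun z => dx T.h z * dy T.a z - dx T.a z * dy T.h z
noncomputable def n3 (T : Tri) : ℝ × ℝ → ℝ := fun z => dx T.a z * dy T.b z - dx T.b z * dy T.a z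

noncomputable def lxx (T : Tri) : ℝ × ℝ → ℝ := fun z =>
  dx (dx T.a) z * n1 T z + dx (dx T.b) z * n2 T z + dx (dx T.h) z * n3 T z
noncomputable def lxy (T : Tri) : ℝ × ℝ → ℝ := fun z =>
  dx (dy T.a) z * n1 T z + dx (dy T.b) z * n2 T z + dx (dy T.h) z * n3 T z
noncomputable def lyy (T : Tri) : ℝ × ℝ → ℝ := fun z =>
  dy (dy T.a) z * n1 T z + dy (dy T.b) z * n2 T z + dy (dy T.h) z * n3 T z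

theorem gauss (T : Tri) (ψ : ℝ × ℝ → ℝ) (hψ : ContDiff ℝ ∞ ψ) (hI : IsImm ψ T) :
    ∀ z ∈ disc 3, lxx T z * lyy T z - lxy T z ^ 2
      = - Real.exp (6 * ψ z) * (dx (dx ψ) z + dy (dy ψ) z) :=
  sorry

theorem codazzi (T : Tri) (ψ : ℝ × ℝ → ℝ) (hψ : ContDiff ℝ ∞ ψ) (hI : IsImm ψ T) :
    ∀ z ∈ disc 3, dy (lxx T) z - dx (lxy T) z
      = 2 * dy ψ z * lxx T z - 2 * dx ψ z * lxy T z + dy ψ z * (lxx T z + lyy T z) :=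
  sorry

/-- `F_xx = ψ_x F_x - ψ_y F_y + l_xx n / e^{4ψ}` etc.; only what is needed for the alignment -/
theorem frame (T : Tri) (ψ : ℝ × ℝ → ℝ) (hψ : ContDiff ℝ ∞ ψ) (hI : IsImm ψ T) :
    ∀ z ∈ disc 3,
      dx (dx T.a) z = dx ψ z * dx T.a z - dy ψ z * dy T.a z
        + lxx T z * n1 T z / Real.exp (4 * ψ z) ∧
      dx (dx T.h) z = dx ψ z * dx T.h z - dy ψ z * dy T.h z
        + lxx T z * n3 T z / Real.exp (4 * ψ z) ∧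
      dx (dy T.a) z = dy ψ z * dx T.a z + dx ψ z * dy T.a z
        + lxy T z * n1 T z / Real.exp (4 * ψ z) ∧
      dx (dy T.h) z = dy ψ z * dx T.h z + dx ψ z * dy T.h z
        + lxy T z * n3 T z / Real.exp (4 * ψ z) :=
  sorry

theorem kf_eq (T : Tri) (ψ : ℝ × ℝ → ℝ) (hψ : ContDiff ℝ ∞ ψ) (hI : IsImm ψ T)
    (h0 : ∀ z ∈ disc 2, 0 < br T.a T.b z) :
    ∀ z ∈ disc 2, kf T z = (1 + pf T z ^ 2 + Pf T z ^ 2) ^ 2 *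
      (-(dx (dx ψ) z + dy (dy ψ) z) * Real.exp (-2 * ψ z)) :=
  sorry

/-! ## [I] Align.lean -/

theorem align (Cs M : ℝ) (hCs : 0 < Cs) (hM : 1 ≤ M) : ∃ ε0 : ℝ, 0 < ε0 ∧ ∀ ε, 0 < ε → ε < ε0 →
    ∀ C0 j0 : ℝ, 0 < C0 → 0 < j0 → ∃ δ0 : ℝ, 0 < δ0 ∧ ∀ δ, 0 < δ → δ < δ0 →
    ∃ n0 b0 : ℝ, 0 < n0 ∧ 0 < b0 ∧ ∀ (b : ℝ) (ψ : ℝ × ℝ → ℝ) (T : Tri), 0 < b → b < b0 →
      Isl Cs δ b ψ → Nrm M ε (Real.exp (-δ)) T → Basic M ε C0 j0 T → IsImm ψ T →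
      (∀ x : ℝ, |x| < 3 / 2 → |Pf T (x, 0)| ≤ Real.sqrt (δ / 2) / 3000) ∧
      (∀ z ∈ disc (3 / 5), kf T z ≤ -(3 / 5) * δ) ∧
      (∀ z ∈ disc (3 / 2), z ∉ disc (11 / 10) → δ / 5 ≤ kf T z) ∧
      (∀ z ∈ disc (3 / 2), Real.sqrt (δ / 2) / 150 ≤ Pf T z → n0 ≤ No T.a (Pf T) (kf T) z) ∧
      (∀ z ∈ disc (3 / 2), Pf T z ≤ -(Real.sqrt (δ / 2) / 150) →
        No T.a (Pf T) (kf T) z ≤ -n0) :=
  sorry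

/-! ## [J] Pattern.lean -/

theorem patterns : ∃ Cs : ℝ, 0 < Cs ∧ ∀ (N : ℕ) (τ : ℝ), 0 < τ → ∃ δ1 : ℝ, 0 < δ1 ∧
    ∀ δ : ℝ, 0 < δ → δ < δ1 → ∃ (k0 m : ℕ) (C2 : ℝ), 0 < C2 ∧ ∀ k : ℕ, k0 ≤ k →
    ∃ (amp : ℝ) (ψ : Finset ℕ → ℝ × ℝ → ℝ), 1 / (k : ℝ) ^ m ≤ amp ∧ amp ≤ 1 ∧
      (∀ σ ⊆ Finset.range (k ^ 8), Isl Cs δ (1 / (k : ℝ) ^ 64) (ψ σ) ∧ Radial (ψ σ) ∧
        (∀ z, z ∉ disc 2 → ψ σ z = 0) ∧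
        (∀ i ≤ N, ∀ z, ‖iteratedFDeriv ℝ i (ψ σ) z‖ ≤ τ)) ∧
      (∀ σ ⊆ Finset.range (k ^ 8), ∀ σ' ⊆ Finset.range (k ^ 8), σ ≠ σ' →
        BumpDiff amp (C2 * amp * (k : ℝ) ^ 152) (1 / (k : ℝ) ^ 64) (3 / (4 * (k : ℝ) ^ 136))
          (fun z => Real.exp (2 * ψ σ z) - Real.exp (2 * ψ σ' z))) :=
  sorry

/-! ## [K] Contra.lean -/

theorem bump_contra (M ε C0 j0 κ0 C1 : ℝ) (hM : 1 ≤ M) (hε : 0 < ε) (hC : 0 < C0) (hj : 0 < j0)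
    (hκ : 0 < κ0) (hC1 : 1 ≤ C1) :
    ∃ c C b0 : ℝ, 0 < c ∧ 0 < C ∧ 0 < b0 ∧ ∀ (T : Tri) (e0 : ℝ) (v w0 : ℝ × ℝ → ℝ)
      (b β amp S0 V1 V2 : ℝ), Basic M ε C0 j0 T → Nrm M ε e0 T → 99 / 100 ≤ e0 → e0 ≤ 1 →
      kf T 0 ≤ -κ0 ^ 2 → ContDiff ℝ ∞ v → BumpDiff amp S0 b β w0 →
      (∀ w : ℝ × ℝ → ℝ, ContDiff ℝ 2 w → HasCompactSupport w → tsupport w ⊆ disc 2 →
        ∫ z, br T.a T.b z * (v z * Mo T w z) =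
          -(1 / 2) * ∫ z, br T.a T.b z * (w0 z *
            (g11 T z * No T.a T.b (No T.a T.b w) z - 2 * g12 T z * Lo T.a T.b (No T.a T.b w) z
              + g22 T z * Lo T.a T.b (Lo T.a T.b w) z))) →
      0 < b → b < b0 → 0 < β → C * b ^ 2 ≤ β / b → 0 ≤ amp → 0 ≤ V1 → 0 ≤ V2 →
      (∫ z in disc (C1 * b), v z ^ 2 ≤ V1 ^ 2) →
      (∫ z in {z | z ∈ disc (1 / 10) ∧ z ∉ disc (C1 * b)}, v z ^ 2 ≤ V2 ^ 2) →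
      c * amp * (β / b) ^ 3 ≤ C * (b ^ 3 * V1 + V2) :=
  sorry

/-! ## [L] Key.lean (assembly, helper31) -/

theorem key_lemma (M : ℝ) (hM : 1 ≤ M) : ∃ ε0 : ℝ, 0 < ε0 ∧ ∀ ε, 0 < ε → ε < ε0 →
    ∀ (N : ℕ) (τ : ℝ), 0 < τ → ∃ ψ : ℝ × ℝ → ℝ, ContDiff ℝ ∞ ψ ∧ Radial ψ ∧
      (∀ z, z ∉ disc 2 → ψ z = 0) ∧ (∀ z, ψ z ≤ 0) ∧ ψ 0 < 0 ∧
      (∀ i ≤ N, ∀ z, ‖iteratedFDeriv ℝ i ψ z‖ ≤ τ) ∧
      ∀ T : Tri, Nrm M ε (Real.exp (ψ 0)) T → ¬ IsImm ψ T :=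
  sorry

/-! ## [M] Discs.lean -/

/-- closed Euclidean disc -/
def cdisc (p : ℝ × ℝ) (R : ℝ) : Set (ℝ × ℝ) := {z | (z.1 - p.1) ^ 2 + (z.2 - p.2) ^ 2 ≤ R ^ 2}

theorem discs_exist (e : ℕ → ℝ) (he : ∀ j, 0 < e j) :
    ∃ (p : ℕ → ℝ × ℝ) (r : ℕ → ℝ), (∀ j, 0 < r j ∧ r j < e j ∧ r j ≤ 1) ∧
      (∀ i j, i ≠ j → Disjoint (cdisc (p i) (3 * r i)) (cdisc (p j) (3 * r j))) ∧
      (∀ s : ℝ, 0 < s → ∃ j, cdisc (p j) (3 * r j) ⊆ cdisc 0 s) ∧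
      (∀ i, ∀ x : ℝ × ℝ, (x.1 - (p i).1) ^ 2 + (x.2 - (p i).2) ^ 2 = (3 * r i) ^ 2 →
        ∀ s : ℝ, 0 < s → ∀ J : ℕ, ∃ j ≥ J, cdisc (p j) (3 * r j) ⊆ cdisc x s) :=
  sorry

/-! ## [N] Sum.lean -/

theorem sum_exists (p : ℕ → ℝ × ℝ) (r : ℕ → ℝ) (hr : ∀ j, 0 < r j ∧ r j ≤ 1)
    (hd : ∀ i j, i ≠ j → Disjoint (cdisc (p i) (3 * r i)) (cdisc (p j) (3 * r j)))
    (ψ : ℕ → ℝ × ℝ → ℝ) (hψ : ∀ j, ContDiff ℝ ∞ (ψ j)) (h2 : ∀ j, ∀ z, z ∉ disc 2 → ψ j z = 0)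
    (hb : ∀ j, ∀ i ≤ j, ∀ z, ‖iteratedFDeriv ℝ i (ψ j) z‖ ≤ (r j / 2) ^ j) :
    ∃ Ψ : ℝ × ℝ → ℝ, ContDiff ℝ ∞ Ψ ∧ ∀ j, ∀ w : ℝ × ℝ, w.1 ^ 2 + w.2 ^ 2 ≤ 9 →
      Ψ ((p j).1 + r j * w.1, (p j).2 + r j * w.2) = ψ j w :=
  sorry

/-! ## [O] Chord.lean -/

/-- `(F1,F2,F3)` is an isometric immersion of `e^{2Ψ}(dx²+dy²)` on `U` -/
def Imm3 (U : Set (ℝ × ℝ)) (Ψ F1 F2 F3 : ℝ × ℝ → ℝ) : Prop := ∀ z ∈ U,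
    dx F1 z ^ 2 + dx F2 z ^ 2 + dx F3 z ^ 2 = Real.exp (2 * Ψ z) ∧
    dy F1 z ^ 2 + dy F2 z ^ 2 + dy F3 z ^ 2 = Real.exp (2 * Ψ z) ∧
    dx F1 z * dy F1 z + dx F2 z * dy F2 z + dx F3 z * dy F3 z = 0

theorem chord (U : Set (ℝ × ℝ)) (hU : IsOpen U) (Ψ F1 F2 F3 : ℝ × ℝ → ℝ)
    (hΨ : ContDiff ℝ ∞ Ψ) (h1 : Sm U F1) (h2 : Sm U F2) (h3 : Sm U F3) (hI : Imm3 U Ψ F1 F2 F3)
    (p : ℝ × ℝ) (R : ℝ) (hR : 0 < R) (hsub : cdisc p R ⊆ U)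
    (hcirc : ∀ z : ℝ × ℝ, (z.1 - p.1) ^ 2 + (z.2 - p.2) ^ 2 = R ^ 2 → Ψ z = 0)
    (hle : ∀ z ∈ cdisc p R, Ψ z ≤ 0) (hneg : Ψ p < 0) :
    ∃ x : ℝ × ℝ, (x.1 - p.1) ^ 2 + (x.2 - p.2) ^ 2 = R ^ 2 ∧
      ∃ F ∈ ({F1, F2, F3} : Set (ℝ × ℝ → ℝ)),
        dx (dx F) x ≠ 0 ∨ dx (dy F) x ≠ 0 ∨ dy (dy F) x ≠ 0 :=
  sorry

/-! ## [P] Normalize.lean -/

theorem normalize (M0 : ℝ) (hM0 : 1 ≤ M0) : ∃ M : ℝ, 1 ≤ M ∧ ∀ (U : Set (ℝ × ℝ))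
    (Ψ ψ F1 F2 F3 : ℝ × ℝ → ℝ) (p : ℝ × ℝ) (r : ℝ), IsOpen U → ContDiff ℝ ∞ Ψ → ContDiff ℝ ∞ ψ →
    Radial ψ → Sm U F1 → Sm U F2 → Sm U F3 → Imm3 U Ψ F1 F2 F3 → 0 < r → r ≤ 1 →
    cdisc p (3 * r) ⊆ U →
    (∀ w : ℝ × ℝ, w.1 ^ 2 + w.2 ^ 2 ≤ 9 → Ψ (p.1 + r * w.1, p.2 + r * w.2) = ψ w) →
    (∀ k : ℕ, 2 ≤ k → k ≤ 4 → OrdBd (cdisc p (3 * r)) k M0 F1 ∧ OrdBd (cdisc p (3 * r)) k M0 F2 ∧
      OrdBd (cdisc p (3 * r)) k M0 F3) →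
    (∃ F ∈ ({F1, F2, F3} : Set (ℝ × ℝ → ℝ)), 1 / M0 ≤ |dx (dx F) p| ∨ 1 / M0 ≤ |dx (dy F) p| ∨
      1 / M0 ≤ |dy (dy F) p|) →
    ψ 0 ≤ 0 → -1 ≤ ψ 0 →
    ∃ T : Tri, Nrm M r (Real.exp (ψ 0)) T ∧ IsImm ψ T :=
  sorry

/-! ## [Q] Global.lean (final) -/

theorem main : ∃ g : ℝ × ℝ → Matrix (Fin 2) (Fin 2) ℝ,
    (∀ i j, ContDiff ℝ ∞ (fun z => g z i j)) ∧ (∀ z, (g z).PosDef) ∧
    ∀ U : Set (ℝ × ℝ), IsOpen U → (0 : ℝ × ℝ) ∈ U → ¬ ∃ F : ℝ × ℝ → EuclideanSpace ℝ (Fin 3),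
      ContDiffOn ℝ ∞ F U ∧ ∀ z ∈ U, ∀ i j : Fin 2,
        ⟪fderiv ℝ F z (![(1, 0), (0, 1)] i), fderiv ℝ F z (![(1, 0), (0, 1)] j)⟫ = g z i j :=
  sorry

end Vale.Agent.P229.Skel
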