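import Vale.Agent.P229.Calc

/-!
# P229: triples, normalized class, island profiles, data predicates
-/

namespace Vale.Agent.P229

open MeasureTheory Set
open scoped ContDiff

/-- a smooth map `ℝ² → ℝ³` given by its three components `(a, b, h)` -/
structure Tri where
  a : ℝ × ℝ → ℝ
  b : ℝ × ℝ → ℝ
  h : ℝ × ℝ → ℝ
  ha : ContDiff ℝ ∞ a
  hb : ContDiff ℝ ∞ b
  hh : ContDiff ℝ ∞ h

/-- the mean of two triples -/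
noncomputable def Tri.mean (T T' : Tri) : Tri where
  a := fun z => (T.a z + T'.a z) / 2
  b := fun z => (T.b z + T'.b z) / 2
  h := fun z => (T.h z + T'.h z) / 2
  ha := (T.ha.add T'.ha).div_const 2
  hb := (T.hb.add T'.hb).div_const 2
  hh := (T.hh.add T'.hh).div_const 2

/-- `T` is an isometric immersion of `e^{2ψ}(dx²+dy²)` on `disc 3` -/
def IsImm (ψ : ℝ × ℝ → ℝ) (T : Tri) : Prop :=
  ∀ z ∈ disc 3,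
    dx T.a z ^ 2 + dx T.b z ^ 2 + dx T.h z ^ 2 = Real.exp (2 * ψ z) ∧
    dy T.a z ^ 2 + dy T.b z ^ 2 + dy T.h z ^ 2 = Real.exp (2 * ψ z) ∧
    dx T.a z * dy T.a z + dx T.b z * dy T.b z + dx T.h z * dy T.h z = 0

/-- bounds on derivatives of orders 2, 3, 4 on `disc 3` -/
def OB (M ε : ℝ) (f : ℝ × ℝ → ℝ) : Prop :=
  OrdBd (disc 3) 2 (M * ε) f ∧ OrdBd (disc 3) 3 (M * ε ^ 2) f ∧ OrdBd (disc 3) 4 (M * ε ^ 3) f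

/-- normalized class -/
structure Nrm (M ε e0 : ℝ) (T : Tri) : Prop where
  a0 : T.a 0 = 0
  b0 : T.b 0 = 0
  h0 : T.h 0 = 0
  ax : dx T.a 0 = e0
  ay : dy T.a 0 = 0
  bx : dx T.b 0 = 0
  by' : dy T.b 0 = e0
  hx : dx T.h 0 = 0
  hy : dy T.h 0 = 0
  hxy : dx (dy T.h) 0 = 0
  hyy : ε / M ≤ dy (dy T.h) 0
  oa : OB M ε T.a
  ob : OB M ε T.b
  oh : OB M ε T.h

/-- `p = X₁ h` -/
noncomputable def pf (T : Tri) : ℝ × ℝ → ℝ := Lo T.a T.b T.h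
/-- `P = X₂ h` -/
noncomputable def Pf (T : Tri) : ℝ × ℝ → ℝ := No T.a T.b T.h
/-- `κ = {p,P}/{a,b}` -/
noncomputable def kf (T : Tri) : ℝ × ℝ → ℝ := fun z => br (pf T) (Pf T) z / br T.a T.b z

/-- the operator `M[w] = h₂₂ w₁₁ - 2 h₁₂ w₁₂ + h₁₁ w₂₂` in graph coordinates
(`X₁ = Lo T.a T.b`, `X₂ = No T.a T.b`) -/
noncomputable def Mo (T : Tri) (w : ℝ × ℝ → ℝ) : ℝ × ℝ → ℝ := fun z =>
  No T.a T.b (Pf T) z * Lo T.a T.b (Lo T.a T.b w) z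
    - 2 * Lo T.a T.b (Pf T) z * Lo T.a T.b (No T.a T.b w) z
    + Lo T.a T.b (pf T) z * No T.a T.b (No T.a T.b w) z

/-- `X₁·X₁` -/
noncomputable def g11 (T : Tri) : ℝ × ℝ → ℝ := fun z =>
  (dy T.b z ^ 2 + dx T.b z ^ 2) / br T.a T.b z ^ 2
/-- `X₁·X₂` -/
noncomputable def g12 (T : Tri) : ℝ × ℝ → ℝ := fun z =>
  -(dy T.b z * dy T.a z + dx T.b z * dx T.a z) / br T.a T.b z ^ 2
/-- `X₂·X₂` -/
noncomputable def g22 (T : Tri) : ℝ × ℝ → ℝ := fun z =>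
  (dy T.a z ^ 2 + dx T.a z ^ 2) / br T.a T.b z ^ 2

/-- the operator `v ↦ L L v + N (κ N v)` -/
noncomputable def Op (u P κ v : ℝ × ℝ → ℝ) : ℝ × ℝ → ℝ := fun z =>
  Lo u P (Lo u P v) z + No u P (fun w => κ w * No u P v w) z

/-- regularity package used by the energy estimates -/
structure Reg (C0 j0 : ℝ) (u P κ : ℝ × ℝ → ℝ) : Prop where
  su : Sm (disc 2) u
  sP : Sm (disc 2) P
  sk : Sm (disc 2) κ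
  bu : ∀ z ∈ disc 2, |u z| ≤ C0 ∧ |dx u z| ≤ C0 ∧ |dy u z| ≤ C0
  bP : ∀ z ∈ disc 2, |P z| ≤ C0 ∧ |dx P z| ≤ C0 ∧ |dy P z| ≤ C0
  bk : ∀ z ∈ disc 2, |κ z| ≤ C0 ∧ |dx κ z| ≤ C0 ∧ |dy κ z| ≤ C0
  J : ∀ z ∈ disc 2, j0 ≤ br u P z

/-- geometric package for the estimate near the bump -/
structure Geo (ρ0 κ0 : ℝ) (u P κ : ℝ × ℝ → ℝ) : Prop where
  u0 : u 0 = 0
  P0 : P 0 = 0
  ux : ∀ z ∈ disc 2, |u z - z.1| ≤ (|z.1| + |z.2|) / 50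
  Py : ∀ z ∈ disc 2, ρ0 ≤ dy P z
  Px : ∀ z ∈ disc 2, |dx P z| ≤ ρ0
  line : ∀ x : ℝ, |x| < 3 / 2 → |P (x, 0)| ≤ κ0 / 1500
  kneg : ∀ z ∈ disc (3 / 5), κ z ≤ -κ0 ^ 2

/-- basic facts about a normalized triple -/
structure Basic (M ε C0 j0 : ℝ) (T : Tri) : Prop where
  ax : ∀ z ∈ disc 2, |dx T.a z - 1| ≤ 1 / 50
  ay : ∀ z ∈ disc 2, |dy T.a z| ≤ 1 / 50
  bx : ∀ z ∈ disc 2, |dx T.b z| ≤ 1 / 50
  by' : ∀ z ∈ disc 2, |dy T.b z - 1| ≤ 1 / 50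
  hx : ∀ z ∈ disc 2, |dx T.h z| ≤ 1 / 50
  hy : ∀ z ∈ disc 2, |dy T.h z| ≤ 1 / 50
  J0l : ∀ z ∈ disc 2, 9 / 10 ≤ br T.a T.b z
  J0u : ∀ z ∈ disc 2, br T.a T.b z ≤ 11 / 10
  au : ∀ z ∈ disc 2, |T.a z - z.1| ≤ (|z.1| + |z.2|) / 50
  Py : ∀ z ∈ disc 2, ε / (2 * M) ≤ dy (Pf T) z
  Px : ∀ z ∈ disc 2, |dx (Pf T) z| ≤ ε / (2 * M)
  reg : Reg C0 j0 T.a (Pf T) (kf T)
  sp : Sm (disc 2) (pf T)
  bda : Bd (disc 2) 3 C0 T.a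
  bdb : Bd (disc 2) 3 C0 T.b
  bdh : Bd (disc 2) 3 C0 T.h
  bdp : Bd (disc 2) 2 C0 (pf T)
  bdP : Bd (disc 2) 2 C0 (Pf T)
  bdk : Bd (disc 2) 1 C0 (kf T)

/-- `C³`-closeness of triples on `disc 2` -/
def Close3 (η : ℝ) (T T' : Tri) : Prop :=
  Bd (disc 2) 3 η (fun z => T.a z - T'.a z) ∧ Bd (disc 2) 3 η (fun z => T.b z - T'.b z) ∧
    Bd (disc 2) 3 η (fun z => T.h z - T'.h z)

/-- island profiles: `-Δψ = δ(r²-1)` exactly for `b ≤ r < 3/2`, approximately for `r ≤ b` -/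
structure Isl (Cs δ b : ℝ) (ψ : ℝ × ℝ → ℝ) : Prop where
  sm : ContDiff ℝ ∞ ψ
  le0 : ∀ z, ψ z ≤ 0
  at0 : ψ 0 = -δ
  bd : Bd univ 3 (Cs * δ) ψ
  out : ∀ z : ℝ × ℝ, b ^ 2 ≤ z.1 ^ 2 + z.2 ^ 2 → z.1 ^ 2 + z.2 ^ 2 < 9 / 4 →
    ψ z = δ * (-(z.1 ^ 2 + z.2 ^ 2) ^ 2 / 16 + (z.1 ^ 2 + z.2 ^ 2) / 4 - 1)
  inn : ∀ z : ℝ × ℝ, z.1 ^ 2 + z.2 ^ 2 ≤ b ^ 2 →
    |dx (dx ψ) z + dy (dy ψ) z + δ * (z.1 ^ 2 + z.2 ^ 2 - 1)| ≤ δ / 100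

/-- the region `{P > t} ∩ disc R` -/
def Om (P : ℝ × ℝ → ℝ) (t R : ℝ) : Set (ℝ × ℝ) := {z | z ∈ disc R ∧ t < P z}

/-- difference of two conformal factors that differ by radial bumps: vanishes for `r ≥ b`,
bounded in `C²` by `S0`, and beyond the radius `√a` it has a sign and is large on the middle half
of the annulus `a ≤ r² ≤ a+β` -/
structure BumpDiff (amp S0 b β : ℝ) (w : ℝ × ℝ → ℝ) : Prop where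
  sm : ContDiff ℝ ∞ w
  out : ∀ z, z ∉ disc b → w z = 0
  bd : Bd univ 2 S0 w
  low : ∃ a sg : ℝ, (sg = 1 ∨ sg = -1) ∧ b ^ 2 / 4 ≤ a ∧ a + β ≤ b ^ 2 ∧
    (∀ z : ℝ × ℝ, a ≤ z.1 ^ 2 + z.2 ^ 2 → 0 ≤ sg * w z) ∧
    (∀ z : ℝ × ℝ, a + β / 4 ≤ z.1 ^ 2 + z.2 ^ 2 → z.1 ^ 2 + z.2 ^ 2 ≤ a + 3 * β / 4 →
      amp ≤ sg * w z)

/-- radial functions -/
def Radial (ψ : ℝ × ℝ → ℝ) : Prop :=
  ∀ z w : ℝ × ℝ, z.1 ^ 2 + z.2 ^ 2 = w.1 ^ 2 + w.2 ^ 2 → ψ z = ψ w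

end Vale.Agent.P229
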